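/-
R226, task B6 (helper616): basic facts about a `GeoData`.
-/
import Crest.Agent.R226.TB_616

set_option autoImplicit false

open MeasureTheory Bundle Set Filter
open scoped Manifold ContDiff Bundle ENNReal Topology
open Crest.GeometryTopology.MTW

namespace Crest.Agent.R226.GeoBasic616

open Crest.Agent.R226.TB616

variable {n : ℕ} {M : Type*} [MetricSpace M] [ChartedSpace (EuclideanSpace ℝ (Fin n)) M]
  [IsManifold (𝓡 n) ∞ M]
  [RiemannianBundle (fun p : M => TangentSpace (𝓡 n) p)]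

variable (G : GeoData n M)

/-! ### Smoothness -/

theorem contMDiff_ex_smul {E' : Type*} [NormedAddCommGroup E'] [NormedSpace ℝ E'] {H' : Type*}
    [TopologicalSpace H'] {I' : ModelWithCorners ℝ E' H'} {N : Type*} [TopologicalSpace N]
    [ChartedSpace H' N] {f : N → ℝ} {s : N → TangentBundle (𝓡 n) M}
    (hf : ContMDiff I' 𝓘(ℝ) ∞ f) (hs : ContMDiff I' (𝓡 n).tangent ∞ s) :
    ContMDiff I' (𝓡 n) ∞ (fun z => G.ex (s z).1 (f z • (s z).2)) :=
  G.smooth.comp (contMDiff_smul hf hs)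

/-- radial curves are smooth -/
theorem contMDiff_ray (x : M) (v : TangentSpace (𝓡 n) x) :
    ContMDiff 𝓘(ℝ, ℝ) (𝓡 n) ∞ (fun t : ℝ => G.ex x (t • v)) :=
  contMDiff_ex_smul G (s := fun _ => (⟨x, v⟩ : TangentBundle (𝓡 n) M)) contMDiff_id contMDiff_const

theorem mdifferentiableAt_ray (x : M) (v : TangentSpace (𝓡 n) x) (t : ℝ) :
    MDifferentiableAt 𝓘(ℝ, ℝ) (𝓡 n) (fun t : ℝ => G.ex x (t • v)) t :=
  (contMDiff_ray G x v).mdifferentiableAt (by simp)

/-- the exponential map in a fibre is smooth -/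
theorem contMDiff_ex_fibre (x : M) :
    ContMDiff 𝓘(ℝ, EuclideanSpace ℝ (Fin n)) (𝓡 n) ∞
      (fun v : EuclideanSpace ℝ (Fin n) => G.ex x v) :=
  G.smooth.comp (contMDiff_fibre x)

theorem contMDiff_Flow :
    ContMDiff (𝓘(ℝ, ℝ).prod (𝓡 n).tangent) (𝓡 n).tangent ∞
      (fun z : ℝ × TangentBundle (𝓡 n) M => G.Flow z.1 z.2) := by
  intro z
  refine contMDiffAt_curveVel (m := ∞) (k := ∞)
    (fun (z : ℝ × TangentBundle (𝓡 n) M) (t : ℝ) => G.ex z.2.1 (t • z.2.2)) (fun z => z.1) z ?_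
    contMDiffAt_fst (by simp)
  exact (contMDiff_ex_smul G (I' := (𝓘(ℝ, ℝ).prod (𝓡 n).tangent).prod 𝓘(ℝ, ℝ))
    (f := fun w : (ℝ × TangentBundle (𝓡 n) M) × ℝ => w.2)
    (s := fun w : (ℝ × TangentBundle (𝓡 n) M) × ℝ => w.1.2) contMDiff_snd
    (contMDiff_snd.comp contMDiff_fst)) _

theorem continuous_Flow :
    Continuous (fun z : ℝ × TangentBundle (𝓡 n) M => G.Flow z.1 z.2) :=
  (contMDiff_Flow G).continuous

/-! ### Algebra of the flow -/

@[simp] theorem Flow_fst (t : ℝ) (p : TangentBundle (𝓡 n) M) :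
    (G.Flow t p).1 = G.ex p.1 (t • p.2) := rfl


theorem norm_vel (x : M) (v : TangentSpace (𝓡 n) x) (t : ℝ) : ‖G.vel x v t‖ = ‖v‖ :=
  G.norm_vel x v t

theorem norm_Flow (t : ℝ) (p : TangentBundle (𝓡 n) M) : ‖(G.Flow t p).2‖ = ‖p.2‖ :=
  G.norm_vel p.1 p.2 t

theorem Flow_zero (p : TangentBundle (𝓡 n) M) : G.Flow 0 p = p := by
  obtain ⟨x, v⟩ := p
  refine tb_ext ?_ (G.vel_zero x v)
  change G.ex x ((0 : ℝ) • v) = x
  rw [zero_smul, G.ex_zero]

theorem Flow_add (s t : ℝ) (p : TangentBundle (𝓡 n) M) :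
    G.Flow s (G.Flow t p) = G.Flow (t + s) p := by
  obtain ⟨x, v⟩ := p
  refine tb_ext (G.flow x v t s) ?_
  have h1 : (fun s : ℝ => G.ex (G.ex x (t • v)) (s • G.vel x v t)) =
      fun s : ℝ => G.ex x ((t + s) • v) := by
    funext s; exact G.flow x v t s
  change curveVel n (fun s : ℝ => G.ex (G.ex x (t • v)) (s • G.vel x v t)) s = _
  rw [h1]
  have h2 := curveVel_comp (n := n) (γ := fun t : ℝ => G.ex x (t • v)) (h := fun s => t + s) (h' := 1)
    (t := s) (mdifferentiableAt_ray G x v _) ((hasDerivAt_id s).const_add t)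
  rw [one_smul] at h2
  exact h2

theorem Flow_smul (t a : ℝ) (p : TangentBundle (𝓡 n) M) :
    G.Flow t ⟨p.1, a • p.2⟩ = ⟨(G.Flow (a * t) p).1, a • (G.Flow (a * t) p).2⟩ := by
  obtain ⟨x, v⟩ := p
  have h1 : (fun s : ℝ => G.ex x (s • a • v)) = fun s : ℝ => G.ex x ((a * s) • v) := by
    funext s; rw [smul_smul, mul_comm]
  refine tb_ext ?_ ?_
  · exact congrFun h1 t
  · change curveVel n (fun s : ℝ => G.ex x (s • a • v)) t = _
    rw [h1]
    have h2 := curveVel_comp (n := n) (γ := fun t : ℝ => G.ex x (t • v)) (h := fun s => a * s)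
      (h' := a) (t := t) (mdifferentiableAt_ray G x v _) (by simpa using (hasDerivAt_id t).const_mul a)
    exact h2

/-- the flow as a homeomorphism inverse: `Flow (-t)` inverts `Flow t` -/
theorem Flow_neg_Flow (t : ℝ) (p : TangentBundle (𝓡 n) M) : G.Flow (-t) (G.Flow t p) = p := by
  rw [Flow_add, add_neg_cancel, Flow_zero]






/-! ### Reversal -/

theorem rev_ex_gen (x : M) (v : TangentSpace (𝓡 n) x) (s t : ℝ) :
    G.ex (G.ex x (s • v)) (t • (-(G.vel x v s))) = G.ex x ((s - t) • v) := by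
  have h := G.flow x v s (-t)
  rw [sub_eq_add_neg, ← h]
  congr 1
  rw [smul_neg, neg_smul]
  rfl

theorem rev_ex (x : M) (v : TangentSpace (𝓡 n) x) (t : ℝ) :
    G.ex (G.ex x ((1 : ℝ) • v)) (t • (-(G.vel x v 1))) = G.ex x ((1 - t) • v) :=
  rev_ex_gen G x v 1 t





/-! ### The exponential map is an exponential map in the sense of the statement -/

theorem isGeodesicLine (x : M) (v : TangentSpace (𝓡 n) x) :
    IsGeodesicLine n (fun t : ℝ => G.ex x (t • v)) := by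
  refine ⟨contMDiff_ray G x v, ‖v‖, norm_nonneg _, fun t => G.norm_vel x v t, fun t => ?_⟩
  have hr := G.r₀_pos
  have hv := norm_nonneg v
  refine ⟨G.r₀ / (4 * (‖v‖ + 1)), by positivity, ?_⟩
  intro s₁ hs₁ s₂ hs₂
  rw [mul_comm]
  refine G.dist_eq x v s₁ s₂ ?_
  have h1 : |s₁ - s₂| ≤ 2 * (G.r₀ / (4 * (‖v‖ + 1))) := by
    rw [abs_le]; constructor <;> linarith [hs₁.1, hs₁.2, hs₂.1, hs₂.2]
  calc |s₁ - s₂| * ‖v‖ ≤ 2 * (G.r₀ / (4 * (‖v‖ + 1))) * (‖v‖ + 1) := by gcongr; linarith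
    _ = G.r₀ / 2 := by field_simp; ring
    _ < G.r₀ := by linarith

theorem isExpMapAt (x : M) : IsExpMapAt n x (G.ex x) := by
  refine fun w => ⟨isGeodesicLine G x w, ?_, G.vel_zero x w⟩
  rw [zero_smul, G.ex_zero]

/-! ### `K`, `I` and intermediate points -/

theorem mem_K {x : M} {v : TangentSpace (𝓡 n) x} : v ∈ G.K x ↔ dist x (G.ex x v) = ‖v‖ := Iff.rfl

theorem dist_ex_le (x : M) (v : TangentSpace (𝓡 n) x) : dist x (G.ex x v) ≤ ‖v‖ := by
  have h := G.dist_le x v 0 1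
  simpa [G.ex_zero] using h

theorem dist_ex_smul_le (x : M) (v : TangentSpace (𝓡 n) x) (t : ℝ) :
    dist x (G.ex x (t • v)) ≤ |t| * ‖v‖ := by
  have h := G.dist_le x v 0 t
  simpa [G.ex_zero] using h

/-- short vectors are minimising -/
theorem mem_K_of_norm_lt {x : M} {v : TangentSpace (𝓡 n) x} (h : ‖v‖ < G.r₀) : v ∈ G.K x := by
  have h1 := G.dist_eq x v 0 1 (by simpa using h)
  simpa [G.ex_zero, mem_K] using h1

theorem dist_ex_of_norm_lt {x : M} {v : TangentSpace (𝓡 n) x} (h : ‖v‖ < G.r₀) :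
    dist x (G.ex x v) = ‖v‖ := mem_K_of_norm_lt G h

/-- intermediate points of a minimiser -/
theorem dist_eq_of_mem_K {x : M} {v : TangentSpace (𝓡 n) x} (hv : v ∈ G.K x) {s t : ℝ}
    (hs : 0 ≤ s) (hst : s ≤ t) (ht : t ≤ 1) :
    dist (G.ex x (s • v)) (G.ex x (t • v)) = (t - s) * ‖v‖ := by
  have h1 : dist x (G.ex x (s • v)) ≤ s * ‖v‖ := by
    have := dist_ex_smul_le G x v s; rwa [abs_of_nonneg hs] at this
  have h2 : dist (G.ex x (t • v)) (G.ex x v) ≤ (1 - t) * ‖v‖ := by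
    have := G.dist_le x v t 1
    rw [one_smul, abs_sub_comm, abs_of_nonneg (by linarith)] at this
    exact this
  have h3 : dist (G.ex x (s • v)) (G.ex x (t • v)) ≤ (t - s) * ‖v‖ := by
    have := G.dist_le x v s t
    rwa [abs_sub_comm, abs_of_nonneg (by linarith)] at this
  have h4 : ‖v‖ ≤ dist x (G.ex x (s • v)) + dist (G.ex x (s • v)) (G.ex x (t • v)) +
      dist (G.ex x (t • v)) (G.ex x v) := by
    rw [← (mem_K G).1 hv]; exact dist_triangle4 _ _ _ _
  refine le_antisymm h3 ?_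
  nlinarith













end Crest.Agent.R226.GeoBasic616
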