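import Crest.Agent.R226.NearLem_90
import Crest.Agent.R226.RadialSmooth_542
import Crest.Agent.R226.DistLoc_549
import Crest.Agent.R226.GeoLoc_577
import Crest.Agent.R226.ChartMet_842
import Crest.Agent.R226.TMSmooth_771

-- ▼ part R226/NearDiagThm_996
section

set_option autoImplicit false
set_option linter.unusedSectionVars false

open MeasureTheory Bundle Set
open scoped Manifold ContDiff Bundle ENNReal Topology
open Crest.GeometryTopology.MTW
open Crest.Agent.R226.NearLem90 (dL hasDerivAt_comp_curve)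

namespace Crest.Agent.R226.NearDiagThm996

section
variable (n : ℕ) (M : Type*) [MetricSpace M] [ChartedSpace (EuclideanSpace ℝ (Fin n)) M]
  [IsManifold (𝓡 n) ∞ M]
  [RiemannianBundle (fun p : M => TangentSpace (𝓡 n) p)]

/-- Near-diagonal geometry around one point `x₀`: base points in the open set `W ∋ x₀`,
velocities of norm `< r`. -/
structure LocalNear (x₀ : M) where
  W : Set M
  isOpen_W : IsOpen W
  mem_W : x₀ ∈ W
  r : ℝ
  r_pos : 0 < r
  e : ∀ x : M, TangentSpace (𝓡 n) x → M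
  smooth : ∀ p : TangentBundle (𝓡 n) M, p.1 ∈ W → ‖p.2‖ < r →
    ContMDiffAt (𝓡 n).tangent (𝓡 n) ∞ (fun p : TangentBundle (𝓡 n) M => e p.1 p.2) p
  smooth_cost : ∀ x ∈ W, ∀ y, dist x y < r →
    ContMDiffAt ((𝓡 n).prod (𝓡 n)) 𝓘(ℝ) ∞ (fun q : M × M => halfDistSq q.1 q.2) (x, y)
  e_zero : ∀ x ∈ W, e x 0 = x
  vel_zero : ∀ x ∈ W, ∀ v : TangentSpace (𝓡 n) x, ‖v‖ < r →
    curveVel n (fun t : ℝ => e x (t • v)) 0 = v
  norm_vel : ∀ x ∈ W, ∀ v : TangentSpace (𝓡 n) x, ‖v‖ < r → ∀ t : ℝ, |t| ≤ 1 →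
    ‖curveVel n (fun t : ℝ => e x (t • v)) t‖ = ‖v‖
  dist_eq : ∀ x ∈ W, ∀ v : TangentSpace (𝓡 n) x, ‖v‖ < r → ∀ s t : ℝ, |s| ≤ 1 → |t| ≤ 1 →
    dist (e x (s • v)) (e x (t • v)) = |s - t| * ‖v‖
  surj : ∀ x ∈ W, ∀ y, dist x y < r → ∃ v : TangentSpace (𝓡 n) x, ‖v‖ = dist x y ∧ e x v = y
  inj : ∀ x ∈ W, ∀ v w : TangentSpace (𝓡 n) x, ‖v‖ < r → ‖w‖ < r → e x v = e x w → v = w
  grad : ∀ x ∈ W, ∀ v : TangentSpace (𝓡 n) x, ‖v‖ < r → ∀ ξ : TangentSpace (𝓡 n) x,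
    dL n (fun x' : M => halfDistSq x' (e x v)) x ξ = -inner ℝ v ξ

end

variable {n : ℕ} {M : Type*} [MetricSpace M] [ChartedSpace (EuclideanSpace ℝ (Fin n)) M]
  [IsManifold (𝓡 n) ∞ M]
  [RiemannianBundle (fun p : M => TangentSpace (𝓡 n) p)]

/-- the local exponential maps agree where both are defined -/
theorem LocalNear.agree {a b : M} (A : LocalNear n M a) (B : LocalNear n M b) {x : M}
    (hxa : x ∈ A.W) (hxb : x ∈ B.W) {v : TangentSpace (𝓡 n) x} (hva : ‖v‖ < A.r)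
    (hvb : ‖v‖ < B.r) : A.e x v = B.e x v := by
  have hd : dist x (A.e x v) = ‖v‖ := by
    have := A.dist_eq x hxa v hva 0 1 (by simp) (by simp)
    rw [zero_smul, one_smul, A.e_zero x hxa] at this
    rw [this]; simp
  obtain ⟨w, hw, hwe⟩ := B.surj x hxb (A.e x v) (by rw [hd]; exact hvb)
  have hwb : ‖w‖ < B.r := by rw [hw, hd]; exact hvb
  have hvw : v = w := by
    refine ext_inner_right ℝ (fun ξ => ?_)
    have h1 := A.grad x hxa v hva ξ
    have h2 := B.grad x hxb w hwb ξ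
    rw [hwe] at h2
    have := h1.symm.trans h2
    linarith
  rw [← hwe, hvw]

theorem exists_pos_le {ι : Type*} (s : Finset ι) (f : ι → ℝ) (hf : ∀ i ∈ s, 0 < f i) :
    ∃ r : ℝ, 0 < r ∧ ∀ i ∈ s, r ≤ f i := by
  classical
  induction s using Finset.induction_on with
  | empty => exact ⟨1, one_pos, by simp⟩
  | insert i s hi ih =>
    obtain ⟨r, hr, h⟩ := ih (fun j hj => hf j (Finset.mem_insert_of_mem hj))
    refine ⟨min r (f i), lt_min hr (hf i (Finset.mem_insert_self _ _)), ?_⟩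
    intro j hj
    rcases Finset.mem_insert.1 hj with rfl | hj
    · exact min_le_right _ _
    · exact (min_le_left _ _).trans (h j hj)

/-- **A5**: local near-diagonal geometry around every point gives `NearDiag`. -/
theorem nonempty_nearDiag_of_localNear [CompactSpace M]
    [IsContMDiffRiemannianBundle (𝓡 n) ∞ (EuclideanSpace ℝ (Fin n))
      (fun p : M => TangentSpace (𝓡 n) p)]
    (hL : ∀ x₀ : M, Nonempty (LocalNear n M x₀)) : Nonempty (NearDiag n M) := by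
  classical
  have L : ∀ x₀ : M, LocalNear n M x₀ := fun x₀ => (hL x₀).some
  obtain ⟨s, -, hs⟩ := isCompact_univ.elim_nhds_subcover (fun x₀ => (L x₀).W)
    (fun x₀ _ => (L x₀).isOpen_W.mem_nhds (L x₀).mem_W)
  have hcov : ∀ x : M, ∃ i ∈ s, x ∈ (L i).W := by
    intro x
    have := hs (mem_univ x)
    simpa using this
  choose i his hiW using hcov
  obtain ⟨r, hr, hrle⟩ := exists_pos_le s (fun j => (L j).r) (fun j _ => (L j).r_pos)
  have hri : ∀ x : M, r ≤ (L (i x)).r := fun x => hrle _ (his x)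
  set e : ∀ x : M, TangentSpace (𝓡 n) x → M := fun x v => (L (i x)).e x v with he
  have hgrad : ∀ x : M, ∀ v : TangentSpace (𝓡 n) x, ‖v‖ < r → ∀ ξ : TangentSpace (𝓡 n) x,
      dL n (fun x' : M => halfDistSq x' (e x v)) x ξ = -inner ℝ v ξ := by
    intro x v hv ξ
    exact (L (i x)).grad x (hiW x) v (hv.trans_le (hri x)) ξ
  have hsm : ∀ p : TangentBundle (𝓡 n) M, ‖p.2‖ < r →
      ContMDiffAt (𝓡 n).tangent (𝓡 n) ∞ (fun p : TangentBundle (𝓡 n) M => e p.1 p.2) p := by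
    intro p hp
    have h1 := (L (i p.1)).smooth p (hiW p.1) (hp.trans_le (hri p.1))
    refine h1.congr_of_eventuallyEq ?_
    have hW : ∀ᶠ q : TangentBundle (𝓡 n) M in 𝓝 p, q.1 ∈ (L (i p.1)).W := by
      have hc : Continuous (fun q : TangentBundle (𝓡 n) M => q.1) :=
        FiberBundle.continuous_proj (EuclideanSpace ℝ (Fin n)) (TangentSpace (𝓡 n))
      exact hc.continuousAt.preimage_mem_nhds ((L (i p.1)).isOpen_W.mem_nhds (hiW p.1))
    have hN : ∀ᶠ q : TangentBundle (𝓡 n) M in 𝓝 p, ‖q.2‖ < r :=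
      (isOpen_disc (n := n) (M := M) r).mem_nhds hp
    filter_upwards [hW, hN] with q hq1 hq2
    exact LocalNear.agree _ _ (hiW q.1) hq1 (hq2.trans_le (hri q.1)) (hq2.trans_le (hri p.1))
  refine ⟨{
    r₀ := r
    r₀_pos := hr
    e := e
    smooth := fun p hp => (hsm p hp).contMDiffWithinAt
    smooth_cost := ?_
    e_zero := fun x => (L (i x)).e_zero x (hiW x)
    vel_zero := fun x v hv => (L (i x)).vel_zero x (hiW x) v (hv.trans_le (hri x))
    norm_vel := fun x v hv t ht => (L (i x)).norm_vel x (hiW x) v (hv.trans_le (hri x)) t ht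
    dist_eq := fun x v hv s t hs ht =>
      (L (i x)).dist_eq x (hiW x) v (hv.trans_le (hri x)) s t hs ht
    surj := fun x y hxy => (L (i x)).surj x (hiW x) y (hxy.trans_le (hri x))
    inj := fun x v w hv hw h => (L (i x)).inj x (hiW x) v w (hv.trans_le (hri x))
      (hw.trans_le (hri x)) h
    hasDerivAt_cost := ?_ }⟩
  · rintro ⟨x, y⟩ hq
    have hxy : dist x y < r := hq
    exact ((L (i x)).smooth_cost x (hiW x) y (hxy.trans_le (hri x))).contMDiffWithinAt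
  · intro x v ξ hv hξ
    have hvr := hv.trans_le (hri x)
    have hd : dist x (e x v) < r := by
      have := (L (i x)).dist_eq x (hiW x) v hvr 0 1 (by simp) (by simp)
      rw [zero_smul, one_smul, (L (i x)).e_zero x (hiW x)] at this
      rw [he]; dsimp only
      rw [this]; simpa using hv
    -- the cost is differentiable at `x`
    have hf : MDifferentiableAt (𝓡 n) 𝓘(ℝ) (fun x' : M => halfDistSq x' (e x v)) x := by
      have h1 := (L (i x)).smooth_cost x (hiW x) (e x v) (hd.trans_le (hri x))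
      have h2 : ContMDiffAt (𝓡 n) ((𝓡 n).prod (𝓡 n)) ∞ (fun x' : M => (x', e x v)) x :=
        contMDiffAt_id.prodMk contMDiffAt_const
      exact (h1.comp x h2).mdifferentiableAt (by simp)
    -- the curve is differentiable at `0`
    have hγ : MDifferentiableAt 𝓘(ℝ, ℝ) (𝓡 n) (fun t : ℝ => e x (t • ξ)) 0 := by
      have h1 : ContMDiffAt (𝓡 n).tangent (𝓡 n) ∞
          (fun p : TangentBundle (𝓡 n) M => e p.1 p.2)
          (⟨x, (0 : ℝ) • ξ⟩ : TangentBundle (𝓡 n) M) :=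
        hsm _ (by simpa using hr)
      have h2 := (contMDiff_scaleT_left (⟨x, ξ⟩ : TangentBundle (𝓡 n) M)).contMDiffAt (x := (0 : ℝ))
      exact (h1.comp (0 : ℝ) h2).mdifferentiableAt (by simp)
    have hx0 : (fun t : ℝ => e x (t • ξ)) 0 = x := by
      dsimp only
      rw [zero_smul]; exact (L (i x)).e_zero x (hiW x)
    have h3 := hasDerivAt_comp_curve (n := n) hx0 hf hγ
    have h4 : curveVel n (fun t : ℝ => e x (t • ξ)) 0 = ξ :=
      (L (i x)).vel_zero x (hiW x) ξ (hξ.trans_le (hri x))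
    rw [h4, hgrad x v hv ξ] at h3
    exact h3

end Crest.Agent.R226.NearDiagThm996
end

-- ▼ part R226/LocalNearThm_996
section

set_option autoImplicit false
set_option maxSynthPendingDepth 3
set_option linter.unusedSectionVars false

open MeasureTheory Bundle Set Filter
open scoped Manifold ContDiff Bundle ENNReal Topology
open Crest.GeometryTopology.MTW Crest.Agent.R244
open Crest.Agent.R226.NearLem90 (dL hasDerivAt_comp_curve)
open Crest.Agent.R226.ChartMet842 Crest.Agent.R226.GeoLoc577 Crest.Agent.R226.TMSmooth771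
open Crest.Agent.R226.NearDiagThm996

namespace Crest.Agent.R226.LocalNearThm996

variable {n : ℕ} {M : Type*} [MetricSpace M] [ChartedSpace (EuclideanSpace ℝ (Fin n)) M]
  [IsManifold (𝓡 n) ∞ M]
  [RiemannianBundle (fun p : M => TangentSpace (𝓡 n) p)]
  [IsContMDiffRiemannianBundle (𝓡 n) ∞ (EuclideanSpace ℝ (Fin n)) (fun p : M => TangentSpace (𝓡 n) p)]

local notation "𝔼" => EuclideanSpace ℝ (Fin n)

theorem dC_congr (x₀ : M) {p q : M} (h : p = q) (u : 𝔼) :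
    (dC x₀ p u : 𝔼) = dC x₀ q u := by
  subst h; rfl

theorem dC_dS' (x₀ : M) {x : M} (hx : x ∈ (chartAt 𝔼 x₀).source) (u : 𝔼) :
    (dC x₀ x (dS x₀ (chartAt 𝔼 x₀ x) u) : 𝔼) = u := by
  have h := dC_dS x₀ ((chartAt 𝔼 x₀).map_source hx) u
  exact (dC_congr x₀ ((chartAt 𝔼 x₀).left_inv hx) _).symm.trans h

theorem dC_smul (x₀ x : M) (t : ℝ) (v : TangentSpace (𝓡 n) x) :
    dC x₀ x (t • v) = t • dC x₀ x v := (dC x₀ x).map_smul t v

/-- local geometry of the metric of `M` in the chart at `x₀` -/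
abbrev LG (x₀ : M) := LocGeo (chartAt 𝔼 x₀).target (gm (n := n) x₀) (Gm x₀) (chartAt 𝔼 x₀ x₀)

/-- the local exponential map in the chart at `x₀` -/
noncomputable def eloc (x₀ : M) (L : LG (n := n) x₀)
    (x : M) (v : TangentSpace (𝓡 n) x) : M :=
  (chartAt 𝔼 x₀).symm (L.Ex (chartAt 𝔼 x₀ x, dC x₀ x v))

variable (x₀ : M) (L : LG (n := n) x₀)

/-- base domain -/
def Wd : Set M := (chartAt 𝔼 x₀).source ∩ chartAt 𝔼 x₀ ⁻¹' L.W'

theorem isOpen_Wd : IsOpen (Wd x₀ L) :=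
  (chartAt 𝔼 x₀).isOpen_inter_preimage L.isOpen_W'

theorem gm_lt {x : M} (hx : x ∈ (chartAt 𝔼 x₀).source) {v : TangentSpace (𝓡 n) x} {r : ℝ}
    (hv : ‖v‖ < r) : gm x₀ (chartAt 𝔼 x₀ x) (dC x₀ x v) (dC x₀ x v) < r ^ 2 := by
  rw [← norm_sq_eq_gm x₀ hx]
  have := norm_nonneg v
  nlinarith

theorem r'_le_ρ : L.r' ≤ L.ρ := by
  have := L.r'_le; have := L.r'_pos; linarith

theorem curveVel_eloc {x : M} (hx : x ∈ Wd x₀ L) {v : TangentSpace (𝓡 n) x} (hv : ‖v‖ < L.r')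
    {t : ℝ} (ht : |t| ≤ 1) :
    curveVel n (fun s : ℝ => eloc x₀ L x (s • v)) t =
      dS x₀ (L.Ex (chartAt 𝔼 x₀ x, t • dC x₀ x v)) (L.vel t (chartAt 𝔼 x₀ x, dC x₀ x v)) := by
  have hW := L.W'_sub hx.2
  have hg := gm_lt x₀ hx.1 (hv.trans_le (r'_le_ρ x₀ L))
  have h1 := L.hasDerivAt_Ex _ hW _ hg t ht
  have hmem : L.Ex (chartAt 𝔼 x₀ x, t • dC x₀ x v) ∈ (chartAt 𝔼 x₀).target := by
    refine L.Ex_mem _ hW _ ?_
    rw [← dC_smul]
    refine gm_lt x₀ hx.1 ?_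
    rw [norm_smul, Real.norm_eq_abs]
    have := norm_nonneg v
    have := r'_le_ρ x₀ L
    nlinarith [abs_nonneg t]
  have h2 := curveVel_symm (n := n) x₀ h1 hmem
  have h3 : (fun s : ℝ => eloc x₀ L x (s • v)) =
      fun s : ℝ => (chartAt 𝔼 x₀).symm (L.Ex (chartAt 𝔼 x₀ x, s • dC x₀ x v)) := by
    funext s
    unfold eloc
    rw [dC_smul]
  rw [h3]
  exact h2

/-- curve through `x` in direction `ξ`, in the chart -/
theorem curveVel_line {x : M} (hx : x ∈ (chartAt 𝔼 x₀).source) (ξ : TangentSpace (𝓡 n) x) :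
    curveVel n (fun s : ℝ => (chartAt 𝔼 x₀).symm (chartAt 𝔼 x₀ x + s • dC x₀ x ξ)) 0 =
      (ξ : 𝔼) := by
  have h1 : HasDerivAt (fun s : ℝ => chartAt 𝔼 x₀ x + s • dC x₀ x ξ) (dC x₀ x ξ) 0 := by
    have := ((hasDerivAt_id (0 : ℝ)).smul_const (dC x₀ x ξ)).const_add (chartAt 𝔼 x₀ x)
    simpa using this
  have h2 := curveVel_symm (n := n) x₀ h1 (by simpa using (chartAt 𝔼 x₀).map_source hx)
  have h3 := dS_dC x₀ hx ξ
  have h4 : (dS x₀ (chartAt 𝔼 x₀ x + (0 : ℝ) • dC x₀ x ξ) (dC x₀ x ξ) : 𝔼) =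
      dS x₀ (chartAt 𝔼 x₀ x) (dC x₀ x ξ) := by
    rw [zero_smul, add_zero]
  exact (h2.trans h4).trans h3

theorem tmc_eq (p : TangentBundle (𝓡 n) M) :
    tmc x₀ p = (chartAt 𝔼 x₀ p.1, dC x₀ p.1 p.2) := rfl

/-- the facts about `dist` on `M` in the chart (layer A4) -/
structure DistFacts : Prop where
  radial : ∀ a ∈ L.W, ∀ v, gm x₀ a v v < L.ρ ^ 2 →
    dist ((chartAt 𝔼 x₀).symm a) ((chartAt 𝔼 x₀).symm (L.Ex (a, v))) = √(gm x₀ a v v)
  surj : ∀ a ∈ L.W, ∀ y : M, dist ((chartAt 𝔼 x₀).symm a) y < L.ρ →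
    ∃ v, gm x₀ a v v < L.ρ ^ 2 ∧ √(gm x₀ a v v) = dist ((chartAt 𝔼 x₀).symm a) y ∧
      y = (chartAt 𝔼 x₀).symm (L.Ex (a, v))
  radial_two : ∀ a ∈ L.W', ∀ v, gm x₀ a v v < L.r' ^ 2 → ∀ s t : ℝ, |s| ≤ 1 → |t| ≤ 1 →
    dist ((chartAt 𝔼 x₀).symm (L.Ex (a, s • v))) ((chartAt 𝔼 x₀).symm (L.Ex (a, t • v))) =
      |s - t| * √(gm x₀ a v v)
  smooth : ∀ a ∈ L.W, ∀ v, gm x₀ a v v < L.ρ ^ 2 →
    ContMDiffAt ((𝓡 n).prod (𝓡 n)) 𝓘(ℝ) ∞ (fun q : M × M => halfDistSq q.1 q.2)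
      ((chartAt 𝔼 x₀).symm a, (chartAt 𝔼 x₀).symm (L.Ex (a, v)))
  cost : ∀ a ∈ L.W, ∀ v, gm x₀ a v v < L.ρ ^ 2 → ∀ ξ : 𝔼, ∀ c : ℝ → 𝔼, ∀ t : ℝ, c t = a →
    HasDerivAt c ξ t →
    HasDerivAt (fun s => halfDistSq ((chartAt 𝔼 x₀).symm (c s))
      ((chartAt 𝔼 x₀).symm (L.Ex (a, v)))) (-(gm x₀ a v ξ)) t

variable {x₀} {L}

theorem localNear (D : DistFacts x₀ L) : Nonempty (LocalNear n M x₀) := by
  have hrρ := r'_le_ρ x₀ L
  have hsrc : ∀ x ∈ Wd x₀ L, (chartAt 𝔼 x₀).symm (chartAt 𝔼 x₀ x) = x :=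
    fun x hx => (chartAt 𝔼 x₀).left_inv hx.1
  have hnorm : ∀ x ∈ Wd x₀ L, ∀ v : TangentSpace (𝓡 n) x,
      √(gm x₀ (chartAt 𝔼 x₀ x) (dC x₀ x v) (dC x₀ x v)) = ‖v‖ :=
    fun x hx v => (norm_eq_sqrt_gm x₀ hx.1 v).symm
  have hsm : ∀ x ∈ Wd x₀ L, ∀ y, dist x y < L.r' →
      ContMDiffAt ((𝓡 n).prod (𝓡 n)) 𝓘(ℝ) ∞ (fun q : M × M => halfDistSq q.1 q.2) (x, y) := by
    intro x hx y hy
    obtain ⟨v, hv, -, hyv⟩ := D.surj _ (L.W'_sub hx.2) y
      (by rw [hsrc x hx]; exact hy.trans_le hrρ)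
    have := D.smooth _ (L.W'_sub hx.2) v hv
    rwa [← hyv, hsrc x hx] at this
  have hdist : ∀ x ∈ Wd x₀ L, ∀ v : TangentSpace (𝓡 n) x, ‖v‖ < L.r' →
      dist x (eloc x₀ L x v) = ‖v‖ := by
    intro x hx v hv
    have := D.radial _ (L.W'_sub hx.2) (dC x₀ x v) (gm_lt x₀ hx.1 (hv.trans_le hrρ))
    rw [hsrc x hx, hnorm x hx] at this
    exact this
  refine ⟨{
    W := Wd x₀ L
    isOpen_W := isOpen_Wd x₀ L
    mem_W := ⟨mem_chart_source _ _, L.mem_W'⟩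
    r := L.r'
    r_pos := L.r'_pos
    e := eloc x₀ L
    smooth := ?_
    smooth_cost := hsm
    e_zero := ?_
    vel_zero := ?_
    norm_vel := ?_
    dist_eq := ?_
    surj := ?_
    inj := ?_
    grad := ?_ }⟩
  · -- smoothness
    intro p hp hv
    have hW := L.W'_sub hp.2
    have hg := gm_lt x₀ hp.1 (hv.trans_le hrρ)
    have h1 : ContDiffAt ℝ ∞ L.Ex (tmc x₀ p) := L.Ex_smooth _ hW _ hg
    refine contMDiffAt_of_chart (x₀ := x₀) (x₁ := x₀) hp.1 h1 ?_ ?_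
    · have h2 := L.Ex_mem _ hW _ hg
      have h3 : L.Ex (tmc x₀ p) ∈ (chartAt 𝔼 x₀).target := h2
      have h4 : (extChartAt (𝓡 n) x₀).target = (chartAt 𝔼 x₀).target := by
        simp [extChartAt_target]
      rw [h4]
      exact h3
    · exact Filter.Eventually.of_forall fun q => rfl
  · intro x hx
    unfold eloc
    rw [map_zero, L.Ex_zero _ (L.W'_sub hx.2), hsrc x hx]
  · intro x hx v hv
    have h1 := curveVel_eloc x₀ L hx hv (t := 0) (by simp)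
    have hW := L.W'_sub hx.2
    have hg := gm_lt x₀ hx.1 (hv.trans_le hrρ)
    rw [L.vel_zero _ hW _ hg] at h1
    have h2 : (dS x₀ (L.Ex (chartAt 𝔼 x₀ x, (0 : ℝ) • dC x₀ x v)) (dC x₀ x v) : 𝔼) =
        dS x₀ (chartAt 𝔼 x₀ x) (dC x₀ x v) := by
      rw [zero_smul, L.Ex_zero _ hW]
    exact (h1.trans h2).trans (dS_dC x₀ hx.1 v)
  · intro x hx v hv t ht
    have hW := L.W'_sub hx.2
    have hg := gm_lt x₀ hx.1 (hv.trans_le hrρ)
    have h1 := curveVel_eloc x₀ L hx hv ht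
    have h2 : ‖curveVel n (fun s : ℝ => eloc x₀ L x (s • v)) t‖ =
        ‖dS x₀ (L.Ex (chartAt 𝔼 x₀ x, t • dC x₀ x v))
          (L.vel t (chartAt 𝔼 x₀ x, dC x₀ x v))‖ := by
      rw [h1]
      refine norm_congr (n := n) ?_ _
      unfold eloc
      rw [dC_smul]
    rw [h2, norm_dS, L.speed _ hW _ hg t ht, hnorm x hx]
  · intro x hx v hv s t hs ht
    have h := D.radial_two _ hx.2 (dC x₀ x v) (gm_lt x₀ hx.1 hv) s t hs ht
    rw [hnorm x hx] at h
    unfold eloc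
    rw [dC_smul, dC_smul]
    exact h
  · intro x hx y hy
    obtain ⟨v, hv, hvd, hyv⟩ := D.surj _ (L.W'_sub hx.2) y
      (by rw [hsrc x hx]; exact hy.trans_le hrρ)
    rw [hsrc x hx] at hvd
    have h1 : (dC x₀ x (dS x₀ (chartAt 𝔼 x₀ x) v) : 𝔼) = v := dC_dS' x₀ hx.1 v
    refine ⟨(dS x₀ (chartAt 𝔼 x₀ x) v : 𝔼), ?_, ?_⟩
    · have h2 := hnorm x hx (dS x₀ (chartAt 𝔼 x₀ x) v : 𝔼)
      rw [h1] at h2
      rw [← h2, hvd]
    · unfold eloc
      rw [h1]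
      exact hyv.symm
  · intro x hx v w hv hw h
    have hW := L.W'_sub hx.2
    have hgv := gm_lt x₀ hx.1 (hv.trans_le hrρ)
    have hgw := gm_lt x₀ hx.1 (hw.trans_le hrρ)
    have h1 : L.Ex (chartAt 𝔼 x₀ x, dC x₀ x v) = L.Ex (chartAt 𝔼 x₀ x, dC x₀ x w) :=
      (chartAt 𝔼 x₀).symm.injOn (L.Ex_mem _ hW _ hgv) (L.Ex_mem _ hW _ hgw) h
    have h2 := L.Ex_inj _ hW _ _ hgv hgw h1
    have h3 := dS_dC x₀ hx.1 v
    have h4 := dS_dC x₀ hx.1 w
    rw [← h3, ← h4, h2]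
  · intro x hx v hv ξ
    have hW := L.W'_sub hx.2
    have hg := gm_lt x₀ hx.1 (hv.trans_le hrρ)
    have hd := hdist x hx v hv
    have hf : MDifferentiableAt (𝓡 n) 𝓘(ℝ) (fun x' : M => halfDistSq x' (eloc x₀ L x v)) x := by
      have h1 := hsm x hx (eloc x₀ L x v) (by rw [hd]; exact hv)
      have h2 : ContMDiffAt (𝓡 n) ((𝓡 n).prod (𝓡 n)) ∞ (fun x' : M => (x', eloc x₀ L x v)) x :=
        contMDiffAt_id.prodMk contMDiffAt_const
      exact (h1.comp x h2).mdifferentiableAt (by simp)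
    have hc : HasDerivAt (fun s : ℝ => chartAt 𝔼 x₀ x + s • dC x₀ x ξ) (dC x₀ x ξ) 0 := by
      have := ((hasDerivAt_id (0 : ℝ)).smul_const (dC x₀ x ξ)).const_add (chartAt 𝔼 x₀ x)
      simpa using this
    have hγ : MDifferentiableAt 𝓘(ℝ, ℝ) (𝓡 n)
        (fun s : ℝ => (chartAt 𝔼 x₀).symm (chartAt 𝔼 x₀ x + s • dC x₀ x ξ)) 0 :=
      mdifferentiableAt_symm_comp x₀ hc.differentiableAt
        (by simpa using (chartAt 𝔼 x₀).map_source hx.1)
    have hx0 : (fun s : ℝ => (chartAt 𝔼 x₀).symm (chartAt 𝔼 x₀ x + s • dC x₀ x ξ)) 0 = x := by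
      dsimp only
      rw [zero_smul, add_zero]; exact hsrc x hx
    have h1 := hasDerivAt_comp_curve (n := n) hx0 hf hγ
    have h2 := D.cost _ hW (dC x₀ x v) hg (dC x₀ x ξ) _ 0 (by simp) hc
    have h3 := h1.unique h2
    have h4 := curveVel_line x₀ hx.1 ξ
    rw [h4] at h3
    rw [inner_eq_gm x₀ hx.1 v ξ]
    exact h3

end Crest.Agent.R226.LocalNearThm996
end

-- ▼ part R226/NearDiagFinal_996

set_option autoImplicit false
set_option maxSynthPendingDepth 3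
set_option linter.unusedSectionVars false

open MeasureTheory Bundle Set Filter
open scoped Manifold ContDiff Bundle ENNReal Topology
open Crest.GeometryTopology.MTW Crest.Agent.R244
open Crest.Agent.R226.ChartMet842 Crest.Agent.R226.GeoLoc577 Crest.Agent.R226.TMSmooth771
open Crest.Agent.R226.NearDiagThm996 Crest.Agent.R226.LocalNearThm996

namespace Crest.Agent.R226.NearDiagFinal996

section Abstract

variable {E : Type*} [NormedAddCommGroup E] [NormedSpace ℝ E]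
variable {U : Set E} {g : E → E →L[ℝ] E →L[ℝ] ℝ} {Γ : E → E →L[ℝ] E →L[ℝ] E} {p0 : E}

theorem g_nonneg (hLC : CF.IsLC U g Γ) {a : E} (ha : a ∈ U) (v : E) : 0 ≤ g a v v := by
  by_cases hv : v = 0
  · simp [hv]
  · exact (hLC.g_pos a ha v hv).le

theorem g_smul (a v : E) (t : ℝ) : g a (t • v) (t • v) = t ^ 2 * g a v v := by
  simp only [map_smul, _root_.smul_apply, smul_eq_mul]
  ring

/-- Cauchy–Schwarz for `g a` -/
theorem g_cs (hLC : CF.IsLC U g Γ) {a : E} (ha : a ∈ U) (v w : E) :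
    (g a v w) ^ 2 ≤ g a v v * g a w w := by
  have key : ∀ t : ℝ, 0 ≤ g a w w * (t * t) + (2 * g a v w) * t + g a v v := by
    intro t
    have h := g_nonneg hLC ha (v + t • w)
    have e : g a (v + t • w) (v + t • w) = g a w w * (t * t) + (2 * g a v w) * t + g a v v := by
      have hs := hLC.g_symm a ha v w
      simp only [map_add, map_smul, _root_.add_apply, _root_.smul_apply, smul_eq_mul]
      rw [← hs]
      ring
    rwa [e] at h
  have hd := discrim_le_zero key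
  unfold discrim at hd
  nlinarith

variable (L : LocGeo U g Γ p0)

/-- the disc bundle -/
def Disc : Set (E × E) := {z | z.1 ∈ L.W ∧ g z.1 z.2 z.2 < L.ρ ^ 2}

theorem isOpen_Disc (hLC : CF.IsLC U g Γ) : IsOpen (Disc L) := by
  have h1 : ContinuousOn (fun z : E × E => g z.1 z.2 z.2) (L.W ×ˢ univ) := by
    intro z hz
    have hg : ContinuousAt g z.1 :=
      (hLC.g_smooth.continuousOn.continuousAt (hLC.isOpen.mem_nhds (L.W_sub hz.1)))
    have hg' : ContinuousAt (fun z : E × E => g z.1) z :=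
      ContinuousAt.comp (g := g) (f := Prod.fst) hg continuousAt_fst
    exact ((hg'.clm_apply continuousAt_snd).clm_apply continuousAt_snd).continuousWithinAt
  have h2 := h1.isOpen_inter_preimage (L.isOpen_W.prod isOpen_univ) (isOpen_Iio (a := L.ρ ^ 2))
  convert h2 using 1
  ext z
  simp [Disc]

/-- the image of the disc bundle -/
def DiscImg : Set (E × E) := (fun z : E × E => (z.1, L.Ex z)) '' Disc L

theorem isOpen_DiscImg (hLC : CF.IsLC U g Γ) : IsOpen (DiscImg L) :=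
  L.isOpen_image _ (isOpen_Disc L hLC) fun _ hz => hz

/-- the local ball -/
def Ob (a : E) : Set E := (fun v => L.Ex (a, v)) '' {v | g a v v < L.ρ ^ 2}

theorem hasFDerivAt_h_snd {a : E} (ha : a ∈ L.W) {v : E} (hv : g a v v < L.ρ ^ 2) :
    HasFDerivAt (fun b => L.h (a, b))
      ((fderiv ℝ L.h (a, L.Ex (a, v))).comp (ContinuousLinearMap.inr ℝ E E)) (L.Ex (a, v)) := by
  have hd : DifferentiableAt ℝ L.h (a, L.Ex (a, v)) :=
    (L.h_smooth a ha v hv).differentiableAt (by simp)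
  exact HasFDerivAt.comp (L.Ex (a, v)) (f := fun b : E => ((a, b) : E × E)) (g := L.h)
    hd.hasFDerivAt (hasFDerivAt_prodMk_right a (L.Ex (a, v)))

theorem h_bound (hLC : CF.IsLC U g Γ) {a : E} (ha : a ∈ L.W) :
    ∀ b ∈ Ob L a, DifferentiableAt ℝ (fun b => L.h (a, b)) b ∧
      ∀ w, (fderiv ℝ (fun b => L.h (a, b)) b w) ^ 2 ≤ 2 * L.h (a, b) * g b w w := by
  rintro b ⟨v, hv, rfl⟩
  have hv' : g a v v < L.ρ ^ 2 := hv
  have h1 := hasFDerivAt_h_snd L ha hv'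
  refine ⟨h1.differentiableAt, fun w => ?_⟩
  dsimp only
  rw [h1.fderiv]
  have h2 : ((fderiv ℝ L.h (a, L.Ex (a, v))).comp (ContinuousLinearMap.inr ℝ E E)) w =
      g (L.Ex (a, v)) (L.vel 1 (a, v)) w := by
    have := L.h_fderiv a ha v hv' 0 w
    simpa using this
  rw [h2, L.h_eq a ha v hv']
  have h3 := L.speed a ha v hv' 1 (by simp)
  rw [one_smul] at h3
  have h4 := g_cs hLC (L.Ex_mem a ha v hv') (L.vel 1 (a, v)) w
  rw [h3] at h4
  calc _ ≤ _ := h4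
    _ = _ := by ring

theorem h_nonneg (hLC : CF.IsLC U g Γ) {a : E} (ha : a ∈ L.W) :
    ∀ b ∈ Ob L a, 0 ≤ L.h (a, b) := by
  rintro b ⟨v, hv, rfl⟩
  have hv' : g a v v < L.ρ ^ 2 := hv
  dsimp only
  rw [L.h_eq a ha v hv']
  have := g_nonneg hLC (L.W_sub ha) v
  positivity

theorem zero_mem_disc {a : E} : g a 0 0 < L.ρ ^ 2 := by
  have := L.ρ_pos
  simp only [map_zero]
  positivity

theorem h_zero {a : E} (ha : a ∈ L.W) : L.h (a, a) = 0 := by
  have h1 := L.h_eq a ha 0 (zero_mem_disc L)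
  rw [L.Ex_zero a ha] at h1
  simpa using h1

theorem h_compact {a : E} (ha : a ∈ L.W) {r : ℝ} (hr : 0 < r) (hrρ : r < L.ρ) :
    IsCompact {b ∈ Ob L a | 2 * L.h (a, b) ≤ r ^ 2} := by
  have h1 := L.isCompact_closedBall a ha r hr.le hrρ
  convert h1 using 1
  ext b
  constructor
  · rintro ⟨⟨v, hv, rfl⟩, hb⟩
    have hv' : g a v v < L.ρ ^ 2 := hv
    dsimp only at hb
    rw [L.h_eq a ha v hv'] at hb
    exact ⟨v, by simp only [mem_setOf_eq]; linarith, rfl⟩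
  · rintro ⟨v, hv, rfl⟩
    have hv1 : g a v v ≤ r ^ 2 := hv
    have hv' : g a v v < L.ρ ^ 2 := by nlinarith [L.ρ_pos]
    refine ⟨⟨v, hv', rfl⟩, ?_⟩
    dsimp only
    rw [L.h_eq a ha v hv']
    linarith

end Abstract

section Mfd

variable {n : ℕ} {M : Type*} [MetricSpace M] [ChartedSpace (EuclideanSpace ℝ (Fin n)) M]
  [IsManifold (𝓡 n) ∞ M]
  [RiemannianBundle (fun p : M => TangentSpace (𝓡 n) p)]
  [IsContMDiffRiemannianBundle (𝓡 n) ∞ (EuclideanSpace ℝ (Fin n)) (fun p : M => TangentSpace (𝓡 n) p)]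
  [IsRiemannianManifold (𝓡 n) M]

local notation "𝔼" => EuclideanSpace ℝ (Fin n)

theorem isContinuousRiemannianBundle :
    IsContinuousRiemannianBundle (EuclideanSpace ℝ (Fin n)) (fun p : M => TangentSpace (𝓡 n) p) := by
  obtain ⟨g, hg, hg'⟩ := (inferInstance : IsContMDiffRiemannianBundle (𝓡 n) ∞
    (EuclideanSpace ℝ (Fin n)) (fun p : M => TangentSpace (𝓡 n) p)).exists_contMDiff
  exact ⟨g, hg.continuous, hg'⟩

attribute [local instance] isContinuousRiemannianBundle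

theorem isChartMetric_gm (x₀ : M) : CNInt.IsChartMetric x₀ (gm (n := n) x₀) := by
  intro y _ u
  exact (norm_sq_dS x₀ y u).symm

variable (x₀ : M) (L : LG (n := n) x₀)

theorem lower_dist' {a : 𝔼} (ha : a ∈ L.W) {y : M}
    (hy : dist ((chartAt 𝔼 x₀).symm a) y < L.ρ) :
    y ∈ (chartAt 𝔼 x₀).source ∧ chartAt 𝔼 x₀ y ∈ Ob L a ∧
      √(2 * L.h (a, chartAt 𝔼 x₀ y)) ≤ dist ((chartAt 𝔼 x₀).symm a) y := by
  have hLC := isLC_gm (n := n) x₀
  refine DistLoc549.lower_dist (isChartMetric_gm x₀) (O := Ob L a) (h := fun b => L.h (a, b))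
    (L.isOpen_ball a ha L.ρ L.ρ_pos le_rfl) ?_ ?_ (h_zero L ha) (h_nonneg L hLC ha)
    (h_bound L hLC ha) (ρ := L.ρ) (fun r hr hrρ => h_compact L ha hr hrρ) hy
  · rintro b ⟨v, hv, rfl⟩
    exact L.Ex_mem a ha v hv
  · exact ⟨0, zero_mem_disc L, L.Ex_zero a ha⟩

theorem upper_dist {a : 𝔼} (ha : a ∈ L.W) {v : 𝔼} (hv : gm x₀ a v v < L.ρ ^ 2) :
    dist ((chartAt 𝔼 x₀).symm a) ((chartAt 𝔼 x₀).symm (L.Ex (a, v))) ≤ √(gm x₀ a v v) := by
  have hLC := isLC_gm (n := n) x₀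
  have hn := g_nonneg hLC (L.W_sub ha) v
  have hdisc : ∀ t : ℝ, |t| ≤ 1 → gm x₀ a (t • v) (t • v) < L.ρ ^ 2 := by
    intro t ht
    rw [g_smul]
    have : t ^ 2 ≤ 1 := by
      rw [← sq_abs]
      have := abs_nonneg t
      nlinarith
    nlinarith
  have habs : ∀ t ∈ Icc (0:ℝ) 1, |t| ≤ 1 := fun t ht => by
    rw [abs_of_nonneg ht.1]; exact ht.2
  have h := DistLoc549.dist_le_of_speed (isChartMetric_gm (n := n) x₀)
    (c := fun t : ℝ => L.Ex (a, t • v)) (s := 0) (t := 1) (σ := √(gm x₀ a v v)) zero_le_one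
    (Real.sqrt_nonneg _) ?_ ?_ ?_
  · simpa [L.Ex_zero a ha] using h
  · intro t ht
    have h1 : ContDiffAt ℝ ∞ L.Ex (a, t • v) := L.Ex_smooth a ha _ (hdisc t (habs t ht))
    have h2 : ContDiffAt ℝ ∞ (fun t : ℝ => ((a, t • v) : 𝔼 × 𝔼)) t := by fun_prop
    have h3 : ContDiffAt ℝ ∞ (fun t : ℝ => L.Ex (a, t • v)) t :=
      ContDiffAt.comp t (f := fun t : ℝ => ((a, t • v) : 𝔼 × 𝔼)) h1 h2
    exact (h3.of_le (by simp)).contDiffWithinAt
  · intro t ht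
    exact L.Ex_mem a ha _ (hdisc t (habs t ht))
  · intro t ht
    have ht' : |t| ≤ 1 := habs t (Ioo_subset_Icc_self ht)
    have h1 := (L.hasDerivAt_Ex a ha v hv t ht').deriv
    rw [h1, L.speed a ha v hv t ht', Real.sq_sqrt hn]

theorem radial {a : 𝔼} (ha : a ∈ L.W) {v : 𝔼} (hv : gm x₀ a v v < L.ρ ^ 2) :
    dist ((chartAt 𝔼 x₀).symm a) ((chartAt 𝔼 x₀).symm (L.Ex (a, v))) = √(gm x₀ a v v) := by
  apply le_antisymm (upper_dist x₀ L ha hv)
  have hlt : √(gm x₀ a v v) < L.ρ := by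
    rw [Real.sqrt_lt' L.ρ_pos]; exact hv
  have h := (lower_dist' x₀ L ha ((upper_dist x₀ L ha hv).trans_lt hlt)).2.2
  rw [(chartAt 𝔼 x₀).right_inv (L.Ex_mem a ha v hv), L.h_eq a ha v hv] at h
  calc _ = √(2 * (gm x₀ a v v / 2)) := by congr 1; ring
    _ ≤ _ := h

theorem halfDistSq_eq' {a v : 𝔼} (ha : a ∈ L.W) (hv : gm x₀ a v v < L.ρ ^ 2) :
    halfDistSq ((chartAt 𝔼 x₀).symm a) ((chartAt 𝔼 x₀).symm (L.Ex (a, v))) =
      L.h (a, L.Ex (a, v)) := by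
  unfold halfDistSq
  rw [radial x₀ L ha hv, L.h_eq a ha v hv,
    Real.sq_sqrt (g_nonneg (isLC_gm x₀) (L.W_sub ha) v)]

theorem halfDistSq_eq {a b : 𝔼} (h3 : (a, b) ∈ DiscImg L) :
    halfDistSq ((chartAt 𝔼 x₀).symm a) ((chartAt 𝔼 x₀).symm b) = L.h (a, b) := by
  obtain ⟨⟨a', v⟩, ⟨ha, hv⟩, he⟩ := h3
  obtain ⟨rfl, rfl⟩ := Prod.mk.inj he
  exact halfDistSq_eq' x₀ L ha hv

theorem distFacts : DistFacts x₀ L where
  radial := fun a ha v hv => radial x₀ L ha hv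
  surj := by
    intro a ha y hy
    obtain ⟨h1, ⟨v, hv, hev⟩, -⟩ := lower_dist' x₀ L ha hy
    have hv' : gm x₀ a v v < L.ρ ^ 2 := hv
    have hev' : L.Ex (a, v) = chartAt 𝔼 x₀ y := hev
    have hyv : y = (chartAt 𝔼 x₀).symm (L.Ex (a, v)) := by
      rw [hev', (chartAt 𝔼 x₀).left_inv h1]
    refine ⟨v, hv', ?_, hyv⟩
    have := radial x₀ L ha hv'
    rw [← hyv] at this
    exact this.symm
  radial_two := by
    intro a ha v hv s t hs ht
    have haW := L.W'_sub ha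
    have hrρ := r'_le_ρ x₀ L
    have hvρ : gm x₀ a v v < L.ρ ^ 2 := by
      have := L.r'_pos
      nlinarith
    have hn := g_nonneg (isLC_gm (n := n) x₀) (L.W_sub haW) v
    have hsq : ∀ u : ℝ, |u| ≤ 1 → u ^ 2 ≤ 1 := by
      intro u hu
      rw [← sq_abs]
      have := abs_nonneg u
      nlinarith
    have hb : L.Ex (a, s • v) ∈ L.W := by
      apply L.Ex_mem_W a ha
      rw [g_smul]
      nlinarith [hsq s hs]
    have hsp := L.speed a haW v hvρ s hs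
    have hts : (t - s) ^ 2 ≤ 4 := by
      have h1 := abs_le.1 hs
      have h2 := abs_le.1 ht
      nlinarith
    have hw : gm x₀ (L.Ex (a, s • v)) ((t - s) • L.vel s (a, v)) ((t - s) • L.vel s (a, v)) =
        (t - s) ^ 2 * gm x₀ a v v := by
      rw [g_smul, hsp]
    have hwρ : gm x₀ (L.Ex (a, s • v)) ((t - s) • L.vel s (a, v)) ((t - s) • L.vel s (a, v)) <
        L.ρ ^ 2 := by
      rw [hw]
      have h1 := L.r'_le
      have h2 := L.r'_pos
      nlinarith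
    have h := radial x₀ L hb hwρ
    rw [L.seg a ha v hv s t hs ht, hw, Real.sqrt_mul (sq_nonneg _), Real.sqrt_sq_eq_abs] at h
    rw [h, abs_sub_comm]
  smooth := by
    intro a ha v hv
    have hLC := isLC_gm (n := n) x₀
    have haT := L.W_sub ha
    have hbT := L.Ex_mem a ha v hv
    have h1 : ContMDiffAt (𝓡 n) 𝓘(ℝ, 𝔼) ∞ (chartAt 𝔼 x₀) ((chartAt 𝔼 x₀).symm a) :=
      contMDiffOn_chart.contMDiffAt
        ((chartAt 𝔼 x₀).open_source.mem_nhds ((chartAt 𝔼 x₀).map_target haT))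
    have h2 : ContMDiffAt (𝓡 n) 𝓘(ℝ, 𝔼) ∞ (chartAt 𝔼 x₀)
        ((chartAt 𝔼 x₀).symm (L.Ex (a, v))) :=
      contMDiffOn_chart.contMDiffAt
        ((chartAt 𝔼 x₀).open_source.mem_nhds ((chartAt 𝔼 x₀).map_target hbT))
    set q0 : M × M := ((chartAt 𝔼 x₀).symm a, (chartAt 𝔼 x₀).symm (L.Ex (a, v))) with hq0
    have h3 : ContMDiffAt ((𝓡 n).prod (𝓡 n)) 𝓘(ℝ, 𝔼) ∞ (fun q : M × M => chartAt 𝔼 x₀ q.1) q0 :=
      ContMDiffAt.comp q0 (g := chartAt 𝔼 x₀) h1 contMDiffAt_fst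
    have h4 : ContMDiffAt ((𝓡 n).prod (𝓡 n)) 𝓘(ℝ, 𝔼) ∞ (fun q : M × M => chartAt 𝔼 x₀ q.2) q0 :=
      ContMDiffAt.comp q0 (g := chartAt 𝔼 x₀) h2 contMDiffAt_snd
    have h5 : ContMDiffAt ((𝓡 n).prod (𝓡 n)) 𝓘(ℝ, 𝔼 × 𝔼) ∞
        (fun q : M × M => (chartAt 𝔼 x₀ q.1, chartAt 𝔼 x₀ q.2)) q0 := h3.prodMk_space h4
    have hval : ((chartAt 𝔼 x₀ q0.1, chartAt 𝔼 x₀ q0.2) : 𝔼 × 𝔼) = (a, L.Ex (a, v)) := by
      simp only [hq0]
      rw [(chartAt 𝔼 x₀).right_inv haT, (chartAt 𝔼 x₀).right_inv hbT]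
    have h6 : ContMDiffAt 𝓘(ℝ, 𝔼 × 𝔼) 𝓘(ℝ) ∞ L.h (chartAt 𝔼 x₀ q0.1, chartAt 𝔼 x₀ q0.2) := by
      rw [hval]
      exact (L.h_smooth a ha v hv).contMDiffAt
    have h7 : ContMDiffAt ((𝓡 n).prod (𝓡 n)) 𝓘(ℝ) ∞
        (fun q : M × M => L.h (chartAt 𝔼 x₀ q.1, chartAt 𝔼 x₀ q.2)) q0 :=
      ContMDiffAt.comp q0 (g := L.h) h6 h5
    refine h7.congr_of_eventuallyEq ?_
    have c1 : ∀ᶠ q in 𝓝 q0, q.1 ∈ (chartAt 𝔼 x₀).source :=
      continuousAt_fst.eventually_mem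
        ((chartAt 𝔼 x₀).open_source.mem_nhds ((chartAt 𝔼 x₀).map_target haT))
    have c2 : ∀ᶠ q in 𝓝 q0, q.2 ∈ (chartAt 𝔼 x₀).source :=
      continuousAt_snd.eventually_mem
        ((chartAt 𝔼 x₀).open_source.mem_nhds ((chartAt 𝔼 x₀).map_target hbT))
    have c3 : ∀ᶠ q in 𝓝 q0, (chartAt 𝔼 x₀ q.1, chartAt 𝔼 x₀ q.2) ∈ DiscImg L := by
      have := h5.continuousAt
      apply this.eventually_mem
      rw [hval]
      exact (isOpen_DiscImg L hLC).mem_nhds ⟨(a, v), ⟨ha, hv⟩, rfl⟩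
    filter_upwards [c1, c2, c3] with q a1 a2 a3
    have h8 := halfDistSq_eq x₀ L a3
    rw [(chartAt 𝔼 x₀).left_inv a1, (chartAt 𝔼 x₀).left_inv a2] at h8
    exact h8
  cost := by
    intro a ha v hv ξ c t hc hcd
    have hLC := isLC_gm (n := n) x₀
    have haT := L.W_sub ha
    have hbT := L.Ex_mem a ha v hv
    have hd : DifferentiableAt ℝ L.h (a, L.Ex (a, v)) :=
      (L.h_smooth a ha v hv).differentiableAt (by simp)
    have hd' : HasFDerivAt L.h (fderiv ℝ L.h (a, L.Ex (a, v))) (c t, L.Ex (a, v)) := by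
      rw [hc]; exact hd.hasFDerivAt
    have h1 : HasDerivAt (fun s => ((c s, L.Ex (a, v)) : 𝔼 × 𝔼)) (ξ, 0) t :=
      hcd.prodMk (hasDerivAt_const t _)
    have h2 := HasFDerivAt.comp_hasDerivAt (l := L.h)
      (f := fun s => ((c s, L.Ex (a, v)) : 𝔼 × 𝔼)) t hd' h1
    have h3 : fderiv ℝ L.h (a, L.Ex (a, v)) (ξ, 0) = -(gm x₀ a v ξ) := by
      rw [L.h_fderiv a ha v hv]
      simp
    rw [h3] at h2
    refine h2.congr_of_eventuallyEq ?_
    have c1 : ∀ᶠ s in 𝓝 t, ((c s, L.Ex (a, v)) : 𝔼 × 𝔼) ∈ DiscImg L := by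
      apply h1.continuousAt.eventually_mem
      rw [hc]
      exact (isOpen_DiscImg L hLC).mem_nhds ⟨(a, v), ⟨ha, hv⟩, rfl⟩
    filter_upwards [c1] with s a1
    exact halfDistSq_eq x₀ L a1

end Mfd

/-- **Layer A**: near-diagonal Riemannian geometry of a compact Riemannian manifold. -/
theorem nonempty_nearDiag {n : ℕ} {M : Type*} [MetricSpace M]
    [ChartedSpace (EuclideanSpace ℝ (Fin n)) M]
    [IsManifold (𝓡 n) ∞ M]
    [RiemannianBundle (fun p : M => TangentSpace (𝓡 n) p)]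
    [IsContMDiffRiemannianBundle (𝓡 n) ∞ (EuclideanSpace ℝ (Fin n)) (fun p : M => TangentSpace (𝓡 n) p)]
    [IsRiemannianManifold (𝓡 n) M] [CompactSpace M] : Nonempty (NearDiag n M) := by
  apply nonempty_nearDiag_of_localNear
  intro x₀
  obtain ⟨L⟩ := exists_locGeo (isLC_gm (n := n) x₀) (mem_chart_target _ x₀)
  exact localNear (distFacts x₀ L)

end Crest.Agent.R226.NearDiagFinal996
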