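/-
R226 Layer B (helper415): tangent bundle tools: velocities of curves as elements of `TM`,
scaling, continuity of the norm, joint smoothness of the radial lift.
-/
import Crest.Agent.R226.BDefs_542

set_option autoImplicit false

open MeasureTheory Bundle Set Filter
open scoped Manifold ContDiff Bundle ENNReal Topology
open Crest.GeometryTopology.MTW

namespace Crest.Agent.R226.GlobalEx415

section curves
variable {n : ℕ} {M : Type*} [MetricSpace M] [ChartedSpace (EuclideanSpace ℝ (Fin n)) M]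

/-- the tangent lift of a curve -/
noncomputable def curveT (n : ℕ) [ChartedSpace (EuclideanSpace ℝ (Fin n)) M] (γ : ℝ → M) (t : ℝ) :
    TangentBundle (𝓡 n) M := ⟨γ t, curveVel n γ t⟩


theorem curveT_congr {γ γ' : ℝ → M} {t : ℝ} (h : γ =ᶠ[𝓝 t] γ') : curveT n γ t = curveT n γ' t := by
  have h1 : γ t = γ' t := h.eq_of_nhds
  unfold curveT curveVel
  refine TotalSpace.ext h1 ?_
  have h2 : mfderiv 𝓘(ℝ, ℝ) (𝓡 n) γ t = (mfderiv 𝓘(ℝ, ℝ) (𝓡 n) γ' t : _) :=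
    Filter.EventuallyEq.mfderiv_eq h
  exact heq_of_eq (congrArg (fun L : ℝ →L[ℝ] EuclideanSpace ℝ (Fin n) => L 1) h2)

theorem curveT_comp_add (γ : ℝ → M) (t s : ℝ) (hγ : MDifferentiableAt 𝓘(ℝ, ℝ) (𝓡 n) γ (t + s)) :
    curveT n (fun s => γ (t + s)) s = curveT n γ (t + s) := by
  have h1 : HasMFDerivAt 𝓘(ℝ, ℝ) 𝓘(ℝ, ℝ) (fun s : ℝ => t + s) s
      (ContinuousLinearMap.id ℝ ℝ) := by
    have : HasFDerivAt (fun s : ℝ => t + s) (ContinuousLinearMap.id ℝ ℝ) s :=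
      (hasFDerivAt_id s).const_add t
    exact this.hasMFDerivAt
  have h2 := (hγ.hasMFDerivAt).comp s h1
  have h3 := h2.mfderiv
  refine TotalSpace.ext rfl ?_
  refine heq_of_eq ?_
  show mfderiv 𝓘(ℝ, ℝ) (𝓡 n) (γ ∘ fun s => t + s) s (1 : ℝ) = _
  rw [h3]
  rfl


end curves

section smul
variable {n : ℕ} {M : Type*} [MetricSpace M] [ChartedSpace (EuclideanSpace ℝ (Fin n)) M]
  [IsManifold (𝓡 n) ∞ M]

/-- joint smoothness of the scaling of tangent vectors -/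
theorem contMDiff_scaleT : ContMDiff (𝓘(ℝ, ℝ).prod (𝓡 n).tangent) (𝓡 n).tangent ∞
    (fun q : ℝ × TangentBundle (𝓡 n) M => scaleT q.1 q.2) := by
  intro q₀
  rw [contMDiffAt_totalSpace]
  have hid : ContMDiffAt (𝓘(ℝ, ℝ).prod (𝓡 n).tangent) (𝓡 n).tangent ∞
      (fun q : ℝ × TangentBundle (𝓡 n) M => q.2) q₀ := contMDiffAt_snd
  rw [contMDiffAt_totalSpace] at hid
  refine ⟨hid.1, ?_⟩
  have h1 : ContMDiffAt (𝓘(ℝ, ℝ).prod (𝓡 n).tangent) 𝓘(ℝ, EuclideanSpace ℝ (Fin n)) ∞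
      (fun q : ℝ × TangentBundle (𝓡 n) M => q.1 • (trivializationAt (EuclideanSpace ℝ (Fin n))
        (TangentSpace (𝓡 n)) q₀.2.proj q.2).2) q₀ := contMDiffAt_fst.smul hid.2
  refine h1.congr_of_eventuallyEq ?_
  have hb : ∀ᶠ q : ℝ × TangentBundle (𝓡 n) M in 𝓝 q₀, q.2.proj ∈
      (trivializationAt (EuclideanSpace ℝ (Fin n)) (TangentSpace (𝓡 n)) q₀.2.proj).baseSet := by
    have hc : ContinuousAt (fun q : ℝ × TangentBundle (𝓡 n) M => q.2.proj) q₀ :=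
      hid.1.continuousAt
    exact hc.preimage_mem_nhds ((trivializationAt (EuclideanSpace ℝ (Fin n))
      (TangentSpace (𝓡 n)) q₀.2.proj).open_baseSet.mem_nhds
      (mem_baseSet_trivializationAt (EuclideanSpace ℝ (Fin n)) (TangentSpace (𝓡 n)) q₀.2.proj))
  filter_upwards [hb] with q hq
  have hl := (trivializationAt (EuclideanSpace ℝ (Fin n)) (TangentSpace (𝓡 n))
    q₀.2.proj).linear ℝ hq
  exact hl.map_smul q.1 q.2.2

end smul

section norm
variable {n : ℕ} {M : Type*} [MetricSpace M] [ChartedSpace (EuclideanSpace ℝ (Fin n)) M]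
  [IsManifold (𝓡 n) ∞ M]
  [RiemannianBundle (fun p : M => TangentSpace (𝓡 n) p)]
  [IsContMDiffRiemannianBundle (𝓡 n) ∞ (EuclideanSpace ℝ (Fin n)) (fun p : M => TangentSpace (𝓡 n) p)]

theorem contMDiff_normSq : ContMDiff (𝓡 n).tangent 𝓘(ℝ, ℝ) ∞
    (fun p : TangentBundle (𝓡 n) M => inner ℝ p.2 p.2) := by
  have h : ContMDiff (𝓡 n).tangent (𝓡 n).tangent ∞
      (fun p : TangentBundle (𝓡 n) M => (⟨p.1, p.2⟩ : TangentBundle (𝓡 n) M)) := contMDiff_id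
  exact ContMDiff.inner_bundle (b := fun p : TangentBundle (𝓡 n) M => p.1)
    (v := fun p : TangentBundle (𝓡 n) M => p.2) (w := fun p : TangentBundle (𝓡 n) M => p.2) h h

theorem continuous_norm : Continuous (fun p : TangentBundle (𝓡 n) M => ‖p.2‖) := by
  have h := (contMDiff_normSq (n := n) (M := M)).continuous
  have h2 : (fun p : TangentBundle (𝓡 n) M => ‖p.2‖) =
      fun p : TangentBundle (𝓡 n) M => Real.sqrt (inner ℝ p.2 p.2) := by
    funext p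
    rw [real_inner_self_eq_norm_sq, Real.sqrt_sq (norm_nonneg _)]
  rw [h2]
  exact h.sqrt

end norm

section radial
variable {n : ℕ} {M : Type*} [MetricSpace M] [ChartedSpace (EuclideanSpace ℝ (Fin n)) M]
  [IsManifold (𝓡 n) ∞ M]

/-- the evaluation map `(t,p) ↦ e (t p)` -/
noncomputable def Phi (e : ∀ x : M, TangentSpace (𝓡 n) x → M) (q : ℝ × TangentBundle (𝓡 n) M) : M :=
  e q.2.1 (q.1 • q.2.2)

/-- the domain on which `Phi e` is smooth -/
def Dom (O : Set (TangentBundle (𝓡 n) M)) :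
    Set (ℝ × TangentBundle (𝓡 n) M) := {q | scaleT q.1 q.2 ∈ O}

theorem isOpen_Dom {O : Set (TangentBundle (𝓡 n) M)} (hO : IsOpen O) : IsOpen (Dom O) :=
  hO.preimage (contMDiff_scaleT (n := n) (M := M)).continuous

theorem contMDiffOn_Phi {e : ∀ x : M, TangentSpace (𝓡 n) x → M} {O : Set (TangentBundle (𝓡 n) M)}
    (he : ContMDiffOn (𝓡 n).tangent (𝓡 n) ∞ (fun p : TangentBundle (𝓡 n) M => e p.1 p.2) O) :
    ContMDiffOn (𝓘(ℝ, ℝ).prod (𝓡 n).tangent) (𝓡 n) ∞ (Phi e) (Dom O) := by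
  have h0 : ContMDiffOn (𝓘(ℝ, ℝ).prod (𝓡 n).tangent) (𝓡 n).tangent ∞
      (fun q : ℝ × TangentBundle (𝓡 n) M => scaleT q.1 q.2) (Dom O) :=
    contMDiff_scaleT.contMDiffOn
  exact he.comp h0 (fun q hq => hq)



/-- the radial curve `t ↦ e (t p)` is smooth where `t p ∈ O` -/
theorem contMDiffAt_radialCurve {e : ∀ x : M, TangentSpace (𝓡 n) x → M}
    {O : Set (TangentBundle (𝓡 n) M)} (hO : IsOpen O)
    (he : ContMDiffOn (𝓡 n).tangent (𝓡 n) ∞ (fun p : TangentBundle (𝓡 n) M => e p.1 p.2) O)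
    (p : TangentBundle (𝓡 n) M) (t : ℝ) (ht : scaleT t p ∈ O) :
    ContMDiffAt 𝓘(ℝ, ℝ) (𝓡 n) ∞ (fun t : ℝ => e p.1 (t • p.2)) t := by
  have hΦ : ContMDiffAt (𝓘(ℝ, ℝ).prod (𝓡 n).tangent) (𝓡 n) ∞ (Phi e) (t, p) :=
    (contMDiffOn_Phi he (t, p) ht).contMDiffAt ((isOpen_Dom hO).mem_nhds ht)
  have hι : ContMDiffAt 𝓘(ℝ, ℝ) (𝓘(ℝ, ℝ).prod (𝓡 n).tangent) ∞
      (fun t : ℝ => ((t, p) : ℝ × TangentBundle (𝓡 n) M)) t :=
    contMDiffAt_id.prodMk contMDiffAt_const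
  exact ContMDiffAt.comp (g := Phi e) (f := fun t : ℝ => ((t, p) : ℝ × TangentBundle (𝓡 n) M))
    t hΦ hι



end radial

set_option linter.unusedSectionVars false

section near
variable {n : ℕ} {M : Type*} [MetricSpace M] [ChartedSpace (EuclideanSpace ℝ (Fin n)) M]
  [IsManifold (𝓡 n) ∞ M]
  [RiemannianBundle (fun p : M => TangentSpace (𝓡 n) p)]
  [IsContMDiffRiemannianBundle (𝓡 n) ∞ (EuclideanSpace ℝ (Fin n)) (fun p : M => TangentSpace (𝓡 n) p)]

theorem isOpen_disc (r : ℝ) : IsOpen {p : TangentBundle (𝓡 n) M | ‖p.2‖ < r} :=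
  isOpen_lt continuous_norm continuous_const



end near

end Crest.Agent.R226.GlobalEx415
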