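import Mathlib
import Crest.Agent.R226.BDefs_542
import Crest.Agent.R226.TangentTools_415
import Crest.Agent.R226.SmallFlow3_90

-- ▼ part R226/LocFlow_415
section

set_option autoImplicit false

open Set Filter
open scoped Topology

namespace Crest.Agent.R226.LocFlow415

variable {X : Type*} {ν : X → ℝ} {ρ : ℝ} {S : ℝ → X → X}

/-- A local flow `S` on `X`, defined (meaningful) at `(t,p)` when `|t| * ν p < ρ`, preserving `ν`. -/
structure LocalFlow (ν : X → ℝ) (ρ : ℝ) (S : ℝ → X → X) : Prop where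
  rho_pos : 0 < ρ
  nu_nonneg : ∀ p, 0 ≤ ν p
  zero : ∀ p, S 0 p = p
  nu : ∀ t p, |t| * ν p < ρ → ν (S t p) = ν p
  add : ∀ s t p, |s| * ν p < ρ → |t| * ν p < ρ → |s + t| * ν p < ρ → S s (S t p) = S (s + t) p

namespace LocalFlow

theorem nu_iterate (h : LocalFlow ν ρ S) {t : ℝ} {p : X} (ht : |t| * ν p < ρ) (j : ℕ) :
    ν ((S t)^[j] p) = ν p := by
  induction j with
  | zero => rfl
  | succ j ih =>
    rw [Function.iterate_succ_apply', h.nu t _ (by rw [ih]; exact ht), ih]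

theorem small_iterate (h : LocalFlow ν ρ S) {u : ℝ} {p : X} {l : ℕ} (hl : l ≠ 0)
    (hu : |u| * ν p < ρ) (j : ℕ) (hj : j ≤ l) :
    (S (u / l))^[j] p = S (j * (u / l)) p := by
  have hl' : (0 : ℝ) < l := by exact_mod_cast Nat.pos_of_ne_zero hl
  have hν := h.nu_nonneg p
  have key : ∀ i : ℕ, i ≤ l → |(i : ℝ) * (u / l)| * ν p < ρ := by
    intro i hi
    have h1 : |(i : ℝ) * (u / l)| ≤ |u| := by
      rw [abs_mul, abs_div, Nat.abs_cast, Nat.abs_cast]
      have : (i : ℝ) * (|u| / l) = |u| * (i / l) := by ring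
      rw [this]
      have h2 : (i : ℝ) / l ≤ 1 := by
        rw [div_le_one hl']; exact_mod_cast hi
      calc |u| * ((i : ℝ) / l) ≤ |u| * 1 := mul_le_mul_of_nonneg_left h2 (abs_nonneg _)
        _ = |u| := mul_one _
    exact lt_of_le_of_lt (mul_le_mul_of_nonneg_right h1 hν) hu
  induction j with
  | zero => simp [h.zero]
  | succ j ih =>
    have hj' : j ≤ l := Nat.le_of_succ_le hj
    rw [Function.iterate_succ_apply', ih hj']
    have h1 := key 1 (Nat.one_le_iff_ne_zero.2 hl)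
    rw [Nat.cast_one, one_mul] at h1
    have h2 := key (j + 1) hj
    rw [h.add (u / l) (j * (u / l)) p h1 (key j hj')]
    · push_cast; ring_nf
    · have : u / l + (j : ℝ) * (u / l) = ((j + 1 : ℕ) : ℝ) * (u / l) := by push_cast; ring
      rw [this]; exact h2

theorem iterate_div (h : LocalFlow ν ρ S) {u : ℝ} {p : X} {l : ℕ} (hl : l ≠ 0)
    (hu : |u| * ν p < ρ) : (S (u / l))^[l] p = S u p := by
  have hl' : (l : ℝ) ≠ 0 := by exact_mod_cast hl
  rw [h.small_iterate hl hu l le_rfl, mul_div_cancel₀ _ hl']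

theorem iterate_iterate_div (h : LocalFlow ν ρ S) {u : ℝ} {p : X} {l : ℕ} (hl : l ≠ 0)
    (hu : |u| * ν p < ρ) (j : ℕ) : ((S (u / l))^[l])^[j] p = (S u)^[j] p := by
  induction j with
  | zero => rfl
  | succ j ih =>
    rw [Function.iterate_succ_apply', ih, Function.iterate_succ_apply']
    exact h.iterate_div hl (by rw [h.nu_iterate hu]; exact hu)

theorem refine_iterate (h : LocalFlow ν ρ S) {t : ℝ} {p : X} {k l : ℕ} (hl : l ≠ 0)
    (hk : |t / k| * ν p < ρ) : (S (t / k / l))^[l * k] p = (S (t / k))^[k] p := by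
  rw [Function.iterate_mul]
  exact h.iterate_iterate_div hl hk k

theorem indep (h : LocalFlow ν ρ S) {t : ℝ} {p : X} {k l : ℕ} (hk0 : k ≠ 0) (hl0 : l ≠ 0)
    (hk : |t / k| * ν p < ρ) (hl : |t / l| * ν p < ρ) :
    (S (t / k))^[k] p = (S (t / l))^[l] p := by
  rw [← h.refine_iterate hl0 hk, ← h.refine_iterate hk0 hl, div_div, div_div, mul_comm l k,
    mul_comm (l : ℝ) (k : ℝ)]

end LocalFlow

/-- the number of steps used in the definition of the global flow -/
noncomputable def steps (ν : X → ℝ) (ρ : ℝ) (t : ℝ) (p : X) : ℕ := ⌊|t| * ν p / ρ⌋₊ + 1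

/-- the global flow -/
noncomputable def Fl (ν : X → ℝ) (ρ : ℝ) (S : ℝ → X → X) (t : ℝ) (p : X) : X :=
  (S (t / (steps ν ρ t p : ℕ)))^[steps ν ρ t p] p

namespace LocalFlow

theorem steps_ne_zero (t : ℝ) (p : X) : steps ν ρ t p ≠ 0 := Nat.succ_ne_zero _

theorem abs_div_lt (hρ : 0 < ρ) {t : ℝ} {a : ℝ} {k : ℕ} (hk : |t| * a / ρ < k) (hk0 : k ≠ 0) :
    |t / k| * a < ρ := by
  have hk' : (0 : ℝ) < k := by exact_mod_cast Nat.pos_of_ne_zero hk0
  rw [div_lt_iff₀ hρ] at hk
  rw [abs_div, Nat.abs_cast, div_mul_eq_mul_div, div_lt_iff₀ hk']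
  linarith

theorem steps_small (h : LocalFlow ν ρ S) (t : ℝ) (p : X) :
    |t / (steps ν ρ t p : ℕ)| * ν p < ρ := by
  apply abs_div_lt h.rho_pos _ (steps_ne_zero t p)
  unfold steps
  exact_mod_cast Nat.lt_floor_add_one (|t| * ν p / ρ)

theorem Fl_eq (h : LocalFlow ν ρ S) {t : ℝ} {p : X} {k : ℕ} (hk0 : k ≠ 0)
    (hk : |t / k| * ν p < ρ) : Fl ν ρ S t p = (S (t / k))^[k] p :=
  h.indep (steps_ne_zero t p) hk0 (h.steps_small t p) hk

theorem Fl_eq_of_small (h : LocalFlow ν ρ S) {t : ℝ} {p : X} (ht : |t| * ν p < ρ) :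
    Fl ν ρ S t p = S t p := by
  rw [h.Fl_eq (k := 1) one_ne_zero (by simpa using ht)]
  simp


theorem nu_Fl (h : LocalFlow ν ρ S) (t : ℝ) (p : X) : ν (Fl ν ρ S t p) = ν p :=
  h.nu_iterate (h.steps_small t p) _

theorem commute_iterate (h : LocalFlow ν ρ S) {a b : ℝ} {p : X} (hab : (|a| + |b|) * ν p < ρ)
    (j : ℕ) : S a ((S b)^[j] p) = (S b)^[j] (S a p) := by
  have hν := h.nu_nonneg p
  have ha : |a| * ν p < ρ := lt_of_le_of_lt
    (mul_le_mul_of_nonneg_right (by linarith [abs_nonneg b]) hν) hab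
  have hb : |b| * ν p < ρ := lt_of_le_of_lt
    (mul_le_mul_of_nonneg_right (by linarith [abs_nonneg a]) hν) hab
  have hs : |a + b| * ν p < ρ := lt_of_le_of_lt
    (mul_le_mul_of_nonneg_right (abs_add_le a b) hν) hab
  have comm : ∀ q, ν q = ν p → S a (S b q) = S b (S a q) := by
    intro q hq
    rw [h.add a b q (by rw [hq]; exact ha) (by rw [hq]; exact hb) (by rw [hq]; exact hs),
      h.add b a q (by rw [hq]; exact hb) (by rw [hq]; exact ha)
        (by rw [hq, add_comm]; exact hs), add_comm]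
  induction j with
  | zero => rfl
  | succ j ih =>
    rw [Function.iterate_succ_apply', comm _ (h.nu_iterate hb j), ih,
      ← Function.iterate_succ_apply' (S b) j]

theorem add_iterate (h : LocalFlow ν ρ S) {a b : ℝ} {p : X} (hab : (|a| + |b|) * ν p < ρ)
    (j : ℕ) : (S (a + b))^[j] p = (S a)^[j] ((S b)^[j] p) := by
  have hν := h.nu_nonneg p
  have ha : |a| * ν p < ρ := lt_of_le_of_lt
    (mul_le_mul_of_nonneg_right (by linarith [abs_nonneg b]) hν) hab
  have hb : |b| * ν p < ρ := lt_of_le_of_lt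
    (mul_le_mul_of_nonneg_right (by linarith [abs_nonneg a]) hν) hab
  have hs : |a + b| * ν p < ρ := lt_of_le_of_lt
    (mul_le_mul_of_nonneg_right (abs_add_le a b) hν) hab
  induction j with
  | zero => rfl
  | succ j ih =>
    rw [Function.iterate_succ_apply', ih]
    have hbj : ν ((S b)^[j] p) = ν p := h.nu_iterate hb j
    have haj : ν ((S a)^[j] ((S b)^[j] p)) = ν p := by
      rw [h.nu_iterate (by rw [hbj]; exact ha) j, hbj]
    rw [← h.add a b _ (by rw [haj]; exact ha) (by rw [haj]; exact hb) (by rw [haj]; exact hs)]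
    rw [h.commute_iterate (a := b) (b := a) (by rw [hbj, add_comm]; exact hab) j]
    rw [← Function.iterate_succ_apply' (S b) j, ← Function.iterate_succ_apply' (S a) j]

theorem exists_nat_small (h : LocalFlow ν ρ S) (C : ℝ) (hC : 0 ≤ C) :
    ∃ k : ℕ, k ≠ 0 ∧ ∀ t a : ℝ, 0 ≤ a → |t| * a ≤ C → |t / k| * a < ρ := by
  refine ⟨⌊C / ρ⌋₊ + 1, Nat.succ_ne_zero _, fun t a _ hta => ?_⟩
  apply abs_div_lt h.rho_pos _ (Nat.succ_ne_zero _)
  calc |t| * a / ρ ≤ C / ρ := by
        apply div_le_div_of_nonneg_right hta h.rho_pos.le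
    _ < _ := by exact_mod_cast Nat.lt_floor_add_one (C / ρ)

theorem Fl_add (h : LocalFlow ν ρ S) (s t : ℝ) (p : X) :
    Fl ν ρ S (s + t) p = Fl ν ρ S s (Fl ν ρ S t p) := by
  have hν := h.nu_nonneg p
  obtain ⟨k, hk0, hk⟩ := h.exists_nat_small ((|s| + |t|) * ν p)
    (mul_nonneg (by positivity) hν)
  have hk' : (0 : ℝ) < k := by exact_mod_cast Nat.pos_of_ne_zero hk0
  have h1 : (|s / k| + |t / k|) * ν p < ρ := by
    have := hk (|s| + |t|) (ν p) hν (by rw [abs_of_nonneg (by positivity)])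
    rw [abs_of_nonneg (by positivity)] at this
    rw [abs_div, abs_div, Nat.abs_cast, ← add_div]
    exact this
  have hs : |s / k| * ν p < ρ := hk s _ hν
    (mul_le_mul_of_nonneg_right (by linarith [abs_nonneg t]) hν)
  have ht : |t / k| * ν p < ρ := hk t _ hν
    (mul_le_mul_of_nonneg_right (by linarith [abs_nonneg s]) hν)
  have hst : |(s + t) / k| * ν p < ρ := hk (s + t) _ hν
    (mul_le_mul_of_nonneg_right (abs_add_le s t) hν)
  rw [h.Fl_eq hk0 hst, h.Fl_eq (t := t) hk0 ht]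
  rw [h.Fl_eq (t := s) hk0 (by rw [h.nu_iterate ht]; exact hs), add_div]
  exact h.add_iterate h1 k

end LocalFlow

end Crest.Agent.R226.LocFlow415
end

-- ▼ part R226/GlobalEx_415
section

set_option autoImplicit false
set_option linter.unusedSectionVars false

open MeasureTheory Bundle Set Filter
open scoped Manifold ContDiff Bundle ENNReal Topology
open Crest.GeometryTopology.MTW

namespace Crest.Agent.R226.GlobalEx415

open Crest.Agent.R226.LocFlow415

variable {n : ℕ} {M : Type*} [MetricSpace M] [ChartedSpace (EuclideanSpace ℝ (Fin n)) M]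
  [IsManifold (𝓡 n) ∞ M]
  [RiemannianBundle (fun p : M => TangentSpace (𝓡 n) p)]
  [IsContMDiffRiemannianBundle (𝓡 n) ∞ (EuclideanSpace ℝ (Fin n)) (fun p : M => TangentSpace (𝓡 n) p)]

/-- the norm on the tangent bundle -/
noncomputable def nuT (p : TangentBundle (𝓡 n) M) : ℝ := ‖p.2‖

theorem localFlow_of_smallFlow {N : NearDiag n M} (h : SmallFlow N) :
    LocalFlow (nuT (n := n) (M := M)) N.r₀ (radial N.e) where
  rho_pos := N.r₀_pos
  nu_nonneg := fun p => norm_nonneg p.2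
  zero := h.zero
  nu := fun t p ht => h.norm t p ht
  add := by
    intro s t p hs ht hst
    rw [h.add t s p ht hs (by rw [add_comm]; exact hst), add_comm]

section B2
variable {N : NearDiag n M}

/-- the global flow -/
noncomputable def Flo (N : NearDiag n M) (t : ℝ) (p : TangentBundle (𝓡 n) M) :
    TangentBundle (𝓡 n) M := Fl nuT N.r₀ (radial N.e) t p

theorem nuT_scaleT (a : ℝ) (p : TangentBundle (𝓡 n) M) : nuT (scaleT a p) = |a| * nuT p := by
  unfold nuT scaleT
  rw [norm_smul, Real.norm_eq_abs]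

theorem Flo_scale (h : SmallFlow N) (a t : ℝ) (p : TangentBundle (𝓡 n) M) :
    Flo N t (scaleT a p) = scaleT a (Flo N (t * a) p) := by
  have hF := localFlow_of_smallFlow h
  obtain ⟨k, hk0, hk⟩ := hF.exists_nat_small (|t| * (|a| * nuT p))
    (mul_nonneg (abs_nonneg _) (mul_nonneg (abs_nonneg _) (norm_nonneg _)))
  have h1 : |t / k| * nuT (scaleT a p) < N.r₀ := by
    rw [nuT_scaleT]
    exact hk t _ (mul_nonneg (abs_nonneg _) (norm_nonneg _)) le_rfl
  have h2 : |t * a / k| * nuT p < N.r₀ := by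
    have := hk (t * a) (nuT p) (norm_nonneg _) (by rw [abs_mul]; linarith)
    exact this
  unfold Flo
  rw [hF.Fl_eq hk0 h1, hF.Fl_eq hk0 h2]
  have key : ∀ j : ℕ, (radial N.e (t / k))^[j] (scaleT a p) =
      scaleT a ((radial N.e (t * a / k))^[j] p) := by
    intro j
    induction j with
    | zero => rfl
    | succ j ih =>
      rw [Function.iterate_succ_apply', ih, Function.iterate_succ_apply', h.scale]
      congr 2
      ring
  exact key k

theorem Flo_smooth (h : SmallFlow N) :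
    ContMDiff (𝓘(ℝ, ℝ).prod (𝓡 n).tangent) (𝓡 n).tangent ∞
      (fun q : ℝ × TangentBundle (𝓡 n) M => Flo N q.1 q.2) := by
  have hF := localFlow_of_smallFlow h
  intro q₀
  set C : ℝ := |q₀.1| * nuT q₀.2 + 1 with hC
  have hC0 : 0 ≤ C := by
    have : 0 ≤ |q₀.1| * nuT q₀.2 := mul_nonneg (abs_nonneg _) (norm_nonneg _)
    linarith
  obtain ⟨k, hk0, hk⟩ := hF.exists_nat_small C hC0
  set W : Set (ℝ × TangentBundle (𝓡 n) M) := {q | |q.1| * ‖q.2.2‖ < C} with hW
  have hWo : IsOpen W := by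
    have hc : Continuous (fun q : ℝ × TangentBundle (𝓡 n) M => |q.1| * ‖q.2.2‖) :=
      (continuous_abs.comp continuous_fst).mul (continuous_norm.comp continuous_snd)
    exact isOpen_lt hc continuous_const
  have hq₀ : q₀ ∈ W := by
    show |q₀.1| * ‖q₀.2.2‖ < C
    rw [hC]; unfold nuT; linarith
  have hsm : ∀ q ∈ W, |q.1 / k| * nuT q.2 < N.r₀ := fun q hq =>
    hk q.1 (nuT q.2) (norm_nonneg _) (le_of_lt hq)
  have hit : ∀ j : ℕ, ContMDiffOn (𝓘(ℝ, ℝ).prod (𝓡 n).tangent) (𝓡 n).tangent ∞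
      (fun q : ℝ × TangentBundle (𝓡 n) M => (radial N.e (q.1 / k))^[j] q.2) W := by
    intro j
    induction j with
    | zero => exact contMDiff_snd.contMDiffOn
    | succ j ih =>
      have hdiv : ContMDiffOn (𝓘(ℝ, ℝ).prod (𝓡 n).tangent) 𝓘(ℝ, ℝ) ∞
          (fun q : ℝ × TangentBundle (𝓡 n) M => q.1 / k) W := by
        have h1 : ContMDiff 𝓘(ℝ, ℝ) 𝓘(ℝ, ℝ) ∞ (fun t : ℝ => t / k) :=
          (contDiff_id.div_const _).contMDiff
        exact (h1.comp contMDiff_fst).contMDiffOn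
      have h2 := hdiv.prodMk ih
      have h3 : ContMDiffOn (𝓘(ℝ, ℝ).prod (𝓡 n).tangent) (𝓡 n).tangent ∞
          ((fun q : ℝ × TangentBundle (𝓡 n) M => radial N.e q.1 q.2) ∘
            fun q : ℝ × TangentBundle (𝓡 n) M => (q.1 / (k : ℝ), (radial N.e (q.1 / k))^[j] q.2)) W := by
        refine h.smooth.comp h2 ?_
        intro q hq
        show |q.1 / k| * ‖((radial N.e (q.1 / k))^[j] q.2).2‖ < N.r₀
        have h4 := hF.nu_iterate (hsm q hq) j
        have h5 : ‖((radial N.e (q.1 / k))^[j] q.2).2‖ = nuT q.2 := h4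
        rw [h5]
        exact hsm q hq
      refine h3.congr ?_
      intro q _
      rw [Function.iterate_succ_apply']
      rfl
  have hcongr : ∀ q ∈ W, Flo N q.1 q.2 = (radial N.e (q.1 / k))^[k] q.2 := fun q hq =>
    hF.Fl_eq hk0 (hsm q hq)
  exact ((hit k).congr hcongr q₀ hq₀).contMDiffAt (hWo.mem_nhds hq₀)

/-- B2 : the global flow. -/
noncomputable def globalFlow (h : SmallFlow N) : GlobalFlow N where
  Fl := Flo N
  small := fun t p ht => (localFlow_of_smallFlow h).Fl_eq_of_small ht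
  norm := fun t p => (localFlow_of_smallFlow h).nu_Fl t p
  add := fun t s p => by
    show Fl _ _ _ _ _ = Fl _ _ _ _ _
    rw [add_comm]
    exact ((localFlow_of_smallFlow h).Fl_add s t p).symm
  scale := fun a t p => Flo_scale h a t p
  smooth := Flo_smooth h

end B2

section B3
variable {N : NearDiag n M}

theorem ex_smul (F : GlobalFlow N) (t : ℝ) (p : TangentBundle (𝓡 n) M) :
    F.ex p.1 (t • p.2) = (F.Fl t p).1 := by
  have h := F.scale t 1 p
  rw [one_mul] at h
  have h2 : F.ex p.1 (t • p.2) = (F.Fl 1 (scaleT t p)).1 := rfl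
  rw [h2, h]
  rfl

/-- the radial lift of the global exponential map is the flow -/
theorem radial_ex (h : SmallFlow N) (F : GlobalFlow N) (t : ℝ) (p : TangentBundle (𝓡 n) M) :
    radial F.ex t p = F.Fl t p := by
  set q := F.Fl t p with hq
  have hopen : ∀ᶠ s in 𝓝 t, |s - t| * ‖q.2‖ < N.r₀ := by
    have hc : Continuous (fun s : ℝ => |s - t| * ‖q.2‖) := by fun_prop
    have h0 : |t - t| * ‖q.2‖ < N.r₀ := by simpa using N.r₀_pos
    exact hc.continuousAt.eventually (gt_mem_nhds h0) |>.mono fun s hs => hs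
  have hev : (fun s : ℝ => F.ex p.1 (s • p.2)) =ᶠ[𝓝 t] fun s : ℝ => N.e q.1 ((-t + s) • q.2) := by
    filter_upwards [hopen] with s hs
    have h1 : F.Fl s p = F.Fl (s - t) q := by
      rw [hq, F.add]; congr 1; ring
    rw [ex_smul, h1, F.small _ _ hs]
    show N.e q.1 ((s - t) • q.2) = _
    congr 2
    ring
  have h1 : radial F.ex t p = curveT n (fun s : ℝ => F.ex p.1 (s • p.2)) t := rfl
  rw [h1, curveT_congr hev]
  have hz : (-t + t : ℝ) = 0 := by ring
  have hd : MDifferentiableAt 𝓘(ℝ, ℝ) (𝓡 n) (fun s : ℝ => N.e q.1 (s • q.2)) (-t + t) := by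
    rw [hz]
    refine (contMDiffAt_radialCurve (isOpen_disc N.r₀) N.smooth q 0 ?_).mdifferentiableAt (by simp)
    show ‖(0 : ℝ) • q.2‖ < N.r₀
    rw [zero_smul, norm_zero]; exact N.r₀_pos
  have h2 := curveT_comp_add (fun s : ℝ => N.e q.1 (s • q.2)) (-t) t hd
  rw [h2, hz]
  exact h.zero q

theorem ex_eq_e (F : GlobalFlow N) (x : M) (v : TangentSpace (𝓡 n) x) (hv : ‖v‖ < N.r₀) :
    F.ex x v = N.e x v := by
  have h1 : F.Fl 1 ⟨x, v⟩ = radial N.e 1 ⟨x, v⟩ := F.small 1 ⟨x, v⟩ (by simpa using hv)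
  show (F.Fl 1 ⟨x, v⟩).1 = _
  rw [h1]
  show N.e x ((1 : ℝ) • v) = N.e x v
  rw [one_smul]

theorem ex_dist_eq (h : SmallFlow N) (F : GlobalFlow N) (x : M) (v : TangentSpace (𝓡 n) x)
    (s t : ℝ) (hst : |s - t| * ‖v‖ < N.r₀) :
    dist (F.ex x (s • v)) (F.ex x (t • v)) = |s - t| * ‖v‖ := by
  have h1 : F.ex x (s • v) = (F.Fl s ⟨x, v⟩).1 := ex_smul F s ⟨x, v⟩
  have h2 : F.ex x (t • v) = (F.Fl t ⟨x, v⟩).1 := ex_smul F t ⟨x, v⟩
  set q := F.Fl t ⟨x, v⟩ with hq
  have hn : ‖q.2‖ = ‖v‖ := F.norm t ⟨x, v⟩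
  have h3 : F.Fl s ⟨x, v⟩ = F.Fl (s - t) q := by
    rw [hq, F.add]; congr 1; ring
  have h4 : F.Fl (s - t) q = radial N.e (s - t) q := F.small _ _ (by rw [hn]; exact hst)
  rw [h1, h2, h3, h4]
  show dist (N.e q.1 ((s - t) • q.2)) q.1 = _
  have hw : ‖(s - t) • q.2‖ < N.r₀ := by
    rw [norm_smul, Real.norm_eq_abs, hn]; exact hst
  have h5 := N.dist_eq q.1 ((s - t) • q.2) hw 1 0 (by simp) (by simp)
  rw [one_smul, zero_smul, N.e_zero] at h5
  rw [h5, norm_smul, Real.norm_eq_abs, hn]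
  simp

theorem ex_dist_le (h : SmallFlow N) (F : GlobalFlow N) (x : M) (v : TangentSpace (𝓡 n) x)
    (s t : ℝ) : dist (F.ex x (s • v)) (F.ex x (t • v)) ≤ |s - t| * ‖v‖ := by
  obtain ⟨k, hk0, hk⟩ := (localFlow_of_smallFlow h).exists_nat_small (|s - t| * ‖v‖)
    (mul_nonneg (abs_nonneg _) (norm_nonneg _))
  have hk1 := hk (s - t) ‖v‖ (norm_nonneg _) le_rfl
  have hk' : (k : ℝ) ≠ 0 := by exact_mod_cast hk0
  have key : ∀ j : ℕ, dist (F.ex x ((t + j * ((s - t) / k)) • v)) (F.ex x (t • v)) ≤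
      j * (|(s - t) / k| * ‖v‖) := by
    intro j
    induction j with
    | zero => simp
    | succ j ih =>
      have h1 : dist (F.ex x ((t + (j + 1 : ℕ) * ((s - t) / k)) • v))
          (F.ex x ((t + j * ((s - t) / k)) • v)) = |(s - t) / k| * ‖v‖ := by
        rw [ex_dist_eq h F x v]
        · congr 2; push_cast; ring
        · have : (t + (j + 1 : ℕ) * ((s - t) / k)) - (t + j * ((s - t) / k)) = (s - t) / k := by
            push_cast; ring
          rw [this]; exact hk1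
      calc _ ≤ _ + _ := dist_triangle _ (F.ex x ((t + j * ((s - t) / k)) • v)) _
        _ ≤ |(s - t) / k| * ‖v‖ + j * (|(s - t) / k| * ‖v‖) := add_le_add h1.le ih
        _ = _ := by push_cast; ring
  have h2 := key k
  have h3 : t + k * ((s - t) / k) = s := by field_simp; ring
  rw [h3] at h2
  refine h2.trans_eq ?_
  rw [abs_div, Nat.abs_cast]
  field_simp

theorem ex_hasDerivAt_cost (F : GlobalFlow N) (x : M) (v ξ : TangentSpace (𝓡 n) x)
    (hv : ‖v‖ < N.r₀) :
    HasDerivAt (fun t : ℝ => halfDistSq (F.ex x (t • ξ)) (F.ex x v)) (-inner ℝ v ξ) 0 := by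
  have hc : ∃ c : ℝ, 0 < c ∧ ‖c • ξ‖ < N.r₀ := by
    refine ⟨N.r₀ / (‖ξ‖ + 1) / 2, by have := N.r₀_pos; positivity, ?_⟩
    have h0 := N.r₀_pos
    rw [norm_smul, Real.norm_eq_abs, abs_of_nonneg (by positivity)]
    have h1 : N.r₀ / (‖ξ‖ + 1) / 2 * ‖ξ‖ = N.r₀ * (‖ξ‖ / (‖ξ‖ + 1)) / 2 := by ring
    rw [h1]
    have h2 : ‖ξ‖ / (‖ξ‖ + 1) ≤ 1 := by
      rw [div_le_one (by positivity)]; linarith
    nlinarith
  obtain ⟨c, hc0, hc⟩ := hc
  have h1 := N.hasDerivAt_cost x v (c • ξ) hv hc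
  have h2 : HasDerivAt (fun t : ℝ => t / c) (1 / c) (0 : ℝ) := (hasDerivAt_id (0 : ℝ)).div_const c
  have h1' : HasDerivAt (fun t : ℝ => halfDistSq (N.e x (t • (c • ξ))) (N.e x v))
      (-inner ℝ v (c • ξ)) ((0 : ℝ) / c) := by rw [zero_div]; exact h1
  have h3 := HasDerivAt.comp (0 : ℝ) h1' h2
  have h4 : -inner ℝ v (c • ξ) * (1 / c) = -inner ℝ v ξ := by
    rw [inner_smul_right]; field_simp
  rw [h4] at h3
  refine h3.congr_of_eventuallyEq ?_
  have hopen : ∀ᶠ t in 𝓝 (0 : ℝ), |t| * ‖ξ‖ < N.r₀ := by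
    have hcont : Continuous (fun t : ℝ => |t| * ‖ξ‖) := by fun_prop
    have h0 : |(0 : ℝ)| * ‖ξ‖ < N.r₀ := by simpa using N.r₀_pos
    exact hcont.continuousAt.eventually (gt_mem_nhds h0) |>.mono fun s hs => hs
  filter_upwards [hopen] with t ht
  have h5 : F.ex x (t • ξ) = N.e x (t • ξ) := ex_eq_e F x _ (by
    rw [norm_smul, Real.norm_eq_abs]; exact ht)
  have h6 : F.ex x v = N.e x v := ex_eq_e F x v hv
  rw [h5, h6]
  show _ = halfDistSq (N.e x ((t / c) • (c • ξ))) (N.e x v)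
  rw [smul_smul, div_mul_cancel₀ _ hc0.ne']

/-- B3 : the core geometry from a global flow. -/
noncomputable def geoCore (h : SmallFlow N) (F : GlobalFlow N) : GeoCore n M where
  ex := F.ex
  smooth := by
    have h1 : ContMDiff (𝓡 n).tangent (𝓘(ℝ, ℝ).prod (𝓡 n).tangent) ∞
        (fun p : TangentBundle (𝓡 n) M => ((1 : ℝ), p)) := contMDiff_const.prodMk contMDiff_id
    exact (contMDiff_proj (TangentSpace (𝓡 n) (M := M))).comp (F.smooth.comp h1)
  ex_zero := fun x => by
    rw [ex_eq_e F x 0 (by rw [norm_zero]; exact N.r₀_pos), N.e_zero]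
  vel_zero := fun x v => by
    have h1 := radial_ex h F 0 ⟨x, v⟩
    have h2 : F.Fl 0 ⟨x, v⟩ = ⟨x, v⟩ := by
      rw [F.small 0 ⟨x, v⟩ (by simpa using N.r₀_pos)]; exact h.zero _
    rw [h2] at h1
    have h3 : ∀ (a b : TangentBundle (𝓡 n) M), a = b → (a.2 : EuclideanSpace ℝ (Fin n)) = b.2 := by
      intro a b hab; rw [hab]
    exact h3 _ _ h1
  norm_vel := fun x v t => by
    have h1 := radial_ex h F t ⟨x, v⟩
    have h2 : ‖(radial F.ex t ⟨x, v⟩).2‖ = ‖v‖ := by rw [h1]; exact F.norm t ⟨x, v⟩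
    exact h2
  flow := fun x v t s => by
    have h1 := radial_ex h F t ⟨x, v⟩
    have h2 : F.ex (F.ex x (t • v)) (s • curveVel n (fun t : ℝ => F.ex x (t • v)) t) =
        F.ex (radial F.ex t ⟨x, v⟩).1 (s • (radial F.ex t ⟨x, v⟩).2) := rfl
    rw [h2, ex_smul, h1, F.add]
    exact (ex_smul F (t + s) ⟨x, v⟩).symm
  dist_le := ex_dist_le h F
  r₀ := N.r₀
  r₀_pos := N.r₀_pos
  dist_eq := ex_dist_eq h F
  inj := fun x v w hv hw hvw => by
    rw [ex_eq_e F x v hv, ex_eq_e F x w hw] at hvw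
    exact N.inj x v w hv hw hvw
  smooth_cost := N.smooth_cost
  hasDerivAt_cost := ex_hasDerivAt_cost F
  surj_near := fun x y hxy => by
    obtain ⟨v, hv, hy⟩ := N.surj x y hxy
    exact ⟨v, hv, by rw [ex_eq_e F x v (by rw [hv]; exact hxy), hy]⟩
  smooth_radial := by
    have h1 : (fun q : ℝ × TangentBundle (𝓡 n) M => radial F.ex q.1 q.2) =
        fun q : ℝ × TangentBundle (𝓡 n) M => F.Fl q.1 q.2 := by
      funext q; exact radial_ex h F q.1 q.2
    rw [h1]
    exact F.smooth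

/-- B2 + B3 -/
theorem nonempty_geoCore {N : NearDiag n M} (h : SmallFlow N) : Nonempty (GeoCore n M) :=
  ⟨geoCore h (globalFlow h)⟩

end B3

end Crest.Agent.R226.GlobalEx415
end

-- ▼ part R226/HopfRinow_114
section

set_option autoImplicit false

open MeasureTheory Bundle Set Filter Manifold
open scoped Manifold ContDiff Bundle ENNReal Topology
open Crest.GeometryTopology.MTW

namespace Crest.Agent.R226.HopfRinow114

variable {n : ℕ} {M : Type*} [MetricSpace M] [ChartedSpace (EuclideanSpace ℝ (Fin n)) M]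
  [IsManifold (𝓡 n) ∞ M]
  [RiemannianBundle (fun p : M => TangentSpace (𝓡 n) p)]

/-! ### (i) intermediate points -/

omit [IsManifold (𝓡 n) ∞ M] in
variable (n) in
theorem exists_approx_mid [IsRiemannianManifold (𝓡 n) M] (x y : M) (t : ℝ) (ht0 : 0 ≤ t)
    (ht1 : t ≤ 1) (ε : ℝ) (hε : 0 < ε) :
    ∃ z, dist x z = t * dist x y ∧ dist z y ≤ (1 - t) * dist x y + ε := by
  have h0 : riemannianEDist (𝓡 n) x y < ENNReal.ofReal (dist x y + ε) := by
    rw [← IsRiemannianManifold.out (I := 𝓡 n) x y, edist_dist]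
    exact (ENNReal.ofReal_lt_ofReal_iff (by positivity)).2 (by linarith)
  obtain ⟨γ, h0x, h1y, hC, hlen⟩ := exists_lt_of_riemannianEDist_lt h0
  have hcont : ContinuousOn (fun s => dist x (γ s)) (Icc 0 1) :=
    (continuous_const.dist continuous_id).comp_continuousOn hC.continuousOn
  have hmem : t * dist x y ∈ Icc ((fun s => dist x (γ s)) 0) ((fun s => dist x (γ s)) 1) := by
    simp only [h0x, h1y, dist_self]
    exact ⟨mul_nonneg ht0 dist_nonneg, mul_le_of_le_one_left dist_nonneg ht1⟩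
  obtain ⟨s, hs, hst⟩ := intermediate_value_Icc zero_le_one hcont hmem
  refine ⟨γ s, hst, ?_⟩
  have e1 : edist x (γ s) ≤ pathELength (𝓡 n) γ 0 s := by
    rw [IsRiemannianManifold.out (I := 𝓡 n) x (γ s)]
    exact riemannianEDist_le_pathELength (hC.mono (Icc_subset_Icc le_rfl hs.2)) h0x rfl hs.1
  have e2 : edist (γ s) y ≤ pathELength (𝓡 n) γ s 1 := by
    rw [IsRiemannianManifold.out (I := 𝓡 n) (γ s) y]
    exact riemannianEDist_le_pathELength (hC.mono (Icc_subset_Icc hs.1 le_rfl)) rfl h1y hs.2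
  have e3 : edist x (γ s) + edist (γ s) y < ENNReal.ofReal (dist x y + ε) := by
    calc edist x (γ s) + edist (γ s) y ≤ pathELength (𝓡 n) γ 0 s + pathELength (𝓡 n) γ s 1 :=
          add_le_add e1 e2
      _ = pathELength (𝓡 n) γ 0 1 := pathELength_add hs.1 hs.2
      _ < _ := hlen
  rw [edist_dist, edist_dist, ← ENNReal.ofReal_add dist_nonneg dist_nonneg,
    ENNReal.ofReal_lt_ofReal_iff (by positivity)] at e3
  have e4 : dist x (γ s) = t * dist x y := hst
  linarith

omit [IsManifold (𝓡 n) ∞ M] in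
variable (n) in
/-- exact intermediate points -/
theorem exists_mid [IsRiemannianManifold (𝓡 n) M] [CompactSpace M] (x y : M) (t : ℝ)
    (ht0 : 0 ≤ t) (ht1 : t ≤ 1) :
    ∃ z, dist x z = t * dist x y ∧ dist z y = (1 - t) * dist x y := by
  have hK : IsCompact {z : M | dist x z = t * dist x y} :=
    (isClosed_eq (continuous_const.dist continuous_id) continuous_const).isCompact
  have hne : {z : M | dist x z = t * dist x y}.Nonempty := by
    obtain ⟨z, hz, -⟩ := exists_approx_mid n x y t ht0 ht1 1 one_pos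
    exact ⟨z, hz⟩
  obtain ⟨z, hz, hmin⟩ := hK.exists_isMinOn hne
    (f := fun z => dist z y) (continuous_id.dist continuous_const).continuousOn
  refine ⟨z, hz, le_antisymm ?_ ?_⟩
  · refine le_of_forall_pos_le_add fun ε hε => ?_
    obtain ⟨w, hw, hw2⟩ := exists_approx_mid n x y t ht0 ht1 ε hε
    exact (hmin hw).trans hw2
  · have h1 := dist_triangle x z y
    have h2 : dist x z = t * dist x y := hz
    linarith

omit [IsManifold (𝓡 n) ∞ M] in
variable (n) (M) in
/-- task B4i -/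
theorem hasBetween [IsRiemannianManifold (𝓡 n) M] [CompactSpace M] : HasBetween M :=
  fun x y t ht => exists_mid n x y t ht.1 ht.2

/-! ### (ii) unique intermediate points near the diagonal -/

theorem halfDistSq_le_split (x y z : M) (s : ℝ) (hs0 : 0 < s) (hs1 : s < 1) :
    halfDistSq x y ≤ halfDistSq x z / s + halfDistSq z y / (1 - s) := by
  unfold halfDistSq
  have h := dist_triangle x z y
  have h0 : 0 ≤ dist x y := dist_nonneg
  have h1s : 0 < 1 - s := by linarith
  have h2 : dist x y ^ 2 ≤ (dist x z + dist z y) ^ 2 := by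
    exact pow_le_pow_left₀ h0 h 2
  have h3 : (dist x z + dist z y) ^ 2 ≤ dist x z ^ 2 / s + dist z y ^ 2 / (1 - s) := by
    rw [div_add_div _ _ hs0.ne' h1s.ne', le_div_iff₀ (by positivity)]
    nlinarith [sq_nonneg ((1 - s) * dist x z - s * dist z y)]
  calc dist x y ^ 2 / 2 ≤ (dist x z ^ 2 / s + dist z y ^ 2 / (1 - s)) / 2 := by linarith
    _ = dist x z ^ 2 / 2 / s + dist z y ^ 2 / 2 / (1 - s) := by ring

theorem halfDistSq_split_eq (x y z : M) (s : ℝ) (_hs0 : 0 < s) (hs1 : s < 1)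
    (h1 : dist x z = s * dist x y) (h2 : dist z y = (1 - s) * dist x y) :
    halfDistSq x y = halfDistSq x z / s + halfDistSq z y / (1 - s) := by
  unfold halfDistSq
  have h1s : 1 - s ≠ 0 := by linarith
  rw [h1, h2]
  field_simp
  ring

section near

variable {r₀ : ℝ} {ex : ∀ x : M, TangentSpace (𝓡 n) x → M}

omit [IsManifold (𝓡 n) ∞ M] in
/-- Unique intermediate points near the diagonal (gradients at `x` of `c(·,y)` and `c(·,m)`). -/
theorem mid_unique
    (h0 : ∀ x, ex x 0 = x)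
    (surj_near : ∀ x y, dist x y < r₀ → ∃ v : TangentSpace (𝓡 n) x, ‖v‖ = dist x y ∧ ex x v = y)
    (hd : ∀ x, ∀ v ξ : TangentSpace (𝓡 n) x, ‖v‖ < r₀ → ‖ξ‖ < r₀ →
      HasDerivAt (fun t : ℝ => halfDistSq (ex x (t • ξ)) (ex x v)) (-inner ℝ v ξ) 0)
    (x y m : M) (s : ℝ) (hs0 : 0 < s) (hs1 : s < 1) (hxy : dist x y < r₀)
    (h1 : dist x m = s * dist x y) (h2 : dist m y = (1 - s) * dist x y)
    (v : TangentSpace (𝓡 n) x) (hv : ex x v = y) (hvn : ‖v‖ < r₀) :
    m = ex x (s • v) := by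
  have h1s : 0 < 1 - s := by linarith
  have hxm : dist x m < r₀ := by
    rw [h1]
    exact (mul_le_of_le_one_left dist_nonneg hs1.le).trans_lt hxy
  obtain ⟨w, hwn, hw⟩ := surj_near x m hxm
  have hr : 0 < r₀ := dist_nonneg.trans_lt hxy
  -- gradients
  have key : ∀ ξ : TangentSpace (𝓡 n) x, ‖ξ‖ < r₀ → inner ℝ v ξ = inner ℝ w ξ / s := by
    intro ξ hξ
    have d1 := hd x v ξ hvn hξ
    have d2 := hd x w ξ (hwn ▸ hxm) hξ
    rw [hv] at d1
    rw [hw] at d2
    set F : ℝ → ℝ := fun t => halfDistSq (ex x (t • ξ)) m / s + halfDistSq m y / (1 - s)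
      - halfDistSq (ex x (t • ξ)) y with hF
    have d3 : HasDerivAt F (-inner ℝ w ξ / s - -inner ℝ v ξ) 0 :=
      ((d2.div_const s).add_const _).sub d1
    have hF0 : F 0 = 0 := by
      simp only [hF, zero_smul, h0]
      rw [halfDistSq_split_eq x y m s hs0 hs1 h1 h2]
      ring
    have hmin : IsLocalMin F 0 := by
      refine Filter.Eventually.of_forall fun t => ?_
      rw [hF0]
      simp only [hF]
      have := halfDistSq_le_split (ex x (t • ξ)) y m s hs0 hs1
      linarith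
    have := hmin.hasDerivAt_eq_zero d3
    have e : -inner ℝ w ξ / s = -(inner ℝ w ξ / s) := by ring
    rw [e] at this
    linarith
  have key2 : ∀ ξ : TangentSpace (𝓡 n) x, inner ℝ (s • v - w) ξ = 0 := by
    intro ξ
    obtain ⟨c, hc0, hc⟩ : ∃ c : ℝ, 0 < c ∧ ‖c • ξ‖ < r₀ := by
      refine ⟨r₀ / (2 * (‖ξ‖ + 1)), by positivity, ?_⟩
      rw [norm_smul, Real.norm_of_nonneg (by positivity)]
      have : 0 ≤ ‖ξ‖ := norm_nonneg _
      rw [div_mul_eq_mul_div, div_lt_iff₀ (by positivity)]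
      nlinarith
    have h := key (c • ξ) hc
    rw [inner_smul_right, inner_smul_right] at h
    have h' : inner ℝ v ξ = inner ℝ w ξ / s := by
      have : c * (inner ℝ v ξ - inner ℝ w ξ / s) = 0 := by
        rw [mul_sub, h]; ring
      rcases mul_eq_zero.1 this with h'' | h''
      · exact absurd h'' hc0.ne'
      · linarith
    rw [inner_sub_left, inner_smul_left, h']
    simp
    field_simp
    ring
  have h3 : s • v - w = 0 := inner_self_eq_zero.1 (key2 _)
  rw [← hw, ← sub_eq_zero.1 h3]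

end near


section core

variable (P : GeoCore n M)

include P in
/-- `mid_unique` for `GeoCore`. -/
theorem geoCore_mid_unique (x y m : M) (s : ℝ) (hs0 : 0 < s) (hs1 : s < 1)
    (hxy : dist x y < P.r₀) (h1 : dist x m = s * dist x y) (h2 : dist m y = (1 - s) * dist x y)
    (v : TangentSpace (𝓡 n) x) (hv : P.ex x v = y) (hvn : ‖v‖ < P.r₀) :
    m = P.ex x (s • v) :=
  mid_unique P.ex_zero P.surj_near (fun x v ξ hv _ => P.hasDerivAt_cost x v ξ hv)
    x y m s hs0 hs1 hxy h1 h2 v hv hvn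

/-- **Extension step**: if `p = ex x ((a+b) v)`, `p⁻ = ex x (a v)` and `q` satisfies
`dist p q = b‖v‖`, `dist p⁻ q = 2b‖v‖ < r₀`, then `q = ex x ((a+2b) v)`. -/
theorem geoCore_extend (x : M) (v : TangentSpace (𝓡 n) x) (a b : ℝ) (hb : 0 < b)
    (hsmall : 2 * b * ‖v‖ < P.r₀) (q : M)
    (h1 : dist (P.ex x ((a + b) • v)) q = b * ‖v‖)
    (h2 : dist (P.ex x (a • v)) q = 2 * b * ‖v‖) :
    q = P.ex x ((a + 2 * b) • v) := by
  have hnn : 0 ≤ b * ‖v‖ := by positivity
  set pm := P.ex x (a • v) with hpm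
  set vel := curveVel n (fun t : ℝ => P.ex x (t • v)) a with hvel
  have hveln : ‖vel‖ = ‖v‖ := P.norm_vel x v a
  have hp : dist pm (P.ex x ((a + b) • v)) = b * ‖v‖ := by
    have h3 : dist pm (P.ex x ((a + b) • v)) ≤ b * ‖v‖ := by
      have := P.dist_le x v a (a + b)
      have e : |a - (a + b)| = b := by
        rw [show a - (a + b) = -b by ring, abs_neg, abs_of_pos hb]
      rwa [e] at this
    have h4 := dist_triangle pm (P.ex x ((a + b) • v)) q
    linarith
  obtain ⟨w, hwn, hw⟩ := P.surj_near pm q (by rw [h2]; exact hsmall)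
  have hwn' : ‖w‖ = 2 * b * ‖v‖ := by rw [hwn, h2]
  have hm := geoCore_mid_unique P pm q (P.ex x ((a + b) • v)) (1 / 2) (by norm_num) (by norm_num)
    (by rw [h2]; exact hsmall) (by rw [hp, h2]; ring) (by rw [h1, h2]; ring) w hw
    (by rw [hwn']; exact hsmall)
  have hf := P.flow x v a b
  have hf2 := P.flow x v a (2 * b)
  have hinj : (1 / 2 : ℝ) • w = b • vel := by
    apply P.inj pm
    · rw [norm_smul, hwn', Real.norm_of_nonneg (by norm_num)]
      linarith
    · rw [norm_smul, hveln, Real.norm_of_nonneg hb.le]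
      linarith
    · rw [← hm]
      exact hf.symm
  have hw2 : w = (2 * b) • vel := by
    have : (2 : ℝ) • ((1 / 2 : ℝ) • w) = (2 : ℝ) • (b • vel) := by rw [hinj]
    rw [smul_smul, smul_smul] at this
    simpa using this
  rw [← hw, hw2]
  exact hf2

/-- **Hopf–Rinow.** -/
theorem geoCore_surj (hB : HasBetween M) (x y : M) :
    ∃ v : TangentSpace (𝓡 n) x, P.ex x v = y ∧ ‖v‖ = dist x y := by
  obtain ⟨N, hN⟩ := exists_nat_gt (max 1 (2 * dist x y / P.r₀))
  have hN1 : (1 : ℝ) < N := (le_max_left _ _).trans_lt hN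
  have hN2 : 2 * dist x y / P.r₀ < N := (le_max_right _ _).trans_lt hN
  have hNpos : (0 : ℝ) < N := by linarith
  have hr := P.r₀_pos
  set δ := dist x y / N with hδ
  have hδ0 : 0 ≤ δ := by positivity
  have hδr : 2 * δ < P.r₀ := by
    rw [hδ, ← mul_div_assoc, div_lt_iff₀ hNpos]
    rw [div_lt_iff₀ hr] at hN2
    linarith
  have hNδ : N * δ = dist x y := by
    rw [hδ]; field_simp
  -- first point
  obtain ⟨z, hz1, hz2⟩ := hB x y (1 / N) ⟨by positivity,
    (by rw [div_le_one hNpos]; exact hN1.le)⟩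
  have hz1' : dist x z = δ := by rw [hz1, hδ]; ring
  have hz2' : dist z y = (N - 1) * δ := by
    rw [hz2, hδ]; field_simp
  obtain ⟨v, hvn, hv⟩ := P.surj_near x z (by rw [hz1']; linarith)
  rw [hz1'] at hvn
  have main : ∀ k : ℕ, k + 1 ≤ N →
      dist (P.ex x ((k : ℝ) • v)) y = (N - k) * δ ∧
      dist (P.ex x (((k : ℝ) + 1) • v)) y = (N - (k + 1)) * δ := by
    intro k
    induction k with
    | zero =>
      intro _
      refine ⟨?_, ?_⟩
      · simp only [Nat.cast_zero, zero_smul, P.ex_zero, sub_zero]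
        exact hNδ.symm
      · simp only [Nat.cast_zero, zero_add, one_smul]
        rw [hv, hz2']
    | succ k ih =>
      intro hk
      obtain ⟨i1, i2⟩ := ih (by omega)
      have hkN : (k : ℝ) + 1 + 1 ≤ N := by exact_mod_cast hk
      refine ⟨by push_cast; exact i2, ?_⟩
      have hpos : (0 : ℝ) < N - (k + 1) := by linarith
      obtain ⟨q, hq1, hq2⟩ := hB (P.ex x (((k : ℝ) + 1) • v)) y (1 / (N - (k + 1)))
        ⟨by positivity, by rw [div_le_one hpos]; linarith⟩
      rw [i2] at hq1 hq2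
      have hq1' : dist (P.ex x (((k : ℝ) + 1) • v)) q = δ := by
        rw [hq1]; field_simp
      have hq2' : dist q y = (N - (k + 1) - 1) * δ := by
        rw [hq2]; field_simp
      have hd1 : dist (P.ex x ((k : ℝ) • v)) (P.ex x (((k : ℝ) + 1) • v)) ≤ δ := by
        have := P.dist_le x v k (k + 1)
        have e : |(k : ℝ) - (k + 1)| = 1 := by
          rw [show (k : ℝ) - (k + 1) = -1 by ring, abs_neg, abs_one]
        rwa [e, one_mul, hvn] at this
      have hd2 : dist (P.ex x ((k : ℝ) • v)) q = 2 * δ := by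
        have t1 := dist_triangle (P.ex x ((k : ℝ) • v)) (P.ex x (((k : ℝ) + 1) • v)) q
        have t2 := dist_triangle (P.ex x ((k : ℝ) • v)) q y
        rw [i1, hq2'] at t2
        apply le_antisymm
        · linarith
        · linarith
      have hext := geoCore_extend P x v k 1 one_pos (by rw [hvn]; linarith) q
        (by rw [hq1', hvn, one_mul]) (by rw [hd2, hvn]; ring)
      have e2 : ((k + 1 : ℕ) : ℝ) + 1 = (k : ℝ) + 2 * 1 := by push_cast; ring
      rw [e2, ← hext, hq2']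
      ring
  obtain ⟨k, rfl⟩ : ∃ k : ℕ, N = k + 1 := by
    refine ⟨N - 1, ?_⟩
    have : 1 < N := by exact_mod_cast hN1
    omega
  obtain ⟨-, hk⟩ := main k le_rfl
  refine ⟨((k : ℝ) + 1) • v, ?_, ?_⟩
  · rw [← dist_eq_zero, hk]
    push_cast
    ring
  · rw [norm_smul, hvn, Real.norm_of_nonneg (by positivity), ← hNδ]
    push_cast
    ring

end core

end Crest.Agent.R226.HopfRinow114
end

-- ▼ part R226/Minimiser_114
section

set_option autoImplicit false

open MeasureTheory Bundle Set Filter Manifold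
open scoped Manifold ContDiff Bundle ENNReal Topology
open Crest.GeometryTopology.MTW

namespace Crest.Agent.R226.Minimiser114

open Crest.Agent.R226.HopfRinow114

variable {n : ℕ} {M : Type*} [MetricSpace M] [ChartedSpace (EuclideanSpace ℝ (Fin n)) M]
  [IsManifold (𝓡 n) ∞ M]
  [RiemannianBundle (fun p : M => TangentSpace (𝓡 n) p)]

/-! ### (i) curves of speed `c` are `c`-Lipschitz -/

omit [IsManifold (𝓡 n) ∞ M] in
theorem dist_le_of_speed_le [IsRiemannianManifold (𝓡 n) M] {γ : ℝ → M} {s t c : ℝ} (hst : s ≤ t)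
    (hγ : ContMDiffOn 𝓘(ℝ, ℝ) (𝓡 n) 1 γ (Icc s t)) (hc : 0 ≤ c)
    (hs : ∀ τ ∈ Icc s t, ‖curveVel n γ τ‖ ≤ c) : dist (γ s) (γ t) ≤ c * (t - s) := by
  have h1 : edist (γ s) (γ t) ≤ pathELength (𝓡 n) γ s t := by
    rw [IsRiemannianManifold.out (I := 𝓡 n) (γ s) (γ t)]
    exact riemannianEDist_le_pathELength hγ rfl rfl hst
  have h2 : pathELength (𝓡 n) γ s t ≤ ENNReal.ofReal (c * (t - s)) := by
    rw [pathELength_eq_lintegral_mfderiv_Icc]
    calc ∫⁻ τ in Icc s t, ‖mfderiv 𝓘(ℝ, ℝ) (𝓡 n) γ τ 1‖ₑ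
        ≤ ∫⁻ _ in Icc s t, ENNReal.ofReal c := by
          apply setLIntegral_mono' measurableSet_Icc
          intro τ hτ
          have := hs τ hτ
          rw [← ofReal_norm]
          exact ENNReal.ofReal_le_ofReal this
      _ = ENNReal.ofReal (c * (t - s)) := by
          rw [setLIntegral_const, Real.volume_Icc, ← ENNReal.ofReal_mul hc]
  have h3 := h1.trans h2
  rw [edist_dist, ENNReal.ofReal_le_ofReal_iff (by
    have : 0 ≤ t - s := by linarith
    positivity)] at h3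
  exact h3

omit [IsManifold (𝓡 n) ∞ M] in
variable (n) (M) in
/-- task B5i -/
theorem speedLip [IsRiemannianManifold (𝓡 n) M] : SpeedLip n M := by
  intro γ a c hγ hs
  have main : ∀ s ∈ Icc (0 : ℝ) a, ∀ t ∈ Icc (0 : ℝ) a, s ≤ t →
      dist (γ s) (γ t) ≤ c * (t - s) := by
    intro s hs' t ht' hst
    apply dist_le_of_speed_le hst hγ.contMDiffOn
    · rw [← hs s hs']; exact norm_nonneg _
    · intro τ hτ
      exact (hs τ ⟨hs'.1.trans hτ.1, hτ.2.trans ht'.2⟩).le
  intro s hs' t ht'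
  rcases le_total s t with h | h
  · rw [abs_sub_comm, abs_of_nonneg (sub_nonneg.2 h)]
    exact main s hs' t ht' h
  · rw [dist_comm, abs_of_nonneg (sub_nonneg.2 h)]
    exact main t ht' s hs' h

/-! ### (ii) minimisers are geodesics -/

theorem contMDiff_ex_ray (C : GeoCore n M) (x : M) (v : TangentSpace (𝓡 n) x) :
    ContMDiff 𝓘(ℝ, ℝ) (𝓡 n) ∞ (fun t : ℝ => C.ex x (t • v)) := by
  have h1 : ContMDiff 𝓘(ℝ, ℝ) (𝓡 n).tangent ∞
      (fun t : ℝ => radial C.ex t (⟨x, v⟩ : TangentBundle (𝓡 n) M)) :=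
    C.smooth_radial.comp (contMDiff_id.prodMk contMDiff_const)
  exact (contMDiff_proj (TangentSpace (𝓡 n) : M → Type _)).comp h1

omit [IsManifold (𝓡 n) ∞ M] [RiemannianBundle (fun p : M => TangentSpace (𝓡 n) p)] in
/-- two curves which agree on `[0,b]` and are differentiable at `0` have the same velocity there -/
theorem curveVel_eq_of_eqOn {γ σ : ℝ → M} {b : ℝ} (hb : 0 < b) (h : EqOn γ σ (Icc 0 b))
    (hγ : MDifferentiableAt 𝓘(ℝ, ℝ) (𝓡 n) γ 0) (hσ : MDifferentiableAt 𝓘(ℝ, ℝ) (𝓡 n) σ 0) :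
    (curveVel n γ 0 : EuclideanSpace ℝ (Fin n)) = curveVel n σ 0 := by
  have hu : UniqueMDiffWithinAt 𝓘(ℝ, ℝ) (Icc (0 : ℝ) b) 0 := by
    rw [uniqueMDiffWithinAt_iff_uniqueDiffWithinAt]
    exact uniqueDiffOn_Icc hb _ ⟨le_rfl, hb.le⟩
  have h1 : mfderivWithin 𝓘(ℝ, ℝ) (𝓡 n) γ (Icc 0 b) 0 = mfderiv 𝓘(ℝ, ℝ) (𝓡 n) γ 0 :=
    mfderivWithin_eq_mfderiv hu hγ
  have h2 : mfderivWithin 𝓘(ℝ, ℝ) (𝓡 n) σ (Icc 0 b) 0 = mfderiv 𝓘(ℝ, ℝ) (𝓡 n) σ 0 :=
    mfderivWithin_eq_mfderiv hu hσ
  have h3 : mfderivWithin 𝓘(ℝ, ℝ) (𝓡 n) γ (Icc 0 b) 0 =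
      (mfderivWithin 𝓘(ℝ, ℝ) (𝓡 n) σ (Icc 0 b) 0 :) :=
    mfderivWithin_congr (fun t ht => h ht) (h ⟨le_rfl, hb.le⟩)
  unfold curveVel
  rw [← h1, ← h2, h3]
  rfl

/-- task B5ii -/
theorem minimiserGeodesic (C : GeoCore n M) : MinimiserGeodesic n M C := by
  intro γ a c ha hγ hspeed hdist
  have h0a : (0 : ℝ) ∈ Icc 0 a := ⟨le_rfl, ha.le⟩
  have hc : 0 ≤ c := by rw [← hspeed 0 h0a]; exact norm_nonneg _
  have hr := C.r₀_pos
  set x := γ 0 with hx
  obtain ⟨N, hN⟩ := exists_nat_gt (max 1 (2 * (a * c) / C.r₀))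
  have hN1 : (1 : ℝ) < N := (le_max_left _ _).trans_lt hN
  have hN2 : 2 * (a * c) / C.r₀ < N := (le_max_right _ _).trans_lt hN
  have hNpos : (0 : ℝ) < N := by linarith
  set b := a / N with hb
  have hbpos : 0 < b := by positivity
  have hbr : 2 * b * c < C.r₀ := by
    rw [hb]
    rw [div_lt_iff₀ hr] at hN2
    have : 2 * (a / N) * c = 2 * (a * c) / N := by ring
    rw [this, div_lt_iff₀ hNpos]
    linarith
  have hNb : N * b = a := by rw [hb]; field_simp
  have hba : b ≤ a := by rw [← hNb]; nlinarith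
  have hbmem : b ∈ Icc (0 : ℝ) a := ⟨hbpos.le, hba⟩
  have hd0b : dist x (γ b) = c * b := by
    rw [hx, hdist 0 h0a b hbmem, zero_sub, abs_neg, abs_of_pos hbpos]
  have hbc0 : 0 ≤ b * c := by positivity
  obtain ⟨v₁, hv₁n, hv₁⟩ := C.surj_near x (γ b) (by rw [hd0b]; linarith)
  rw [hd0b] at hv₁n
  set v : TangentSpace (𝓡 n) x := b⁻¹ • v₁ with hv
  have hvn : ‖v‖ = c := by
    rw [hv, norm_smul, hv₁n, Real.norm_of_nonneg (by positivity)]
    field_simp
  have hbv : b • v = v₁ := by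
    rw [hv, smul_smul, mul_inv_cancel₀ hbpos.ne', one_smul]
  -- on `[0,b]`
  have hloc : ∀ t ∈ Icc (0 : ℝ) b, γ t = C.ex x (t • v) := by
    intro t ht
    have hta : t ∈ Icc (0 : ℝ) a := ⟨ht.1, ht.2.trans hba⟩
    rcases eq_or_lt_of_le ht.1 with h | h
    · rw [← h, zero_smul, C.ex_zero]
    rcases eq_or_lt_of_le ht.2 with h' | h'
    · rw [h', hbv, hv₁]
    have e1 : dist x (γ t) = (t / b) * dist x (γ b) := by
      rw [hd0b, hx, hdist 0 h0a t hta, zero_sub, abs_neg, abs_of_pos h]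
      field_simp
    have e2 : dist (γ t) (γ b) = (1 - t / b) * dist x (γ b) := by
      rw [hd0b, hdist t hta b hbmem, abs_sub_comm, abs_of_pos (sub_pos.2 h')]
      field_simp
    have := geoCore_mid_unique C x (γ b) (γ t) (t / b) (by positivity)
      (by rw [div_lt_one hbpos]; exact h') (by rw [hd0b]; linarith) e1 e2 v₁ hv₁
      (by rw [hv₁n]; linarith)
    rw [this, ← hbv, smul_smul]
    congr 2
    field_simp
  -- `v = γ'(0)`
  have hvel : (curveVel n γ 0 : EuclideanSpace ℝ (Fin n)) = v := by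
    have h1 := curveVel_eq_of_eqOn (n := n) (γ := γ) (σ := fun t : ℝ => C.ex x (t • v)) hbpos
      (fun t ht => hloc t ht) (hγ.mdifferentiable one_ne_zero 0)
      ((contMDiff_ex_ray C x v).mdifferentiable (by simp) 0)
    rw [h1]
    exact C.vel_zero x v
  have hvel' : curveVel n γ 0 = v := hvel
  rw [hvel']
  -- induction along the multiples of `b`
  have main : ∀ k : ℕ, k + 1 ≤ N →
      γ (k * b) = C.ex x (((k : ℝ) * b) • v) ∧
      γ ((k + 1) * b) = C.ex x ((((k : ℝ) + 1) * b) • v) := by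
    intro k
    induction k with
    | zero =>
      intro _
      refine ⟨?_, ?_⟩
      · simp only [Nat.cast_zero, zero_mul, zero_smul, C.ex_zero]
        exact hx.symm
      · simp only [Nat.cast_zero, zero_add, one_mul]
        exact hloc b ⟨hbpos.le, le_rfl⟩
    | succ k ih =>
      intro hk
      obtain ⟨i1, i2⟩ := ih (by omega)
      have hkN : (k : ℝ) + 1 + 1 ≤ N := by exact_mod_cast hk
      have hk0 : (0 : ℝ) ≤ k := Nat.cast_nonneg k
      have m0 : (k : ℝ) * b ∈ Icc (0 : ℝ) a := by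
        refine ⟨by positivity, ?_⟩
        rw [← hNb]; nlinarith
      have m1 : ((k : ℝ) + 1) * b ∈ Icc (0 : ℝ) a := by
        refine ⟨by positivity, ?_⟩
        rw [← hNb]; nlinarith
      have m2 : ((k : ℝ) + 1 + 1) * b ∈ Icc (0 : ℝ) a := by
        refine ⟨by positivity, ?_⟩
        rw [← hNb]; nlinarith
      refine ⟨by push_cast; exact i2, ?_⟩
      push_cast
      have hext := geoCore_extend C x v (k * b) b hbpos (by rw [hvn]; exact hbr)
        (γ (((k : ℝ) + 1 + 1) * b))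
        (by
          have e : (k : ℝ) * b + b = (k + 1) * b := by ring
          rw [e, ← i2, hdist _ m1 _ m2, hvn,
            show ((k : ℝ) + 1) * b - (k + 1 + 1) * b = -b by ring, abs_neg, abs_of_pos hbpos]
          ring)
        (by
          rw [← i1, hdist _ m0 _ m2, hvn,
            show (k : ℝ) * b - (k + 1 + 1) * b = -(2 * b) by ring, abs_neg,
            abs_of_pos (by positivity)]
          ring)
      rw [hext]
      congr 2
      ring
  obtain ⟨k, rfl⟩ : ∃ k : ℕ, N = k + 1 := by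
    refine ⟨N - 1, ?_⟩
    have : 1 < N := by exact_mod_cast hN1
    omega
  obtain ⟨-, hk⟩ := main k le_rfl
  have e : ((k : ℝ) + 1) * b = a := by
    rw [← hNb]; push_cast; ring
  rw [e] at hk
  exact hk

/-! ### (iii) the injectivity domain -/

/-- a curve of speed `c` on `[0,a]` whose endpoints are at distance `a c` minimises on subintervals -/
theorem dist_eq_of_minimising {γ : ℝ → M} {a c : ℝ} (ha : 0 ≤ a)
    (hL : ∀ s ∈ Icc (0 : ℝ) a, ∀ t ∈ Icc (0 : ℝ) a, dist (γ s) (γ t) ≤ c * |s - t|)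
    (hd : dist (γ 0) (γ a) = a * c) :
    ∀ s ∈ Icc (0 : ℝ) a, ∀ t ∈ Icc (0 : ℝ) a, dist (γ s) (γ t) = c * |s - t| := by
  have h0a : (0 : ℝ) ∈ Icc 0 a := ⟨le_rfl, ha⟩
  have haa : a ∈ Icc 0 a := ⟨ha, le_rfl⟩
  have main : ∀ s ∈ Icc (0 : ℝ) a, ∀ t ∈ Icc (0 : ℝ) a, s ≤ t →
      c * |s - t| ≤ dist (γ s) (γ t) := by
    intro s hs t ht hst
    have h1 := hL 0 h0a s hs
    have h2 := hL t ht a haa
    rw [zero_sub, abs_neg, abs_of_nonneg hs.1] at h1
    rw [abs_sub_comm, abs_of_nonneg (sub_nonneg.2 ht.2)] at h2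
    rw [abs_sub_comm, abs_of_nonneg (sub_nonneg.2 hst)]
    have h3 := dist_triangle4 (γ 0) (γ s) (γ t) (γ a)
    rw [hd] at h3
    nlinarith
  intro s hs t ht
  refine le_antisymm (hL s hs t ht) ?_
  rcases le_total s t with h | h
  · exact main s hs t ht h
  · rw [dist_comm, abs_sub_comm]
    exact main t ht s hs h

/-- task B5iii: `injDomain` in terms of `ex` -/
theorem injDomain_eq (C : GeoCore n M) (hS : SpeedLip n M) (x : M) : injDomain n x =
    {v : TangentSpace (𝓡 n) x | ∃ a : ℝ, 1 < a ∧ dist x (C.ex x (a • v)) = a * ‖v‖} := by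
  ext v
  constructor
  · rintro ⟨a, ha, γ, hγ, hγ0, hv, hs, hd⟩
    have ha0 : 0 < a := by linarith
    refine ⟨a, ha, ?_⟩
    subst hγ0
    have hL := hS γ a ‖v‖ hγ hs
    have hE := dist_eq_of_minimising ha0.le hL hd
    have h := minimiserGeodesic C γ a ‖v‖ ha0 hγ hs hE
    rw [hv] at h
    rw [← h]
    exact hd
  · rintro ⟨a, ha, hd⟩
    refine ⟨a, ha, fun t => C.ex x (t • v), (contMDiff_ex_ray C x v).of_le (by simp), ?_,
      C.vel_zero x v, fun t _ => C.norm_vel x v t, hd⟩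
    simp only [zero_smul, C.ex_zero]

/-- assembly of `GeoData` from `GeoCore` (task B7, modulo `GeoCore`) -/
def geoData (C : GeoCore n M) (hB : HasBetween M) (hS : SpeedLip n M) : GeoData n M where
  ex := C.ex
  smooth := C.smooth
  ex_zero := C.ex_zero
  vel_zero := C.vel_zero
  norm_vel := C.norm_vel
  flow := C.flow
  dist_le := C.dist_le
  surj := geoCore_surj C hB
  r₀ := C.r₀
  r₀_pos := C.r₀_pos
  dist_eq := C.dist_eq
  inj := C.inj
  smooth_cost := C.smooth_cost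
  hasDerivAt_cost := C.hasDerivAt_cost
  injDomain_eq := injDomain_eq C hS

end Crest.Agent.R226.Minimiser114
end

-- ▼ part R226/GeoThm_542

set_option autoImplicit false

open MeasureTheory Bundle Set
open scoped Manifold ContDiff Bundle ENNReal Topology
open Crest.GeometryTopology.MTW

namespace Crest.Agent.R226.GeoThm542

variable {n : ℕ} {M : Type*} [MetricSpace M] [ChartedSpace (EuclideanSpace ℝ (Fin n)) M]
  [IsManifold (𝓡 n) ∞ M]
  [RiemannianBundle (fun p : M => TangentSpace (𝓡 n) p)]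
  [IsContMDiffRiemannianBundle (𝓡 n) ∞ (EuclideanSpace ℝ (Fin n))
    (fun p : M => TangentSpace (𝓡 n) p)]
  [IsRiemannianManifold (𝓡 n) M] [CompactSpace M]

/-- **Layer B**: the uniform near-diagonal package gives the global geodesic package. -/
theorem nonempty_geoData (N : NearDiag n M) : Nonempty (GeoData n M) := by
  obtain ⟨C⟩ := GlobalEx415.nonempty_geoCore (SmallFlow90.smallFlow N)
  exact ⟨Minimiser114.geoData C (HopfRinow114.hasBetween n M) (Minimiser114.speedLip n M)⟩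

end Crest.Agent.R226.GeoThm542
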