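/-
R226 E1.2 (helper700): pure convex geometry for Step 1 of Theorem 1 (doc 848).
* `exists_center` : a compact convex set `C` of dimension `≤ m` has a point `c` with
  `-(1/m)(C - c) ⊆ C - c` (Helly).
* `walk` : the weak-QQ walk.
* `step1_abs` : the abstract Step 1.
-/
import Mathlib.Analysis.Convex.Radon
import Mathlib.Analysis.Convex.Combination
import Mathlib.Analysis.SpecificLimits.Basic
import Mathlib.Topology.Algebra.Module.Basic
import Mathlib.Tactic

set_option autoImplicit false

open Set Module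

namespace Crest.Agent.R226.CentGeo700

universe u

section Center

variable {V : Type u} [AddCommGroup V] [Module ℝ V] [TopologicalSpace V] [T2Space V]
  [IsTopologicalAddGroup V] [ContinuousSMul ℝ V] [FiniteDimensional ℝ V]


end Center

section Walk

variable {V : Type u} [AddCommGroup V] [Module ℝ V]

/-- weak quantitative quasiconvexity of `f` on `C` with constant `t₀` -/
def WQ (f : V → ℝ) (C : Set V) (t₀ : ℝ) : Prop :=
  ∀ p₀ ∈ C, ∀ p₁ ∈ C, ∀ t : ℝ, 0 ≤ t → t ≤ t₀ →
    f ((1 - t) • p₀ + t • p₁) - f p₀ ≤ max (f p₁ - f p₀) 0 / 2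

theorem WQ.mono {f : V → ℝ} {C C' : Set V} {t₀ : ℝ} (h : WQ f C t₀) (hC : C' ⊆ C) :
    WQ f C' t₀ := fun p₀ h₀ p₁ h₁ t ht ht' => h p₀ (hC h₀) p₁ (hC h₁) t ht ht'


end Walk

section Abs


variable {V : Type u} [AddCommGroup V] [Module ℝ V]


end Abs

section Main


end Main

end Crest.Agent.R226.CentGeo700
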