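/-
R226 (helper915): consequences of (W) off the foot (doc 1281 of helper954, remark (1) of
helper504 doc 1152), abstract form.

`WArea K e vol μ J C c`: `J` is a Jacobian of `e` on `K` (area formula with constant `C`) with the
pointwise monotonicity off the foot with constant `c`.

* `WArea.contract`  : for `Q ⊆ K` convex compact, `p₁ ∈ Q`, contraction to `p₁` with factor `a`
                      keeps a fixed fraction of the volume;
* `WArea.leb`       : `vol (e '' Q) ≤ B vol (e '' A)`, `A ⊆ Q` ⇒ `μ Q ≤ C' B μ A`.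
-/
import Mathlib.MeasureTheory.Measure.Haar.InnerProductSpace
import Mathlib.MeasureTheory.Function.Jacobian
import Mathlib.Analysis.Convex.Topology
import Mathlib.MeasureTheory.Measure.Lebesgue.EqHaar
import Mathlib.Analysis.Calculus.FDeriv.Add
import Mathlib.Tactic

set_option autoImplicit false
set_option linter.unusedSectionVars false
set_option linter.unusedVariables false

open MeasureTheory Set Filter Topology Module
open scoped ENNReal RealInnerProductSpace

namespace Crest.Agent.R226.WOff915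

variable {E : Type*} [NormedAddCommGroup E] [InnerProductSpace ℝ E] [FiniteDimensional ℝ E]
  [MeasurableSpace E] [BorelSpace E]
variable {M : Type*} [MeasurableSpace M]

/-- `(W)` off the foot: `J p₀ ≤ J p_t / c` for `0 < t ≤ 1/2`, `p_t = p₀ + t (p₁ - p₀)`, as soon as
the foot of `0` on the line is at distance `≥ t ‖p₁ - p₀‖ / 16` of `p_t`. -/
def WOffP (K : Set E) (J : E → ℝ≥0∞) (c : ℝ) : Prop :=
  ∀ p₀ ∈ K, ∀ p₁ ∈ K, ∀ t : ℝ, 0 < t → t ≤ 1 / 2 →
    t / 16 * ‖p₁ - p₀‖ ^ 2 ≤ |⟪p₀ + t • (p₁ - p₀), p₁ - p₀⟫| →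
    ENNReal.ofReal c * J p₀ ≤ J (p₀ + t • (p₁ - p₀))

/-- the Jacobian data of `e` on `K`. -/
structure WArea (K : Set E) (e : E → M) (vol : Measure M) (μ : Measure E) (J : E → ℝ≥0∞)
    (C c : ℝ) : Prop where
  meas : Measurable J
  le : ∀ A ⊆ K, IsCompact A → vol (e '' A) ≤ ENNReal.ofReal C * ∫⁻ p in A, J p ∂μ
  ge : ∀ A ⊆ K, IsCompact A → ∫⁻ p in A, J p ∂μ ≤ ENNReal.ofReal C * vol (e '' A)
  woff : WOffP K J c


/-- contraction to `p₁` with factor `a`. -/
def con (p₁ : E) (a : ℝ) (p : E) : E := p₁ + a • (p - p₁)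

lemma continuous_con (p₁ : E) (a : ℝ) : Continuous (con p₁ a) := by
  unfold con; fun_prop

lemma con_con (p₁ : E) (a b : ℝ) (p : E) : con p₁ a (con p₁ b p) = con p₁ (a * b) p := by
  unfold con; module



lemma con_mem {Q : Set E} (hQ : Convex ℝ Q) {p₁ p : E} (h₁ : p₁ ∈ Q) (h : p ∈ Q) {a : ℝ}
    (ha : 0 ≤ a) (ha' : a ≤ 1) : con p₁ a p ∈ Q := by
  have := hQ h₁ h (a := 1 - a) (b := a) (by linarith) ha (by ring)
  convert this using 1
  unfold con; module





variable (μ : Measure E) [μ.IsAddHaarMeasure]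

/-- change of variables for a contraction. -/
lemma lintegral_con (p₁ : E) {a : ℝ} (ha : 0 < a) {A : Set E} (hA : MeasurableSet A)
    (f : E → ℝ≥0∞) :
    ∫⁻ p in con p₁ a '' A, f p ∂μ =
      ENNReal.ofReal (a ^ finrank ℝ E) * ∫⁻ p in A, f (con p₁ a p) ∂μ := by
  have hd : ∀ p ∈ A, HasFDerivWithinAt (con p₁ a) (a • ContinuousLinearMap.id ℝ E) A p := by
    intro p _
    have h0 : HasFDerivAt (fun p : E => p - p₁) (ContinuousLinearMap.id ℝ E) p :=
      (hasFDerivAt_sub_const_iff p₁).2 (hasFDerivAt_id p)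
    have h1 : HasFDerivAt (fun p : E => a • (p - p₁)) (a • ContinuousLinearMap.id ℝ E) p :=
      h0.const_smul a
    have h2 : HasFDerivAt (fun p : E => p₁ + a • (p - p₁)) (a • ContinuousLinearMap.id ℝ E) p :=
      h1.const_add p₁
    exact h2.hasFDerivWithinAt
  have hinj : InjOn (con p₁ a) A := by
    intro p _ q _ hpq
    unfold con at hpq
    have h1 := add_left_cancel hpq
    have h2 := smul_right_injective E ha.ne' h1
    exact sub_left_injective h2
  rw [lintegral_image_eq_lintegral_abs_det_fderiv_mul μ hA hd hinj]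
  have hdet : (a • ContinuousLinearMap.id ℝ E).det = a ^ finrank ℝ E := by
    have : ((a • ContinuousLinearMap.id ℝ E : E →L[ℝ] E) : E →ₗ[ℝ] E) =
        a • (LinearMap.id : E →ₗ[ℝ] E) := rfl
    rw [ContinuousLinearMap.det, this, LinearMap.det_smul, LinearMap.det_id, mul_one]
  simp only [hdet, abs_of_pos (pow_pos ha _)]
  rw [lintegral_const_mul' _ _ ENNReal.ofReal_ne_top]

variable {μ}

section Main

variable {K : Set E} {e : E → M} {vol : Measure M} {J : E → ℝ≥0∞} {C c : ℝ}







end Main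

end Crest.Agent.R226.WOff915
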