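import Crest.Agent.R226.NearLem_90
import Crest.Agent.R226.BDefs_542

-- ▼ part R226/SmallFlow_90
section

set_option autoImplicit false
set_option linter.unusedSectionVars false

open MeasureTheory Bundle Set
open scoped Manifold ContDiff Bundle ENNReal Topology
open Crest.GeometryTopology.MTW

namespace Crest.Agent.R226.SmallFlow90

open NearLem90

variable {n : ℕ} {M : Type*} [MetricSpace M] [ChartedSpace (EuclideanSpace ℝ (Fin n)) M]
  [IsManifold (𝓡 n) ∞ M]
  [RiemannianBundle (fun p : M => TangentSpace (𝓡 n) p)]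

variable (N : NearDiag n M)


/-- equality case of Cauchy–Schwarz, in the form needed -/
theorem eq_of_inner {V : Type*} [NormedAddCommGroup V] [InnerProductSpace ℝ V] {w u : V}
    {s a : ℝ} (hw : ‖w‖ = |s| * a) (hu : ‖u‖ = a) (h : inner ℝ w u = s * a ^ 2) :
    w = s • u := by
  have h1 : ‖w - s • u‖ ^ 2 = 0 := by
    rw [norm_sub_sq_real, inner_smul_right, h, hw, norm_smul, hu, Real.norm_eq_abs]
    have : |s| ^ 2 = s ^ 2 := sq_abs s
    nlinarith [this]
  have h2 : ‖w - s • u‖ = 0 := by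
    exact pow_eq_zero_iff (two_ne_zero) |>.1 h1
  exact sub_eq_zero.1 (norm_eq_zero.1 h2)

/-- the small flow property -/
theorem small_flow (x : M) (v : TangentSpace (𝓡 n) x) (hv : ‖v‖ < N.r₀) (t s : ℝ)
    (ht : |t| ≤ 1) (hs : |s| ≤ 1) (hts : |t + s| ≤ 1) :
    N.e (N.e x (t • v)) (s • curveVel n (fun t : ℝ => N.e x (t • v)) t) = N.e x ((t + s) • v) := by
  by_cases h0 : v = 0
  · subst h0
    have h1 : (fun t : ℝ => N.e x (t • (0 : TangentSpace (𝓡 n) x))) = fun _ => x := by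
      funext t; rw [smul_zero, N.e_zero]
    have h2 : curveVel n (fun t : ℝ => N.e x (t • (0 : TangentSpace (𝓡 n) x))) t = 0 := by
      apply norm_eq_zero.1
      rw [N.norm_vel x 0 hv t ht, norm_zero]
    rw [h2, smul_zero, N.e_zero, smul_zero, smul_zero]
  have hvn : ‖v‖ ≠ 0 := fun h => h0 (norm_eq_zero.1 h)
  set γ : ℝ → M := fun t : ℝ => N.e x (t • v) with hγdef
  have hγv : ‖curveVel n γ t‖ = ‖v‖ := N.norm_vel x v hv t ht
  have hγd : MDifferentiableAt 𝓘(ℝ, ℝ) (𝓡 n) γ t := by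
    apply mdiff_of_curveVel_ne_zero
    intro h
    rw [h, norm_zero] at hγv
    exact hvn hγv.symm
  have hdist : dist (γ t) (γ (t + s)) = |s| * ‖v‖ := by
    rw [N.dist_eq x v hv t (t + s) ht hts]
    congr 1
    rw [show t - (t + s) = -s by ring, abs_neg]
  have hlt : |s| * ‖v‖ < N.r₀ := by
    calc |s| * ‖v‖ ≤ 1 * ‖v‖ := by gcongr
      _ < N.r₀ := by simpa using hv
  obtain ⟨w, hw, hwe⟩ := N.surj (γ t) (γ (t + s)) (by rw [hdist]; exact hlt)
  rw [hdist] at hw
  have hw' : ‖w‖ < N.r₀ := by rw [hw]; exact hlt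
  have hd1 := hasDerivAt_cost_curve N hγd hw'
  rw [hwe] at hd1
  have hd2 : HasDerivWithinAt (fun t' => halfDistSq (γ t') (γ (t + s))) (-(s * ‖v‖ ^ 2))
      (Icc (-1) 1) t := by
    have h1 : HasDerivAt (fun t' : ℝ => (t' - (t + s)) ^ 2 * ‖v‖ ^ 2 / 2) (-(s * ‖v‖ ^ 2)) t := by
      have := ((((hasDerivAt_id t).sub_const (t + s)).pow 2).mul_const (‖v‖ ^ 2)).div_const 2
      refine this.congr_deriv ?_
      simp only [id]
      push_cast
      ring
    refine h1.hasDerivWithinAt.congr_of_mem ?_ (abs_le.1 ht)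
    intro t' ht'
    have : dist (γ t') (γ (t + s)) = |t' - (t + s)| * ‖v‖ :=
      N.dist_eq x v hv t' (t + s) (abs_le.2 ht') hts
    unfold halfDistSq
    rw [this, mul_pow, sq_abs]
  have hu : UniqueDiffWithinAt ℝ (Icc (-1 : ℝ) 1) t :=
    (uniqueDiffOn_Icc (by norm_num)) t (abs_le.1 ht)
  have heq := hu.eq_deriv _ hd1.hasDerivWithinAt hd2
  have hin : inner ℝ w (curveVel n γ t) = s * ‖v‖ ^ 2 := by linarith
  have hfin : w = s • curveVel n γ t := eq_of_inner hw hγv hin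
  rw [← hfin]
  exact hwe

end Crest.Agent.R226.SmallFlow90
end

-- ▼ part R226/SmallFlow2_90

set_option autoImplicit false
set_option linter.unusedSectionVars false

open MeasureTheory Bundle Set Filter
open scoped Manifold ContDiff Bundle ENNReal Topology
open Crest.GeometryTopology.MTW

namespace Crest.Agent.R226.SmallFlow90

open NearLem90

variable {n : ℕ} {M : Type*} [MetricSpace M] [ChartedSpace (EuclideanSpace ℝ (Fin n)) M]
  [IsManifold (𝓡 n) ∞ M]
  [RiemannianBundle (fun p : M => TangentSpace (𝓡 n) p)]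

variable (n) in
/-- the lift of a curve to the tangent bundle -/
noncomputable def curveT (γ : ℝ → M) (t : ℝ) : TangentBundle (𝓡 n) M := ⟨γ t, curveVel n γ t⟩

theorem mk_congr {x y : M} {v : TangentSpace (𝓡 n) x} {w : TangentSpace (𝓡 n) y} (h : x = y)
    (hv : (v : EuclideanSpace ℝ (Fin n)) = w) :
    (⟨x, v⟩ : TangentBundle (𝓡 n) M) = ⟨y, w⟩ := by
  subst h
  have : v = w := hv
  rw [this]

theorem curveT_congr {γ σ : ℝ → M} {t : ℝ} (h : γ =ᶠ[𝓝 t] σ) : curveT n γ t = curveT n σ t := by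
  refine mk_congr h.eq_of_nhds ?_
  have := h.mfderiv_eq (I := 𝓘(ℝ, ℝ)) (I' := 𝓡 n)
  unfold curveVel
  exact congrArg (fun L : ℝ →L[ℝ] EuclideanSpace ℝ (Fin n) => L 1) this

theorem comp_affine_aux (L : ℝ →L[ℝ] EuclideanSpace ℝ (Fin n)) (a : ℝ) :
    (L.comp (ContinuousLinearMap.toSpanSingleton ℝ a)) 1 = a • L 1 := by
  rw [ContinuousLinearMap.comp_apply, ContinuousLinearMap.toSpanSingleton_apply, one_smul,
    ← L.map_smul, smul_eq_mul, mul_one]

theorem hasMFDerivAt_affine (a b t : ℝ) : HasMFDerivAt 𝓘(ℝ, ℝ) 𝓘(ℝ, ℝ) (fun t : ℝ => t * a + b) t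
    (ContinuousLinearMap.toSpanSingleton ℝ a : ℝ →L[ℝ] ℝ) := by
  have h : HasDerivAt (fun t : ℝ => t * a + b) a t := by
    simpa using ((hasDerivAt_id t).mul_const a).add_const b
  exact h.hasFDerivAt.hasMFDerivAt

theorem curveVel_comp_affine (γ : ℝ → M) (a b t : ℝ) :
    (curveVel n (fun t => γ (t * a + b)) t : EuclideanSpace ℝ (Fin n)) =
      a • (curveVel n γ (t * a + b) : EuclideanSpace ℝ (Fin n)) := by
  by_cases hd : MDifferentiableAt 𝓘(ℝ, ℝ) (𝓡 n) γ (t * a + b)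
  · have h1 := hd.hasMFDerivAt.comp t (hasMFDerivAt_affine a b t)
    have h2 := congrArg (fun L : ℝ →L[ℝ] EuclideanSpace ℝ (Fin n) => L 1) h1.mfderiv
    exact h2.trans (comp_affine_aux _ a)
  · by_cases ha : a = 0
    · subst ha
      have h1 : (fun t : ℝ => γ (t * 0 + b)) = fun _ => γ b := by funext t; simp
      have h2 : curveVel n (fun t : ℝ => γ (t * 0 + b)) t = 0 := by
        unfold curveVel
        rw [h1, mfderiv_const]; rfl
      rw [zero_smul]
      exact h2
    · have hnd : ¬ MDifferentiableAt 𝓘(ℝ, ℝ) (𝓡 n) (fun t => γ (t * a + b)) t := by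
        intro hcon
        apply hd
        have h3 : MDifferentiableAt 𝓘(ℝ, ℝ) 𝓘(ℝ, ℝ) (fun u : ℝ => u * a⁻¹ + (-b * a⁻¹)) (t * a + b) :=
          (hasMFDerivAt_affine a⁻¹ (-b * a⁻¹) (t * a + b)).mdifferentiableAt
        have h4 : (t * a + b) * a⁻¹ + (-b * a⁻¹) = t := by field_simp; ring
        have h5 := MDifferentiableAt.comp (t * a + b) (g := fun t => γ (t * a + b))
          (f := fun u : ℝ => u * a⁻¹ + (-b * a⁻¹)) (I' := 𝓘(ℝ, ℝ)) (by rw [h4]; exact hcon) h3
        have h6 : (fun t => γ (t * a + b)) ∘ (fun u : ℝ => u * a⁻¹ + (-b * a⁻¹)) = γ := by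
          funext u; simp only [Function.comp]; congr 1; field_simp; ring
        rwa [h6] at h5
      have e1 : curveVel n (fun t : ℝ => γ (t * a + b)) t = 0 := by
        unfold curveVel
        rw [mfderiv_zero_of_not_mdifferentiableAt hnd]; rfl
      have e2 : curveVel n γ (t * a + b) = 0 := by
        unfold curveVel
        rw [mfderiv_zero_of_not_mdifferentiableAt hd]; rfl
      have e2' : (curveVel n γ (t * a + b) : EuclideanSpace ℝ (Fin n)) = 0 := e2
      rw [e2', smul_zero]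
      exact e1

/-- reparametrisation `t ↦ t * a + b` -/
theorem curveT_comp_affine (γ : ℝ → M) (a b t : ℝ) :
    curveT n (fun t => γ (t * a + b)) t = scaleT a (curveT n γ (t * a + b)) :=
  mk_congr rfl (curveVel_comp_affine γ a b t)

theorem curveT_comp_mul (γ : ℝ → M) (a t : ℝ) :
    curveT n (fun t => γ (t * a)) t = scaleT a (curveT n γ (t * a)) := by
  have := curveT_comp_affine (n := n) γ a 0 t
  simpa using this

theorem scaleT_one (p : TangentBundle (𝓡 n) M) : scaleT 1 p = p := by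
  unfold scaleT; rw [one_smul]

theorem curveT_comp_add (γ : ℝ → M) (b t : ℝ) :
    curveT n (fun t => γ (t + b)) t = curveT n γ (t + b) := by
  have := curveT_comp_affine (n := n) γ 1 b t
  rw [scaleT_one] at this
  simpa using this

theorem radial_eq (e : ∀ x : M, TangentSpace (𝓡 n) x → M) (t : ℝ) (p : TangentBundle (𝓡 n) M) :
    radial e t p = curveT n (fun t : ℝ => e p.1 (t • p.2)) t := rfl

/-- field `scale` -/
theorem radial_scale (e : ∀ x : M, TangentSpace (𝓡 n) x → M) (a t : ℝ)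
    (p : TangentBundle (𝓡 n) M) :
    radial e t (scaleT a p) = scaleT a (radial e (t * a) p) := by
  rw [radial_eq, radial_eq, ← curveT_comp_mul]
  congr 1
  funext t
  change e p.1 (t • a • p.2) = e p.1 ((t * a) • p.2)
  rw [smul_smul]

theorem norm_scaleT (a : ℝ) (p : TangentBundle (𝓡 n) M) : ‖(scaleT a p).2‖ = |a| * ‖p.2‖ := by
  change ‖a • p.2‖ = _
  rw [norm_smul, Real.norm_eq_abs]

theorem scaleT_scaleT (a b : ℝ) (p : TangentBundle (𝓡 n) M) :
    scaleT a (scaleT b p) = scaleT (a * b) p := by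
  unfold scaleT
  rw [smul_smul]

variable (N : NearDiag n M)

/-- normalisation: if `|t|‖v‖<r₀` then `p = scaleT a q` with `‖q.2‖ < r₀`, `|t a| ≤ 1`, `a > 0` -/
theorem exists_scale (p : TangentBundle (𝓡 n) M) (T : ℝ) (hT : 0 ≤ T) (h : T * ‖p.2‖ < N.r₀) :
    ∃ a : ℝ, ∃ q : TangentBundle (𝓡 n) M, 0 < a ∧ p = scaleT a q ∧ ‖q.2‖ < N.r₀ ∧ T * a ≤ 1 := by
  have hr := N.r₀_pos
  obtain ⟨a, ha, h1, h2⟩ : ∃ a : ℝ, 0 < a ∧ ‖p.2‖ < a * N.r₀ ∧ T * a ≤ 1 := by
    rcases hT.eq_or_lt with h0 | h0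
    · refine ⟨(‖p.2‖ + 1) / N.r₀, by positivity, ?_, by rw [← h0]; simp⟩
      rw [div_mul_cancel₀ _ hr.ne']; linarith
    · refine ⟨1 / T, by positivity, ?_, by rw [mul_one_div_cancel h0.ne']⟩
      rw [one_div_mul_eq_div, lt_div_iff₀ h0]; linarith
  refine ⟨a, scaleT a⁻¹ p, ha, ?_, ?_, h2⟩
  · rw [scaleT_scaleT, mul_inv_cancel₀ ha.ne', scaleT_one]
  · rw [norm_scaleT, abs_of_pos (inv_pos.2 ha), inv_mul_lt_iff₀ ha]; exact h1

/-- field `zero` -/
theorem radial_zero (p : TangentBundle (𝓡 n) M) : radial N.e 0 p = p := by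
  obtain ⟨a, q, ha, rfl, hq, -⟩ := exists_scale N p 0 le_rfl (by simpa using N.r₀_pos)
  rw [radial_scale, zero_mul]
  have : radial N.e 0 q = q := by
    refine mk_congr ?_ ?_
    · rw [zero_smul, N.e_zero]
    · exact N.vel_zero q.1 q.2 hq
  rw [this]

/-- field `norm` -/
theorem radial_norm (t : ℝ) (p : TangentBundle (𝓡 n) M) (h : |t| * ‖p.2‖ < N.r₀) :
    ‖(radial N.e t p).2‖ = ‖p.2‖ := by
  obtain ⟨a, q, ha, rfl, hq, hta⟩ := exists_scale N p |t| (abs_nonneg t) h
  rw [radial_scale, norm_scaleT, norm_scaleT]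
  congr 1
  exact N.norm_vel q.1 q.2 hq (t * a) (by rw [abs_mul, abs_of_pos ha]; exact hta)

/-- field `add`, first component -/
theorem radial_add_fst (t s : ℝ) (p : TangentBundle (𝓡 n) M) (ht : |t| * ‖p.2‖ < N.r₀)
    (hs : |s| * ‖p.2‖ < N.r₀) (hts : |t + s| * ‖p.2‖ < N.r₀) :
    (radial N.e s (radial N.e t p)).1 = (radial N.e (t + s) p).1 := by
  obtain ⟨a, q, ha, rfl, hq, hta⟩ := exists_scale N p (max (max |t| |s|) |t + s|) (by positivity)
    (by rw [max_mul_of_nonneg _ _ (norm_nonneg _), max_mul_of_nonneg _ _ (norm_nonneg _)]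
        exact max_lt (max_lt ht hs) hts)
  rw [radial_scale, radial_scale, radial_scale]
  have h1 : |t * a| ≤ 1 := by
    rw [abs_mul, abs_of_pos ha]
    exact (mul_le_mul_of_nonneg_right ((le_max_left _ _).trans (le_max_left _ _)) ha.le).trans hta
  have h2 : |s * a| ≤ 1 := by
    rw [abs_mul, abs_of_pos ha]
    exact (mul_le_mul_of_nonneg_right ((le_max_right _ _).trans (le_max_left _ _)) ha.le).trans hta
  have h3 : |t * a + s * a| ≤ 1 := by
    rw [← add_mul, abs_mul, abs_of_pos ha]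
    exact (mul_le_mul_of_nonneg_right (le_max_right _ _) ha.le).trans hta
  have := small_flow N q.1 q.2 hq (t * a) (s * a) h1 h2 h3
  rw [add_mul]
  exact this

/-- field `add` -/
theorem radial_add (t s : ℝ) (p : TangentBundle (𝓡 n) M) (ht : |t| * ‖p.2‖ < N.r₀)
    (hs : |s| * ‖p.2‖ < N.r₀) (hts : |t + s| * ‖p.2‖ < N.r₀) :
    radial N.e s (radial N.e t p) = radial N.e (t + s) p := by
  rw [radial_eq N.e s, radial_eq N.e (t + s), add_comm t s,
    ← curveT_comp_add (fun t : ℝ => N.e p.1 (t • p.2)) t s]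
  refine curveT_congr ?_
  have hev : ∀ᶠ s' in 𝓝 s, |s'| * ‖p.2‖ < N.r₀ ∧ |t + s'| * ‖p.2‖ < N.r₀ := by
    have c1 : Continuous (fun s' : ℝ => |s'| * ‖p.2‖) := by fun_prop
    have c2 : Continuous (fun s' : ℝ => |t + s'| * ‖p.2‖) := by fun_prop
    exact (c1.continuousAt.eventually_lt continuousAt_const hs).and
      (c2.continuousAt.eventually_lt continuousAt_const hts)
  filter_upwards [hev] with s' hs'
  have := radial_add_fst N t s' p ht hs'.1 hs'.2
  rw [add_comm s' t]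
  exact this

end Crest.Agent.R226.SmallFlow90
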