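import Crest.Agent.R226.CutSmooth_77
import Crest.Agent.R226.Base_347
import Crest.Agent.R226.CutFacts_484
import Crest.Agent.R226.Kant_624
import Crest.Agent.R226.DDefs_267
import Crest.Agent.R226.StepI_371
import Mathlib

-- ▼ part R226/CutOpen_77
section

/-!
R226 (helper77), layer C1b: `p ↦ (p.1, exp p)` is locally injective at every minimising vector where
the cost is smooth, and `I` is open in the tangent bundle.
-/

set_option autoImplicit false

open Bundle Set Filter Topology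
open scoped Manifold ContDiff
open Crest.GeometryTopology.MTW
open Crest.Agent.R226.ChartCost77 Crest.Agent.R226.CutSmooth77

namespace Crest.Agent.R226.CutOpen77

variable {n : ℕ} {M : Type*} [MetricSpace M] [ChartedSpace (EuclideanSpace ℝ (Fin n)) M]
  [IsManifold (𝓡 n) ∞ M]

theorem chart_fst (p₀ p : TangentBundle (𝓡 n) M) :
    (extChartAt (𝓡 n).tangent p₀ p).1 = extChartAt (𝓡 n) p₀.1 p.1 := by
  simp only [extChartAt, OpenPartialHomeomorph.extend_coe, Function.comp_apply]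
  rfl

variable [RiemannianBundle (fun p : M => TangentSpace (𝓡 n) p)]
variable (G : GeoData n M)

/-- the map `p ↦ (p.1, exp p)` in charts -/
noncomputable def Th (p₀ : TangentBundle (𝓡 n) M) (q : EE n × EE n) : EE n × EE n :=
  (extChartAt (𝓡 n) p₀.1 ((extChartAt (𝓡 n).tangent p₀).symm q).1,
    extChartAt (𝓡 n) (G.ex p₀.1 p₀.2)
      (G.ex ((extChartAt (𝓡 n).tangent p₀).symm q).1 ((extChartAt (𝓡 n).tangent p₀).symm q).2))

theorem Th_contDiffAt (p₀ : TangentBundle (𝓡 n) M) :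
    ContDiffAt ℝ ∞ (Th G p₀) (extChartAt (𝓡 n).tangent p₀ p₀) := by
  set T := extChartAt (𝓡 n).tangent p₀ with hT
  have hsymm : ContMDiffAt 𝓘(ℝ, EE n × EE n) (𝓡 n).tangent ∞ T.symm (T p₀) :=
    (contMDiffOn_extChartAt_symm p₀).contMDiffAt (extChartAt_target_mem_nhds p₀)
  have hTp : T.symm (T p₀) = p₀ := extChartAt_to_inv p₀
  have h1 : ContMDiffAt (𝓡 n).tangent 𝓘(ℝ, EE n) ∞
      (fun p : TangentBundle (𝓡 n) M => extChartAt (𝓡 n) p₀.1 p.1) p₀ :=
    ContMDiffAt.comp p₀ (g := extChartAt (𝓡 n) p₀.1)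
      (f := fun p : TangentBundle (𝓡 n) M => p.1) contMDiffAt_extChartAt
      (contMDiff_proj (TangentSpace (𝓡 n) : M → Type _)).contMDiffAt
  have h2 : ContMDiffAt (𝓡 n).tangent 𝓘(ℝ, EE n) ∞
      (fun p : TangentBundle (𝓡 n) M => extChartAt (𝓡 n) (G.ex p₀.1 p₀.2) (G.ex p.1 p.2)) p₀ :=
    ContMDiffAt.comp p₀ (g := extChartAt (𝓡 n) (G.ex p₀.1 p₀.2))
      (f := fun p : TangentBundle (𝓡 n) M => G.ex p.1 p.2) contMDiffAt_extChartAt
      G.smooth.contMDiffAt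
  have h3 := h1.prodMk_space h2
  rw [← contMDiffAt_iff_contDiffAt]
  rw [← hTp] at h3
  have h4 := ContMDiffAt.comp (T p₀) h3 hsymm
  rw [hTp] at h4
  exact h4

theorem Th_fst {p₀ : TangentBundle (𝓡 n) M} {q : EE n × EE n}
    (hq : q ∈ (extChartAt (𝓡 n).tangent p₀).target) : (Th G p₀ q).1 = q.1 := by
  show extChartAt (𝓡 n) p₀.1 ((extChartAt (𝓡 n).tangent p₀).symm q).1 = q.1
  rw [← chart_fst, (extChartAt (𝓡 n).tangent p₀).right_inv hq]

theorem Th_surjective {x : M} {w : TangentSpace (𝓡 n) x} (hw : w ∈ G.K x)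
    (hs : SC n x (G.ex x w)) :
    Function.Surjective (fderiv ℝ (Th G ⟨x, w⟩)
      (extChartAt (𝓡 n).tangent (⟨x, w⟩ : TangentBundle (𝓡 n) M) ⟨x, w⟩)) := by
  set p₀ : TangentBundle (𝓡 n) M := ⟨x, w⟩ with hp₀
  set T := extChartAt (𝓡 n).tangent p₀ with hT
  set D := fderiv ℝ (Th G p₀) (T p₀) with hD
  have hTh : HasFDerivAt (Th G p₀) D (T p₀) :=
    ((Th_contDiffAt G p₀).differentiableAt (by simp)).hasFDerivAt
  -- first component
  have hfst : ∀ u, (D u).1 = u.1 := by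
    have h1 : HasFDerivAt (fun q => (Th G p₀ q).1)
        ((ContinuousLinearMap.fst ℝ (EE n) (EE n)) ∘L D) (T p₀) :=
      (ContinuousLinearMap.fst ℝ (EE n) (EE n)).hasFDerivAt.comp (T p₀) hTh
    have h2 : HasFDerivAt (fun q => (Th G p₀ q).1)
        (ContinuousLinearMap.fst ℝ (EE n) (EE n)) (T p₀) := by
      refine (ContinuousLinearMap.fst ℝ (EE n) (EE n)).hasFDerivAt.congr_of_eventuallyEq ?_
      filter_upwards [extChartAt_target_mem_nhds (I := (𝓡 n).tangent) p₀] with q hq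
      exact Th_fst G hq
    intro u
    have h3 := congrArg (fun L : EE n × EE n →L[ℝ] EE n => L u) (h1.unique h2)
    exact h3
  -- the fibre
  obtain ⟨S, hS, -⟩ := exists_right_inverse G hw (cc_contDiffAt hs)
  let Φ : TangentSpace (𝓡 n) x → EE n × EE n := fun w' => T (⟨x, w'⟩ : TangentBundle (𝓡 n) M)
  have hΦ : ContDiffAt ℝ ∞ Φ w := by
    rw [← contMDiffAt_iff_contDiffAt]
    exact ContMDiffAt.comp w (g := T)
      (f := fun w' : TangentSpace (𝓡 n) x => (⟨x, w'⟩ : TangentBundle (𝓡 n) M))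
      contMDiffAt_extChartAt (MTWConc117.contMDiff_fiber x).contMDiffAt
  have hΦd : HasFDerivAt Φ (fderiv ℝ Φ w) w := (hΦ.differentiableAt (by simp)).hasFDerivAt
  have hΦsrc : ∀ᶠ w' in 𝓝 w, (⟨x, w'⟩ : TangentBundle (𝓡 n) M) ∈ T.source := by
    have hc : ContinuousAt (fun w' : TangentSpace (𝓡 n) x => (⟨x, w'⟩ : TangentBundle (𝓡 n) M)) w :=
      (MTWConc117.contMDiff_fiber x).continuous.continuousAt
    exact hc.eventually (extChartAt_source_mem_nhds (I := (𝓡 n).tangent) p₀)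
  have hcomp : (fun w' => Th G p₀ (Φ w')) =ᶠ[𝓝 w]
      fun w' => ((o x : EE n), ec G x (G.ex x w) w') := by
    filter_upwards [hΦsrc] with w' hw'
    have h0 : T.symm (T (⟨x, w'⟩ : TangentBundle (𝓡 n) M)) = ⟨x, w'⟩ := T.left_inv hw'
    show (extChartAt (𝓡 n) p₀.1 (T.symm (T (⟨x, w'⟩ : TangentBundle (𝓡 n) M))).1,
      extChartAt (𝓡 n) (G.ex p₀.1 p₀.2)
      (G.ex (T.symm (T (⟨x, w'⟩ : TangentBundle (𝓡 n) M))).1
        (T.symm (T (⟨x, w'⟩ : TangentBundle (𝓡 n) M))).2)) = _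
    rw [h0]
    rfl
  have h5 : HasFDerivAt (fun w' => Th G p₀ (Φ w')) (D ∘L fderiv ℝ Φ w) w :=
    HasFDerivAt.comp w (g := Th G p₀) (f := Φ) hTh hΦd
  have h6 : HasFDerivAt (fun w' => ((o x : EE n), ec G x (G.ex x w) w'))
      ((0 : TangentSpace (𝓡 n) x →L[ℝ] EE n).prod (fderiv ℝ (ec G x (G.ex x w)) w)) w :=
    (hasFDerivAt_const _ _).prodMk
      (((ec_contDiffAt G x w).differentiableAt (by simp)).hasFDerivAt)
  have h7 := h5.unique (h6.congr_of_eventuallyEq hcomp)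
  have hfib : ∀ k : EE n, D (fderiv ℝ Φ w (S k)) = (0, k) := by
    intro k
    have h8 := congrArg (fun L : TangentSpace (𝓡 n) x →L[ℝ] EE n × EE n => L (S k)) h7
    have h9 : D (fderiv ℝ Φ w (S k)) = (0, fderiv ℝ (ec G x (G.ex x w)) w (S k)) := h8
    rw [h9, hS k]
  rintro ⟨α, β⟩
  refine ⟨(α, 0) + fderiv ℝ Φ w (S (β - (D (α, 0)).2)), ?_⟩
  rw [map_add, hfib]
  ext1
  · rw [Prod.fst_add, hfst]; simp
  · rw [Prod.snd_add]; simp

/-- **local injectivity** of `p ↦ (p.1, exp p)` at a minimising vector where the cost is smooth. -/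
theorem locally_injective {x : M} {w : TangentSpace (𝓡 n) x} (hw : w ∈ G.K x)
    (hs : SC n x (G.ex x w)) :
    ∃ N ∈ 𝓝 (⟨x, w⟩ : TangentBundle (𝓡 n) M), ∀ p ∈ N, ∀ p' ∈ N,
      p.1 = p'.1 → G.ex p.1 p.2 = G.ex p'.1 p'.2 → p = p' := by
  set p₀ : TangentBundle (𝓡 n) M := ⟨x, w⟩ with hp₀
  set T := extChartAt (𝓡 n).tangent p₀ with hT
  set D := fderiv ℝ (Th G p₀) (T p₀) with hD
  have hsurj : Function.Surjective D := Th_surjective G hw hs
  have hinj : Function.Injective D :=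
    (LinearMap.injective_iff_surjective (f := (D : EE n × EE n →ₗ[ℝ] EE n × EE n))).2 hsurj
  let e : (EE n × EE n) ≃L[ℝ] (EE n × EE n) :=
    (LinearEquiv.ofBijective (D : EE n × EE n →ₗ[ℝ] EE n × EE n)
      ⟨hinj, hsurj⟩).toContinuousLinearEquiv
  have he : (e : (EE n × EE n) →L[ℝ] (EE n × EE n)) = D := by
    exact ContinuousLinearMap.ext fun u => rfl
  have hstrict : HasStrictFDerivAt (Th G p₀) (e : (EE n × EE n) →L[ℝ] (EE n × EE n)) (T p₀) := by
    rw [he]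
    exact (Th_contDiffAt G p₀).hasStrictFDerivAt (by simp)
  set H := hstrict.toOpenPartialHomeomorph (Th G p₀) with hH
  have hHsrc : H.source ∈ 𝓝 (T p₀) :=
    H.open_source.mem_nhds hstrict.mem_toOpenPartialHomeomorph_source
  have hcont : ContinuousAt T p₀ := continuousAt_extChartAt (I := (𝓡 n).tangent) p₀
  refine ⟨T.source ∩ T ⁻¹' H.source, Filter.inter_mem
    (extChartAt_source_mem_nhds (I := (𝓡 n).tangent) p₀) (hcont hHsrc), ?_⟩
  rintro p ⟨hp1, hp2⟩ p' ⟨hp1', hp2'⟩ h1 h2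
  have h3 : Th G p₀ (T p) = Th G p₀ (T p') := by
    unfold Th
    rw [← hT, T.left_inv hp1, T.left_inv hp1', h2, h1]
  have h4 : T p = T p' := H.injOn hp2 hp2' h3
  rw [← T.left_inv hp1, ← T.left_inv hp1', h4]

variable [IsContMDiffRiemannianBundle (𝓡 n) ∞ (EuclideanSpace ℝ (Fin n))
    (fun p : M => TangentSpace (𝓡 n) p)] [CompactSpace M]

/-- exact field `CutFacts.isOpen_IT`: the injectivity domain is open in the tangent bundle. -/
theorem isOpen_IT : IsOpen G.IT := by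
  rw [isOpen_iff_mem_nhds]
  rintro ⟨x, v⟩ hv
  obtain ⟨b, hb1, hb⟩ := CutTop478.exists_gt_smul_mem_I G (x := x) (v := v) hv
  have hbv : b • v ∈ G.I x := hb b (by linarith) le_rfl
  have hs : SC n x (G.ex x (b • v)) := smooth_cost G x _ hbv
  obtain ⟨N, hN, hinj⟩ := locally_injective G (CutTop478.I_subset G x hbv) hs
  have hscale : Tendsto (fun p : TangentBundle (𝓡 n) M => (⟨p.1, b • p.2⟩ : TangentBundle (𝓡 n) M))
      (𝓝 ⟨x, v⟩) (𝓝 ⟨x, b • v⟩) :=
    (contMDiff_scale b).continuous.tendsto (⟨x, v⟩ : TangentBundle (𝓡 n) M)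
  have hpair : Tendsto (fun p : TangentBundle (𝓡 n) M => (p.1, G.ex p.1 (b • p.2)))
      (𝓝 ⟨x, v⟩) (𝓝 (x, G.ex x (b • v))) := by
    have hc : Continuous (fun p : TangentBundle (𝓡 n) M => (p.1, G.ex p.1 p.2)) :=
      (FiberBundle.continuous_proj (EuclideanSpace ℝ (Fin n))
        (TangentSpace (𝓡 n) : M → Type _)).prodMk (CutTop478.continuous_ex G)
    exact (hc.tendsto _).comp hscale
  filter_upwards [hscale.eventually hN, (hpair.eventually (CutTop478.near_unique G hbv hN))]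
    with p hp1 hp2
  have h1 := hp2 (wt G (p.1, G.ex p.1 (b • p.2))) (wt_mem G (p.1, G.ex p.1 (b • p.2)))
    (wt_ex G (p.1, G.ex p.1 (b • p.2)))
  have h2 := hinj _ hp1 _ h1 rfl (wt_ex G (p.1, G.ex p.1 (b • p.2))).symm
  have h3 : b • p.2 = wt G (p.1, G.ex p.1 (b • p.2)) := by
    have := h2
    simpa using this
  refine ⟨b, hb1, ?_⟩
  show b • p.2 ∈ G.K p.1
  rw [h3]
  exact wt_mem G (p.1, G.ex p.1 (b • p.2))

end Crest.Agent.R226.CutOpen77
end

-- ▼ part R226/Mono_347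
section

set_option autoImplicit false

open MeasureTheory Bundle Set Filter
open scoped Manifold ContDiff Bundle ENNReal Topology
open Crest.GeometryTopology.MTW
open Crest.Agent.R226.Calc347 Crest.Agent.R226.MTWConc117 Crest.Agent.R226.Base347

namespace Crest.Agent.R226.Mono347

variable {n : ℕ} {M : Type*} [MetricSpace M] [ChartedSpace (EuclideanSpace ℝ (Fin n)) M]
  [IsManifold (𝓡 n) ∞ M]
  [RiemannianBundle (fun p : M => TangentSpace (𝓡 n) p)]
  {G : GeoData n M}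

/-- second order inequality from the weighted triangle inequality with a moving intermediate
point -/
theorem key (hB : Base G) {x : M} {p : TangentSpace (𝓡 n) x} (hp : p ∈ G.I x)
    (ξ w : TangentSpace (𝓡 n) x) {t : ℝ} (h0 : 0 < t) (h1 : t < 1) :
    0 ≤ t⁻¹ * (G.phi x ξ (t • p) - 2 * inner ℝ w ξ + ‖w‖ ^ 2) +
      (1 - t)⁻¹ * hess (F G x) (t • p, p) (w, 0) (w, 0) - G.phi x ξ p := by
  have hpK := hB.I_subset x hp
  have htp : t • p ∈ G.I x := hB.smul_mem_I hpK h0.le h1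
  have hA := (hB.sec_F htp ξ w).const_mul t⁻¹
  have h2 : ContDiffAt ℝ 2 (F G x) (t • p, p) :=
    contDiffAt_infty.1 (hB.contDiffAt_F_mid hpK h0 h1.le) 2
  have hC := (hess_fst h2 w).const_mul (1 - t)⁻¹
  have hD := hB.sec_phi hp ξ
  have hE := (hA.add hC).sub hD
  refine hE.nonneg (Eventually.of_forall fun s => ?_)
  have hzero : t⁻¹ * F G x ((0 : ℝ) • ξ, t • p + (0 : ℝ) • w) +
      (1 - t)⁻¹ * F G x (t • p + (0 : ℝ) • w, p) - F G x ((0 : ℝ) • ξ, p) = 0 := by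
    simp only [zero_smul, add_zero]
    have e1 : F G x (0, t • p) = t ^ 2 * ‖p‖ ^ 2 / 2 := by
      have := halfDistSq_of_mem_K' hpK (le_refl 0) h0.le h1.le
      simp only [zero_smul, sub_zero] at this
      exact this
    have e2 : F G x (t • p, p) = (1 - t) ^ 2 * ‖p‖ ^ 2 / 2 := by
      have := halfDistSq_of_mem_K' hpK h0.le h1.le (le_refl 1)
      simp only [one_smul] at this
      exact this
    have e3 : F G x (0, p) = ‖p‖ ^ 2 / 2 := by
      have := halfDistSq_of_mem_K' hpK (le_refl 0) zero_le_one (le_refl 1)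
      simp only [zero_smul, one_smul, sub_zero, one_pow, one_mul] at this
      exact this
    rw [e1, e2, e3]
    have h3 : (1 - t) ≠ 0 := by linarith
    field_simp
    ring
  show t⁻¹ * F G x ((0 : ℝ) • ξ, t • p + (0 : ℝ) • w) +
      (1 - t)⁻¹ * F G x (t • p + (0 : ℝ) • w, p) - F G x ((0 : ℝ) • ξ, p) ≤ _
  rw [hzero]
  have h4 := halfDistSq_le (G.ex x (s • ξ)) (G.ex x (t • p + s • w)) (G.ex x p) h0 h1
  show 0 ≤ t⁻¹ * F G x (s • ξ, t • p + s • w) + (1 - t)⁻¹ * F G x (t • p + s • w, p)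
    - F G x (s • ξ, p)
  unfold F
  linarith

/-- **F3** (exact field `CutFacts.mono`) -/
theorem mono (hB : Base G) : ∀ x, ∀ p ∈ G.I x, ∀ ξ : TangentSpace (𝓡 n) x, ξ ≠ 0 →
    ∀ t : ℝ, 0 < t → t < 1 → G.phi x ξ p < G.phi x ξ (t • p) / t := by
  intro x p hp ξ hξ t h0 h1
  by_contra hcon
  push Not at hcon
  have hn : 0 < ‖ξ‖ ^ 2 := by positivity
  set H := hess (F G x) (t • p, p) (ξ, 0) (ξ, 0) with hH
  have hk : ∀ μ : ℝ, 0 ≤ -(2 * μ) * (t⁻¹ * ‖ξ‖ ^ 2) + μ ^ 2 * (t⁻¹ * ‖ξ‖ ^ 2 + (1 - t)⁻¹ * H) := by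
    intro μ
    have h := key hB hp ξ (μ • ξ) h0 h1
    have e1 : ((μ • ξ, 0) : TangentSpace (𝓡 n) x × TangentSpace (𝓡 n) x) = μ • (ξ, 0) := by simp
    have e2 : hess (F G x) (t • p, p) (μ • (ξ, 0)) (μ • (ξ, 0)) = μ * (μ * H) := by
      rw [map_smul, map_smul, smul_apply, smul_eq_mul, smul_eq_mul, hH]
    rw [e1, e2, norm_smul, real_inner_smul_left, real_inner_self_eq_norm_sq, mul_pow,
      Real.norm_eq_abs, sq_abs] at h
    have h5 : G.phi x ξ (t • p) / t = t⁻¹ * G.phi x ξ (t • p) := by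
      rw [div_eq_inv_mul]
    rw [h5] at hcon
    nlinarith
  set a := t⁻¹ * ‖ξ‖ ^ 2 with ha
  have hapos : 0 < a := by positivity
  set b := a + (1 - t)⁻¹ * H with hb
  -- take `μ = a / (|b| + 1)`
  have hb1 : 0 < |b| + 1 := by positivity
  have h := hk (a / (|b| + 1))
  have h6 : (a / (|b| + 1)) ^ 2 * b ≤ (a / (|b| + 1)) * a := by
    have h7 : (a / (|b| + 1)) * b ≤ a := by
      rw [div_mul_eq_mul_div, div_le_iff₀ hb1]
      have : b ≤ |b| := le_abs_self b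
      nlinarith
    have h8 : 0 ≤ a / (|b| + 1) := by positivity
    calc (a / (|b| + 1)) ^ 2 * b = (a / (|b| + 1)) * ((a / (|b| + 1)) * b) := by ring
      _ ≤ (a / (|b| + 1)) * a := mul_le_mul_of_nonneg_left h7 h8
  have h9 : 0 < a / (|b| + 1) * a := by positivity
  nlinarith

end Crest.Agent.R226.Mono347
end

-- ▼ part R226/Seg_347
section

set_option autoImplicit false

open MeasureTheory Bundle Set Filter
open scoped Manifold ContDiff Bundle ENNReal Topology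
open Crest.GeometryTopology.MTW
open Crest.Agent.R226.Calc347 Crest.Agent.R226.MTWConc117 Crest.Agent.R226.Base347

namespace Crest.Agent.R226.Seg347

variable {n : ℕ} {M : Type*} [MetricSpace M] [ChartedSpace (EuclideanSpace ℝ (Fin n)) M]
  [IsManifold (𝓡 n) ∞ M]
  [RiemannianBundle (fun p : M => TangentSpace (𝓡 n) p)]
  {G : GeoData n M}

theorem continuousAt_hess {E : Type*} [NormedAddCommGroup E] [NormedSpace ℝ E] {g : E → ℝ} {a : E}
    (hg : ContDiffAt ℝ ∞ g a) : ContinuousAt (hess g) a := by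
  have h1 : ContDiffAt ℝ 1 (fderiv ℝ g) a := (contDiffAt_infty.1 hg 2).fderiv_right (by norm_num)
  have h2 : ContDiffAt ℝ 0 (fderiv ℝ (fderiv ℝ g)) a := h1.fderiv_right (by norm_num)
  exact h2.continuousAt

/-- the partial second derivative of the cost along a curve in normal coordinates -/
theorem sec_curve (hB : Base G) {x : M} {b : TangentSpace (𝓡 n) x} (hb : b ∈ G.I x)
    {ζ : ℝ → TangentSpace (𝓡 n) x} (hζ : ContDiffAt ℝ 2 ζ 0) (h0 : ζ 0 = 0) :
    Sec (fun τ => F G x (ζ τ, b)) (G.phi x (deriv ζ 0) b - inner ℝ b (deriv (deriv ζ) 0)) := by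
  have h2 : ContDiffAt ℝ 2 (F G x) (0, b) := contDiffAt_infty.1 (hB.contDiffAt_F_zero hb) 2
  have hg : ContDiffAt ℝ 2 (fun a : TangentSpace (𝓡 n) x => F G x (a, b)) 0 := by
    have h3 : ContDiffAt ℝ 2 (fun a : TangentSpace (𝓡 n) x => (a, b)) 0 := by fun_prop
    exact ContDiffAt.comp (0 : TangentSpace (𝓡 n) x) h2 h3
  have h4 := Sec.comp_curve hg hζ h0
  have h5 : hess (fun a : TangentSpace (𝓡 n) x => F G x (a, b)) 0 (deriv ζ 0) (deriv ζ 0) =
      G.phi x (deriv ζ 0) b := by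
    have h6 := Sec.comp_line hg (deriv ζ 0)
    simp only [zero_add] at h6
    exact h6.unique (hB.sec_phi hb (deriv ζ 0))
  have h7 : fderiv ℝ (fun a : TangentSpace (𝓡 n) x => F G x (a, b)) 0 (deriv (deriv ζ) 0) =
      -inner ℝ b (deriv (deriv ζ) 0) := hB.nc_fderiv x b hb _
  rw [h5, h7, ← sub_eq_add_neg] at h4
  exact h4

/-- **two-point version of F3** (exact field `CutFacts.seg`) -/
theorem seg (hB : Base G) : ∀ y, ∀ q₀ q' : TangentSpace (𝓡 n) y,
    (∀ᶠ τ : ℝ in 𝓝 0, q₀ + τ • q' ∈ G.K y) →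
    ∀ ζ : ℝ → TangentSpace (𝓡 n) (G.ex y ((1 : ℝ) • q₀)), ContDiffAt ℝ 2 ζ 0 → ζ 0 = 0 →
    (∀ᶠ τ : ℝ in 𝓝 0, G.ex (G.ex y ((1 : ℝ) • q₀)) (ζ τ) = G.ex y (q₀ + τ • q')) →
    ∀ ε : ℝ, 0 < ε → ∃ r₁ : ℝ, r₁ < 1 ∧ ∀ r : ℝ, r₁ < r → r < 1 →
      G.phi (G.ex y ((1 : ℝ) • q₀)) (deriv ζ 0) (r • (-(G.vel y q₀ 1))) ≤
        ‖q'‖ ^ 2 + inner ℝ (-(G.vel y q₀ 1)) (deriv (deriv ζ) 0) + ε := by
  intro y q₀ q' hseg ζ hζ hζ0 hex ε hε
  have hq₀ : q₀ ∈ G.K y := by
    have := hseg.self_of_nhds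
    simpa using this
  have hp₀ : -(G.vel y q₀ 1) ∈ G.K (G.ex y ((1 : ℝ) • q₀)) := hB.rev y q₀ hq₀
  have hrev := hB.rev_ex y q₀
  have hnorm : ‖-(G.vel y q₀ 1)‖ = ‖q₀‖ := by
    rw [norm_neg]; exact G.norm_vel y q₀ 1
  generalize -(G.vel y q₀ 1) = p₀ at hp₀ hrev hnorm ⊢
  generalize G.ex y ((1 : ℝ) • q₀) = x at *
  have hhalf : (1 / 2 : ℝ) • q₀ ∈ G.I y := hB.smul_mem_I hq₀ (by norm_num) (by norm_num)
  have hFy : ContDiffAt ℝ ∞ (F G y) ((1 / 2 : ℝ) • q₀, 0) := by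
    apply contDiffAt_F G
    rw [G.ex_zero]
    exact contMDiffAt_swap (hB.smooth_cost y _ hhalf)
  -- the path `r ↦ (q₀/2, (1-r) q₀)`
  have hpath : ContinuousAt (fun r : ℝ => (((1 / 2 : ℝ) • q₀, (1 - r) • q₀) :
      TangentSpace (𝓡 n) y × TangentSpace (𝓡 n) y)) 1 := by fun_prop
  have hpath1 : (((1 / 2 : ℝ) • q₀, ((1 : ℝ) - 1) • q₀) :
      TangentSpace (𝓡 n) y × TangentSpace (𝓡 n) y) = ((1 / 2 : ℝ) • q₀, 0) := by simp
  have hevF : ∀ᶠ r in 𝓝 (1 : ℝ), ContDiffAt ℝ 2 (F G y) ((1 / 2 : ℝ) • q₀, (1 - r) • q₀) := by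
    apply hpath.eventually
    show ∀ᶠ z in 𝓝 (((1 / 2 : ℝ) • q₀, ((1 : ℝ) - 1) • q₀) :
      TangentSpace (𝓡 n) y × TangentSpace (𝓡 n) y), ContDiffAt ℝ 2 (F G y) z
    rw [hpath1]
    exact (contDiffAt_infty.1 hFy 2).eventually (by simp)
  let w : TangentSpace (𝓡 n) y := (1 / 2 : ℝ) • q'
  let h : ℝ → ℝ := fun r => hess (F G y) ((1 / 2 : ℝ) • q₀, (1 - r) • q₀) (w, 0) (w, 0)
  have hhess : ContinuousAt (fun r : ℝ => hess (F G y) ((1 / 2 : ℝ) • q₀, (1 - r) • q₀)) 1 := by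
    apply ContinuousAt.comp (g := hess (F G y)) _ hpath
    show ContinuousAt (hess (F G y)) (((1 / 2 : ℝ) • q₀, ((1 : ℝ) - 1) • q₀) :
      TangentSpace (𝓡 n) y × TangentSpace (𝓡 n) y)
    rw [hpath1]
    exact continuousAt_hess hFy
  have hcont : ContinuousAt h 1 :=
    (hhess.clm_apply continuousAt_const).clm_apply continuousAt_const
  have hh1 : h 1 = ‖q'‖ ^ 2 / 4 := by
    show hess (F G y) ((1 / 2 : ℝ) • q₀, ((1 : ℝ) - 1) • q₀) (w, 0) (w, 0) = _
    rw [hpath1]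
    have h3 := hess_fst (contDiffAt_infty.1 hFy 2) w
    have h4 : Sec (fun s : ℝ => F G y ((1 / 2 : ℝ) • q₀ + s • w, 0)) (‖w‖ ^ 2) := by
      refine (sec_norm_sq ((1 / 2 : ℝ) • q₀) w).congr ?_
      filter_upwards [hseg] with s hs
      have e1 : (1 / 2 : ℝ) • q₀ + s • w = (1 / 2 : ℝ) • (q₀ + s • q') := by
        rw [smul_add, smul_comm s]
      rw [e1]
      show halfDistSq (G.ex y ((1 / 2 : ℝ) • (q₀ + s • q'))) (G.ex y 0) = _
      rw [G.ex_zero, halfDistSq_comm]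
      exact halfDistSq_of_mem_K (hB.star y _ hs _ (by norm_num) (by norm_num))
    rw [h3.unique h4, norm_smul, mul_pow]
    norm_num
    ring
  -- the limiting right-hand side
  let R : ℝ → ℝ := fun r => r / 2 * ‖q'‖ ^ 2 + (1 - 1 / (2 * r))⁻¹ * h r +
    r * inner ℝ p₀ (deriv (deriv ζ) 0)
  have hR : ContinuousAt R 1 := by
    have h5 : ContinuousAt (fun r : ℝ => (1 - 1 / (2 * r))⁻¹) 1 := by
      apply ContinuousAt.inv₀
      · apply ContinuousAt.sub continuousAt_const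
        apply ContinuousAt.div continuousAt_const (by fun_prop) (by norm_num)
      · norm_num
    have h6 : ContinuousAt (fun r : ℝ => r / 2 * ‖q'‖ ^ 2) 1 := by fun_prop
    have h7 : ContinuousAt (fun r : ℝ => r * inner ℝ p₀ (deriv (deriv ζ) 0)) 1 := by fun_prop
    exact (h6.add (h5.mul hcont)).add h7
  have hR1 : R 1 = ‖q'‖ ^ 2 + inner ℝ p₀ (deriv (deriv ζ) 0) := by
    show (1 : ℝ) / 2 * ‖q'‖ ^ 2 + (1 - 1 / (2 * (1 : ℝ)))⁻¹ * h 1 +
      1 * inner ℝ p₀ (deriv (deriv ζ) 0) = _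
    rw [hh1]; norm_num; ring
  have hevR : ∀ᶠ r in 𝓝 (1 : ℝ), R r < ‖q'‖ ^ 2 + inner ℝ p₀ (deriv (deriv ζ) 0) + ε := by
    have hlt : R 1 < ‖q'‖ ^ 2 + inner ℝ p₀ (deriv (deriv ζ) 0) + ε := by rw [hR1]; linarith
    exact hR.preimage_mem_nhds (Iio_mem_nhds hlt)
  have hev2 : ∀ᶠ r in 𝓝 (1 : ℝ), (1 / 2 : ℝ) < r := Ioi_mem_nhds (by norm_num)
  obtain ⟨δ, hδ, hball⟩ := Metric.eventually_nhds_iff.1 (hevF.and (hevR.and hev2))
  refine ⟨1 - δ, by linarith, fun r hr1 hr2 => ?_⟩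
  have hdist : dist r 1 < δ := by
    rw [Real.dist_eq, abs_sub_comm, abs_of_pos (by linarith)]; linarith
  obtain ⟨hF, hRr, hr3⟩ := hball hdist
  -- the main inequality at `r`
  have hrI : r • p₀ ∈ G.I x := hB.smul_mem_I hp₀ (by linarith) hr2
  have hA := sec_curve hB hrI hζ hζ0
  have hθ0 : 0 < 1 / (2 * r) := by positivity
  have hθ1 : 1 / (2 * r) < 1 := by rw [div_lt_one (by linarith)]; linarith
  have hC := ((sec_norm_sq q₀ q').const_mul (r / 2)).add
    ((hess_fst hF w).const_mul (1 - 1 / (2 * r))⁻¹)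
  have hmain := hA.le hC ?_ ?_
  · have h8 : G.phi x (deriv ζ 0) (r • p₀) ≤ R r := by
      show _ ≤ r / 2 * ‖q'‖ ^ 2 + (1 - 1 / (2 * r))⁻¹ * h r + r * inner ℝ p₀ (deriv (deriv ζ) 0)
      rw [real_inner_smul_left] at hmain
      have : h r = hess (F G y) ((1 / 2 : ℝ) • q₀, (1 - r) • q₀) (w, 0) (w, 0) := rfl
      rw [this]; linarith
    linarith
  · -- equality at `0`
    show F G x (ζ 0, r • p₀) = r / 2 * (‖q₀ + (0 : ℝ) • q'‖ ^ 2 / 2) + (1 - 1 / (2 * r))⁻¹ *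
      F G y ((1 / 2 : ℝ) • q₀ + (0 : ℝ) • w, (1 - r) • q₀)
    rw [hζ0, zero_smul, add_zero, zero_smul, add_zero]
    have e1 : F G x (0, r • p₀) = r ^ 2 * ‖q₀‖ ^ 2 / 2 := by
      have := halfDistSq_of_mem_K' hp₀ (le_refl 0) (by linarith) hr2.le
      simp only [zero_smul, sub_zero] at this
      rw [hnorm] at this
      exact this
    have e2 : F G y ((1 / 2 : ℝ) • q₀, (1 - r) • q₀) = (r - 1 / 2) ^ 2 * ‖q₀‖ ^ 2 / 2 := by
      have := halfDistSq_of_mem_K' hq₀ (s := 1 - r) (t := 1 / 2) (by linarith) (by linarith)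
        (by norm_num)
      rw [halfDistSq_comm] at this
      show halfDistSq (G.ex y ((1 / 2 : ℝ) • q₀)) (G.ex y ((1 - r) • q₀)) = _
      rw [this]; ring
    rw [e1, e2]
    have h9 : (2 * r - 1) ≠ 0 := by linarith
    have h10 : r ≠ 0 := by linarith
    have h11 : (1 - 1 / (2 * r))⁻¹ = 2 * r / (2 * r - 1) := by
      field_simp
    rw [h11]
    field_simp
    ring
  · filter_upwards [hseg, hex] with τ hτ hτ'
    have e3 : halfDistSq (G.ex y (q₀ + τ • q')) (G.ex y ((1 / 2 : ℝ) • (q₀ + τ • q'))) =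
        ‖q₀ + τ • q'‖ ^ 2 / 8 := by
      have := halfDistSq_of_mem_K' hτ (s := 1 / 2) (t := 1) (by norm_num) (by norm_num) le_rfl
      rw [halfDistSq_comm, one_smul] at this
      rw [this]; ring
    have e4 := halfDistSq_le (G.ex y (q₀ + τ • q')) (G.ex y ((1 / 2 : ℝ) • (q₀ + τ • q')))
      (G.ex y ((1 - r) • q₀)) hθ0 hθ1
    have e5 : (1 / (2 * r))⁻¹ = 2 * r := by rw [one_div, inv_inv]
    rw [e3, e5] at e4
    have e6 : F G x (ζ τ, r • p₀) = halfDistSq (G.ex y (q₀ + τ • q')) (G.ex y ((1 - r) • q₀)) := by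
      show halfDistSq (G.ex x (ζ τ)) (G.ex x (r • p₀)) = _
      rw [hτ', hrev r]
    have e7 : F G y ((1 / 2 : ℝ) • q₀ + τ • w, (1 - r) • q₀) =
        halfDistSq (G.ex y ((1 / 2 : ℝ) • (q₀ + τ • q'))) (G.ex y ((1 - r) • q₀)) := by
      show halfDistSq (G.ex y ((1 / 2 : ℝ) • q₀ + τ • w)) _ = _
      have e8 : (1 / 2 : ℝ) • q₀ + τ • w = (1 / 2 : ℝ) • (q₀ + τ • q') := by
        rw [smul_add, smul_comm τ]
      rw [e8]
    rw [e6, e7]
    linarith

end Crest.Agent.R226.Seg347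
end

-- ▼ part R226/GaussI_299
section

set_option autoImplicit false

open MeasureTheory Bundle Set Filter
open scoped Manifold ContDiff Bundle ENNReal Topology
open Crest.GeometryTopology.MTW

namespace Crest.Agent.R226.GaussI299

theorem two_le_infty : (2 : WithTop ℕ∞) ≤ ((⊤ : ℕ∞) : WithTop ℕ∞) := by
  have : ((2 : ℕ∞) : WithTop ℕ∞) ≤ ((⊤ : ℕ∞) : WithTop ℕ∞) := WithTop.coe_le_coe.2 le_top
  exact this

section calculus

variable {V : Type*} [NormedAddCommGroup V] [NormedSpace ℝ V]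

/-- second derivative along a line through `0` = second Fréchet derivative on the diagonal. -/
theorem iteratedDeriv_two_line {f : V → ℝ} (hf : ContDiffAt ℝ 2 f 0) (ξ : V) :
    iteratedDeriv 2 (fun t : ℝ => f (t • ξ)) 0 = fderiv ℝ (fderiv ℝ f) 0 ξ ξ := by
  have h0 : (0 : ℝ) • ξ = 0 := zero_smul _ _
  have hline : ∀ t : ℝ, HasDerivAt (fun t : ℝ => t • ξ) ξ t := fun t => by
    simpa using (hasDerivAt_id t).smul_const ξ
  have hcont : ContinuousAt (fun t : ℝ => t • ξ) 0 := (hline 0).continuousAt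
  have hev : ∀ᶠ z in 𝓝 (0 : V), DifferentiableAt ℝ f z := by
    have := (hf.eventually (by simp)).mono
      (fun z hz => hz.differentiableAt (by simp))
    exact this
  have hev' : ∀ᶠ t in 𝓝 (0 : ℝ), DifferentiableAt ℝ f (t • ξ) := by
    have := hcont.eventually (by simpa [h0] using hev)
    exact this
  have h1 : deriv (fun t : ℝ => f (t • ξ)) =ᶠ[𝓝 0] fun t => fderiv ℝ f (t • ξ) ξ := by
    filter_upwards [hev'] with t ht
    exact (ht.hasFDerivAt.comp_hasDerivAt t (hline t)).deriv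
  have h2 : DifferentiableAt ℝ (fderiv ℝ f) 0 :=
    (hf.fderiv_right (m := 1) (by norm_num)).differentiableAt (by simp)
  have h2' : HasFDerivAt (fderiv ℝ f) (fderiv ℝ (fderiv ℝ f) 0) ((0 : ℝ) • ξ) := by
    rw [h0]; exact h2.hasFDerivAt
  have h3 : HasDerivAt (fun t : ℝ => fderiv ℝ f (t • ξ)) (fderiv ℝ (fderiv ℝ f) 0 ξ) 0 :=
    h2'.comp_hasDerivAt (0 : ℝ) (hline 0)
  have h4 : HasDerivAt (fun t : ℝ => fderiv ℝ f (t • ξ) ξ) (fderiv ℝ (fderiv ℝ f) 0 ξ ξ) 0 := by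
    have := h3.clm_apply (hasDerivAt_const (0 : ℝ) ξ)
    simpa using this
  rw [iteratedDeriv_succ, iteratedDeriv_one, h1.deriv_eq, h4.deriv]


end calculus

variable {n : ℕ} {M : Type*} [MetricSpace M] [ChartedSpace (EuclideanSpace ℝ (Fin n)) M]
  [IsManifold (𝓡 n) ∞ M]
  [RiemannianBundle (fun p : M => TangentSpace (𝓡 n) p)]

/-- the fibre inclusion `T_x M → TM` is smooth. -/
theorem contMDiff_mk (x : M) :
    ContMDiff 𝓘(ℝ, TangentSpace (𝓡 n) x) (𝓡 n).tangent ∞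
      (fun ξ : TangentSpace (𝓡 n) x => (⟨x, ξ⟩ : TangentBundle (𝓡 n) M)) := by
  intro ξ
  rw [Bundle.contMDiffAt_totalSpace]
  refine ⟨contMDiffAt_const, ?_⟩
  have hx : x ∈ (trivializationAt (EuclideanSpace ℝ (Fin n)) (TangentSpace (𝓡 n)) x).baseSet :=
    mem_baseSet_trivializationAt _ _ x
  have : (fun η : TangentSpace (𝓡 n) x =>
      (trivializationAt (EuclideanSpace ℝ (Fin n)) (TangentSpace (𝓡 n)) x ⟨x, η⟩).2) =
      ((trivializationAt (EuclideanSpace ℝ (Fin n)) (TangentSpace (𝓡 n) (M := M)) x).continuousLinearMapAt ℝ x) := by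
    funext η
    rw [Trivialization.continuousLinearMapAt_apply_of_mem _ _ hx]
  change ContMDiffAt _ _ _ (fun η : TangentSpace (𝓡 n) x =>
      (trivializationAt (EuclideanSpace ℝ (Fin n)) (TangentSpace (𝓡 n)) x ⟨x, η⟩).2) ξ
  rw [this]
  exact (ContinuousLinearMap.contDiff _).contMDiff.contMDiffAt

variable (G : GeoData n M)

/-- `exp_x` is smooth. -/
theorem contMDiff_ex (x : M) :
    ContMDiff 𝓘(ℝ, TangentSpace (𝓡 n) x) (𝓡 n) ∞ (G.ex x) :=
  G.smooth.comp (contMDiff_mk x)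

/-- the cost in exponential coordinates at `x` for both variables. -/
noncomputable def F (x : M) (q : TangentSpace (𝓡 n) x × TangentSpace (𝓡 n) x) : ℝ :=
  halfDistSq (G.ex x q.1) (G.ex x q.2)

theorem F_contDiffAt {x : M} {ξ p : TangentSpace (𝓡 n) x}
    (hs : ContMDiffAt ((𝓡 n).prod (𝓡 n)) 𝓘(ℝ) ∞
      (fun q : M × M => halfDistSq q.1 q.2) (G.ex x ξ, G.ex x p)) :
    ContDiffAt ℝ ∞ (F G x) (ξ, p) := by
  rw [← contMDiffAt_iff_contDiffAt]
  have h1 : ContMDiffAt 𝓘(ℝ, TangentSpace (𝓡 n) x × TangentSpace (𝓡 n) x) (𝓡 n) ∞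
      (fun q : TangentSpace (𝓡 n) x × TangentSpace (𝓡 n) x => G.ex x q.1) (ξ, p) :=
    ((contMDiff_ex G x).comp contDiff_fst.contMDiff).contMDiffAt
  have h2 : ContMDiffAt 𝓘(ℝ, TangentSpace (𝓡 n) x × TangentSpace (𝓡 n) x) (𝓡 n) ∞
      (fun q : TangentSpace (𝓡 n) x × TangentSpace (𝓡 n) x => G.ex x q.2) (ξ, p) :=
    ((contMDiff_ex G x).comp contDiff_snd.contMDiff).contMDiffAt
  exact ContMDiffAt.comp (ξ, p) (g := fun q : M × M => halfDistSq q.1 q.2) hs (h1.prodMk h2)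

theorem F_contDiffAt_zero {x : M} {p : TangentSpace (𝓡 n) x}
    (hs : ContMDiffAt ((𝓡 n).prod (𝓡 n)) 𝓘(ℝ) ∞
      (fun q : M × M => halfDistSq q.1 q.2) (x, G.ex x p)) :
    ContDiffAt ℝ ∞ (F G x) (0, p) := by
  apply F_contDiffAt
  rwa [G.ex_zero]

/-- field `nc_smooth`. -/
theorem nc_smooth {x : M} {p : TangentSpace (𝓡 n) x}
    (hs : ContMDiffAt ((𝓡 n).prod (𝓡 n)) 𝓘(ℝ) ∞
      (fun q : M × M => halfDistSq q.1 q.2) (x, G.ex x p)) :
    ContDiffAt ℝ ∞ (G.nc x p) 0 := by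
  have h := F_contDiffAt_zero G hs
  have h2 : ContDiffAt ℝ ∞ (fun ξ : TangentSpace (𝓡 n) x => (ξ, p)) 0 :=
    contDiffAt_id.prodMk contDiffAt_const
  exact ContDiffAt.comp (0 : TangentSpace (𝓡 n) x) (g := F G x) h h2

/-- field `nc_hess`. -/
theorem nc_hess {x : M} {p : TangentSpace (𝓡 n) x}
    (h : ContDiffAt ℝ 2 (G.nc x p) 0) (ξ : TangentSpace (𝓡 n) x) :
    fderiv ℝ (fderiv ℝ (G.nc x p)) 0 ξ ξ = G.phi x ξ p :=
  (iteratedDeriv_two_line h ξ).symm

/-- field `phi_smul`. -/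
theorem phi_smul {x : M} {p : TangentSpace (𝓡 n) x}
    (h : ContDiffAt ℝ 2 (G.nc x p) 0) (ξ : TangentSpace (𝓡 n) x) (t : ℝ) :
    G.phi x (t • ξ) p = t ^ 2 * G.phi x ξ p := by
  rw [← nc_hess G h, ← nc_hess G h]
  simp only [map_smul, smul_apply, smul_eq_mul]
  ring

/-- `phi` as a second derivative of the two-variable cost. -/
theorem phi_eq_F {x : M} {p : TangentSpace (𝓡 n) x} (h : ContDiffAt ℝ 2 (F G x) (0, p))
    (ξ : TangentSpace (𝓡 n) x) :
    G.phi x ξ p = fderiv ℝ (fderiv ℝ (F G x)) (0, p) (ξ, 0) (ξ, 0) := by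
  have hnc : ContDiffAt ℝ 2 (G.nc x p) 0 := by
    have h2 : ContDiffAt ℝ 2 (fun ξ : TangentSpace (𝓡 n) x => (ξ, p)) 0 :=
      contDiffAt_id.prodMk contDiffAt_const
    exact ContDiffAt.comp (0 : TangentSpace (𝓡 n) x) (g := F G x) h h2
  rw [← nc_hess G hnc]
  have hline : ∀ z : TangentSpace (𝓡 n) x,
      HasFDerivAt (fun ξ : TangentSpace (𝓡 n) x => (ξ, p))
        (ContinuousLinearMap.inl ℝ (TangentSpace (𝓡 n) x) (TangentSpace (𝓡 n) x)) z := fun z =>
    hasFDerivAt_prodMk_left z p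
  have hev : ∀ᶠ z in 𝓝 ((0 : TangentSpace (𝓡 n) x), p), DifferentiableAt ℝ (F G x) z :=
    (h.eventually (by simp)).mono (fun z hz => hz.differentiableAt (by simp))
  have hev' : ∀ᶠ z in 𝓝 (0 : TangentSpace (𝓡 n) x), DifferentiableAt ℝ (F G x) (z, p) :=
    (hline 0).continuousAt.eventually hev
  have h1 : fderiv ℝ (G.nc x p) =ᶠ[𝓝 0] fun z => (fderiv ℝ (F G x) (z, p)).comp
      (ContinuousLinearMap.inl ℝ (TangentSpace (𝓡 n) x) (TangentSpace (𝓡 n) x)) := by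
    filter_upwards [hev'] with z hz
    exact (hz.hasFDerivAt.comp z (hline z)).fderiv
  have h2 : HasFDerivAt (fderiv ℝ (F G x)) (fderiv ℝ (fderiv ℝ (F G x)) (0, p)) (0, p) :=
    ((h.fderiv_right (m := 1) (by norm_num)).differentiableAt (by simp)).hasFDerivAt
  have h3 : HasFDerivAt (fun ξ : TangentSpace (𝓡 n) x => fderiv ℝ (F G x) (ξ, p))
      ((fderiv ℝ (fderiv ℝ (F G x)) (0, p)).comp
        (ContinuousLinearMap.inl ℝ (TangentSpace (𝓡 n) x) (TangentSpace (𝓡 n) x))) 0 :=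
    HasFDerivAt.comp (g := fderiv ℝ (F G x)) (f := fun ξ : TangentSpace (𝓡 n) x => (ξ, p))
      (0 : TangentSpace (𝓡 n) x) h2 (hline 0)
  have h4 := h3.clm_comp (hasFDerivAt_const
      (ContinuousLinearMap.inl ℝ (TangentSpace (𝓡 n) x) (TangentSpace (𝓡 n) x))
      (0 : TangentSpace (𝓡 n) x))
  rw [h1.fderiv_eq]
  erw [h4.fderiv]
  simp

/-- field `phi_cont`. -/
theorem phi_cont (x : M) (S : Set (TangentSpace (𝓡 n) x))
    (hs : ∀ p ∈ S, ContMDiffAt ((𝓡 n).prod (𝓡 n)) 𝓘(ℝ) ∞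
      (fun q : M × M => halfDistSq q.1 q.2) (x, G.ex x p)) :
    ContinuousOn (fun q : TangentSpace (𝓡 n) x × TangentSpace (𝓡 n) x => G.phi x q.1 q.2)
      {q | q.2 ∈ S} := by
  intro q hq
  have hF : ContDiffAt ℝ 2 (F G x) (0, q.2) :=
    (F_contDiffAt_zero G (hs q.2 hq)).of_le two_le_infty
  have hc : ContinuousAt (fderiv ℝ (fderiv ℝ (F G x))) (0, q.2) :=
    ((hF.fderiv_right (m := 1) (by norm_num)).fderiv_right (m := 0) (by norm_num)).continuousAt
  have hc' : ContinuousAt (fun q : TangentSpace (𝓡 n) x × TangentSpace (𝓡 n) x =>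
      fderiv ℝ (fderiv ℝ (F G x)) (0, q.2) (q.1, 0) (q.1, 0)) q := by
    have h1 : ContinuousAt (fun q : TangentSpace (𝓡 n) x × TangentSpace (𝓡 n) x =>
        fderiv ℝ (fderiv ℝ (F G x)) (0, q.2)) q :=
      ContinuousAt.comp (f := fun q : TangentSpace (𝓡 n) x × TangentSpace (𝓡 n) x =>
        ((0 : TangentSpace (𝓡 n) x), q.2)) hc (by fun_prop)
    have h2 : ContinuousAt (fun q : TangentSpace (𝓡 n) x × TangentSpace (𝓡 n) x =>
        (q.1, (0 : TangentSpace (𝓡 n) x))) q := by fun_prop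
    exact (h1.clm_apply h2).clm_apply h2
  refine hc'.continuousWithinAt.congr (fun z hz => ?_) ?_
  · exact phi_eq_F G ((F_contDiffAt_zero G (hs z.2 hz)).of_le two_le_infty) z.1
  · exact phi_eq_F G hF q.1

/-! ### the Gauss lemma -/

theorem fderiv_zero_of_pos {x : M} {p : TangentSpace (𝓡 n) x} (hp : p ∈ G.K x)
    {s : ℝ} (hs0 : 0 < s) (hs1 : s < 1) (hsr : ‖s • p‖ < G.r₀)
    (hd : DifferentiableAt ℝ (G.nc x p) (s • p)) (ξ : TangentSpace (𝓡 n) x) :
    fderiv ℝ (G.nc x p) (s • p) ξ = -((1 - s) * inner ℝ p ξ) := by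
  have h1s : 0 < 1 - s := by linarith
  -- the comparison function
  set g : ℝ → ℝ := fun t => (‖s • p + t • ξ‖ ^ 2 / 2) / s + G.nc x p (s • p + t • ξ) / (1 - s)
    with hg
  have hline : HasDerivAt (fun t : ℝ => s • p + t • ξ) ξ 0 := by
    simpa using ((hasDerivAt_id (0 : ℝ)).smul_const ξ).const_add (s • p)
  have hval : s • p + (0 : ℝ) • ξ = s • p := by simp
  have hcont : ContinuousAt (fun t : ℝ => s • p + t • ξ) 0 := hline.continuousAt
  have hK : dist x (G.ex x p) = ‖p‖ := hp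
  have hone : (1 : ℝ) • p = p := one_smul _ _
  have hb0 : dist (G.ex x (s • p)) (G.ex x p) ≤ (1 - s) * ‖p‖ := by
    have := G.dist_le x p s 1
    rw [hone] at this
    rwa [abs_sub_comm, abs_of_pos h1s] at this
  have hg0 : g 0 ≤ ‖p‖ ^ 2 / 2 := by
    simp only [hg, hval, GeoData.nc, halfDistSq]
    have h1 : ‖s • p‖ = s * ‖p‖ := by rw [norm_smul, Real.norm_of_nonneg hs0.le]
    have h2 : dist (G.ex x (s • p)) (G.ex x p) ^ 2 ≤ ((1 - s) * ‖p‖) ^ 2 :=
      pow_le_pow_left₀ dist_nonneg hb0 2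
    rw [h1]
    have e1 : (s * ‖p‖) ^ 2 / 2 / s = s * ‖p‖ ^ 2 / 2 := by
      field_simp
    have e2 : ((1 - s) * ‖p‖) ^ 2 / 2 / (1 - s) = (1 - s) * ‖p‖ ^ 2 / 2 := by
      field_simp
    have e3 : dist (G.ex x (s • p)) (G.ex x p) ^ 2 / 2 / (1 - s) ≤
        ((1 - s) * ‖p‖) ^ 2 / 2 / (1 - s) := by gcongr
    rw [e1]
    calc _ ≤ s * ‖p‖ ^ 2 / 2 + (1 - s) * ‖p‖ ^ 2 / 2 := by rw [← e2]; gcongr
      _ = ‖p‖ ^ 2 / 2 := by ring
  have hgt : ∀ᶠ t in 𝓝 (0 : ℝ), ‖p‖ ^ 2 / 2 ≤ g t := by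
    have hev : ∀ᶠ t in 𝓝 (0 : ℝ), ‖s • p + t • ξ‖ < G.r₀ := by
      have h1 : ContinuousAt (fun t : ℝ => ‖s • p + t • ξ‖) 0 := hcont.norm
      exact h1.eventually_lt continuousAt_const (by simpa using hsr)
    filter_upwards [hev] with t ht
    set w := s • p + t • ξ with hw
    have hd1 : dist x (G.ex x w) = ‖w‖ := by
      have := G.dist_eq x w 0 1 (by simpa using ht)
      simpa [G.ex_zero] using this
    have htri : ‖p‖ ≤ ‖w‖ + dist (G.ex x w) (G.ex x p) := by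
      rw [← hK, ← hd1]; exact dist_triangle _ _ _
    have hgw : g t = ‖w‖ ^ 2 / 2 / s + dist (G.ex x w) (G.ex x p) ^ 2 / 2 / (1 - s) := rfl
    rw [hgw]
    set a := ‖w‖ with ha
    set b := dist (G.ex x w) (G.ex x p) with hb
    have ha0 : 0 ≤ a := norm_nonneg _
    have hb0 : 0 ≤ b := dist_nonneg
    have h1 : ‖p‖ ^ 2 ≤ (a + b) ^ 2 := pow_le_pow_left₀ (norm_nonneg _) htri 2
    have h2 : (a + b) ^ 2 / 2 ≤ a ^ 2 / 2 / s + b ^ 2 / 2 / (1 - s) := by
      rw [div_div, div_div, div_add_div _ _ (by positivity) (by positivity),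
        div_le_div_iff₀ (by positivity) (by positivity)]
      nlinarith [sq_nonneg ((1 - s) * a - s * b), sq_nonneg (a + b), mul_pos hs0 h1s]
    linarith
  have hmin : IsLocalMin g 0 := by
    filter_upwards [hgt] with t ht
    exact hg0.trans ht
  have hdg : HasDerivAt g ((inner ℝ (s • p) ξ) / s + fderiv ℝ (G.nc x p) (s • p) ξ / (1 - s)) 0 := by
    have h1 : HasDerivAt (fun t : ℝ => ‖s • p + t • ξ‖ ^ 2) (2 * inner ℝ (s • p + (0 : ℝ) • ξ) ξ) 0 :=
      hline.norm_sq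
    have h2 : HasDerivAt (fun t : ℝ => G.nc x p (s • p + t • ξ))
        (fderiv ℝ (G.nc x p) (s • p) ξ) 0 := by
      have hd' : HasFDerivAt (G.nc x p) (fderiv ℝ (G.nc x p) (s • p)) (s • p + (0 : ℝ) • ξ) := by
        rw [hval]; exact hd.hasFDerivAt
      exact hd'.comp_hasDerivAt (0 : ℝ) hline
    have h3 : HasDerivAt g (2 * inner ℝ (s • p + (0 : ℝ) • ξ) ξ / 2 / s +
        fderiv ℝ (G.nc x p) (s • p) ξ / (1 - s)) 0 :=
      ((h1.div_const 2).div_const s).add (h2.div_const (1 - s))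
    refine h3.congr_deriv ?_
    rw [hval]
    ring
  have hz := hmin.hasDerivAt_eq_zero hdg
  rw [real_inner_smul_left] at hz
  field_simp at hz
  linarith

/-- gradient of the cost along the initial part of the geodesic; the basic identity. -/
theorem fderiv_nc_smul {x : M} {p : TangentSpace (𝓡 n) x} (hp : p ∈ G.K x)
    (hs : ContDiffAt ℝ 1 (G.nc x p) 0) (ξ : TangentSpace (𝓡 n) x) :
    ∀ᶠ s in 𝓝[>] (0 : ℝ), fderiv ℝ (G.nc x p) (s • p) ξ = -((1 - s) * inner ℝ p ξ) := by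
  have hc : ContinuousAt (fun s : ℝ => s • p) 0 := by fun_prop
  have h1 : ∀ᶠ s in 𝓝 (0 : ℝ), DifferentiableAt ℝ (G.nc x p) (s • p) := by
    have hev : ∀ᶠ z in 𝓝 (0 : TangentSpace (𝓡 n) x), DifferentiableAt ℝ (G.nc x p) z :=
      (hs.eventually (by simp)).mono (fun z hz => hz.differentiableAt (by simp))
    exact hc.eventually (by simpa using hev)
  have h2 : ∀ᶠ s in 𝓝 (0 : ℝ), ‖s • p‖ < G.r₀ :=
    hc.norm.eventually_lt continuousAt_const (by simpa using G.r₀_pos)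
  have h3 : ∀ᶠ s in 𝓝 (0 : ℝ), s < 1 := eventually_lt_nhds (by norm_num)
  filter_upwards [h1.filter_mono nhdsWithin_le_nhds, h2.filter_mono nhdsWithin_le_nhds,
    h3.filter_mono nhdsWithin_le_nhds, self_mem_nhdsWithin] with s a b c d
  exact fderiv_zero_of_pos G hp d c b a ξ

/-- field `nc_fderiv` (valid for every `p ∈ K(x)` at which the cost is smooth). -/
theorem nc_fderiv {x : M} {p : TangentSpace (𝓡 n) x} (hp : p ∈ G.K x)
    (hs : ContDiffAt ℝ 1 (G.nc x p) 0) (ξ : TangentSpace (𝓡 n) x) :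
    fderiv ℝ (G.nc x p) 0 ξ = -inner ℝ p ξ := by
  have hc : ContinuousAt (fderiv ℝ (G.nc x p)) ((0 : ℝ) • p) := by
    rw [zero_smul]
    exact (hs.fderiv_right (m := 0) (by norm_num)).continuousAt
  have h1 : Tendsto (fun s : ℝ => fderiv ℝ (G.nc x p) (s • p) ξ) (𝓝[>] 0)
      (𝓝 (fderiv ℝ (G.nc x p) 0 ξ)) := by
    have : ContinuousAt (fun s : ℝ => fderiv ℝ (G.nc x p) (s • p) ξ) 0 :=
      (ContinuousAt.comp (f := fun s : ℝ => s • p) hc (by fun_prop)).clm_apply continuousAt_const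
    have h := this.tendsto
    rw [zero_smul] at h
    exact h.mono_left nhdsWithin_le_nhds
  have h2 : Tendsto (fun s : ℝ => -((1 - s) * inner ℝ p ξ)) (𝓝[>] 0)
      (𝓝 (-((1 - 0) * inner ℝ p ξ))) := by
    have : ContinuousAt (fun s : ℝ => -((1 - s) * inner ℝ p ξ)) 0 := by fun_prop
    exact this.tendsto.mono_left nhdsWithin_le_nhds
  have h3 := h2.congr' ((fderiv_nc_smul G hp hs ξ).mono fun s hs => hs.symm)
  have := tendsto_nhds_unique h1 h3
  rw [this]; ring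

/-- **Gauss lemma** for the Hessian of the cost: `A(p)(p,ξ) = ⟪p,ξ⟫`. -/
theorem hess_left {x : M} {p : TangentSpace (𝓡 n) x} (hp : p ∈ G.K x)
    (hs : ContDiffAt ℝ 2 (G.nc x p) 0) (ξ : TangentSpace (𝓡 n) x) :
    fderiv ℝ (fderiv ℝ (G.nc x p)) 0 p ξ = inner ℝ p ξ := by
  have hs1 : ContDiffAt ℝ 1 (G.nc x p) 0 := hs.of_le (by norm_num)
  have h2 : HasFDerivAt (fderiv ℝ (G.nc x p)) (fderiv ℝ (fderiv ℝ (G.nc x p)) 0) ((0 : ℝ) • p) := by
    rw [zero_smul]
    exact ((hs.fderiv_right (m := 1) (by norm_num)).differentiableAt (by simp)).hasFDerivAt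
  have hline : HasDerivAt (fun s : ℝ => s • p) p 0 := by
    simpa using (hasDerivAt_id (0 : ℝ)).smul_const p
  have h3 : HasDerivAt (fun s : ℝ => fderiv ℝ (G.nc x p) (s • p))
      (fderiv ℝ (fderiv ℝ (G.nc x p)) 0 p) 0 :=
    HasFDerivAt.comp_hasDerivAt (l := fderiv ℝ (G.nc x p)) (f := fun s : ℝ => s • p) (0 : ℝ) h2 hline
  have h4 : HasDerivAt (fun s : ℝ => fderiv ℝ (G.nc x p) (s • p) ξ)
      (fderiv ℝ (fderiv ℝ (G.nc x p)) 0 p ξ) 0 := by
    have := h3.clm_apply (hasDerivAt_const (0 : ℝ) ξ)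
    simpa using this
  have h5 : HasDerivAt (fun s : ℝ => -((1 - s) * inner ℝ p ξ)) (inner ℝ p ξ) 0 := by
    have h0 : HasDerivAt (fun s : ℝ => -((1 - s) * inner ℝ p ξ)) (-(-1 * inner ℝ p ξ)) 0 :=
      (((hasDerivAt_id (0 : ℝ)).const_sub 1).mul_const (inner ℝ p ξ)).neg
    exact h0.congr_deriv (by ring)
  have h6 : (fun s : ℝ => -((1 - s) * inner ℝ p ξ)) =ᶠ[𝓝[≥] 0]
      fun s : ℝ => fderiv ℝ (G.nc x p) (s • p) ξ := by
    rw [← Ioi_insert (a := (0 : ℝ)), nhdsWithin_insert]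
    refine Filter.eventually_sup.2 ⟨?_, ?_⟩
    · simp only [eventually_pure, zero_smul]
      rw [nc_fderiv G hp hs1]
      ring
    · exact (fderiv_nc_smul G hp hs1 ξ).mono fun s hs => hs.symm
  have h7 : HasDerivWithinAt (fun s : ℝ => fderiv ℝ (G.nc x p) (s • p) ξ) (inner ℝ p ξ) (Ici 0) 0 :=
    h5.hasDerivWithinAt.congr_of_eventuallyEq h6.symm (h6.self_of_nhdsWithin (by simp)).symm
  exact (uniqueDiffWithinAt_Ici (0 : ℝ)).eq_deriv _ h4.hasDerivWithinAt h7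

theorem hess_symm {x : M} {p : TangentSpace (𝓡 n) x}
    (hs : ContDiffAt ℝ 2 (G.nc x p) 0) (ξ η : TangentSpace (𝓡 n) x) :
    fderiv ℝ (fderiv ℝ (G.nc x p)) 0 ξ η = fderiv ℝ (fderiv ℝ (G.nc x p)) 0 η ξ :=
  (hs.isSymmSndFDerivAt (by simp)) ξ η

/-- field `gauss`. -/
theorem gauss {x : M} {p : TangentSpace (𝓡 n) x} (hp : p ∈ G.K x)
    (hs : ContDiffAt ℝ 2 (G.nc x p) 0) (η : TangentSpace (𝓡 n) x) (hη : inner ℝ p η = 0) (a : ℝ) :
    G.phi x (a • p + η) p = a ^ 2 * ‖p‖ ^ 2 + G.phi x η p := by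
  rw [← nc_hess G hs, ← nc_hess G hs]
  simp only [map_add, map_smul, add_apply, smul_apply, smul_eq_mul]
  rw [hess_symm G hs η p, hess_left G hp hs, hess_left G hp hs, hη, real_inner_self_eq_norm_sq]
  ring


/-! ### the bilinear form `A x p` -/

/-- the Hessian of the cost in normal coordinates, as a bilinear form. -/
noncomputable def A (x : M) (p : TangentSpace (𝓡 n) x) :
    TangentSpace (𝓡 n) x →L[ℝ] TangentSpace (𝓡 n) x →L[ℝ] ℝ :=
  fderiv ℝ (fderiv ℝ (G.nc x p)) 0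








/-! ### the package -/

/-- the fields of `CutFacts` delivered by task C4. -/
structure NcFacts (G : GeoData n M) : Prop where
  nc_smooth : ∀ x, ∀ v ∈ G.I x, ContDiffAt ℝ ∞ (G.nc x v) 0
  nc_fderiv : ∀ x, ∀ v ∈ G.I x, ∀ ξ, fderiv ℝ (G.nc x v) 0 ξ = -inner ℝ v ξ
  nc_hess : ∀ x, ∀ v ∈ G.I x, ∀ ξ, fderiv ℝ (fderiv ℝ (G.nc x v)) 0 ξ ξ = G.phi x ξ v
  phi_smul : ∀ x, ∀ v ∈ G.I x, ∀ ξ, ∀ t : ℝ, G.phi x (t • ξ) v = t ^ 2 * G.phi x ξ v
  phi_cont : ∀ x, ContinuousOn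
    (fun q : TangentSpace (𝓡 n) x × TangentSpace (𝓡 n) x => G.phi x q.1 q.2) {q | q.2 ∈ G.I x}
  gauss : ∀ x, ∀ p ∈ G.I x, ∀ η : TangentSpace (𝓡 n) x, inner ℝ p η = 0 → ∀ a : ℝ,
    G.phi x (a • p + η) p = a ^ 2 * ‖p‖ ^ 2 + G.phi x η p

/-- **C4**: all of them follow from the smoothness of the cost on `I` and `I ⊆ K`. -/
theorem ncFacts
    (hsc : ∀ x, ∀ v ∈ G.I x, ContMDiffAt ((𝓡 n).prod (𝓡 n)) 𝓘(ℝ) ∞
      (fun q : M × M => halfDistSq q.1 q.2) (x, G.ex x v))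
    (hIK : ∀ x, G.I x ⊆ G.K x) : NcFacts G where
  nc_smooth x v hv := nc_smooth G (hsc x v hv)
  nc_fderiv x v hv ξ := nc_fderiv G (hIK x hv)
    ((nc_smooth G (hsc x v hv)).of_le (le_trans (by norm_num) two_le_infty)) ξ
  nc_hess x v hv ξ := nc_hess G ((nc_smooth G (hsc x v hv)).of_le two_le_infty) ξ
  phi_smul x v hv ξ t := phi_smul G ((nc_smooth G (hsc x v hv)).of_le two_le_infty) ξ t
  phi_cont x := phi_cont G x (G.I x) (hsc x)
  gauss x p hp η hη a := gauss G (hIK x hp)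
    ((nc_smooth G (hsc x p hp)).of_le two_le_infty) η hη a

end Crest.Agent.R226.GaussI299
end

-- ▼ part R226/CC2_229
section

set_option autoImplicit false

open MeasureTheory Bundle Set Filter
open scoped Manifold ContDiff Bundle ENNReal Topology
open Crest.GeometryTopology.MTW

namespace Crest.Agent.R226.CC2229

variable {n : ℕ} {M : Type*} [MetricSpace M] [ChartedSpace (EuclideanSpace ℝ (Fin n)) M]
  [IsManifold (𝓡 n) ∞ M]
  [RiemannianBundle (fun p : M => TangentSpace (𝓡 n) p)]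

/-- distance along a radial geodesic, upper bound -/
theorem dist_ex_le (G : GeoData n M) (x : M) (v : TangentSpace (𝓡 n) x) :
    dist x (G.ex x v) ≤ ‖v‖ := by
  have h := G.dist_le x v 0 1
  simpa [G.ex_zero] using h




/-- (L-B): semiconvexity of `u` with every `p ∈ H_u(x)` as a subgradient. -/
theorem H_support {G : GeoData n M} {C₁ : ℝ}
    (hsc : ∀ x, ∀ v ∈ G.K x, ∀ ξ : TangentSpace (𝓡 n) x,
      halfDistSq (G.ex x ξ) (G.ex x v) ≤ halfDistSq x (G.ex x v) - inner ℝ v ξ + C₁ * ‖ξ‖ ^ 2)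
    {u : M → ℝ} {x : M} {p : TangentSpace (𝓡 n) x} (hp : p ∈ G.H u x)
    (ξ : TangentSpace (𝓡 n) x) :
    u x + inner ℝ p ξ - C₁ * ‖ξ‖ ^ 2 ≤ u (G.ex x ξ) := by
  have hconv : Convex ℝ {p : TangentSpace (𝓡 n) x | u x + inner ℝ p ξ - C₁ * ‖ξ‖ ^ 2 ≤ u (G.ex x ξ)} := by
    have : {p : TangentSpace (𝓡 n) x | u x + inner ℝ p ξ - C₁ * ‖ξ‖ ^ 2 ≤ u (G.ex x ξ)} =
        {p : TangentSpace (𝓡 n) x | inner ℝ p ξ ≤ u (G.ex x ξ) - u x + C₁ * ‖ξ‖ ^ 2} := by
      ext p; constructor <;> intro h <;> simp only [mem_ofPred_eq] at h ⊢ <;> linarith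
    rw [this]
    intro a ha b hb s t hs ht hst
    simp only [mem_ofPred_eq] at ha hb ⊢
    rw [inner_add_left, real_inner_smul_left, real_inner_smul_left]
    calc s * inner ℝ a ξ + t * inner ℝ b ξ
        ≤ s * (u (G.ex x ξ) - u x + C₁ * ‖ξ‖ ^ 2) + t * (u (G.ex x ξ) - u x + C₁ * ‖ξ‖ ^ 2) :=
          add_le_add (mul_le_mul_of_nonneg_left ha hs) (mul_le_mul_of_nonneg_left hb ht)
      _ = u (G.ex x ξ) - u x + C₁ * ‖ξ‖ ^ 2 := by rw [← add_mul, hst, one_mul]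
  have hsub : G.P u x ⊆ {p : TangentSpace (𝓡 n) x | u x + inner ℝ p ξ - C₁ * ‖ξ‖ ^ 2 ≤ u (G.ex x ξ)} := by
    intro v hv
    obtain ⟨hK, hP⟩ := hv
    have h1 := hP (G.ex x ξ)
    have h2 := hsc x v hK ξ
    simp only [mem_ofPred_eq]
    linarith
  exact convexHull_min hsub hconv hp

/-- norms of elements of `H_u(x)` are bounded by a diameter bound. -/
theorem norm_H_le {G : GeoData n M} {D : ℝ} (hD : ∀ x y : M, dist x y ≤ D)
    {u : M → ℝ} {x : M} {p : TangentSpace (𝓡 n) x} (hp : p ∈ G.H u x) : ‖p‖ ≤ D := by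
  have hsub : G.P u x ⊆ Metric.closedBall (0 : TangentSpace (𝓡 n) x) D := by
    intro v hv
    have : dist x (G.ex x v) = ‖v‖ := hv.1
    simp only [mem_closedBall_zero_iff]
    rw [← this]; exact hD _ _
  have := convexHull_min hsub (convex_closedBall _ _) hp
  simpa using this

/-- real arithmetic used in `inj_small`. -/
theorem real_aux {C₁ ε a b i j d A B : ℝ} (hε : 0 < ε) (hb : ε * (8 * C₁) ≤ 1)
    (h1 : (ε * a) ^ 2 / 2 - ε * i + d ^ 2 / 4 ≤ A) (h2 : (ε * b) ^ 2 / 2 - ε * j + d ^ 2 / 4 ≤ B)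
    (hA : A ≤ (ε * b) ^ 2 / 2) (hB : B ≤ (ε * a) ^ 2 / 2) (h : i + j ≤ 2 * C₁ * d ^ 2) : d = 0 := by
  have k1 : d ^ 2 / 2 ≤ ε * (i + j) := by
    have : ε * (i + j) = ε * i + ε * j := by ring
    linarith
  have k2 : ε * (i + j) ≤ ε * (2 * C₁ * d ^ 2) := mul_le_mul_of_nonneg_left h hε.le
  have k3 : ε * (2 * C₁ * d ^ 2) = (ε * (8 * C₁)) * (d ^ 2 / 4) := by ring
  have k4 : (ε * (8 * C₁)) * (d ^ 2 / 4) ≤ 1 * (d ^ 2 / 4) :=
    mul_le_mul_of_nonneg_right hb (by positivity)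
  have k5 : d ^ 2 ≤ 0 := by linarith
  exact pow_eq_zero_iff (two_ne_zero) |>.1 (le_antisymm k5 (sq_nonneg _))

/-- (L-E): for small `ε` (uniform in `u`!), `(x, p ∈ H_u(x)) ↦ ex x (ε p)` is injective. -/
theorem inj_small {G : GeoData n M} (CF : CutFacts G) {D : ℝ} (hD : ∀ x y : M, dist x y ≤ D) :
    ∃ ε₀ : ℝ, 0 < ε₀ ∧ ∀ ε : ℝ, 0 < ε → ε ≤ ε₀ → ∀ u : M → ℝ, ∀ x x' : M,
      ∀ p ∈ G.H u x, ∀ p' ∈ G.H u x', G.ex x (ε • p) = G.ex x' (ε • p') →
      (⟨x, p⟩ : TangentBundle (𝓡 n) M) = ⟨x', p'⟩ := by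
  obtain ⟨C₁, hC₁, hsc⟩ := CF.semiconcave
  obtain ⟨r₁, hr₁, hcn⟩ := CF.convex_near
  have hr₀ := G.r₀_pos
  refine ⟨min (1 / (8 * C₁)) (min (r₁ / (2 * (|D| + 1))) (G.r₀ / (2 * (|D| + 1)))), ?_, ?_⟩
  · have : 0 < |D| + 1 := by positivity
    positivity
  intro ε hε hεle u x x' p hp p' hp' heq
  have hD1 : 0 < |D| + 1 := by positivity
  have hε1 : ε ≤ 1 / (8 * C₁) := hεle.trans (min_le_left _ _)
  have hε2 : ε ≤ r₁ / (2 * (|D| + 1)) := hεle.trans ((min_le_right _ _).trans (min_le_left _ _))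
  have hε3 : ε ≤ G.r₀ / (2 * (|D| + 1)) := hεle.trans ((min_le_right _ _).trans (min_le_right _ _))
  have hpD : ‖p‖ ≤ |D| := (norm_H_le hD hp).trans (le_abs_self D)
  have hpD' : ‖p'‖ ≤ |D| := (norm_H_le hD hp').trans (le_abs_self D)
  have hεp : ‖ε • p‖ = ε * ‖p‖ := by rw [norm_smul, Real.norm_eq_abs, abs_of_pos hε]
  have hεp' : ‖ε • p'‖ = ε * ‖p'‖ := by rw [norm_smul, Real.norm_eq_abs, abs_of_pos hε]
  have hb2 : ε * (2 * (|D| + 1)) ≤ r₁ := by rwa [le_div_iff₀ (by positivity)] at hε2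
  have hb3 : ε * (2 * (|D| + 1)) ≤ G.r₀ := by rwa [le_div_iff₀ (by positivity)] at hε3
  have hb1 : ε * (8 * C₁) ≤ 1 := by rwa [le_div_iff₀ (by positivity)] at hε1
  have hεpD : ε * ‖p‖ ≤ ε * |D| := mul_le_mul_of_nonneg_left hpD hε.le
  have hεpD' : ε * ‖p'‖ ≤ ε * |D| := mul_le_mul_of_nonneg_left hpD' hε.le
  -- distance bounds
  have hd1 : dist x (G.ex x (ε • p)) ≤ ε * ‖p‖ := by
    have := dist_ex_le G x (ε • p); rwa [hεp] at this
  have hd2 : dist x' (G.ex x (ε • p)) ≤ ε * ‖p'‖ := by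
    rw [heq]
    have := dist_ex_le G x' (ε • p'); rwa [hεp'] at this
  have hxx' : dist x x' ≤ ε * (2 * |D|) := by
    have := dist_triangle_right x x' (G.ex x (ε • p))
    linarith
  have hεe : 0 < ε * (|D| + 1) := by positivity
  have hsmall : ∀ a : ℝ, a ≤ |D| → ε * a < ε * (2 * (|D| + 1)) := fun a ha =>
    mul_lt_mul_of_pos_left (by linarith [abs_nonneg D]) hε
  obtain ⟨ξ, hξ, hξn⟩ := G.surj x x'
  obtain ⟨ξ', hξ', hξn'⟩ := G.surj x' x
  rw [dist_comm] at hξn'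
  have hdr : dist x x' ≤ r₁ := hxx'.trans ((mul_le_mul_of_nonneg_left (by linarith) hε.le).trans hb2)
  have hn1 : ‖ε • p‖ ≤ r₁ := hεp.le.trans ((hsmall _ hpD).le.trans hb2)
  have hn2 : ‖ε • p'‖ ≤ r₁ := hεp'.le.trans ((hsmall _ hpD').le.trans hb2)
  have A := hcn x (ε • p) ξ hn1 (by rw [hξn]; exact hdr)
  have B := hcn x' (ε • p') ξ' hn2 (by rw [hξn']; exact hdr)
  rw [hξ] at A
  rw [hξ', ← heq] at B
  have S1 := H_support hsc hp ξ
  have S2 := H_support hsc hp' ξ'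
  rw [hξ] at S1
  rw [hξ'] at S2
  have U1 : halfDistSq x' (G.ex x (ε • p)) ≤ (ε * ‖p'‖) ^ 2 / 2 := by
    unfold halfDistSq
    have := pow_le_pow_left₀ dist_nonneg hd2 2
    linarith
  have U2 : halfDistSq x (G.ex x (ε • p)) ≤ (ε * ‖p‖) ^ 2 / 2 := by
    unfold halfDistSq
    have := pow_le_pow_left₀ dist_nonneg hd1 2
    linarith
  rw [hεp, real_inner_smul_left, hξn] at A
  rw [hεp', real_inner_smul_left, hξn'] at B
  rw [hξn] at S1
  rw [hξn'] at S2
  have hd0 : dist x x' = 0 :=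
    real_aux hε hb1 A B U1 U2 (by linarith)
  have hxeq : x = x' := dist_eq_zero.1 hd0
  subst hxeq
  have hlt1 : ‖ε • p‖ < G.r₀ := hεp.le.trans_lt ((hsmall _ hpD).trans_le hb3)
  have hlt2 : ‖ε • p'‖ < G.r₀ := hεp'.le.trans_lt ((hsmall _ hpD').trans_le hb3)
  have hpp := G.inj x (ε • p) (ε • p') hlt1 hlt2 heq
  have : p = p' := smul_right_injective _ hε.ne' hpp
  rw [this]

/-- field `LE` of `DFacts`. -/
theorem LE_field [CompactSpace M] {G : GeoData n M} (CF : CutFacts G) :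
    ∃ ε₀ : ℝ, 0 < ε₀ ∧ ∀ u : M → ℝ, CConv u → ∀ ε : ℝ, 0 < ε → ε ≤ ε₀ →
    ∀ p q : TangentBundle (𝓡 n) M, p.2 ∈ G.H u p.1 → q.2 ∈ G.H u q.1 →
    G.ex p.1 (ε • p.2) = G.ex q.1 (ε • q.2) → p = q := by
  have hb : Bornology.IsBounded (univ : Set M) := isCompact_univ.isBounded
  have hD : ∀ x y : M, dist x y ≤ Metric.diam (univ : Set M) := fun x y =>
    Metric.dist_le_diam_of_mem hb (mem_univ _) (mem_univ _)
  obtain ⟨ε₀, hε₀, h⟩ := inj_small CF hD
  exact ⟨ε₀, hε₀, fun u _ ε hε hle p q hp hq he => h ε hε hle u p.1 q.1 p.2 hp q.2 hq he⟩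



end Crest.Agent.R226.CC2229
end

-- ▼ part R226/StepH_229
section

set_option autoImplicit false

open MeasureTheory Bundle Set Filter
open scoped Manifold ContDiff Bundle ENNReal Topology
open Crest.GeometryTopology.MTW

namespace Crest.Agent.R226.StepH229

variable {n : ℕ} {M : Type*} [MetricSpace M] [ChartedSpace (EuclideanSpace ℝ (Fin n)) M]
  [IsManifold (𝓡 n) ∞ M]
  [RiemannianBundle (fun p : M => TangentSpace (𝓡 n) p)]

/-- the statement (L-C): at a minimum `x` of `s u + c(·,y)/T`, every minimising velocity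
`v ∈ W_{x,y}` satisfies `v = (T s) p` with `p ∈ H_u(x)`. -/
def LC (G : GeoData n M) : Prop :=
  ∀ u : M → ℝ, CConv u → ∀ s T : ℝ, 0 < s → 0 < T → ∀ x y : M,
    (∀ x', s * u x + halfDistSq x y / T ≤ s * u x' + halfDistSq x' y / T) →
    ∀ v ∈ G.K x, G.ex x v = y → ∃ p ∈ G.H u x, v = (T * s) • p

/-- `ctr` at a contact point. -/
theorem ctr_eq_of_mem [CompactSpace M] {U : M → ℝ} (hU : Continuous U) {x y : M}
    (h : ∀ x', U x + halfDistSq x y ≤ U x' + halfDistSq x' y) :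
    ctr U y = -U x - halfDistSq x y := by
  obtain ⟨z, hz, hz'⟩ := Kant624.exists_ctr hU y
  have h1 := Kant624.le_ctr hU x y
  have h2 := h z
  linarith

/-- the reversed vector of `w ∈ P_U(x)` is in `P_φ(exp_x w)`, `φ = U^c`. -/
theorem rev_mem_P_ctr [CompactSpace M] {G : GeoData n M} (CF : CutFacts G) {U : M → ℝ}
    (hU : Continuous U) {x : M} {w : TangentSpace (𝓡 n) x} (hw : w ∈ G.P U x) :
    -(G.vel x w 1) ∈ G.P (ctr U) (G.ex x ((1 : ℝ) • w)) := by
  refine ⟨CF.rev x w hw.1, fun y' => ?_⟩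
  have he : G.ex (G.ex x ((1 : ℝ) • w)) (-(G.vel x w 1)) = x := by
    have := CF.rev_ex x w 1
    rw [sub_self, zero_smul, G.ex_zero, one_smul ℝ (-(G.vel x w 1))] at this
    exact this
  rw [he]
  have h1 : ctr U (G.ex x ((1 : ℝ) • w)) = -U x - halfDistSq x (G.ex x ((1 : ℝ) • w)) := by
    apply ctr_eq_of_mem hU
    intro x'
    have := hw.2 x'
    rwa [← one_smul ℝ w] at this
  have h2 := Kant624.le_ctr hU x y'
  rw [h1, Kant624.halfDistSq_comm _ x, Kant624.halfDistSq_comm y' x]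
  linarith

/-- existence of a minimiser of `U + c(·,z)/T`. -/
theorem exists_min [CompactSpace M] {U : M → ℝ} (hU : Continuous U) (z : M) (T : ℝ) :
    ∃ x, ∀ x', U x + halfDistSq x z / T ≤ U x' + halfDistSq x' z / T := by
  have hc : Continuous (fun x => U x + halfDistSq x z / T) := by
    unfold halfDistSq; fun_prop
  obtain ⟨x, -, hx⟩ := isCompact_univ.exists_isMinOn ⟨z, mem_univ z⟩ hc.continuousOn
  exact ⟨x, fun x' => hx (mem_univ x')⟩

/-- **Step (H)**, pointwise form: `H_φ(y) ⊆ P_φ(y)` for `φ = (s u)^c`. -/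
theorem H_ctr_subset [CompactSpace M] {G : GeoData n M} (CF : CutFacts G) (hLC : LC G)
    {u : M → ℝ} (hu : CConv u) {s : ℝ} (hs : 0 < s) (hgood : G.Good u s) (y : M) :
    G.H (ctr fun z => s * u z) y ⊆ G.P (ctr fun z => s * u z) y := by
  intro q hq
  have hb : Bornology.IsBounded (univ : Set M) := isCompact_univ.isBounded
  have hD : ∀ x y : M, dist x y ≤ Metric.diam (univ : Set M) := fun x y =>
    Metric.dist_le_diam_of_mem hb (mem_univ _) (mem_univ _)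
  obtain ⟨ε₀, hε₀, hinj⟩ := CC2229.inj_small CF hD
  set U : M → ℝ := fun z => s * u z with hUdef
  have hUc : Continuous U := continuous_const.mul (Kant624.CConv.continuous hu)
  -- choose ε
  obtain ⟨ε, hε, hεle, hε1⟩ : ∃ ε : ℝ, 0 < ε ∧ ε ≤ ε₀ ∧ ε < 1 :=
    ⟨min ε₀ (1 / 2), by positivity, min_le_left _ _,
      lt_of_le_of_lt (min_le_right _ _) (by norm_num)⟩
  have hT : 0 < 1 - ε := by linarith
  obtain ⟨x, hx⟩ := exists_min hUc (G.ex y (ε • q)) (1 - ε)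
  obtain ⟨v, hv, hvn⟩ := G.surj x (G.ex y (ε • q))
  have hvK : v ∈ G.K x := by
    show dist x (G.ex x v) = ‖v‖
    rw [hv, hvn]
  obtain ⟨p, hp, hvp⟩ := hLC u hu s (1 - ε) hs hT x (G.ex y (ε • q)) hx v hvK hv
  -- w = s • p ∈ P_U(x)
  have hw := hgood x p hp
  set w : TangentSpace (𝓡 n) x := s • p with hwdef
  have hvw : v = (1 - ε) • w := by rw [hvp, hwdef, smul_smul]
  have hq1 := rev_mem_P_ctr CF hUc hw
  have hexp : G.ex (G.ex x ((1 : ℝ) • w)) (ε • (-(G.vel x w 1))) = G.ex y (ε • q) := by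
    rw [CF.rev_ex x w ε, ← hvw, hv]
  have hq1H : -(G.vel x w 1) ∈ G.H (ctr U) (G.ex x ((1 : ℝ) • w)) := subset_convexHull ℝ _ hq1
  have heq := hinj ε hε hεle (ctr U) _ y _ hq1H q hq hexp
  -- transport membership along the equality in the tangent bundle
  have key : ∀ a b : TangentBundle (𝓡 n) M, a = b → a.2 ∈ G.P (ctr U) a.1 →
      b.2 ∈ G.P (ctr U) b.1 := by
    rintro a b rfl h; exact h
  exact key _ _ heq hq1

/-- **Step (H)**: `P_φ(y)` is convex for `φ = (s u)^c`, if `Good u s`. -/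
theorem convex_P_ctr [CompactSpace M] {G : GeoData n M} (CF : CutFacts G) (hLC : LC G)
    {u : M → ℝ} (hu : CConv u) {s : ℝ} (hs : 0 < s) (hgood : G.Good u s) (y : M) :
    Convex ℝ (G.P (ctr fun z => s * u z) y) := by
  have h1 := H_ctr_subset CF hLC hu hs hgood y
  have h2 : G.P (ctr fun z => s * u z) y ⊆ G.H (ctr fun z => s * u z) y := subset_convexHull ℝ _
  rw [subset_antisymm h2 h1]
  exact convex_convexHull ℝ _

/-- Output of D3 in the interface form of `DDefs_267`. -/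
theorem stepH [CompactSpace M] {G : GeoData n M} (CF : CutFacts G) (DF : DFacts G) : StepH G := by
  intro u hu s hs _ hgood y
  refine convex_P_ctr CF ?_ hu hs hgood y
  intro u hu s T hs hT x y hmin v hv hvy
  obtain ⟨p, hp, hpv⟩ := DF.LC u hu s hs.le T hT x y hmin v hv hvy
  refine ⟨p, hp, ?_⟩
  rw [mul_smul, ← hpv, smul_smul, mul_one_div_cancel hT.ne', one_smul]

end Crest.Agent.R226.StepH229
end

-- ▼ part R226/StepIFin_371
section

set_option autoImplicit false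

open MeasureTheory Bundle Set Filter
open scoped Manifold ContDiff Bundle ENNReal Topology
open Crest.GeometryTopology.MTW

namespace Crest.Agent.R226.StepI371

variable {n : ℕ} {M : Type*} [MetricSpace M] [ChartedSpace (EuclideanSpace ℝ (Fin n)) M]
  [IsManifold (𝓡 n) ∞ M]
  [RiemannianBundle (fun p : M => TangentSpace (𝓡 n) p)]

/-- Step (I) from the interface structures. -/
theorem stepI_fin {G : GeoData n M} (hC : CutFacts G) (hM : MTWFacts G) (hD : DFacts G) :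
    StepI G := by
  intro u hu s hs0 hs1 hgood hconv y
  have hcc : CConv (scal s u) := hD.cconv_smul u hu s hs0.le hs1.le
  have hset : G.P (ctr (scal s u)) y =
      {q | q ∈ G.K y ∧ G.ex y q ∈ Cset (fun z => s * u z) y} := by
    ext q
    exact hD.mem_P_ctr (scal s u) hcc y q
  rw [hset]
  refine stepI hC hM hs0 hs1 hgood y ?_ (hset ▸ hconv y)
  intro x hx v hv hvy
  obtain ⟨p, hp, hpv⟩ := hD.LC u hu s hs0.le 1 one_pos x y
    (fun x' => by simpa using hx x') v hv hvy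
  refine ⟨p, hp, ?_⟩
  simpa using hpv

end Crest.Agent.R226.StepI371
end

-- ▼ part R226/StepJ2D_416
section

/-!
R226, layer D, task D5 (step J), helper416: the pure two-dimensional lemma.

`f` is a function on the open triangle `0 < x < R`, `|y| ≤ m x`, such that along every segment
`[q₀,q₁]` of the triangle the function `τ ↦ ⟪q_τ, q₁-q₀⟫² f(q_τ)` is convex.  If `f(R-t,0) ≥ c/t`
and `f(R-t, m(R-t)) ≤ C` for small `t > 0`, we get a contradiction.
-/

set_option autoImplicit false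

open Set

namespace Crest.Agent.R226.StepJ2D416

/-- convexity on `[0,1]` with value `0` at `0`. -/
lemma convex_zero {g : ℝ → ℝ} (hg : ConvexOn ℝ (Icc (0 : ℝ) 1) g) (h0 : g 0 = 0) {τ : ℝ}
    (h1 : 0 ≤ τ) (h2 : τ ≤ 1) : g τ ≤ τ * g 1 := by
  have := hg.2 (left_mem_Icc.2 zero_le_one) (right_mem_Icc.2 zero_le_one)
    (sub_nonneg.2 h2) h1 (by ring)
  simpa [h0] using this

/-- the convexity hypothesis of the plane lemma -/
def PlaneConv (R m : ℝ) (f : ℝ → ℝ → ℝ) : Prop :=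
  ∀ x₀ y₀ x₁ y₁ : ℝ, 0 < x₀ → x₀ < R → |y₀| ≤ m * x₀ → 0 < x₁ → x₁ < R →
      |y₁| ≤ m * x₁ → ConvexOn ℝ (Icc (0 : ℝ) 1) (fun τ =>
        ((x₀ + τ * (x₁ - x₀)) * (x₁ - x₀) + (y₀ + τ * (y₁ - y₀)) * (y₁ - y₀)) ^ 2 *
          f (x₀ + τ * (x₁ - x₀)) (y₀ + τ * (y₁ - y₀)))

/-- horizontal lines: `y f(x,y)` is increasing -/
lemma horizontal {R m : ℝ} {f : ℝ → ℝ → ℝ} (hm : 0 < m) (hconv : PlaneConv R m f)
    {x y : ℝ} (hx0 : 0 < x) (hxR : x < R) (hy : 0 < y) (hy' : y ≤ m * x) :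
    y * f x y ≤ (m * x) * f x (m * x) := by
  have hmx : 0 < m * x := mul_pos hm hx0
  have h := hconv x 0 x (m * x) hx0 hxR (by simpa using hmx.le) hx0 hxR
    (by rw [abs_of_pos hmx])
  obtain ⟨τ, hτ⟩ : ∃ τ, τ = y / (m * x) := ⟨_, rfl⟩
  have hτ0 : 0 < τ := hτ ▸ div_pos hy hmx
  have hτ1 : τ ≤ 1 := hτ ▸ (div_le_one hmx).2 hy'
  have h1 := convex_zero h (by simp) hτ0.le hτ1
  have hτy : τ * (m * x) = y := by rw [hτ]; field_simp
  simp only [sub_self, mul_zero, add_zero, zero_add, sub_zero, one_mul] at h1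
  rw [hτy] at h1
  have e1 : (y * (m * x)) ^ 2 * f x y = (y * f x y) * (y * (m * x) ^ 2) := by ring
  have e2 : τ * ((m * x * (m * x)) ^ 2 * f x (m * x)) =
      ((m * x) * f x (m * x)) * (y * (m * x) ^ 2) := by
    rw [← hτy]; ring
  rw [e1, e2] at h1
  exact le_of_mul_le_mul_right h1 (by positivity)

/-- tilted lines through `(R-t,0)` and `(R-t/2,σ)` -/
lemma tilted {R m : ℝ} {f : ℝ → ℝ → ℝ} (hconv : PlaneConv R m f)
    {t σ l : ℝ} (hσ0 : 0 < σ) (hl0 : 0 < l)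
    (hlN : l * (t ^ 2 / 4 + σ ^ 2) = (R - t) * (t / 2))
    (hex0 : 0 < R - t - l * (t / 2)) (hexR : R - t - l * (t / 2) < R)
    (hlσ : l * σ ≤ m * (R - t - l * (t / 2)))
    (hbx0 : 0 < R - t / 2) (hbxR : R - t / 2 < R) (hσb : σ ≤ m * (R - t / 2)) :
    l / (1 + l) * f (R - t) 0 ≤ f (R - t / 2) σ := by
  have h := hconv (R - t - l * (t / 2)) (-(l * σ)) (R - t / 2) σ hex0 hexR
    (by rw [abs_neg, abs_of_pos (mul_pos hl0 hσ0)]; exact hlσ) hbx0 hbxR
    (by rw [abs_of_pos hσ0]; exact hσb)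
  have hd1 : R - t / 2 - (R - t - l * (t / 2)) = (1 + l) * (t / 2) := by ring
  have hd2 : σ - -(l * σ) = (1 + l) * σ := by ring
  rw [hd1, hd2] at h
  have hfoot : (R - t - l * (t / 2)) * ((1 + l) * (t / 2)) + -(l * σ) * ((1 + l) * σ) = 0 := by
    linear_combination -(1 + l) * hlN
  obtain ⟨τ, hτ⟩ : ∃ τ, τ = l / (1 + l) := ⟨_, rfl⟩
  have h1l : 0 < 1 + l := by linarith
  have hτ0 : 0 < τ := hτ ▸ div_pos hl0 h1l
  have hτ1 : τ ≤ 1 := hτ ▸ (div_le_one h1l).2 (by linarith)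
  have hτl : τ * (1 + l) = l := by rw [hτ]; field_simp
  have key := convex_zero h (by
    simp only [zero_mul, add_zero]
    rw [hfoot]; ring) hτ0.le hτ1
  have ea : R - t - l * (t / 2) + τ * ((1 + l) * (t / 2)) = R - t := by
    rw [← mul_assoc, hτl]; ring
  have eb : -(l * σ) + τ * ((1 + l) * σ) = 0 := by
    rw [← mul_assoc, hτl]; ring
  have ec : R - t - l * (t / 2) + 1 * ((1 + l) * (t / 2)) = R - t / 2 := by ring
  have ed : -(l * σ) + 1 * ((1 + l) * σ) = σ := by ring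
  simp only [ea, eb, ec, ed] at key
  obtain ⟨N, hN⟩ : ∃ N, N = t ^ 2 / 4 + σ ^ 2 := ⟨_, rfl⟩
  have hN0 : 0 < N := by rw [hN]; positivity
  have i1 : (R - t) * ((1 + l) * (t / 2)) + 0 * ((1 + l) * σ) = τ * ((1 + l) ^ 2 * N) := by
    have : τ * ((1 + l) ^ 2 * N) = (τ * (1 + l)) * (1 + l) * N := by ring
    rw [this, hτl, hN]
    linear_combination -(1 + l) * hlN
  have i2 : (R - t / 2) * ((1 + l) * (t / 2)) + σ * ((1 + l) * σ) = (1 + l) ^ 2 * N := by
    rw [hN]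
    linear_combination -(1 + l) * hlN
  rw [i1, i2] at key
  have e1 : (τ * ((1 + l) ^ 2 * N)) ^ 2 * f (R - t) 0 =
      (τ * f (R - t) 0) * (τ * ((1 + l) ^ 2 * N) ^ 2) := by ring
  have e2 : τ * (((1 + l) ^ 2 * N) ^ 2 * f (R - t / 2) σ) =
      f (R - t / 2) σ * (τ * ((1 + l) ^ 2 * N) ^ 2) := by ring
  rw [e1, e2] at key
  rw [← hτ]
  exact le_of_mul_le_mul_right key (by positivity)

/-- arithmetic choice of the parameters -/
lemma choose_params {R m c C t₀ : ℝ} (hR : 0 < R) (hm : 0 < m) (hc : 0 < c) (hC : 0 < C)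
    (ht₀ : 0 < t₀) : ∃ t σ l : ℝ, 0 < t ∧ t < t₀ ∧ 0 < σ ∧ 0 < l ∧
      l * (t ^ 2 / 4 + σ ^ 2) = (R - t) * (t / 2) ∧ 0 < R - t - l * (t / 2) ∧
      R - t - l * (t / 2) < R ∧ l * σ ≤ m * (R - t - l * (t / 2)) ∧ 0 < R - t / 2 ∧
      σ ≤ m * (R - t / 2) ∧ m * R * C < σ * (l / (1 + l) * (c / t)) := by
  obtain ⟨σ, hσ0, hσ1, hσ2⟩ : ∃ σ : ℝ, 0 < σ ∧ σ ≤ m * R / 4 ∧ σ ≤ c / (32 * m * C) :=
    ⟨min (m * R / 4) (c / (32 * m * C)), lt_min (by positivity) (by positivity),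
      min_le_left _ _, min_le_right _ _⟩
  obtain ⟨t, ht0, ht1, ht2, ht3, ht4⟩ : ∃ t : ℝ, 0 < t ∧ t ≤ t₀ / 2 ∧ t ≤ R / 2 ∧ t ≤ σ ∧
      t ≤ σ ^ 2 / R := by
    refine ⟨min (min (t₀ / 2) (R / 2)) (min σ (σ ^ 2 / R)), ?_, ?_, ?_, ?_, ?_⟩
    · exact lt_min (lt_min (by positivity) (by positivity)) (lt_min hσ0 (by positivity))
    · exact (min_le_left _ _).trans (min_le_left _ _)
    · exact (min_le_left _ _).trans (min_le_right _ _)
    · exact (min_le_right _ _).trans (min_le_left _ _)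
    · exact (min_le_right _ _).trans (min_le_right _ _)
  have ht4' : t * R ≤ σ ^ 2 := by
    have := mul_le_mul_of_nonneg_right ht4 hR.le
    rwa [div_mul_cancel₀ _ hR.ne'] at this
  have hN0 : 0 < t ^ 2 / 4 + σ ^ 2 := by positivity
  obtain ⟨N, hN⟩ : ∃ N, N = t ^ 2 / 4 + σ ^ 2 := ⟨_, rfl⟩
  rw [← hN] at hN0
  have hNσ : σ ^ 2 ≤ N := by rw [hN]; nlinarith [sq_nonneg t]
  have hNσ' : N ≤ 2 * σ ^ 2 := by
    have : t ^ 2 ≤ σ ^ 2 := by nlinarith
    rw [hN]; nlinarith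
  have htR : 0 < R - t := by linarith
  obtain ⟨l, hl⟩ : ∃ l, l = (R - t) * (t / 2) / N := ⟨_, rfl⟩
  have hl0 : 0 < l := by rw [hl]; positivity
  have hlN : l * N = (R - t) * (t / 2) := by rw [hl]; field_simp
  have hl1' : l ≤ 1 / 2 := by
    rw [hl, div_le_iff₀ hN0]
    nlinarith
  have h1l : 0 < 1 + l := by linarith
  have hlt : l * (t / 2) ≤ R / 8 := by
    calc l * (t / 2) ≤ 1 / 2 * (R / 4) := by
          apply mul_le_mul hl1' (by linarith) (by linarith) (by norm_num)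
      _ = R / 8 := by ring
  have hlt0 : 0 < l * (t / 2) := by positivity
  have hex : R / 4 ≤ R - t - l * (t / 2) := by linarith
  refine ⟨t, σ, l, ht0, by linarith, hσ0, hl0, by rw [← hN]; exact hlN, by linarith,
    by linarith, ?_, by linarith, ?_, ?_⟩
  · have h1 : l * σ ≤ 1 / 2 * σ := mul_le_mul_of_nonneg_right hl1' hσ0.le
    have h2 : m * (R / 4) ≤ m * (R - t - l * (t / 2)) := mul_le_mul_of_nonneg_left hex hm.le
    linarith
  · have h2 : m * (R / 2) ≤ m * (R - t / 2) := mul_le_mul_of_nonneg_left (by linarith) hm.le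
    have h3 : m * R / 4 ≤ m * (R / 2) := by nlinarith [mul_pos hm hR]
    linarith
  · have h3 : l / 2 ≤ l / (1 + l) := by
      rw [div_le_div_iff₀ (by norm_num) h1l]
      exact mul_le_mul_of_nonneg_left (by linarith) hl0.le
    have h4 : R * t / (8 * σ ^ 2) ≤ l := by
      rw [hl, div_le_div_iff₀ (by positivity) hN0]
      calc R * t * N ≤ R * t * (2 * σ ^ 2) := mul_le_mul_of_nonneg_left hNσ' (by positivity)
        _ = (R / 2) * (t / 2) * (8 * σ ^ 2) := by ring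
        _ ≤ (R - t) * (t / 2) * (8 * σ ^ 2) := by
            apply mul_le_mul_of_nonneg_right _ (by positivity)
            apply mul_le_mul_of_nonneg_right _ (by positivity)
            linarith
    have h5 : R * t / (16 * σ ^ 2) ≤ l / (1 + l) := by
      have : R * t / (16 * σ ^ 2) = (R * t / (8 * σ ^ 2)) / 2 := by
        field_simp
        norm_num
      rw [this]
      linarith
    have h6 : c * R / (16 * σ) ≤ σ * (l / (1 + l) * (c / t)) := by
      calc c * R / (16 * σ) = σ * (R * t / (16 * σ ^ 2) * (c / t)) := by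
            field_simp
        _ ≤ σ * (l / (1 + l) * (c / t)) := by
            apply mul_le_mul_of_nonneg_left _ hσ0.le
            exact mul_le_mul_of_nonneg_right h5 (by positivity)
    refine lt_of_lt_of_le ?_ h6
    rw [lt_div_iff₀ (by positivity)]
    have h10 : σ * (32 * m * C) ≤ c := by
      rwa [le_div_iff₀ (by positivity)] at hσ2
    have h11 : m * R * C * (16 * σ) = R / 2 * (σ * (32 * m * C)) := by ring
    have h12 : R / 2 * (σ * (32 * m * C)) ≤ R / 2 * c := mul_le_mul_of_nonneg_left h10 (by positivity)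
    have h13 : 0 < R * c := mul_pos hR hc
    rw [h11]
    linarith

/-- **the plane lemma** -/
theorem plane_contradiction {R m c C t₀ : ℝ} (hR : 0 < R) (hm : 0 < m) (hc : 0 < c)
    (ht₀ : 0 < t₀) (f : ℝ → ℝ → ℝ) (hconv : PlaneConv R m f)
    (hblow : ∀ t, 0 < t → t < t₀ → c / t ≤ f (R - t) 0)
    (hbd : ∀ t, 0 < t → t < t₀ → f (R - t) (m * (R - t)) ≤ C) : False := by
  obtain ⟨C', hC'0, hCC'⟩ : ∃ C', 0 < C' ∧ C ≤ C' := ⟨max C 1, lt_max_of_lt_right one_pos,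
    le_max_left _ _⟩
  obtain ⟨t, σ, l, ht0, htt₀, hσ0, hl0, hlN, hex0, hexR, hlσ, hbx0, hσb, hfin⟩ :=
    choose_params hR hm hc hC'0 ht₀
  have hbxR : R - t / 2 < R := by linarith
  have h1 := tilted hconv hσ0 hl0 hlN hex0 hexR hlσ hbx0 hbxR hσb
  have h2 := horizontal hm hconv hbx0 hbxR hσ0 hσb
  have h3 := hblow t ht0 htt₀
  have h4 := hbd (t / 2) (by linarith) (by linarith)
  have hl1 : 0 < l / (1 + l) := div_pos hl0 (by linarith)
  have h5 : σ * (l / (1 + l) * (c / t)) ≤ σ * f (R - t / 2) σ :=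
    mul_le_mul_of_nonneg_left ((mul_le_mul_of_nonneg_left h3 hl1.le).trans h1) hσ0.le
  have h6 : (m * (R - t / 2)) * f (R - t / 2) (m * (R - t / 2)) ≤ m * R * C' := by
    have hp : 0 < m * (R - t / 2) := mul_pos hm hbx0
    calc (m * (R - t / 2)) * f (R - t / 2) (m * (R - t / 2))
        ≤ (m * (R - t / 2)) * C' := mul_le_mul_of_nonneg_left (h4.trans hCC') hp.le
      _ ≤ (m * R) * C' := by
          apply mul_le_mul_of_nonneg_right _ hC'0.le
          exact mul_le_mul_of_nonneg_left hbxR.le hm.le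
  linarith

end Crest.Agent.R226.StepJ2D416
end

-- ▼ part R226/StepJA_416
section

/-!
R226, layer D, task D5 (step J), helper416: the abstract inner-product-space part.
-/

set_option autoImplicit false

open Set Filter
open scoped Topology

namespace Crest.Agent.R226.StepJA416

open StepJ2D416

variable {V : Type*} [NormedAddCommGroup V] [InnerProductSpace ℝ V]

/-- the concavity hypothesis, at a fixed base point -/
def ConcHyp (I : Set V) (φ : V → V → ℝ) : Prop :=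
  ∀ p q ξ : V, segment ℝ p q ⊆ I → inner ℝ (q - p) ξ = 0 →
    ∀ t : ℝ, 0 ≤ t → t ≤ 1 → (1 - t) * φ ξ p + t * φ ξ q ≤ φ ξ ((1 - t) • p + t • q)

/-- the blow-up hypothesis -/
def Blow (φ : V → V → ℝ) (p k : V) : Prop :=
  ∃ C c r₁ : ℝ, 0 < c ∧ r₁ < 1 ∧ ∀ r : ℝ, r₁ < r → r < 1 → ∀ ξ : V,
    φ ξ (r • p) ≤ C * ‖ξ‖ ^ 2 - c * (inner ℝ ξ k) ^ 2 / (1 - r)

/-- The blow-up direction lies in the span of the differences. -/
theorem mem_span {ι : Type*} [Fintype ι] {I : Set V} {φ : V → V → ℝ}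
    (hcont : ∀ ξ, ContinuousOn (φ ξ) I) (hIo : IsOpen I) (hconc : ConcHyp I φ)
    (z : ι → V) (θ : ι → ℝ) (hθ : ∀ i, 0 ≤ θ i) (hθ1 : ∑ i, θ i = 1) {p : V}
    (hp : ∑ i, θ i • z i = p) (hz : ∀ i, z i ∈ I)
    (hI : ∀ r : ℝ, 0 < r → r < 1 → convexHull ℝ (range fun i => r • z i) ⊆ I)
    {k : V} (hblow : Blow φ p k) : k ∈ Submodule.span ℝ (range fun i => z i - p) := by
  by_contra hk
  obtain ⟨C, c, r₁, hc, hr₁, hblow⟩ := hblow
  set U := Submodule.span ℝ (range fun i => z i - p) with hU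
  haveI : FiniteDimensional ℝ U := FiniteDimensional.span_of_finite ℝ (Set.finite_range _)
  haveI : CompleteSpace U := FiniteDimensional.complete ℝ U
  -- the orthogonal component
  obtain ⟨ξ, hξdef⟩ : ∃ ξ, ξ = k - U.starProjection k := ⟨_, rfl⟩
  have hξU : ∀ v ∈ U, inner ℝ v ξ = 0 := by
    intro v hv
    have h := U.sub_starProjection_mem_orthogonal k
    rw [← hξdef, Submodule.mem_orthogonal] at h
    exact h v hv
  have hξ0 : ξ ≠ 0 := by
    intro h0
    apply hk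
    have : k = U.starProjection k := by
      rw [h0] at hξdef
      exact (sub_eq_zero.1 hξdef.symm)
    rw [this]
    exact U.starProjection_apply_mem k
  have hξk : inner ℝ ξ k = ‖ξ‖ ^ 2 := by
    have h1 : k = ξ + U.starProjection k := by rw [hξdef]; abel
    have h2 : inner ℝ ξ (U.starProjection k) = 0 := by
      rw [real_inner_comm]
      exact hξU _ (U.starProjection_apply_mem k)
    calc inner ℝ ξ k = inner ℝ ξ (ξ + U.starProjection k) := by rw [← h1]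
      _ = ‖ξ‖ ^ 2 := by rw [inner_add_right, h2, add_zero, real_inner_self_eq_norm_sq]
  have hξn : 0 < ‖ξ‖ := norm_pos_iff.2 hξ0
  -- Jensen
  have hJ : ∀ r : ℝ, 0 < r → r < 1 → ∑ i, θ i * φ ξ (r • z i) ≤ φ ξ (r • p) := by
    intro r hr0 hr1
    have hcv : ConcaveOn ℝ (convexHull ℝ (range fun i => r • z i)) (φ ξ) := by
      refine ⟨convex_convexHull ℝ _, ?_⟩
      intro a ha b hb α β hα hβ hαβ
      have hseg : segment ℝ a b ⊆ I :=
        ((convex_convexHull ℝ _).segment_subset ha hb).trans (hI r hr0 hr1)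
      have hperp : inner ℝ (b - a) ξ = 0 := by
        -- elements of the hull are in `r • p + U`
        have key : ∀ v ∈ convexHull ℝ (range fun i => r • z i), inner ℝ (v - r • p) ξ = 0 := by
          intro v hv
          have hsub : convexHull ℝ (range fun i => r • z i) ⊆
              {v | inner ℝ (v - r • p) ξ = 0} := by
            apply convexHull_min
            · rintro _ ⟨i, rfl⟩
              simp only [Set.mem_setOf_eq]
              rw [← smul_sub, real_inner_smul_left,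
                hξU _ (Submodule.subset_span (mem_range_self i)), mul_zero]
            · intro v hv w hw α β hα hβ hαβ
              simp only [Set.mem_setOf_eq] at hv hw ⊢
              have : α • v + β • w - r • p = α • (v - r • p) + β • (w - r • p) := by
                rw [smul_sub, smul_sub]
                have : r • p = α • r • p + β • r • p := by rw [← add_smul, hαβ, one_smul]
                nth_rewrite 1 [this]
                abel
              rw [this, inner_add_left, real_inner_smul_left, real_inner_smul_left, hv, hw]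
              ring
          exact hsub hv
        have : b - a = (b - r • p) - (a - r • p) := by abel
        rw [this, inner_sub_left, key b hb, key a ha, sub_zero]
      have hβ1 : β ≤ 1 := by linarith
      have := hconc a b ξ hseg hperp β hβ hβ1
      have hα' : 1 - β = α := by linarith
      rw [hα'] at this
      simpa [smul_eq_mul] using this
    have h := hcv.le_map_sum (t := Finset.univ) (w := θ) (p := fun i => r • z i)
      (fun i _ => hθ i) hθ1 (fun i _ => subset_convexHull ℝ _ (mem_range_self i))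
    have e : ∑ i, θ i • r • z i = r • p := by
      rw [← hp, Finset.smul_sum]
      exact Finset.sum_congr rfl fun i _ => smul_comm _ _ _
    rw [e] at h
    simpa [smul_eq_mul] using h
  -- limit
  have hlim : Tendsto (fun r : ℝ => ∑ i, θ i * φ ξ (r • z i)) (𝓝[<] 1)
      (𝓝 (∑ i, θ i * φ ξ (z i))) := by
    apply tendsto_finset_sum
    intro i _
    apply Tendsto.const_mul
    have h1 : ContinuousAt (φ ξ) (z i) := (hcont ξ).continuousAt (hIo.mem_nhds (hz i))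
    have h2 : Tendsto (fun r : ℝ => r • z i) (𝓝[<] 1) (𝓝 (z i)) := by
      have : Tendsto (fun r : ℝ => r • z i) (𝓝 1) (𝓝 ((1 : ℝ) • z i)) :=
        (continuous_id.smul continuous_const).tendsto 1
      rw [one_smul] at this
      exact this.mono_left nhdsWithin_le_nhds
    exact h1.tendsto.comp h2
  have hbot : Tendsto (fun r : ℝ => C * ‖ξ‖ ^ 2 - c * (inner ℝ ξ k) ^ 2 / (1 - r)) (𝓝[<] 1)
      atBot := by
    have h1 : Tendsto (fun r : ℝ => (1 - r)) (𝓝[<] 1) (𝓝[>] 0) := by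
      rw [tendsto_nhdsWithin_iff]
      refine ⟨?_, ?_⟩
      · have : Tendsto (fun r : ℝ => 1 - r) (𝓝 1) (𝓝 (1 - 1)) :=
          (continuous_const.sub continuous_id).tendsto 1
        rw [sub_self] at this
        exact this.mono_left nhdsWithin_le_nhds
      · filter_upwards [self_mem_nhdsWithin] with r hr
        simpa using hr
    have h2 : Tendsto (fun r : ℝ => (1 - r)⁻¹) (𝓝[<] 1) atTop := tendsto_inv_nhdsGT_zero.comp h1
    have h3 : 0 < c * (inner ℝ ξ k) ^ 2 := by rw [hξk]; positivity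
    have h4 := h2.const_mul_atTop h3
    have h5 : Tendsto (fun r : ℝ => C * ‖ξ‖ ^ 2 - c * (inner ℝ ξ k) ^ 2 * (1 - r)⁻¹) (𝓝[<] 1)
        atBot := by
      simp only [sub_eq_add_neg]
      exact tendsto_atBot_add_const_left _ _ (tendsto_neg_atTop_atBot.comp h4)
    simpa [div_eq_mul_inv] using h5
  have hev : ∀ᶠ r : ℝ in 𝓝[<] 1, ∑ i, θ i * φ ξ (r • z i) ≤
      C * ‖ξ‖ ^ 2 - c * (inner ℝ ξ k) ^ 2 / (1 - r) := by
    have hmem : Ioo (max 0 r₁) 1 ∈ 𝓝[<] (1 : ℝ) := Ioo_mem_nhdsLT (max_lt one_pos hr₁)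
    filter_upwards [hmem] with r hr
    have hr0 : 0 < r := (le_max_left _ _).trans_lt hr.1
    have hrr : r₁ < r := (le_max_right _ _).trans_lt hr.1
    exact (hJ r hr0 hr.2).trans (hblow r hrr hr.2 ξ)
  have : Tendsto (fun r : ℝ => ∑ i, θ i * φ ξ (r • z i)) (𝓝[<] 1) atBot :=
    tendsto_atBot_mono' _ hev hbot
  exact not_tendsto_nhds_of_tendsto_atBot this _ hlim

/-- if `k` is in the span of the `z i - p` then `p ± σ k` is in the hull for small `σ`. -/
theorem exists_sigma {ι : Type*} [Fintype ι] (z : ι → V) (θ : ι → ℝ) (hθ : ∀ i, 0 < θ i)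
    (hθ1 : ∑ i, θ i = 1) {p : V} (hp : ∑ i, θ i • z i = p) {k : V}
    (hk : k ∈ Submodule.span ℝ (range fun i => z i - p)) :
    ∃ σ : ℝ, 0 < σ ∧ ∀ τ : ℝ, |τ| ≤ σ → p + τ • k ∈ convexHull ℝ (range z) := by
  rw [Submodule.mem_span_range_iff_exists_fun] at hk
  obtain ⟨a, ha⟩ := hk
  -- the coefficients
  set S := ∑ i, a i with hS
  have hcoef : ∀ τ : ℝ, p + τ • k = ∑ i, (θ i + τ * (a i - S * θ i)) • z i := by
    intro τ
    have h1 : k = ∑ i, a i • z i - S • p := by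
      rw [← ha]
      simp only [smul_sub, Finset.sum_sub_distrib, hS, Finset.sum_smul]
    have h2 : ∑ i, (θ i + τ * (a i - S * θ i)) • z i =
        ∑ i, θ i • z i + τ • (∑ i, a i • z i - S • ∑ i, θ i • z i) := by
      simp only [add_smul, mul_smul, sub_smul, Finset.sum_add_distrib, smul_sub,
        Finset.sum_sub_distrib, Finset.smul_sum]
    rw [h2, hp, ← h1]
  have hsum : ∀ τ : ℝ, ∑ i, (θ i + τ * (a i - S * θ i)) = 1 := by
    intro τ
    rw [Finset.sum_add_distrib, ← Finset.mul_sum, Finset.sum_sub_distrib, ← Finset.mul_sum, hθ1]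
    simp [hS]
  -- nonnegativity for small τ
  have hev : ∀ᶠ σ : ℝ in 𝓝[>] 0, ∀ i, σ * |a i - S * θ i| ≤ θ i := by
    rw [eventually_all]
    intro i
    have : Tendsto (fun σ : ℝ => σ * |a i - S * θ i|) (𝓝[>] 0) (𝓝 (0 * |a i - S * θ i|)) :=
      ((continuous_id.mul continuous_const).tendsto 0).mono_left nhdsWithin_le_nhds
    rw [zero_mul] at this
    exact (this.eventually (gt_mem_nhds (hθ i))).mono fun _ h => le_of_lt h
  obtain ⟨σ, hσ, hσ0⟩ := (hev.and self_mem_nhdsWithin).exists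
  refine ⟨σ, hσ0, fun τ hτ => ?_⟩
  rw [hcoef τ]
  apply (convex_convexHull ℝ (range z)).sum_mem
  · intro i _
    have h1 : |τ * (a i - S * θ i)| ≤ θ i := by
      rw [abs_mul]
      exact (mul_le_mul_of_nonneg_right hτ (abs_nonneg _)).trans (hσ i)
    have := neg_abs_le (τ * (a i - S * θ i))
    linarith
  · exact hsum τ
  · intro i _
    exact subset_convexHull ℝ _ (mem_range_self i)

end Crest.Agent.R226.StepJA416
end

-- ▼ part R226/StepJB_416
section

/-!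
R226, layer D, task D5 (step J), helper416: the plane spanned by `p` and the focal direction `k`,
and the abstract form of step (J).
-/

set_option autoImplicit false

open Set Filter
open scoped Topology

namespace Crest.Agent.R226.StepJB416

open StepJ2D416 StepJA416

variable {V : Type*} [NormedAddCommGroup V] [InnerProductSpace ℝ V]

/-- the plane parametrised by coordinates -/
noncomputable def pl (p k : V) (x y : ℝ) : V := (x / ‖p‖) • p + y • k

/-- the function `f` of step (J) in the coordinates of the plane -/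
noncomputable def ff (φ : V → V → ℝ) (p k : V) (x y : ℝ) : ℝ :=
  (x ^ 2 + y ^ 2 - φ (pl p k (-y) x) (pl p k x y)) / (x ^ 2 + y ^ 2) ^ 2

section
variable {p k : V}

lemma inner_pl (hp : p ≠ 0) (hk1 : ‖k‖ = 1) (hkp : inner ℝ k p = 0) (x y x' y' : ℝ) :
    inner ℝ (pl p k x y) (pl p k x' y') = x * x' + y * y' := by
  have hR : ‖p‖ ≠ 0 := norm_ne_zero_iff.2 hp
  have hpk : inner ℝ p k = 0 := by rw [real_inner_comm]; exact hkp
  unfold pl
  simp only [inner_add_left, inner_add_right, real_inner_smul_left, real_inner_smul_right, hkp, hpk,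
    real_inner_self_eq_norm_sq, hk1]
  field_simp
  ring

lemma norm_pl_sq (hp : p ≠ 0) (hk1 : ‖k‖ = 1) (hkp : inner ℝ k p = 0) (x y : ℝ) :
    ‖pl p k x y‖ ^ 2 = x ^ 2 + y ^ 2 := by
  rw [← real_inner_self_eq_norm_sq, inner_pl hp hk1 hkp]; ring

lemma pl_add (p k : V) (a b x y x' y' : ℝ) :
    pl p k (a * x + b * x') (a * y + b * y') = a • pl p k x y + b • pl p k x' y' := by
  unfold pl
  simp only [smul_add, smul_smul, add_div, add_smul]
  have e1 : a * x / ‖p‖ = a * (x / ‖p‖) := by ring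
  have e2 : b * x' / ‖p‖ = b * (x' / ‖p‖) := by ring
  rw [e1, e2]
  abel


/-- the formula `φ_ξ(q) = |ξ|² - ⟪ξ,Jq⟫² f(q)` -/
lemma phi_formula {I : Set V} {φ : V → V → ℝ} (hp : p ≠ 0) (hk1 : ‖k‖ = 1)
    (hkp : inner ℝ k p = 0)
    (hsmul : ∀ v ∈ I, ∀ ξ : V, ∀ t : ℝ, φ (t • ξ) v = t ^ 2 * φ ξ v)
    (hgauss : ∀ q ∈ I, ∀ η : V, inner ℝ q η = 0 → ∀ a : ℝ,
      φ (a • q + η) q = a ^ 2 * ‖q‖ ^ 2 + φ η q)
    {x y : ℝ} (hq : pl p k x y ∈ I) (hxy : 0 < x ^ 2 + y ^ 2) (u v : ℝ) :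
    φ (pl p k u v) (pl p k x y) = u ^ 2 + v ^ 2 - (-y * u + x * v) ^ 2 * ff φ p k x y := by
  have hN : x ^ 2 + y ^ 2 ≠ 0 := hxy.ne'
  obtain ⟨a, ha⟩ : ∃ a, a = (u * x + v * y) / (x ^ 2 + y ^ 2) := ⟨_, rfl⟩
  obtain ⟨b, hb⟩ : ∃ b, b = (-y * u + x * v) / (x ^ 2 + y ^ 2) := ⟨_, rfl⟩
  have hu : u = a * x + b * (-y) := by
    rw [ha, hb]; field_simp; ring
  have hv : v = a * y + b * x := by
    rw [ha, hb]; field_simp; ring
  have e1 : pl p k u v = a • pl p k x y + b • pl p k (-y) x := by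
    rw [← pl_add, ← hu, ← hv]
  have hperp : inner ℝ (pl p k x y) (b • pl p k (-y) x) = 0 := by
    rw [real_inner_smul_right, inner_pl hp hk1 hkp]; ring
  rw [e1, hgauss _ hq _ hperp, hsmul _ hq, norm_pl_sq hp hk1 hkp]
  have hf : φ (pl p k (-y) x) (pl p k x y) =
      (x ^ 2 + y ^ 2) - (x ^ 2 + y ^ 2) ^ 2 * ff φ p k x y := by
    unfold ff
    field_simp
    ring
  rw [hf]
  have hbN : b * (x ^ 2 + y ^ 2) = -y * u + x * v := by rw [hb]; field_simp
  have h3 : b ^ 2 * ((x ^ 2 + y ^ 2) ^ 2 * ff φ p k x y) =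
      (-y * u + x * v) ^ 2 * ff φ p k x y := by
    rw [← hbN]; ring
  have h4 : a ^ 2 * (x ^ 2 + y ^ 2) + b ^ 2 * (x ^ 2 + y ^ 2) = u ^ 2 + v ^ 2 := by
    rw [hu, hv]; ring
  linear_combination h4 - h3

/-- the triangle lies in `I` -/
lemma pl_mem {I : Set V} (hp : p ≠ 0) {σ : ℝ}
    (hT : ∀ τ : ℝ, |τ| ≤ σ → ∀ r : ℝ, 0 ≤ r → r < 1 → r • (p + τ • k) ∈ I)
    {x y : ℝ} (hx : 0 < x) (hxR : x < ‖p‖) (hy : |y| ≤ σ / ‖p‖ * x) : pl p k x y ∈ I := by
  have hR : 0 < ‖p‖ := norm_pos_iff.2 hp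
  have h := hT (y * ‖p‖ / x) (by
    rw [abs_div, abs_mul, abs_of_pos hx, abs_of_pos hR, div_le_iff₀ hx]
    calc |y| * ‖p‖ ≤ σ / ‖p‖ * x * ‖p‖ := mul_le_mul_of_nonneg_right hy hR.le
      _ = σ * x := by field_simp) (x / ‖p‖) (by positivity) ((div_lt_one hR).2 hxR)
  have e : (x / ‖p‖) • (p + (y * ‖p‖ / x) • k) = pl p k x y := by
    unfold pl
    rw [smul_add, smul_smul]
    congr 2
    field_simp
  rwa [e] at h

/-- the convexity hypothesis of the plane lemma holds -/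
lemma planeConv_ff {I : Set V} {φ : V → V → ℝ} (hp : p ≠ 0) (hk1 : ‖k‖ = 1)
    (hkp : inner ℝ k p = 0)
    (hsmul : ∀ v ∈ I, ∀ ξ : V, ∀ t : ℝ, φ (t • ξ) v = t ^ 2 * φ ξ v)
    (hgauss : ∀ q ∈ I, ∀ η : V, inner ℝ q η = 0 → ∀ a : ℝ,
      φ (a • q + η) q = a ^ 2 * ‖q‖ ^ 2 + φ η q)
    (hconc : ConcHyp I φ) {σ : ℝ}
    (hT : ∀ τ : ℝ, |τ| ≤ σ → ∀ r : ℝ, 0 ≤ r → r < 1 → r • (p + τ • k) ∈ I) :
    PlaneConv ‖p‖ (σ / ‖p‖) (ff φ p k) := by
  intro x₀ y₀ x₁ y₁ hx₀ hx₀R hy₀ hx₁ hx₁R hy₁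
  obtain ⟨dx, hdx⟩ : ∃ dx, dx = x₁ - x₀ := ⟨_, rfl⟩
  obtain ⟨dy, hdy⟩ : ∃ dy, dy = y₁ - y₀ := ⟨_, rfl⟩
  rw [← hdx, ← hdy]
  -- points of the segment
  have hpt : ∀ τ ∈ Icc (0 : ℝ) 1, 0 < x₀ + τ * dx ∧ x₀ + τ * dx < ‖p‖ ∧
      |y₀ + τ * dy| ≤ σ / ‖p‖ * (x₀ + τ * dx) := by
    intro τ hτ
    have e1 : x₀ + τ * dx = (1 - τ) * x₀ + τ * x₁ := by rw [hdx]; ring
    have e2 : y₀ + τ * dy = (1 - τ) * y₀ + τ * y₁ := by rw [hdy]; ring
    have h0 : 0 ≤ 1 - τ := by linarith [hτ.2]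
    rw [e1, e2]
    refine ⟨?_, ?_, ?_⟩
    · rcases hτ.1.eq_or_lt with h | h
      · rw [← h]; simpa using hx₀
      · have := mul_nonneg h0 hx₀.le
        have := mul_pos h hx₁
        linarith
    · rcases hτ.1.eq_or_lt with h | h
      · rw [← h]; simpa using hx₀R
      · have h1 := mul_le_mul_of_nonneg_left hx₀R.le h0
        have h2 := mul_lt_mul_of_pos_left hx₁R h
        nlinarith
    · calc |(1 - τ) * y₀ + τ * y₁| ≤ |(1 - τ) * y₀| + |τ * y₁| := abs_add_le _ _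
        _ = (1 - τ) * |y₀| + τ * |y₁| := by
            rw [abs_mul, abs_mul, abs_of_nonneg h0, abs_of_nonneg hτ.1]
        _ ≤ (1 - τ) * (σ / ‖p‖ * x₀) + τ * (σ / ‖p‖ * x₁) :=
            add_le_add (mul_le_mul_of_nonneg_left hy₀ h0) (mul_le_mul_of_nonneg_left hy₁ hτ.1)
        _ = _ := by ring
  have hmemI : ∀ τ ∈ Icc (0 : ℝ) 1, pl p k (x₀ + τ * dx) (y₀ + τ * dy) ∈ I := fun τ hτ =>
    pl_mem hp hT (hpt τ hτ).1 (hpt τ hτ).2.1 (hpt τ hτ).2.2
  -- formula
  have hform : ∀ τ ∈ Icc (0 : ℝ) 1,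
      ((x₀ + τ * dx) * dx + (y₀ + τ * dy) * dy) ^ 2 *
        ff φ p k (x₀ + τ * dx) (y₀ + τ * dy) =
      dx ^ 2 + dy ^ 2 - φ (pl p k (-dy) dx) (pl p k (x₀ + τ * dx) (y₀ + τ * dy)) := by
    intro τ hτ
    have hpos : 0 < (x₀ + τ * dx) ^ 2 + (y₀ + τ * dy) ^ 2 := by
      have := (hpt τ hτ).1
      positivity
    rw [phi_formula hp hk1 hkp hsmul hgauss (hmemI τ hτ) hpos]
    ring
  refine ⟨convex_Icc 0 1, ?_⟩
  intro a ha b hb α β hα hβ hαβ
  have hab : α * a + β * b ∈ Icc (0 : ℝ) 1 := (convex_Icc 0 1) ha hb hα hβ hαβ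
  simp only [smul_eq_mul]
  rw [hform _ ha, hform _ hb, hform _ hab]
  have hα1 : α = 1 - β := by linarith
  -- concavity along the sub-segment
  have hlin : ∀ τ τ' s : ℝ, pl p k (x₀ + ((1 - s) * τ + s * τ') * dx)
      (y₀ + ((1 - s) * τ + s * τ') * dy) =
      (1 - s) • pl p k (x₀ + τ * dx) (y₀ + τ * dy) + s • pl p k (x₀ + τ' * dx) (y₀ + τ' * dy) := by
    intro τ τ' s
    rw [← pl_add]
    congr 1 <;> ring
  have hseg : segment ℝ (pl p k (x₀ + a * dx) (y₀ + a * dy))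
      (pl p k (x₀ + b * dx) (y₀ + b * dy)) ⊆ I := by
    rintro _ ⟨α', β', hα', hβ', hαβ', rfl⟩
    have e : α' = 1 - β' := by linarith
    rw [e, ← hlin]
    apply hmemI
    have := (convex_Icc (0 : ℝ) 1) ha hb hα' hβ' hαβ'
    rw [e] at this
    simpa using this
  have hperp : inner ℝ (pl p k (x₀ + b * dx) (y₀ + b * dy) - pl p k (x₀ + a * dx) (y₀ + a * dy))
      (pl p k (-dy) dx) = 0 := by
    rw [inner_sub_left, inner_pl hp hk1 hkp, inner_pl hp hk1 hkp]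
    ring
  have h := hconc _ _ _ hseg hperp β hβ (by linarith)
  rw [← hlin, ← hα1] at h
  have : α * (dx ^ 2 + dy ^ 2 - φ (pl p k (-dy) dx) (pl p k (x₀ + a * dx) (y₀ + a * dy))) +
      β * (dx ^ 2 + dy ^ 2 - φ (pl p k (-dy) dx) (pl p k (x₀ + b * dx) (y₀ + b * dy))) =
      (dx ^ 2 + dy ^ 2) - (α * φ (pl p k (-dy) dx) (pl p k (x₀ + a * dx) (y₀ + a * dy)) +
        β * φ (pl p k (-dy) dx) (pl p k (x₀ + b * dx) (y₀ + b * dy))) := by
    have : (α + β) * (dx ^ 2 + dy ^ 2) = dx ^ 2 + dy ^ 2 := by rw [hαβ, one_mul]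
    linear_combination this
  rw [this]
  linarith

/-- **the plane argument** -/
theorem plane_false {I : Set V} {φ : V → V → ℝ} (hp : p ≠ 0) (hk1 : ‖k‖ = 1)
    (hkp : inner ℝ k p = 0) (hIo : IsOpen I)
    (hcont : ContinuousOn (fun q : V × V => φ q.1 q.2) {q | q.2 ∈ I})
    (hsmul : ∀ v ∈ I, ∀ ξ : V, ∀ t : ℝ, φ (t • ξ) v = t ^ 2 * φ ξ v)
    (hgauss : ∀ q ∈ I, ∀ η : V, inner ℝ q η = 0 → ∀ a : ℝ,
      φ (a • q + η) q = a ^ 2 * ‖q‖ ^ 2 + φ η q)
    (hconc : ConcHyp I φ) {σ : ℝ} (hσ : 0 < σ)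
    (hT : ∀ τ : ℝ, |τ| ≤ σ → ∀ r : ℝ, 0 ≤ r → r < 1 → r • (p + τ • k) ∈ I)
    (hend : p + σ • k ∈ I) (hblow : Blow φ p k) : False := by
  have hR : 0 < ‖p‖ := norm_pos_iff.2 hp
  have hm : 0 < σ / ‖p‖ := div_pos hσ hR
  have hPC := planeConv_ff hp hk1 hkp hsmul hgauss hconc hT
  obtain ⟨C, c, r₁, hc, hr₁, hbl⟩ := hblow
  -- boundedness near the corner
  have hcorner : pl p k ‖p‖ (σ / ‖p‖ * ‖p‖) = p + σ • k := by
    unfold pl
    rw [div_self hR.ne', one_smul, div_mul_cancel₀ _ hR.ne']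
  have hcontpl : Continuous fun t : ℝ => pl p k (‖p‖ - t) (σ / ‖p‖ * (‖p‖ - t)) := by
    unfold pl; fun_prop
  have hcontpl' : Continuous fun t : ℝ => pl p k (-(σ / ‖p‖ * (‖p‖ - t))) (‖p‖ - t) := by
    unfold pl; fun_prop
  have hffc : ContinuousAt (fun t : ℝ => ff φ p k (‖p‖ - t) (σ / ‖p‖ * (‖p‖ - t))) 0 := by
    unfold ff
    apply ContinuousAt.div
    · apply ContinuousAt.sub (by fun_prop)
      have h1 : ContinuousAt (fun q : V × V => φ q.1 q.2)
          (pl p k (-(σ / ‖p‖ * (‖p‖ - 0))) (‖p‖ - 0), pl p k (‖p‖ - 0) (σ / ‖p‖ * (‖p‖ - 0))) := by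
        apply hcont.continuousAt
        apply (hIo.preimage continuous_snd).mem_nhds
        simp only [mem_preimage, sub_zero]
        rw [hcorner]; exact hend
      exact ContinuousAt.comp (f := fun t : ℝ =>
        (pl p k (-(σ / ‖p‖ * (‖p‖ - t))) (‖p‖ - t), pl p k (‖p‖ - t) (σ / ‖p‖ * (‖p‖ - t))))
        h1 (hcontpl'.prodMk hcontpl).continuousAt
    · fun_prop
    · simp only [sub_zero]
      positivity
  obtain ⟨B, hB⟩ : ∃ B, B = ff φ p k (‖p‖ - 0) (σ / ‖p‖ * (‖p‖ - 0)) + 1 := ⟨_, rfl⟩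
  have hev1 : ∀ᶠ t : ℝ in 𝓝[>] 0, ff φ p k (‖p‖ - t) (σ / ‖p‖ * (‖p‖ - t)) ≤ B := by
    have : ∀ᶠ t : ℝ in 𝓝 0, ff φ p k (‖p‖ - t) (σ / ‖p‖ * (‖p‖ - t)) < B :=
      hffc.eventually_lt continuousAt_const (by rw [hB]; linarith)
    exact (this.filter_mono nhdsWithin_le_nhds).mono fun _ h => h.le
  -- blow up on the axis
  have hev2 : ∀ᶠ t : ℝ in 𝓝[>] 0, c / (2 * ‖p‖) / t ≤ ff φ p k (‖p‖ - t) 0 := by
    have hmem : Ioo (0 : ℝ) (min (‖p‖ * (1 - r₁)) (min ‖p‖ (c * ‖p‖ / (2 * (|C| + 1))))) ∈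
        𝓝[>] (0 : ℝ) := by
      apply Ioo_mem_nhdsGT
      apply lt_min
      · apply mul_pos hR; linarith
      · apply lt_min hR; positivity
    filter_upwards [hmem] with t ht
    have ht0 : 0 < t := ht.1
    have ht1 : t < ‖p‖ * (1 - r₁) := ht.2.trans_le (min_le_left _ _)
    have ht2 : t < ‖p‖ := ht.2.trans_le ((min_le_right _ _).trans (min_le_left _ _))
    have ht3 : t < c * ‖p‖ / (2 * (|C| + 1)) :=
      ht.2.trans_le ((min_le_right _ _).trans (min_le_right _ _))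
    obtain ⟨x, hx⟩ : ∃ x, x = ‖p‖ - t := ⟨_, rfl⟩
    have hx0 : 0 < x := by rw [hx]; linarith
    rw [← hx]
    have hq : pl p k x 0 = (1 - t / ‖p‖) • p := by
      unfold pl
      rw [zero_smul, add_zero, hx, sub_div, div_self hR.ne']
    have hr1 : 1 - t / ‖p‖ < 1 := by
      have : 0 < t / ‖p‖ := div_pos ht0 hR
      linarith
    have hrr : r₁ < 1 - t / ‖p‖ := by
      have : t / ‖p‖ < 1 - r₁ := by rw [div_lt_iff₀ hR]; linarith
      linarith
    have hqI : pl p k x 0 ∈ I := by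
      apply pl_mem hp hT hx0 (by rw [hx]; linarith)
      rw [abs_zero]; positivity
    have hb := hbl (1 - t / ‖p‖) hrr hr1 (pl p k (-0) x)
    have hnorm : ‖pl p k (-0) x‖ ^ 2 = x ^ 2 := by
      rw [norm_pl_sq hp hk1 hkp]; ring
    have hin : inner ℝ (pl p k (-0) x) k = x := by
      unfold pl
      rw [neg_zero, zero_div, zero_smul, zero_add, real_inner_smul_left,
        real_inner_self_eq_norm_sq, hk1]
      ring
    have e1 : 1 - (1 - t / ‖p‖) = t / ‖p‖ := by ring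
    rw [hnorm, hin, e1, ← hq] at hb
    have hff : ff φ p k x 0 = (x ^ 2 - φ (pl p k (-0) x) (pl p k x 0)) / (x ^ 2) ^ 2 := by
      unfold ff
      simp
    rw [hff, le_div_iff₀ (by positivity)]
    -- goal: c/(2‖p‖)/t * (x^2)^2 ≤ x^2 - φ
    have h1 : x ^ 2 - C * x ^ 2 + c * x ^ 2 * (‖p‖ / t) ≤ x ^ 2 - φ (pl p k (-0) x) (pl p k x 0) := by
      have e2 : c * x ^ 2 / (t / ‖p‖) = c * x ^ 2 * (‖p‖ / t) := by
        field_simp
      rw [e2] at hb
      linarith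
    refine le_trans ?_ h1
    have hxR : x ^ 2 ≤ ‖p‖ ^ 2 := by
      have : x ≤ ‖p‖ := by rw [hx]; linarith
      exact pow_le_pow_left₀ hx0.le this 2
    have h2 : c / (2 * ‖p‖) / t * (x ^ 2) ^ 2 ≤ c * x ^ 2 * (‖p‖ / t) / 2 := by
      have e3 : c / (2 * ‖p‖) / t * (x ^ 2) ^ 2 = (c * x ^ 2 / (2 * ‖p‖ * t)) * x ^ 2 := by
        field_simp
      have e4 : c * x ^ 2 * (‖p‖ / t) / 2 = (c * x ^ 2 / (2 * ‖p‖ * t)) * ‖p‖ ^ 2 := by
        field_simp
      rw [e3, e4]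
      exact mul_le_mul_of_nonneg_left hxR (by positivity)
    have h3 : (|C| + 1) ≤ c * (‖p‖ / t) / 2 := by
      rw [lt_div_iff₀ (by positivity)] at ht3
      have e5 : c * (‖p‖ / t) / 2 = c * ‖p‖ / (2 * t) := by field_simp
      rw [e5, le_div_iff₀ (by positivity)]
      linarith
    have h4 : (C - 1) * x ^ 2 ≤ (|C| + 1) * x ^ 2 := by
      apply mul_le_mul_of_nonneg_right _ (by positivity)
      linarith [le_abs_self C]
    have h5 : (|C| + 1) * x ^ 2 ≤ c * (‖p‖ / t) / 2 * x ^ 2 :=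
      mul_le_mul_of_nonneg_right h3 (by positivity)
    have e6 : c * x ^ 2 * (‖p‖ / t) = c * (‖p‖ / t) / 2 * x ^ 2 + c * x ^ 2 * (‖p‖ / t) / 2 := by
      ring
    linarith
  -- conclusion
  obtain ⟨t₀, ht₀, hall⟩ := mem_nhdsGT_iff_exists_Ioo_subset.1 (hev1.and hev2)
  exact plane_contradiction hR hm (c := c / (2 * ‖p‖)) (by positivity) ht₀ (ff φ p k) hPC
    (fun t h1 h2 => (hall ⟨h1, h2⟩).2) (fun t h1 h2 => (hall ⟨h1, h2⟩).1)

end

/-- **Step (J), abstract form** at a fixed base point: `Q ⊆ K`, `0 ≤ s < 1`, `s • conv Q ⊆ K`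
compact, and every focal point of `s • conv Q` has a blow-up direction; then
`s • conv Q ⊆ I`. -/
theorem stepJ_abs {K I : Set V} {φ : V → V → ℝ} (hIo : IsOpen I)
    (hKI : ∀ v ∈ K, ∀ r : ℝ, 0 ≤ r → r < 1 → r • v ∈ I)
    (hcont : ContinuousOn (fun q : V × V => φ q.1 q.2) {q | q.2 ∈ I})
    (hsmul : ∀ v ∈ I, ∀ ξ : V, ∀ t : ℝ, φ (t • ξ) v = t ^ 2 * φ ξ v)
    (hgauss : ∀ q ∈ I, ∀ η : V, inner ℝ q η = 0 → ∀ a : ℝ,
      φ (a • q + η) q = a ^ 2 * ‖q‖ ^ 2 + φ η q)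
    (hconc : ConcHyp I φ) {Q : Set V} (hQ : Q ⊆ K) {s : ℝ} (hs0 : 0 ≤ s) (hs1 : s < 1)
    (hSK : ∀ w ∈ convexHull ℝ Q, s • w ∈ K) (hcomp : IsCompact (convexHull ℝ Q))
    (hfoc : ∀ w ∈ convexHull ℝ Q, s • w ∉ I →
      ∃ k : V, ‖k‖ = 1 ∧ inner ℝ k (s • w) = 0 ∧ Blow φ (s • w) k) :
    ∀ w ∈ convexHull ℝ Q, s • w ∈ I := by
  by_contra hcon
  push Not at hcon
  obtain ⟨w₀, hw₀, hw₀I⟩ := hcon
  -- the compact set of bad points
  set B : Set V := ((fun w => s • w) '' convexHull ℝ Q) ∩ Iᶜ with hB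
  have hBc : IsCompact B :=
    (hcomp.image (continuous_const_smul s)).inter_right hIo.isClosed_compl
  have hBne : B.Nonempty := ⟨s • w₀, ⟨w₀, hw₀, rfl⟩, hw₀I⟩
  obtain ⟨p, hpB, hpmax⟩ := hBc.exists_isMaxOn hBne continuous_norm.continuousOn
  obtain ⟨⟨w, hw, hwp⟩, hpI⟩ := hpB
  simp only at hwp
  have hmax : ∀ v ∈ convexHull ℝ Q, ‖p‖ < ‖s • v‖ → s • v ∈ I := by
    intro v hv hlt
    by_contra hv'
    exact absurd (hpmax (a := s • v) ⟨⟨v, hv, rfl⟩, hv'⟩) (not_le.2 hlt)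
  obtain ⟨k, hk1, hkp, hblow⟩ := hfoc w hw (by rw [hwp]; exact hpI)
  rw [hwp] at hkp hblow
  have hp0 : p ≠ 0 := by
    intro h0
    apply hpI
    have := hKI _ (hSK w hw) 0 le_rfl one_pos
    rw [zero_smul] at this
    rw [h0]; exact this
  -- positive convex combination
  obtain ⟨ι, _, z, θ, hzQ, -, hθ, hθ1, hzw⟩ := eq_pos_convex_span_of_mem_convexHull hw
  have hzp : ∑ i, θ i • (s • z i) = p := by
    rw [← hwp, ← hzw, Finset.smul_sum]
    exact Finset.sum_congr rfl fun i _ => smul_comm _ _ _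
  have hzI : ∀ i, s • z i ∈ I := fun i => hKI _ (hQ (hzQ (mem_range_self i))) s hs0 hs1
  -- hulls
  have hull : ∀ v ∈ convexHull ℝ (range fun i => s • z i), ∃ u ∈ convexHull ℝ Q, s • u = v := by
    intro v hv
    have : (range fun i => s • z i) ⊆ (fun u : V => s • u) '' convexHull ℝ Q := by
      rintro _ ⟨i, rfl⟩
      exact ⟨z i, subset_convexHull ℝ _ (hzQ (mem_range_self i)), rfl⟩
    have hc : Convex ℝ ((fun u : V => s • u) '' convexHull ℝ Q) :=
      (convex_convexHull ℝ Q).smul s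
    obtain ⟨u, hu, huv⟩ := convexHull_min this hc hv
    exact ⟨u, hu, huv⟩
  have hullr : ∀ r : ℝ, 0 < r → r < 1 →
      convexHull ℝ (range fun i => r • (s • z i)) ⊆ I := by
    intro r hr0 hr1 v hv
    have : (range fun i => r • (s • z i)) ⊆
        (fun u : V => r • u) '' convexHull ℝ (range fun i => s • z i) := by
      rintro _ ⟨i, rfl⟩
      exact ⟨s • z i, subset_convexHull ℝ _ (mem_range_self i), rfl⟩
    have hc : Convex ℝ ((fun u : V => r • u) '' convexHull ℝ (range fun i => s • z i)) :=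
      (convex_convexHull ℝ _).smul r
    obtain ⟨v', hv', rfl⟩ := convexHull_min this hc hv
    obtain ⟨u, hu, rfl⟩ := hull v' hv'
    exact hKI _ (hSK u hu) r hr0.le hr1
  have hcξ : ∀ ξ, ContinuousOn (φ ξ) I := by
    intro ξ
    exact hcont.comp (f := fun q : V => (ξ, q)) (by fun_prop) (fun q hq => hq)
  have hspan := mem_span hcξ hIo hconc (fun i => s • z i) θ (fun i => (hθ i).le) hθ1 hzp hzI
    hullr hblow
  obtain ⟨σ, hσ, hσh⟩ := exists_sigma (fun i => s • z i) θ hθ hθ1 hzp hspan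
  refine plane_false hp0 hk1 hkp hIo hcont hsmul hgauss hconc hσ ?_ ?_ hblow
  · intro τ hτ r hr0 hr1
    obtain ⟨u, hu, huv⟩ := hull _ (hσh τ hτ)
    rw [← huv]
    exact hKI _ (hSK u hu) r hr0 hr1
  · obtain ⟨u, hu, huv⟩ := hull _ (hσh σ (by rw [abs_of_pos hσ]))
    rw [← huv]
    apply hmax u hu
    rw [huv]
    have h1 : ‖p + σ • k‖ ^ 2 = ‖p‖ ^ 2 + σ ^ 2 := by
      have hpk : inner ℝ p k = 0 := by rw [real_inner_comm]; exact hkp
      rw [norm_add_sq_real, real_inner_smul_right, hpk, norm_smul, hk1, Real.norm_eq_abs,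
        mul_one, sq_abs]
      ring
    have h2 : ‖p‖ ^ 2 < ‖p + σ • k‖ ^ 2 := by
      rw [h1]; have := pow_pos hσ 2; linarith
    exact lt_of_pow_lt_pow_left₀ 2 (norm_nonneg _) h2

end Crest.Agent.R226.StepJB416
end

-- ▼ part R226/StepJ_416
section

/-!
R226, layer D, task D5, helper416: **step (J)** of docs 350 on the manifold:
`s • conv Q ⊆ I(x)`.
-/

set_option autoImplicit false

open Set Filter Bundle
open scoped Manifold ContDiff Topology
open Crest.GeometryTopology.MTW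

namespace Crest.Agent.R226.StepJ416

variable {n : ℕ} {M : Type*} [MetricSpace M] [ChartedSpace (EuclideanSpace ℝ (Fin n)) M]
  [IsManifold (𝓡 n) ∞ M]
  [RiemannianBundle (fun p : M => TangentSpace (𝓡 n) p)]

/-- `I(x)` is open. -/
lemma isOpen_I {G : GeoData n M} (hC : CutFacts G) (x : M) : IsOpen (G.I x) := by
  have h1 : Continuous (fun v : TangentSpace (𝓡 n) x => (⟨x, v⟩ : TangentBundle (𝓡 n) M)) :=
    FiberBundle.continuous_totalSpaceMk (EuclideanSpace ℝ (Fin n))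
      (fun p : M => TangentSpace (𝓡 n) p) x
  exact hC.isOpen_IT.preimage h1

/-- `r K(x) ⊆ I(x)` for `0 ≤ r < 1`. -/
lemma smul_mem_I {G : GeoData n M} (x : M) (v : TangentSpace (𝓡 n) x) (hv : v ∈ G.K x) (r : ℝ)
    (hr0 : 0 ≤ r) (hr1 : r < 1) : r • v ∈ G.I x := by
  rcases hr0.eq_or_lt with h | h
  · refine ⟨2, by norm_num, ?_⟩
    rw [← h, zero_smul, smul_zero]
    show dist x (G.ex x 0) = ‖(0 : TangentSpace (𝓡 n) x)‖
    rw [G.ex_zero, dist_self, norm_zero]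
  · refine ⟨r⁻¹, (one_lt_inv₀ h).2 hr1, ?_⟩
    rw [smul_smul, inv_mul_cancel₀ h.ne', one_smul]
    exact hv

/-- **Step (J)**. -/
theorem stepJ {G : GeoData n M} (hC : CutFacts G) (hM : MTWFacts G) (x : M)
    {Q : Set (TangentSpace (𝓡 n) x)} (hQ : Q ⊆ G.K x) {s : ℝ} (hs0 : 0 ≤ s) (hs1 : s < 1)
    (hSK : ∀ w ∈ convexHull ℝ Q, s • w ∈ G.K x) (hcomp : IsCompact (convexHull ℝ Q))
    (huniq : ∀ w ∈ convexHull ℝ Q, ∀ w' ∈ G.K x, G.ex x w' = G.ex x (s • w) → w' = s • w) :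
    ∀ w ∈ convexHull ℝ Q, s • w ∈ G.I x := by
  refine StepJB416.stepJ_abs (K := G.K x) (I := G.I x) (φ := G.phi x) (isOpen_I hC x)
    (fun v hv r h0 h1 => smul_mem_I x v hv r h0 h1) (hC.phi_cont x)
    (fun v hv ξ t => hC.phi_smul x v hv ξ t) (fun q hq η hη a => hC.gauss x q hq η hη a)
    (fun p q ξ h1 h2 t h3 h4 => hM.concave x p q ξ h1 h2 t h3 h4) hQ hs0 hs1 hSK hcomp ?_
  intro w hw hwI
  obtain ⟨k, hk1, hkp, C, c, r₁, hc, hr₁, hb⟩ := hC.focal x (s • w) (hSK w hw) hwI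
    (fun w' hw' he => huniq w hw w' hw' he)
  exact ⟨k, hk1, hkp, C, c, r₁, hc, hr₁, hb⟩

/-- Step (J) for `H_u(x)`. -/
theorem stepJ_H {G : GeoData n M} (hC : CutFacts G) (hM : MTWFacts G) (u : M → ℝ) (x : M)
    {s : ℝ} (hs0 : 0 ≤ s) (hs1 : s < 1) (hSK : ∀ w ∈ G.H u x, s • w ∈ G.K x)
    (hcomp : IsCompact (G.H u x))
    (huniq : ∀ w ∈ G.H u x, ∀ w' ∈ G.K x, G.ex x w' = G.ex x (s • w) → w' = s • w) :
    ∀ w ∈ G.H u x, s • w ∈ G.I x :=
  stepJ hC hM x (fun _ hw => hw.1) hs0 hs1 hSK hcomp huniq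

end Crest.Agent.R226.StepJ416
end

-- ▼ part R226/StepJFin_416
section

/-!
R226, layer D, task D5, helper416: **step (J)** in the interface form of `DDefs_267`.
-/

set_option autoImplicit false

open Set Filter Bundle
open scoped Manifold ContDiff Topology
open Crest.GeometryTopology.MTW

namespace Crest.Agent.R226.StepJ416

variable {n : ℕ} {M : Type*} [MetricSpace M] [ChartedSpace (EuclideanSpace ℝ (Fin n)) M]
  [IsManifold (𝓡 n) ∞ M]
  [RiemannianBundle (fun p : M => TangentSpace (𝓡 n) p)]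

/-- two elements of the total space over a family of subsingletons, with equal base, are equal -/
lemma eq_of_subsingleton {S : ∀ y : M, Set (TangentSpace (𝓡 n) y)}
    (hS : ∀ y, (S y).Subsingleton) (p q : TangentBundle (𝓡 n) M) (h : p.1 = q.1)
    (hp : p.2 ∈ S p.1) (hq : q.2 ∈ S q.1) : p = q := by
  obtain ⟨x, v⟩ := p
  obtain ⟨y, w⟩ := q
  dsimp only at h hp hq
  subst h
  rw [hS x hp hq]

/-- **Step (J)**, interface form. -/
theorem stepJ_fin {G : GeoData n M} (hC : CutFacts G) (hM : MTWFacts G) (hD : DFacts G) :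
    StepJ G := by
  intro u hu s hs0 hs1 hgood hsub x p hp
  have hU : CConv (scal s u) := hD.cconv_smul u hu s hs0.le hs1.le
  refine stepJ_H hC hM u x hs0.le hs1 (fun w hw => (hgood x w hw).1)
    (hD.isCompact_H u (hD.cont u hu) x) ?_ p hp
  intro w hw w' hw'K he
  -- both `s • w` and `w'` are in `P_{s u}(x)`
  have h1 : s • w ∈ G.P (scal s u) x := hgood x w hw
  have h2 : w' ∈ G.P (scal s u) x := by
    refine ⟨hw'K, fun x' => ?_⟩
    have := h1.2 x'
    rw [he]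
    exact this
  -- reversal
  have h3 := hD.P_rev (scal s u) hU (⟨x, s • w⟩ : TangentBundle (𝓡 n) M) h1
  have h4 := hD.P_rev (scal s u) hU (⟨x, w'⟩ : TangentBundle (𝓡 n) M) h2
  have h5 : (G.revT (⟨x, s • w⟩ : TangentBundle (𝓡 n) M)).1 =
      (G.revT (⟨x, w'⟩ : TangentBundle (𝓡 n) M)).1 := by
    rw [hD.revT_fst, hD.revT_fst]
    exact he.symm
  have h6 := eq_of_subsingleton (S := fun y => G.P (ctr (scal s u)) y) hsub _ _ h5 h3 h4
  have h7 := hD.revT_revT (⟨x, s • w⟩ : TangentBundle (𝓡 n) M) h1.1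
  have h8 := hD.revT_revT (⟨x, w'⟩ : TangentBundle (𝓡 n) M) h2.1
  have h9 : (⟨x, s • w⟩ : TangentBundle (𝓡 n) M) = ⟨x, w'⟩ := by
    rw [← h7, ← h8, h6]
  have h10 := (TotalSpace.mk_inj).1 h9
  exact h10.symm

end Crest.Agent.R226.StepJ416
end

-- ▼ part R226/StepK_881
section

set_option autoImplicit false

open MeasureTheory Bundle Set Filter
open scoped Manifold ContDiff Bundle ENNReal Topology
open Crest.GeometryTopology.MTW

namespace Crest.Agent.R226.StepK881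

variable {n : ℕ} {M : Type*} [MetricSpace M] [ChartedSpace (EuclideanSpace ℝ (Fin n)) M]
  [IsManifold (𝓡 n) ∞ M]

/-- scaling on the tangent bundle is jointly continuous -/
theorem continuous_scale :
    Continuous (fun q : ℝ × TangentBundle (𝓡 n) M =>
      (⟨q.2.1, q.1 • q.2.2⟩ : TangentBundle (𝓡 n) M)) := by
  rw [continuous_iff_continuousAt]
  intro q₀
  rw [FiberBundle.continuousAt_totalSpace]
  have hproj : Continuous (fun q : ℝ × TangentBundle (𝓡 n) M => q.2.1) :=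
    (FiberBundle.continuous_proj (EE n) (TangentSpace (𝓡 n) : M → Type _)).comp continuous_snd
  refine ⟨hproj.continuousAt, ?_⟩
  set e := trivializationAt (EE n) (TangentSpace (𝓡 n) : M → Type _) q₀.2.1 with he
  have hmem : q₀.2.1 ∈ e.baseSet := FiberBundle.mem_baseSet_trivializationAt' q₀.2.1
  have hcont : ContinuousAt (fun q : ℝ × TangentBundle (𝓡 n) M => (e q.2).2) q₀ := by
    have h1 : ContinuousAt e q₀.2 := e.continuousAt (e.mem_source.2 hmem)
    exact (continuous_snd.continuousAt.comp h1).comp continuous_snd.continuousAt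
  have hsm : ContinuousAt (fun q : ℝ × TangentBundle (𝓡 n) M => q.1 • (e q.2).2) q₀ :=
    continuous_fst.continuousAt.smul hcont
  refine hsm.congr_of_eventuallyEq ?_
  have hev : ∀ᶠ q : ℝ × TangentBundle (𝓡 n) M in 𝓝 q₀, q.2.1 ∈ e.baseSet :=
    hproj.continuousAt.eventually (e.open_baseSet.mem_nhds hmem)
  filter_upwards [hev] with q hq
  exact ((e.linear ℝ hq).map_smul q.1 q.2.2)

theorem continuous_projTM : Continuous (fun p : TangentBundle (𝓡 n) M => p.1) :=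
  FiberBundle.continuous_proj (EE n) (TangentSpace (𝓡 n) : M → Type _)

theorem continuous_halfDistSq : Continuous (fun q : M × M => halfDistSq q.1 q.2) := by
  unfold halfDistSq
  fun_prop

variable [RiemannianBundle (fun p : M => TangentSpace (𝓡 n) p)]
variable (G : GeoData n M)

theorem continuous_exT : Continuous (fun p : TangentBundle (𝓡 n) M => G.ex p.1 p.2) :=
  G.smooth.continuous

/-- `(t, p) ↦ exp (t p)` is continuous on `ℝ × TM`. -/
theorem continuous_ex_smul :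
    Continuous (fun q : ℝ × TangentBundle (𝓡 n) M => G.ex q.2.1 (q.1 • q.2.2)) :=
  (continuous_exT G).comp continuous_scale

/-- radial curves are continuous -/
theorem continuous_ex_radial (x : M) (v : TangentSpace (𝓡 n) x) :
    Continuous (fun t : ℝ => G.ex x (t • v)) :=
  (continuous_ex_smul G).comp
    (Continuous.prodMk_left (⟨x, v⟩ : TangentBundle (𝓡 n) M))

/-- (L-D) for `0 < t ≤ 1`: `w ∈ P_u(x)` implies `t w ∈ P_{tu}(x)`. -/
theorem smul_mem_P (hK : ∀ x, ∀ v ∈ G.K x, ∀ t : ℝ, 0 ≤ t → t ≤ 1 → t • v ∈ G.K x)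
    {u : M → ℝ} {x : M} {w : TangentSpace (𝓡 n) x} (hw : w ∈ G.P u x) {t : ℝ} (ht : 0 ≤ t)
    (ht1 : t ≤ 1) : t • w ∈ G.P (fun z => t * u z) x := by
  have hKt : t • w ∈ G.K x := hK x w hw.1 t ht ht1
  refine ⟨hKt, fun x' => ?_⟩
  rcases ht.eq_or_lt with h0 | h0
  · subst h0
    have h1 : dist x (G.ex x ((0 : ℝ) • w)) = 0 := by
      rw [zero_smul, G.ex_zero, dist_self]
    have : 0 ≤ halfDistSq x' (G.ex x ((0 : ℝ) • w)) := by unfold halfDistSq; positivity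
    have h2 : halfDistSq x (G.ex x ((0 : ℝ) • w)) = 0 := by unfold halfDistSq; rw [h1]; norm_num
    simp only [zero_mul, zero_add]
    rw [h2]; exact this
  · have hz : dist x (G.ex x (t • w)) = t * ‖w‖ := by
      have := hKt
      simp only [GeoData.K, mem_ofPred_eq] at this
      rw [this, norm_smul, Real.norm_eq_abs, abs_of_nonneg ht]
    have hy : dist x (G.ex x w) = ‖w‖ := hw.1
    have hzy : dist (G.ex x (t • w)) (G.ex x w) ≤ (1 - t) * ‖w‖ := by
      have := G.dist_le x w t 1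
      rw [one_smul] at this
      refine this.trans (le_of_eq ?_)
      rw [abs_sub_comm, abs_of_nonneg (by linarith)]
    have htri : dist x' (G.ex x w) ≤ dist x' (G.ex x (t • w)) + (1 - t) * ‖w‖ :=
      (dist_triangle _ _ _).trans (by linarith)
    have hmain := hw.2 x'
    unfold halfDistSq at hmain ⊢
    rw [hy] at hmain
    simp only
    rw [hz]
    set a := dist x' (G.ex x (t • w)) with ha
    set b := dist x' (G.ex x w) with hb
    set L := ‖w‖ with hL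
    have ha0 : 0 ≤ a := dist_nonneg
    have hb0 : 0 ≤ b := dist_nonneg
    have hL0 : 0 ≤ L := norm_nonneg _
    -- t b² ≤ a² + t (1-t) L²
    have hb2 : b ^ 2 ≤ (a + (1 - t) * L) ^ 2 := by
      apply pow_le_pow_left₀ hb0 htri
    have h1t : 0 ≤ 1 - t := by linarith
    have key : t * b ^ 2 ≤ a ^ 2 + t * (1 - t) * L ^ 2 := by
      have h3 : t * (a + (1 - t) * L) ^ 2 ≤ a ^ 2 + t * (1 - t) * L ^ 2 := by
        have : a ^ 2 + t * (1 - t) * L ^ 2 - t * (a + (1 - t) * L) ^ 2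
            = (1 - t) * (a - t * L) ^ 2 := by ring
        nlinarith [mul_nonneg h1t (sq_nonneg (a - t * L))]
      nlinarith [mul_le_mul_of_nonneg_left hb2 ht]
    have h4 : t * (u x + L ^ 2 / 2) ≤ t * (u x' + b ^ 2 / 2) :=
      mul_le_mul_of_nonneg_left hmain ht
    nlinarith

/-- `Good` at `0` is trivial. -/
theorem good_zero (u : M → ℝ) : G.Good u 0 := by
  intro x w _
  refine ⟨?_, fun x' => ?_⟩
  · simp only [GeoData.K, mem_ofPred_eq, zero_smul, G.ex_zero, dist_self, norm_zero]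
  · simp only [zero_mul, zero_add, zero_smul, G.ex_zero]
    unfold halfDistSq
    rw [dist_self]
    have := sq_nonneg (dist x' x)
    linarith

/-- the set of `s` with `Good u s` is closed. -/
theorem isClosed_good (u : M → ℝ) : IsClosed {s : ℝ | G.Good u s} := by
  have : {s : ℝ | G.Good u s} = ⋂ (x : M) (w : TangentSpace (𝓡 n) x) (_ : w ∈ G.H u x),
      ({s : ℝ | dist x (G.ex x (s • w)) = |s| * ‖w‖} ∩
      ⋂ x' : M, {s : ℝ | s * u x + halfDistSq x (G.ex x (s • w)) ≤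
        s * u x' + halfDistSq x' (G.ex x (s • w))}) := by
    ext s
    simp only [mem_ofPred_eq, mem_iInter, mem_inter_iff, GeoData.Good, GeoData.P, GeoData.K]
    refine forall_congr' fun x => forall_congr' fun w => forall_congr' fun hw => ?_
    rw [norm_smul, Real.norm_eq_abs]
  rw [this]
  refine isClosed_iInter fun x => isClosed_iInter fun w => isClosed_iInter fun _ => ?_
  have hc := continuous_ex_radial G x w
  refine IsClosed.inter ?_ ?_
  · exact isClosed_eq (continuous_const.dist hc) (continuous_abs.mul continuous_const)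
  · refine isClosed_iInter fun x' => ?_
    refine isClosed_le ?_ ?_
    · exact (continuous_id.mul continuous_const).add
        (continuous_halfDistSq.comp (continuous_const.prodMk hc))
    · exact (continuous_id.mul continuous_const).add
        (continuous_halfDistSq.comp (continuous_const.prodMk hc))

/-- the local support property from the Loeper principle: on `S` (a set of the tangent bundle) on
which the local Loeper principle holds with radius `r`, every `t w`, `w ∈ H_u(x)`, is a support on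
`B_r(x)`. -/
theorem local_support (hK : ∀ x, ∀ v ∈ G.K x, ∀ t : ℝ, 0 ≤ t → t ≤ 1 → t • v ∈ G.K x)
    {u : M → ℝ} {S : Set (TangentBundle (𝓡 n) M)} {r : ℝ}
    (hL : ∀ x, ∀ p q : TangentSpace (𝓡 n) x,
      (∀ w ∈ segment ℝ p q, (⟨x, w⟩ : TangentBundle (𝓡 n) M) ∈ S) →
      ∀ x', dist x x' < r → ∀ t : ℝ, 0 ≤ t → t ≤ 1 →
        ‖(1 - t) • p + t • q‖ ^ 2 / 2 - halfDistSq x' (G.ex x ((1 - t) • p + t • q)) ≤
          max (‖p‖ ^ 2 / 2 - halfDistSq x' (G.ex x p)) (‖q‖ ^ 2 / 2 - halfDistSq x' (G.ex x q)))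
    {t : ℝ} (ht : 0 ≤ t) (ht1 : t ≤ 1)
    (hS : ∀ x, ∀ w ∈ G.H u x, (⟨x, t • w⟩ : TangentBundle (𝓡 n) M) ∈ S)
    {x x' : M} (hx : dist x x' < r) {w : TangentSpace (𝓡 n) x} (hw : w ∈ G.H u x) :
    t * u x + ‖t • w‖ ^ 2 / 2 ≤ t * u x' + halfDistSq x' (G.ex x (t • w)) := by
  set C : Set (TangentSpace (𝓡 n) x) := {w | w ∈ G.H u x ∧
    ‖t • w‖ ^ 2 / 2 - halfDistSq x' (G.ex x (t • w)) ≤ t * u x' - t * u x} with hC
  have hconvH : Convex ℝ (G.H u x) := convex_convexHull ℝ _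
  have hsub : G.P u x ⊆ C := by
    intro v hv
    refine ⟨subset_convexHull ℝ _ hv, ?_⟩
    have h1 := smul_mem_P G hK hv ht ht1
    have h2 := h1.2 x'
    have h3 : dist x (G.ex x (t • v)) = ‖t • v‖ := h1.1
    simp only at h2
    have h4 : halfDistSq x (G.ex x (t • v)) = ‖t • v‖ ^ 2 / 2 := by
      unfold halfDistSq; rw [h3]
    rw [h4] at h2
    linarith
  have hconvC : Convex ℝ C := by
    rw [convex_iff_forall_pos]
    intro p hp q hq a b ha hb hab
    refine ⟨hconvH hp.1 hq.1 ha.le hb.le hab, ?_⟩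
    have hseg : ∀ v ∈ segment ℝ (t • p) (t • q), (⟨x, v⟩ : TangentBundle (𝓡 n) M) ∈ S := by
      intro v hv
      obtain ⟨a', b', ha', hb', hab', rfl⟩ := hv
      have : a' • t • p + b' • t • q = t • (a' • p + b' • q) := by
        rw [smul_add, smul_comm a' t, smul_comm b' t]
      rw [this]
      exact hS x _ (hconvH hp.1 hq.1 ha' hb' hab')
    have h1 := hL x (t • p) (t • q) hseg x' hx b hb.le (by linarith)
    have ha1 : 1 - b = a := by linarith
    rw [ha1] at h1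
    have h2 : a • t • p + b • t • q = t • (a • p + b • q) := by
      rw [smul_add, smul_comm a t, smul_comm b t]
    rw [h2] at h1
    exact h1.trans (max_le hp.2 hq.2)
  have hmem : w ∈ C := convexHull_min hsub hconvC hw
  have := hmem.2
  linarith

/-- **Step (K), openness.** -/
theorem openness [CompactSpace M] (hC : CutFacts G) (hM : MTWFacts G) {u : M → ℝ}
    (hu : Continuous u)
    (hHT : IsCompact {p : TangentBundle (𝓡 n) M | p.2 ∈ G.H u p.1})
    {s : ℝ} (hs0 : 0 ≤ s) (hs1 : s < 1) (hgood : G.Good u s)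
    (hI : ∀ y, (Cset (fun z => s * u z) y).Subsingleton)
    (hJ : ∀ x, ∀ w ∈ G.H u x, s • w ∈ G.I x) :
    ∃ δ : ℝ, 0 < δ ∧ ∀ t, s ≤ t → t < s + δ → G.Good u t := by
  set HT : Set (TangentBundle (𝓡 n) M) := {p | p.2 ∈ G.H u p.1} with hHTdef
  -- first tube: `t • HT ⊆ IT` for `t` near `s`
  set sc : ℝ × TangentBundle (𝓡 n) M → TangentBundle (𝓡 n) M :=
    fun q => ⟨q.2.1, q.1 • q.2.2⟩ with hsc
  have hsc_cont : Continuous sc := continuous_scale
  have hO1 : IsOpen (sc ⁻¹' G.IT) := hC.isOpen_IT.preimage hsc_cont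
  have hsub1 : ({s} : Set ℝ) ×ˢ HT ⊆ sc ⁻¹' G.IT := by
    rintro ⟨t, p⟩ ⟨ht, hp⟩
    rw [mem_singleton_iff] at ht
    simp only at ht hp
    subst ht
    exact hJ p.1 p.2 hp
  obtain ⟨U₁, V₁, hU₁, hV₁, hsU₁, hHV₁, hUV₁⟩ :=
    generalized_tube_lemma isCompact_singleton hHT hO1 hsub1
  obtain ⟨δ₁, hδ₁, hball₁⟩ := Metric.isOpen_iff.1 hU₁ s (hsU₁ rfl)
  set δ' : ℝ := min (δ₁ / 2) (1 - s) with hδ'
  have hδ'pos : 0 < δ' := lt_min (by positivity) (by linarith)
  set S : Set (TangentBundle (𝓡 n) M) := sc '' (Icc s (s + δ') ×ˢ HT) with hSdef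
  have hScomp : IsCompact S := (isCompact_Icc.prod hHT).image hsc_cont
  have hSsub : S ⊆ G.IT := by
    rintro _ ⟨⟨t, p⟩, ⟨ht, hp⟩, rfl⟩
    apply hUV₁
    refine ⟨hball₁ ?_, hHV₁ hp⟩
    rw [Metric.mem_ball, Real.dist_eq, abs_lt]
    simp only at ht
    have h1 : δ' ≤ δ₁ / 2 := min_le_left _ _
    constructor
    · linarith [ht.1]
    · linarith [ht.2]
  obtain ⟨r, hr, hL⟩ := hM.loeper S hScomp hSsub
  -- second tube
  set T' : Set (TangentBundle (𝓡 n) M × M) := (HT ×ˢ univ) ∩ {q | r ≤ dist q.1.1 q.2} with hT'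
  have hT'comp : IsCompact T' := by
    refine (hHT.prod isCompact_univ).inter_right ?_
    exact isClosed_le continuous_const
      ((continuous_projTM.comp continuous_fst).dist continuous_snd)
  set F : ℝ × (TangentBundle (𝓡 n) M × M) → ℝ := fun q =>
    q.1 * u q.2.2 + halfDistSq q.2.2 (G.ex q.2.1.1 (q.1 • q.2.1.2))
      - (q.1 * u q.2.1.1 + halfDistSq q.2.1.1 (G.ex q.2.1.1 (q.1 • q.2.1.2))) with hF
  have hFcont : Continuous F := by
    have hE : Continuous (fun q : ℝ × (TangentBundle (𝓡 n) M × M) =>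
        G.ex q.2.1.1 (q.1 • q.2.1.2)) :=
      (continuous_ex_smul G).comp
        (continuous_fst.prodMk (continuous_fst.comp continuous_snd))
    have hx : Continuous (fun q : ℝ × (TangentBundle (𝓡 n) M × M) => q.2.1.1) :=
      continuous_projTM.comp (continuous_fst.comp continuous_snd)
    have hx' : Continuous (fun q : ℝ × (TangentBundle (𝓡 n) M × M) => q.2.2) :=
      continuous_snd.comp continuous_snd
    refine Continuous.sub (Continuous.add (continuous_fst.mul (hu.comp hx')) ?_)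
      (Continuous.add (continuous_fst.mul (hu.comp hx)) ?_)
    · exact continuous_halfDistSq.comp (hx'.prodMk hE)
    · exact continuous_halfDistSq.comp (hx.prodMk hE)
  have hO2 : IsOpen (F ⁻¹' Ioi 0) := isOpen_Ioi.preimage hFcont
  have hsub2 : ({s} : Set ℝ) ×ˢ T' ⊆ F ⁻¹' Ioi 0 := by
    rintro ⟨t, ⟨p, x'⟩⟩ ⟨ht, ⟨⟨hp, -⟩, hd⟩⟩
    rw [mem_singleton_iff] at ht
    simp only at ht hp hd
    subst ht
    simp only [mem_preimage, mem_Ioi, hF]
    have h1 : p.1 ∈ Cset (fun z => t * u z) (G.ex p.1 (t • p.2)) := (hgood p.1 p.2 hp).2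
    by_contra hcon
    push Not at hcon
    have h2 : x' ∈ Cset (fun z => t * u z) (G.ex p.1 (t • p.2)) := by
      intro z
      have := h1 z
      simp only at this ⊢
      linarith
    have h3 : p.1 = x' := hI _ h1 h2
    have h4 : r ≤ dist p.1 x' := hd
    rw [h3, dist_self] at h4
    linarith
  obtain ⟨U₂, V₂, hU₂, hV₂, hsU₂, hHV₂, hUV₂⟩ :=
    generalized_tube_lemma isCompact_singleton hT'comp hO2 hsub2
  obtain ⟨δ₂, hδ₂, hball₂⟩ := Metric.isOpen_iff.1 hU₂ s (hsU₂ rfl)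
  refine ⟨min δ' δ₂, lt_min hδ'pos hδ₂, fun t hst hts => ?_⟩
  have ht0 : 0 ≤ t := hs0.trans hst
  have htδ' : t ≤ s + δ' := by
    have := min_le_left δ' δ₂
    linarith
  have htδ₂ : t < s + δ₂ := by
    have := min_le_right δ' δ₂
    linarith
  have ht1 : t ≤ 1 := by
    have := min_le_right (δ₁ / 2) (1 - s)
    linarith
  have hSt : ∀ x, ∀ w ∈ G.H u x, (⟨x, t • w⟩ : TangentBundle (𝓡 n) M) ∈ S := by
    intro x w hw
    exact ⟨(t, ⟨x, w⟩), ⟨⟨hst, htδ'⟩, hw⟩, rfl⟩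
  intro x w hw
  have hIw : t • w ∈ G.I x := hSsub (hSt x w hw)
  have hKw : t • w ∈ G.K x := hC.I_subset x hIw
  refine ⟨hKw, fun x' => ?_⟩
  by_cases hd : dist x x' < r
  · have h1 := local_support G hC.star hL ht0 ht1 hSt hd hw
    have h2 : halfDistSq x (G.ex x (t • w)) = ‖t • w‖ ^ 2 / 2 := by
      have h3 : dist x (G.ex x (t • w)) = ‖t • w‖ := hKw
      unfold halfDistSq; rw [h3]
    simp only
    rw [h2]; exact h1
  · push Not at hd
    have hmem : ((t, (⟨x, w⟩, x')) : ℝ × (TangentBundle (𝓡 n) M × M)) ∈ F ⁻¹' Ioi 0 := by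
      apply hUV₂
      refine ⟨hball₂ ?_, hHV₂ ⟨⟨hw, mem_univ _⟩, hd⟩⟩
      rw [Metric.mem_ball, Real.dist_eq, abs_lt]
      constructor <;> linarith
    simp only [mem_preimage, mem_Ioi, hF] at hmem
    simp only
    linarith

/-- **The continuity argument.** -/
theorem good_all [CompactSpace M] (hC : CutFacts G) (hM : MTWFacts G) {u : M → ℝ}
    (hu : Continuous u)
    (hHT : IsCompact {p : TangentBundle (𝓡 n) M | p.2 ∈ G.H u p.1})
    (hI : ∀ s : ℝ, 0 < s → s < 1 → G.Good u s → ∀ y, (Cset (fun z => s * u z) y).Subsingleton)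
    (hJ : ∀ s : ℝ, 0 < s → s < 1 → G.Good u s → ∀ x, ∀ w ∈ G.H u x, s • w ∈ G.I x) :
    ∀ s : ℝ, 0 ≤ s → s ≤ 1 → G.Good u s := by
  have hclosed : IsClosed ({s : ℝ | G.Good u s} ∩ Icc 0 1) :=
    (isClosed_good G u).inter isClosed_Icc
  have key : Icc (0 : ℝ) 1 ⊆ {s : ℝ | G.Good u s} := by
    refine hclosed.Icc_subset_of_forall_exists_gt (good_zero G u) ?_
    rintro s ⟨hs, hs0, hs1⟩ y hy
    have hI' : ∀ y, (Cset (fun z => s * u z) y).Subsingleton := by
      rcases hs0.eq_or_lt with h | h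
      · subst h
        intro y a ha b hb
        have h1 := ha y
        have h2 := hb y
        simp only [halfDistSq, zero_mul, zero_add, dist_self] at h1 h2
        have h3 : dist a y = 0 := by nlinarith [dist_nonneg (x := a) (y := y)]
        have h4 : dist b y = 0 := by nlinarith [dist_nonneg (x := b) (y := y)]
        rw [dist_eq_zero.1 h3, dist_eq_zero.1 h4]
      · exact hI s h hs1 hs
    have hJ' : ∀ x, ∀ w ∈ G.H u x, s • w ∈ G.I x := by
      rcases hs0.eq_or_lt with h | h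
      · subst h
        intro x w _
        refine ⟨2, by norm_num, ?_⟩
        simp only [GeoData.K, mem_ofPred_eq, zero_smul, smul_zero, G.ex_zero, dist_self, norm_zero]
      · exact hJ s h hs1 hs
    obtain ⟨δ, hδ, hgd⟩ := openness G hC hM hu hHT hs0 hs1 hs hI' hJ'
    refine ⟨min y (s + δ / 2), hgd _ (le_min hy.le (by linarith)) ?_, ?_, min_le_left _ _⟩
    · exact (min_le_right _ _).trans_lt (by linarith)
    · exact lt_min hy (by linarith)
  intro s h0 h1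
  exact key ⟨h0, h1⟩

/-- the `c`-convex function attached to two points -/
noncomputable def twoPt (x₀ y₀ y₁ : M) : M → ℝ := fun z =>
  max (halfDistSq x₀ y₀ - halfDistSq z y₀) (halfDistSq x₀ y₁ - halfDistSq z y₁)

omit [ChartedSpace (EuclideanSpace ℝ (Fin n)) M] [IsManifold (𝓡 n) ∞ M]
  [RiemannianBundle (fun p : M => TangentSpace (𝓡 n) p)] in
theorem twoPt_cconv (x₀ y₀ y₁ : M) : CConv (twoPt x₀ y₀ y₁) := by
  intro x
  rcases le_total (halfDistSq x₀ y₀ - halfDistSq x y₀) (halfDistSq x₀ y₁ - halfDistSq x y₁) with h | h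
  · refine ⟨y₁, fun x' => ?_⟩
    have h1 : twoPt x₀ y₀ y₁ x = halfDistSq x₀ y₁ - halfDistSq x y₁ := max_eq_right h
    have h2 : halfDistSq x₀ y₁ - halfDistSq x' y₁ ≤ twoPt x₀ y₀ y₁ x' := le_max_right _ _
    linarith
  · refine ⟨y₀, fun x' => ?_⟩
    have h1 : twoPt x₀ y₀ y₁ x = halfDistSq x₀ y₀ - halfDistSq x y₀ := max_eq_left h
    have h2 : halfDistSq x₀ y₀ - halfDistSq x' y₀ ≤ twoPt x₀ y₀ y₁ x' := le_max_left _ _
    linarith

/-- **Conclusion.** If `Good u 1` holds for every `c`-convex `u`, then every `K(x)` is convex. -/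
theorem convex_K (hall : ∀ u : M → ℝ, CConv u → G.Good u 1) (x : M) : Convex ℝ (G.K x) := by
  rw [convex_iff_forall_pos]
  intro v₀ hv₀ v₁ hv₁ a b ha hb hab
  set u := twoPt x (G.ex x v₀) (G.ex x v₁) with hu
  have hux : u x = 0 := by simp [hu, twoPt]
  have h0 : v₀ ∈ G.P u x := by
    refine ⟨hv₀, fun x' => ?_⟩
    rw [hux]
    have h2 : halfDistSq x (G.ex x v₀) - halfDistSq x' (G.ex x v₀) ≤ u x' := le_max_left _ _
    linarith
  have h1 : v₁ ∈ G.P u x := by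
    refine ⟨hv₁, fun x' => ?_⟩
    rw [hux]
    have h2 : halfDistSq x (G.ex x v₁) - halfDistSq x' (G.ex x v₁) ≤ u x' := le_max_right _ _
    linarith
  have hmem : a • v₀ + b • v₁ ∈ G.H u x :=
    (convex_convexHull ℝ (G.P u x)) (subset_convexHull ℝ _ h0) (subset_convexHull ℝ _ h1)
      ha.le hb.le hab
  have := (hall u (twoPt_cconv x _ _) x _ hmem).1
  rwa [one_smul] at this

/-- convexity of `K(x)` gives convexity of `I(x)` -/
theorem convex_I (hK : ∀ x, ∀ v ∈ G.K x, ∀ t : ℝ, 0 ≤ t → t ≤ 1 → t • v ∈ G.K x) (x : M)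
    (hconv : Convex ℝ (G.K x)) : Convex ℝ (G.I x) := by
  rw [convex_iff_forall_pos]
  rintro v₀ ⟨a₀, ha₀, hv₀⟩ v₁ ⟨a₁, ha₁, hv₁⟩ a b ha hb hab
  refine ⟨min a₀ a₁, lt_min ha₀ ha₁, ?_⟩
  have hm : 0 < min a₀ a₁ := lt_min (by linarith) (by linarith)
  have h0 : min a₀ a₁ • v₀ ∈ G.K x := by
    have := hK x _ hv₀ (min a₀ a₁ / a₀) (by positivity)
      ((div_le_one (by linarith)).2 (min_le_left _ _))
    rwa [smul_smul, div_mul_cancel₀ _ (by linarith : a₀ ≠ 0)] at this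
  have h1 : min a₀ a₁ • v₁ ∈ G.K x := by
    have := hK x _ hv₁ (min a₀ a₁ / a₁) (by positivity)
      ((div_le_one (by linarith)).2 (min_le_right _ _))
    rwa [smul_smul, div_mul_cancel₀ _ (by linarith : a₁ ≠ 0)] at this
  have := hconv h0 h1 ha.le hb.le hab
  rwa [smul_comm a, smul_comm b, ← smul_add] at this

/-- `G.I x` is the frozen `injDomain n x`. -/
theorem I_eq_injDomain (x : M) : G.I x = injDomain n x := by
  rw [G.injDomain_eq]
  ext v
  simp only [GeoData.I, GeoData.K, mem_ofPred_eq]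
  refine exists_congr fun a => and_congr_right fun ha => ?_
  rw [norm_smul, Real.norm_eq_abs, abs_of_pos (by linarith)]

/-- **Layer D, final theorem modulo steps (I), (J) and the elementary facts D0.** -/
theorem convex_injDomain [CompactSpace M] (hC : CutFacts G) (hM : MTWFacts G)
    (hcont : ∀ u : M → ℝ, CConv u → Continuous u)
    (hHT : ∀ u : M → ℝ, CConv u → IsCompact {p : TangentBundle (𝓡 n) M | p.2 ∈ G.H u p.1})
    (hI : ∀ u : M → ℝ, CConv u → ∀ s : ℝ, 0 < s → s < 1 → G.Good u s →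
      ∀ y, (Cset (fun z => s * u z) y).Subsingleton)
    (hJ : ∀ u : M → ℝ, CConv u → ∀ s : ℝ, 0 < s → s < 1 → G.Good u s →
      ∀ x, ∀ w ∈ G.H u x, s • w ∈ G.I x) (x : M) :
    Convex ℝ (injDomain n x) := by
  rw [← I_eq_injDomain G x]
  refine convex_I G hC.star x (convex_K G (fun u hu => ?_) x)
  exact good_all G hC hM (hcont u hu) (hHT u hu) (hI u hu) (hJ u hu) 1 zero_le_one le_rfl

end Crest.Agent.R226.StepK881
end

-- ▼ part R226/StepKFin_881

set_option autoImplicit false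

open MeasureTheory Bundle Set Filter
open scoped Manifold ContDiff Bundle ENNReal Topology
open Crest.GeometryTopology.MTW

namespace Crest.Agent.R226.StepK881

variable {n : ℕ} {M : Type*} [MetricSpace M] [ChartedSpace (EuclideanSpace ℝ (Fin n)) M]
  [IsManifold (𝓡 n) ∞ M]
  [RiemannianBundle (fun p : M => TangentSpace (𝓡 n) p)]
variable (G : GeoData n M)


/-- uniqueness of minimising velocities at `y` gives uniqueness of contact points -/
theorem cset_subsingleton (hD : DFacts G) {u : M → ℝ} (hu : CConv u) {y : M}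
    (h : (G.P (ctr u) y).Subsingleton) : (Cset u y).Subsingleton := by
  intro a ha b hb
  obtain ⟨v, hv, hvn⟩ := G.surj y a
  obtain ⟨w, hw, hwn⟩ := G.surj y b
  have hv' : v ∈ G.P (ctr u) y := by
    rw [hD.mem_P_ctr u hu y v]
    refine ⟨?_, by rwa [hv]⟩
    show dist y (G.ex y v) = ‖v‖
    rw [hv, hvn]
  have hw' : w ∈ G.P (ctr u) y := by
    rw [hD.mem_P_ctr u hu y w]
    refine ⟨?_, by rwa [hw]⟩
    show dist y (G.ex y w) = ‖w‖
    rw [hw, hwn]
  rw [← hv, ← hw, h hv' hw']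

/-- **Step (K)** in the form of `DDefs_267`. -/
theorem stepK [CompactSpace M] (hC : CutFacts G) (hM : MTWFacts G) (hD : DFacts G) : StepK G := by
  intro u hu s hs0 hs1 hgood hI hJ
  have hI' : ∀ y, (Cset (fun z => s * u z) y).Subsingleton := fun y =>
    cset_subsingleton G hD (hD.cconv_smul u hu s hs0.le hs1.le) (hI y)
  obtain ⟨δ, hδ, h⟩ := openness G hC hM (hD.cont u hu) (hD.isCompact_HT u (hD.cont u hu))
    hs0.le hs1 hgood hI' hJ
  exact ⟨δ / 2, by positivity, fun t h1 h2 => h t h1 (by linarith)⟩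


end Crest.Agent.R226.StepK881
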