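/-
R226 (helper823): assembly of layer C (`CutFacts`, `MTWFacts`) and of the chain up to
`Good(1)` / convexity of the tangent injectivity domains (S0349).
-/
import Crest.Agent.R226.CutTop_478
import Crest.Agent.R226.CutSmooth_77
import Crest.Agent.R226.StepKFin_881_Mg
import Crest.Agent.R226.Semiconcave_345
import Crest.Agent.R226.Focal_347
import Crest.Agent.R226.MTWConc_117
import Crest.Agent.R226.Loeper_128
import Crest.Agent.R226.GeoBasic_616
import Crest.Agent.R226.NearDiagFinal_996
import Crest.Agent.R226.GeoThm_542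
import Crest.Agent.R226.CC1_227
import Crest.Agent.R226.Final_267

set_option autoImplicit false

open MeasureTheory Bundle Set Filter
open scoped Manifold ContDiff Bundle ENNReal Topology
open Crest.GeometryTopology.MTW

namespace Crest.Agent.R226.CutAsm823

open Crest.Agent.R226

variable {n : ℕ} {M : Type*} [MetricSpace M] [ChartedSpace (EuclideanSpace ℝ (Fin n)) M]
  [IsManifold (𝓡 n) ∞ M]
  [RiemannianBundle (fun p : M => TangentSpace (𝓡 n) p)]
  [IsContMDiffRiemannianBundle (𝓡 n) ∞ (EuclideanSpace ℝ (Fin n))
    (fun p : M => TangentSpace (𝓡 n) p)]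
  [CompactSpace M]

/-- the fields used by `mono`, `seg`, `focal`. -/
theorem base (G : GeoData n M) : Base347.Base G where
  isCompact_KT := CutTop478.isCompact_KT G
  star := CutTop478.star G
  I_subset := CutTop478.I_subset G
  rev := CutTop478.rev G
  rev_I := CutTop478.rev_I_of_isOpen_IT G (CutOpen77.isOpen_IT G)
  rev_ex := CutTop478.rev_ex G
  isOpen_IT := CutOpen77.isOpen_IT G
  smooth_cost := CutSmooth77.smooth_cost G
  nc_fderiv := (GaussI299.ncFacts G (CutSmooth77.smooth_cost G) (CutTop478.I_subset G)).nc_fderiv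
  semiconcave := Semiconcave345.semiconcave G

/-- **Layer C**: the cut locus calculus. -/
theorem cutFacts (G : GeoData n M) : CutFacts G := by
  have hN := GaussI299.ncFacts G (CutSmooth77.smooth_cost G) (CutTop478.I_subset G)
  exact
    { isCompact_KT := CutTop478.isCompact_KT G
      star := CutTop478.star G
      I_subset := CutTop478.I_subset G
      uniq := CutTop478.uniq G
      tail := CutTop478.tail G
      rev := CutTop478.rev G
      rev_I := CutTop478.rev_I_of_isOpen_IT G (CutOpen77.isOpen_IT G)
      rev_ex := CutTop478.rev_ex G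
      isOpen_IT := CutOpen77.isOpen_IT G
      smooth_cost := CutSmooth77.smooth_cost G
      nc_smooth := hN.nc_smooth
      nc_fderiv := hN.nc_fderiv
      nc_hess := hN.nc_hess
      phi_smul := hN.phi_smul
      phi_cont := hN.phi_cont
      semiconcave := Semiconcave345.semiconcave G
      convex_near := Semiconcave345.convex_near G
      mono := Mono347.mono (base G)
      gauss := hN.gauss
      focal := Focal347.focal (base G)
      seg := Seg347.seg (base G) }

/-- **MTW facts**. -/
theorem mtwFacts (G : GeoData n M) (hM : SatisfiesWeakMTW M n) : MTWFacts G := by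
  have hconc := MTWConc117.concave_of_mtw G hM (GeoBasic616.isExpMapAt G)
    (fun x => (CutTop478.I_eq_injDomain G x).subset) (CutSmooth77.smooth_cost G)
  exact ⟨hconc, Loeper128.loeper (cutFacts G) hconc⟩

/-- **Elementary facts of Layer D**. -/
theorem dFacts (G : GeoData n M) : DFacts G :=
  CC1227.dFacts (cutFacts G) (CC2229.LE_field (cutFacts G))

/-- **Good(1)** for every `c`-convex function. -/
theorem good_one (G : GeoData n M) (hM : SatisfiesWeakMTW M n) (u : M → ℝ) (hu : CConv u) :
    G.Good u 1 :=
  Final267.good_one (dFacts G)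
    (StepH229.stepH (cutFacts G) (dFacts G))
    (StepI371.stepI_fin (cutFacts G) (mtwFacts G hM) (dFacts G))
    (StepJ416.stepJ_fin (cutFacts G) (mtwFacts G hM) (dFacts G))
    (StepK881.stepK (G := G) (cutFacts G) (mtwFacts G hM) (dFacts G)) u hu

theorem convex_injDomain_of_geoData (G : GeoData n M) (hM : SatisfiesWeakMTW M n) (x : M) :
    Convex ℝ (injDomain n x) := by
  rw [← Final267.I_eq (G := G) x]
  exact Final267.convex_I (cutFacts G) (good_one G hM) x

/-- **Layer B**: existence of the global geodesic package. -/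
theorem nonempty_geoData (n : ℕ) (M : Type*) [MetricSpace M]
    [ChartedSpace (EuclideanSpace ℝ (Fin n)) M]
    [IsManifold (𝓡 n) ∞ M]
    [RiemannianBundle (fun p : M => TangentSpace (𝓡 n) p)]
    [IsContMDiffRiemannianBundle (𝓡 n) ∞ (EuclideanSpace ℝ (Fin n))
      (fun p : M => TangentSpace (𝓡 n) p)]
    [IsRiemannianManifold (𝓡 n) M] [CompactSpace M] : Nonempty (GeoData n M) := by
  obtain ⟨N⟩ := NearDiagFinal996.nonempty_nearDiag (n := n) (M := M)
  exact GeoThm542.nonempty_geoData N

/-- **S0349**, without connectedness or `2 ≤ n`. -/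
theorem convex_injDomain (n : ℕ) (M : Type*) [MetricSpace M]
    [ChartedSpace (EuclideanSpace ℝ (Fin n)) M]
    [IsManifold (𝓡 n) ∞ M]
    [RiemannianBundle (fun p : M => TangentSpace (𝓡 n) p)]
    [IsContMDiffRiemannianBundle (𝓡 n) ∞ (EuclideanSpace ℝ (Fin n))
      (fun p : M => TangentSpace (𝓡 n) p)]
    [IsRiemannianManifold (𝓡 n) M] [CompactSpace M]
    (hM : SatisfiesWeakMTW M n) (x : M) : Convex ℝ (injDomain n x) := by
  obtain ⟨G⟩ := nonempty_geoData n M
  exact convex_injDomain_of_geoData G hM x

end Crest.Agent.R226.CutAsm823
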