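/-
R226 / E1.1 (helper290): DASM, convex sections, local => global, from `Good(1)`.

Everything here is deduced from `GoodAll G : ∀ u, CConv u → G.Good u 1` (output of Layer D), plus, for
"local minimum => global contact", from `CutFacts G` and `DFacts G` (only semiconcavity, Danskin and
compactness of `H_u(x)` are used).
-/
import Crest.Agent.R226.Final_267
import Crest.Agent.R226.Good_272
import Crest.Agent.R226.Kant_624

set_option autoImplicit false
set_option linter.unusedSectionVars false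

open MeasureTheory Bundle Set Filter
open scoped Manifold ContDiff Bundle ENNReal Topology
open Crest.GeometryTopology.MTW

namespace Crest.Agent.R226.Dasm290

open Crest.Agent.R226 Crest.Agent.R226.Kant624

variable {n : ℕ} {M : Type*} [MetricSpace M] [ChartedSpace (EuclideanSpace ℝ (Fin n)) M]
  [IsManifold (𝓡 n) ∞ M]
  [RiemannianBundle (fun p : M => TangentSpace (𝓡 n) p)]

/-- `Good(1)` for all `c`-convex functions (output of Layer D). -/
def GoodAll (G : GeoData n M) : Prop := ∀ u : M → ℝ, CConv u → G.Good u 1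

section Basic

variable {G : GeoData n M}

lemma halfDistSq_ex' {x : M} {v : TangentSpace (𝓡 n) x} (hv : v ∈ G.K x) :
    halfDistSq (G.ex x v) x = ‖v‖ ^ 2 / 2 := by
  rw [halfDistSq_comm, Final267.halfDistSq_ex hv]

lemma convex_K (hg : GoodAll G) (x : M) : Convex ℝ (G.K x) := Final267.convex_K hg x

lemma convex_P (hg : GoodAll G) {u : M → ℝ} (hu : CConv u) (x : M) : Convex ℝ (G.P u x) :=
  Final267.convex_P (hg u hu) x

lemma P_eq_H (hg : GoodAll G) {u : M → ℝ} (hu : CConv u) (x : M) : G.P u x = G.H u x :=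
  Subset.antisymm (subset_convexHull ℝ _) (Final267.H_subset_P (hg u hu) x)



lemma exists_mem_K (G : GeoData n M) (x y : M) : ∃ p ∈ G.K x, G.ex x p = y := by
  obtain ⟨v, hv, hn⟩ := G.surj x y
  refine ⟨v, ?_, hv⟩
  show dist x (G.ex x v) = ‖v‖
  rw [hv, hn]

/-- **DASM** (Loeper's maximum principle, global): for `p, q ∈ K(x)` and any `x'`, the function
`w ↦ |w|²/2 - c(x', exp_x w)` is quasiconvex along `[p,q]`. -/
theorem quasi (hg : GoodAll G) {x : M} {p q : TangentSpace (𝓡 n) x} (hp : p ∈ G.K x)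
    (hq : q ∈ G.K x) {a b : ℝ} (ha : 0 ≤ a) (hb : 0 ≤ b) (hab : a + b = 1) (x' : M) :
    ‖a • p + b • q‖ ^ 2 / 2 - halfDistSq x' (G.ex x (a • p + b • q)) ≤
      max (‖p‖ ^ 2 / 2 - halfDistSq x' (G.ex x p)) (‖q‖ ^ 2 / 2 - halfDistSq x' (G.ex x q)) := by
  have hpe := Final267.halfDistSq_ex hp
  have hqe := Final267.halfDistSq_ex hq
  set u : M → ℝ := fun z => max (halfDistSq x (G.ex x p) - halfDistSq z (G.ex x p))
    (halfDistSq x (G.ex x q) - halfDistSq z (G.ex x q)) with hudef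
  have hux : u x = 0 := by simp [hudef]
  have hu : CConv u := by
    intro z
    rcases le_total (halfDistSq x (G.ex x p) - halfDistSq z (G.ex x p))
      (halfDistSq x (G.ex x q) - halfDistSq z (G.ex x q)) with h | h
    · refine ⟨G.ex x q, fun z' => ?_⟩
      show max _ _ + _ ≤ max _ _ + _
      rw [max_eq_right h]
      have := le_max_right (halfDistSq x (G.ex x p) - halfDistSq z' (G.ex x p))
        (halfDistSq x (G.ex x q) - halfDistSq z' (G.ex x q))
      linarith
    · refine ⟨G.ex x p, fun z' => ?_⟩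
      show max _ _ + _ ≤ max _ _ + _
      rw [max_eq_left h]
      have := le_max_left (halfDistSq x (G.ex x p) - halfDistSq z' (G.ex x p))
        (halfDistSq x (G.ex x q) - halfDistSq z' (G.ex x q))
      linarith
  have hpP : p ∈ G.P u x := by
    refine ⟨hp, fun z' => ?_⟩
    rw [hux]
    have := le_max_left (halfDistSq x (G.ex x p) - halfDistSq z' (G.ex x p))
        (halfDistSq x (G.ex x q) - halfDistSq z' (G.ex x q))
    show 0 + _ ≤ max _ _ + _
    linarith
  have hqP : q ∈ G.P u x := by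
    refine ⟨hq, fun z' => ?_⟩
    rw [hux]
    have := le_max_right (halfDistSq x (G.ex x p) - halfDistSq z' (G.ex x p))
        (halfDistSq x (G.ex x q) - halfDistSq z' (G.ex x q))
    show 0 + _ ≤ max _ _ + _
    linarith
  have hw := convex_P hg hu x hpP hqP ha hb hab
  have h1 := hw.2 x'
  rw [hux, zero_add, Final267.halfDistSq_ex hw.1] at h1
  have h2 : u x' = max (‖p‖ ^ 2 / 2 - halfDistSq x' (G.ex x p))
      (‖q‖ ^ 2 / 2 - halfDistSq x' (G.ex x q)) := by
    simp only [hudef]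
    rw [hpe, hqe]
  rw [← h2]
  linarith

/-- general form: for a `c`-convex potential `U`, `q ↦ U(exp_y q) + |q|²/2` is quasiconvex on
`K(y)`. -/
theorem quasi_pot (hg : GoodAll G) {U : M → ℝ} (hU : CConv U) {y : M}
    {p q : TangentSpace (𝓡 n) y} (hp : p ∈ G.K y) (hq : q ∈ G.K y) {a b : ℝ} (ha : 0 ≤ a)
    (hb : 0 ≤ b) (hab : a + b = 1) :
    U (G.ex y (a • p + b • q)) + ‖a • p + b • q‖ ^ 2 / 2 ≤
      max (U (G.ex y p) + ‖p‖ ^ 2 / 2) (U (G.ex y q) + ‖q‖ ^ 2 / 2) := by
  obtain ⟨y', hy'⟩ := hU (G.ex y (a • p + b • q))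
  have h1 := quasi hg hp hq ha hb hab y'
  have h2 := hy' (G.ex y p)
  have h3 := hy' (G.ex y q)
  rw [halfDistSq_comm _ y', halfDistSq_comm _ y'] at h2 h3
  rcases le_max_iff.1 h1 with h | h
  · exact le_max_of_le_left (by linarith)
  · exact le_max_of_le_right (by linarith)

/-- (Fam): `q ↦ U(exp_y q) + μ |q|²/2` is quasiconvex on `K(y)` for every `μ ≥ 1`. -/
theorem quasi_fam (hg : GoodAll G) {U : M → ℝ} (hU : CConv U) {μ : ℝ} (hμ : 1 ≤ μ) {y : M}
    {p q : TangentSpace (𝓡 n) y} (hp : p ∈ G.K y) (hq : q ∈ G.K y) {a b : ℝ} (ha : 0 ≤ a)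
    (hb : 0 ≤ b) (hab : a + b = 1) :
    U (G.ex y (a • p + b • q)) + μ * (‖a • p + b • q‖ ^ 2 / 2) ≤
      max (U (G.ex y p) + μ * (‖p‖ ^ 2 / 2)) (U (G.ex y q) + μ * (‖q‖ ^ 2 / 2)) := by
  have hμ0 : 0 < μ := by linarith
  have hU' : CConv (fun z => (1 / μ) * U z) :=
    Good272.CConv_smul G hU (by positivity) ((div_le_one hμ0).2 hμ)
  have h1 := quasi_pot hg hU' hp hq ha hb hab
  have key : ∀ X Y : ℝ, μ * ((1 / μ) * X + Y) = X + μ * Y := by
    intro X Y; field_simp
  have h2 := mul_le_mul_of_nonneg_left h1 hμ0.le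
  rw [mul_max_of_nonneg _ _ hμ0.le, key, key, key] at h2
  exact h2

/-- sublevel sets of `U + c(·,y)` are convex in `K(y)`. -/
theorem convex_sublevel (hg : GoodAll G) {U : M → ℝ} (hU : CConv U) (y : M) (h : ℝ) :
    Convex ℝ {q : TangentSpace (𝓡 n) y | q ∈ G.K y ∧ U (G.ex y q) + ‖q‖ ^ 2 / 2 ≤ h} := by
  rintro p ⟨hp, hp'⟩ q ⟨hq, hq'⟩ a b ha hb hab
  refine ⟨convex_K hg y hp hq ha hb hab, ?_⟩
  exact (quasi_pot hg hU hp hq ha hb hab).trans (max_le hp' hq')


end Basic

/-! ### the gap function `D(x,y) = u(x) + u^c(y) + c(x,y)` -/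

section Gap


variable [CompactSpace M] {G : GeoData n M}














end Gap

/-! ### local minimum ⇒ contact -/

section Local

variable {G : GeoData n M}

/-- **local ⇒ global**: if `x` is a local minimum of `u + c(·,y)` then `y` is a global
`c`-subgradient of `u` at `x`; moreover every minimising velocity from `x` to `y` lies in
`P_u(x)`. -/
theorem mem_P_of_localMin (hC : CutFacts G) (hD : DFacts G) (hg : GoodAll G) {u : M → ℝ}
    (hu : CConv u) {x : M} {v : TangentSpace (𝓡 n) x} (hv : v ∈ G.K x)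
    (hmin : ∀ᶠ x' in 𝓝 x, u x + halfDistSq x (G.ex x v) ≤ u x' + halfDistSq x' (G.ex x v)) :
    v ∈ G.P u x := by
  rw [P_eq_H hg hu x]
  by_contra hvH
  have hcomp : IsCompact (G.H u x) := hD.isCompact_H u (hD.cont u hu) x
  have hconv : Convex ℝ (G.H u x) := convex_convexHull ℝ _
  obtain ⟨f, m, hf1, hf2⟩ := geometric_hahn_banach_closed_point hconv hcomp.isClosed hvH
  -- `f w < m < f v`
  have : FiniteDimensional ℝ (TangentSpace (𝓡 n) x) :=
    inferInstanceAs (FiniteDimensional ℝ (EuclideanSpace ℝ (Fin n)))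
  have : CompleteSpace (TangentSpace (𝓡 n) x) := FiniteDimensional.complete ℝ _
  set ξ : TangentSpace (𝓡 n) x :=
    (InnerProductSpace.toDual ℝ (TangentSpace (𝓡 n) x)).symm f with hξ
  have hfξ : ∀ w : TangentSpace (𝓡 n) x, f w = inner ℝ w ξ := by
    intro w
    rw [real_inner_comm, hξ, InnerProductSpace.toDual_symm_apply]
  obtain ⟨C₁, hC₁, hsc⟩ := hC.semiconcave
  have hdan := hD.danskin u hu x ξ m (fun w hw => by
    rw [← hfξ w]
    exact hf1 w (subset_convexHull ℝ _ hw))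
  have hcont : Tendsto (fun t : ℝ => G.ex x (t • ξ)) (𝓝[>] 0) (𝓝 x) := by
    have h1 : Continuous (fun t : ℝ => G.ex x (t • ξ)) := Good272.continuous_radial G x ξ
    have h2 := h1.tendsto 0
    rw [zero_smul, G.ex_zero] at h2
    exact h2.mono_left nhdsWithin_le_nhds
  have h3 := hcont.eventually hmin
  have hgap : 0 < inner ℝ v ξ - m := by
    rw [← hfξ v]; linarith
  have h4 : ∀ᶠ t : ℝ in 𝓝[>] 0, C₁ * ‖ξ‖ ^ 2 * t < inner ℝ v ξ - m := by
    have : Tendsto (fun t : ℝ => C₁ * ‖ξ‖ ^ 2 * t) (𝓝[>] 0) (𝓝 (C₁ * ‖ξ‖ ^ 2 * 0)) :=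
      (tendsto_id.mono_left nhdsWithin_le_nhds).const_mul _
    rw [mul_zero] at this
    exact this.eventually (gt_mem_nhds hgap)
  have h5 : ∀ᶠ t : ℝ in 𝓝[>] 0, 0 < t := eventually_mem_nhdsWithin
  obtain ⟨t, ht1, ht2, ht3, ht4⟩ := (hdan.and (h3.and (h4.and h5))).exists
  have h6 := hsc x v hv (t • ξ)
  rw [inner_smul_right, norm_smul, Real.norm_eq_abs, mul_pow, sq_abs] at h6
  nlinarith

theorem mem_cSub_of_localMin (hC : CutFacts G) (hD : DFacts G) (hg : GoodAll G) {u : M → ℝ}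
    (hu : CConv u) {x y : M}
    (hmin : ∀ᶠ x' in 𝓝 x, u x + halfDistSq x y ≤ u x' + halfDistSq x' y) : y ∈ cSub u x := by
  obtain ⟨v, hv, rfl⟩ := exists_mem_K G x y
  exact (mem_P_of_localMin hC hD hg hu hv hmin).2


end Local

end Crest.Agent.R226.Dasm290
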