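/-
R226 / E1 (helper964): exact shapes of the outputs of E1.1-E1.3 used in the proof of Theorem 1 of
doc 848 (engulfing), and the shape of its conclusion.  Definitions only.
-/
import Crest.Agent.R226.CutFacts_484
import Crest.Agent.R226.Kant_624

set_option autoImplicit false

open MeasureTheory Bundle Set Filter
open scoped Manifold ContDiff Bundle ENNReal Topology
open Crest.GeometryTopology.MTW

namespace Crest.Agent.R226.E1Shape964

open Crest.Agent.R226 Crest.Agent.R226.Kant624

section Metric

variable {M : Type*} [MetricSpace M]

/-- `D(x,y) = u(x) + u^c(y) + c(x,y) ≥ 0`. -/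
noncomputable def Dd (u : M → ℝ) (x y : M) : ℝ := u x + ctr u y + halfDistSq x y







end Metric

section Geo

variable {n : ℕ} {M : Type*} [MetricSpace M] [ChartedSpace (EuclideanSpace ℝ (Fin n)) M]
  [IsManifold (𝓡 n) ∞ M]
  [RiemannianBundle (fun p : M => TangentSpace (𝓡 n) p)]






end Geo

end Crest.Agent.R226.E1Shape964
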