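/-
R226 E1.2 (helper700): Step 1 of Theorem 1 (doc 848) on the manifold.

Hypotheses used:
* `GoodAll G` (convexity of sections, `Dasm290`), compactness of `KT` (`CutFacts`);
* weak QQ: `∀ y₀ y, WQ (fun q => ‖q‖²/2 - c(y, exp_{y₀} q)) (K y₀) t₀`;
* `J`-monotonicity for compact subsets of `K`.

Main results:
* `step1`      : a constant `C₁(n, t₀)` and, for each section `C = secX G u y₀ h`, a centre `c ∈ C`
                 such that for `z ∈ C`, `x' = exp(c + (z - c)/4)`, `y ∈ ∂_c u(x')`:
                 `|F_y(x) - F_y(x')| ≤ C₁ h` for `x ∈ exp C`, with `F_y(x) = c(x,y₀) - c(x,y)`.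
* `vol_quarter`, `vol_cSub_quarter` : the core `exp(c + (C - c)/4)` has comparable volume, and so do
                 the `c`-subdifferentials.
-/
import Crest.Agent.R226.CentGeo_700
import Crest.Agent.R226.Dasm_290
import Crest.Agent.R226.CC0_227

set_option autoImplicit false
set_option linter.unusedSectionVars false

open MeasureTheory Bundle Set Filter Module
open scoped Manifold ContDiff Bundle ENNReal Topology
open Crest.GeometryTopology.MTW

namespace Crest.Agent.R226.EStep1700

open Crest.Agent.R226 Crest.Agent.R226.Kant624 Crest.Agent.R226.Dasm290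
open Crest.Agent.R226.CentGeo700

variable {n : ℕ} {M : Type*} [MetricSpace M] [ChartedSpace (EuclideanSpace ℝ (Fin n)) M]
  [IsManifold (𝓡 n) ∞ M]
  [RiemannianBundle (fun p : M => TangentSpace (𝓡 n) p)]






section Compact

variable {G : GeoData n M}

lemma isCompact_K (hC : CutFacts G) (x : M) : IsCompact (G.K x) :=
  CC0227.isCompact_fibre hC.isCompact_KT x

variable [CompactSpace M]



end Compact

section Step1

variable [CompactSpace M]


end Step1

section Measure

variable [CompactSpace M] [MeasurableSpace M] [BorelSpace M] {G : GeoData n M}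





end Measure

end Crest.Agent.R226.EStep1700
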