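/-
R226 / S0350, stream E1, task E1.9 (helper762): interface of the growth claim (docs 848, Theorem 3).

Intended meaning, for a fixed c-convex potential `u` with `φ = u^c` :
* `D x y  = u x + φ y + c(x,y)`,
* `X z`, `Y z` : the contact pair whose (unique) minimising geodesic has midpoint `z`,
* `DX x z = u x + 2 c(x,z) - θ z`, `DY z y = φ y + 2 c(z,y) + θ z`,
* `ell z₁ z₂ z = ⟪w, log_{z₁} z⟫` with `w` the unit vector at `z₁` pointing to `z₂`.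
-/
import Mathlib.Analysis.Normed.Group.Basic
import Mathlib.Topology.MetricSpace.Basic

set_option autoImplicit false

namespace Crest.Agent.R226.Growth762

/-- The hypotheses of the growth claim.  All of them are symmetric under the exchange
`u ↔ u^c`, see `GD.swap`. -/
structure GD {M : Type*} [MetricSpace M] (K0 Λ C r μ0 : ℝ) (ω : ℝ → ℝ)
    (X Y : M → M) (D DX DY : M → M → ℝ) (ell : M → M → M → ℝ) : Prop where
  D_nn : ∀ x y, 0 ≤ D x y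
  DX_nn : ∀ x z, 0 ≤ DX x z
  DY_nn : ∀ z y, 0 ≤ DY z y
  DX_self : ∀ z, DX (X z) z = 0
  DY_self : ∀ z, DY z (Y z) = 0
  surjX : ∀ x, ∃ z, X z = x
  surjY : ∀ y, ∃ z, Y z = y
  D_le : ∀ x z y, D x y ≤ DX x z + DY z y
  mid : ∀ x y, ∃ z, DX x z + DY z y = D x y
  engulf : ∀ x y x' y0, D x y ≤ K0 * max (D x y0) (max (D x' y0) (D x' y))
  lipD1 : ∀ x x' y, |D x y - D x' y| ≤ Λ * dist x x'
  lipD2 : ∀ x y y', |D x y - D x y'| ≤ Λ * dist y y'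
  lipDX : ∀ x x' z, |DX x z - DX x' z| ≤ Λ * dist x x'
  lipDY : ∀ z y y', |DY z y - DY z y'| ≤ Λ * dist y y'
  bdd : ∀ z z' : M, dist z z' ≤ Λ
  /-- uniform modulus (E1.6) -/
  modulus : ∀ ε, 0 < ε → ∀ z z', D (X z) (Y z') ≤ ω ε → dist z z' ≤ ε
  /-- quadratic upper bound (E1.7) -/
  low : ∀ t, 0 < t → t ≤ r → ∃ z z', t ≤ dist z z' ∧ D (X z) (Y z') ≤ C * t ^ 2
  ell_le : ∀ z1 z2 z, z1 ≠ z2 → dist z1 z2 ≤ r → dist z z1 ≤ r → |ell z1 z2 z| ≤ dist z z1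
  geo1 : ∀ z1 z2 z, z1 ≠ z2 → dist z1 z2 ≤ r → dist z z1 ≤ r →
    dist z1 z2 - ell z1 z2 z ≤ dist z z2 + C * (dist z z1 + dist z1 z2) ^ 2
  geo2 : ∀ z1 z2 z, z1 ≠ z2 → dist z1 z2 ≤ r → dist z z1 ≤ r → dist z z2 ≤ r →
    dist z1 z2 ≤ ell z1 z2 z + ell z2 z1 z + C * (dist z z1 + dist z1 z2) ^ 2
  /-- rotation of the geodesic about its midpoint and uniform Taylor expansion (E1.8) -/
  taylor : ∀ z1 z2, z1 ≠ z2 → dist z1 z2 ≤ r → ∀ μ : ℝ, |μ| ≤ μ0 →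
    ∃ x y, dist x (X z1) ≤ Λ * |μ| ∧ dist y (Y z1) ≤ Λ * |μ| ∧ ∀ z, dist z z1 ≤ r →
      |DX x z - DX (X z1) z - DX x z1 + 2 * μ * ell z1 z2 z| ≤ C * |μ| * dist z z1 ^ 2 ∧
      |DY z y - DY z (Y z1) - DY z1 y - 2 * μ * ell z1 z2 z| ≤ C * |μ| * dist z z1 ^ 2


variable {M : Type*} [MetricSpace M] {K0 Λ C r μ0 : ℝ} {ω : ℝ → ℝ}
  {X Y : M → M} {D DX DY : M → M → ℝ} {ell : M → M → M → ℝ}







end Crest.Agent.R226.Growth762
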