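import Mathlib
import Crest.Agent.R226.LoeperUnif_128

-- ▼ part R226/TaylorCalc_344
section
namespace Crest.Agent.R226.TaylorCalc344
end Crest.Agent.R226.TaylorCalc344
end

-- ▼ part R226/Taylor2_344

set_option autoImplicit false
set_option linter.unusedSectionVars false

open MeasureTheory Bundle Set Filter
open scoped Manifold ContDiff Bundle ENNReal Topology
open Crest.GeometryTopology.MTW

namespace Crest.Agent.R226.Taylor344

open Crest.Agent.R226.LoeperUnif128 Crest.Agent.R226.LoeperPt128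
open Crest.Agent.R226.TMSmooth771 Crest.Agent.R226.TaylorCalc344

variable {n : ℕ} {M : Type*} [MetricSpace M] [ChartedSpace (EuclideanSpace ℝ (Fin n)) M]
  [IsManifold (𝓡 n) ∞ M]
  [RiemannianBundle (fun p : M => TangentSpace (𝓡 n) p)]

/-- symmetric minimisers at `z`: the geodesic from `exp_z (-v)` to `exp_z v` is minimising. -/
def Sym (G : GeoData n M) (z : M) : Set (TangentSpace (𝓡 n) z) :=
  {v | dist (G.ex z (-v)) (G.ex z v) = 2 * ‖v‖}



/-- transport of reversed vectors -/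
theorem mem_I_of_curve {G : GeoData n M} {z : M} {w : TangentSpace (𝓡 n) z} {z' : M} (hz : z' = z)
    {q' : TangentSpace (𝓡 n) z'} (hq : q' ∈ G.I z')
    (h : ∀ t : ℝ, G.ex z' (t • q') = G.ex z (t • w)) : w ∈ G.I z := by
  subst hz
  have h1 : q' = w := by
    have e1 := G.vel_zero z' q'
    have e2 := G.vel_zero z' w
    have e3 : (fun t : ℝ => G.ex z' (t • q')) = fun t : ℝ => G.ex z' (t • w) := funext h
    rw [← e3] at e2
    exact e1.symm.trans e2
  rwa [← h1]

theorem sym_mem_I {G : GeoData n M} (hC : CutFacts G) {z : M} {v : TangentSpace (𝓡 n) z}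
    (hv : v ∈ Sym G z) : v ∈ G.I z := by
  obtain ⟨p', hpn', -, hps'⟩ := CutTop478.exists_vel G z v 1 (z := G.ex z v) (by rw [one_smul])
  have hp2' : (2 : ℝ) • (-p') ∈ G.K (G.ex z v) := by
    change dist (G.ex z v) (G.ex (G.ex z v) ((2 : ℝ) • (-p'))) = ‖(2 : ℝ) • (-p')‖
    have h1 : G.ex (G.ex z v) ((2 : ℝ) • (-p')) = G.ex z (-v) := by
      rw [smul_neg, ← neg_smul, hps']
      congr 1
      rw [show (1 : ℝ) + -2 = -1 by norm_num, neg_one_smul]
    rw [h1, norm_smul, norm_neg, hpn', dist_comm]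
    norm_num
    exact hv
  have hpI' : -p' ∈ G.I (G.ex z v) := ⟨2, by norm_num, hp2'⟩
  have hrev' := hC.rev_I _ _ hpI'
  have hz'' : G.ex (G.ex z v) ((1 : ℝ) • (-p')) = z := by
    rw [smul_neg, ← neg_smul, hps']
    simp [G.ex_zero]
  apply mem_I_of_curve hz'' hrev'
  intro t
  rw [hC.rev_ex, smul_neg, ← neg_smul, hps']
  congr 1
  congr 1
  ring

/-- every minimiser has a midpoint -/
theorem exists_mid {G : GeoData n M} {x : M} {p : TangentSpace (𝓡 n) x} (hp : p ∈ G.K x) :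
    ∃ (z : M) (v : TangentSpace (𝓡 n) z), v ∈ Sym G z ∧ G.ex z (-v) = x ∧ G.ex z v = G.ex x p ∧
      ‖v‖ = ‖p‖ / 2 ∧ z = G.ex x ((1 / 2 : ℝ) • p) := by
  obtain ⟨q, hqn, -, hqs⟩ := CutTop478.exists_vel G x p (1 / 2) (z := G.ex x ((1 / 2 : ℝ) • p)) rfl
  refine ⟨_, (1 / 2 : ℝ) • q, ?_, ?_, ?_, ?_, rfl⟩
  · change dist (G.ex _ (-((1 / 2 : ℝ) • q))) (G.ex _ ((1 / 2 : ℝ) • q)) = 2 * ‖(1 / 2 : ℝ) • q‖
    rw [← neg_smul, hqs, hqs, norm_smul, hqn]
    norm_num [G.ex_zero]
    have h1 : dist x (G.ex x p) = ‖p‖ := hp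
    rw [h1]
    ring
  · rw [← neg_smul, hqs]
    norm_num [G.ex_zero]
  · rw [hqs]
    norm_num
  · rw [norm_smul, hqn]
    norm_num
    ring

section

variable [IsContMDiffRiemannianBundle (𝓡 n) ∞ (EuclideanSpace ℝ (Fin n))
  (fun p : M => TangentSpace (𝓡 n) p)]




/-! ### Lipschitz bound of the exponential map along the fibres -/




end

end Crest.Agent.R226.Taylor344
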