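import Crest.Agent.R226.HolderEnd_915
import Crest.Agent.R226.GrowthDef_762
import Mathlib.Tactic.Linarith
import Mathlib.Tactic.FieldSimp
import Mathlib.Tactic.Positivity
import Crest.Agent.R226.E1Shape_964
import Crest.Agent.R226.DDefs_267
import Crest.Agent.R226.Kant_624
import Crest.Agent.R226.GeoBasic_616
import Crest.Agent.R226.ExLip_659
import Crest.Agent.R226.Taylor2_344
import Crest.Agent.R226.CC0_227
import Crest.Agent.R226.CC1_227
import Mathlib.Analysis.Convex.Topology
import Mathlib.MeasureTheory.Measure.NullMeasurable
import Mathlib.MeasureTheory.Constructions.BorelSpace.Basic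
import Mathlib.Analysis.Normed.Module.Basic
import Mathlib.Tactic
import Crest.Agent.R226.CutTop_478
import Crest.Agent.R226.Good_272
import Crest.Agent.R226.EStep1_700
import Crest.Agent.R226.CutFacts_484
import Crest.Agent.R226.CutNull_230
import Crest.Agent.R226.VolChartB_767
import Crest.Agent.R226.CutAsm_823

-- ▼ part R226/HolderEnd2_915
section

set_option autoImplicit false
set_option linter.unusedSectionVars false

open MeasureTheory Set Filter Topology
open scoped ENNReal NNReal
open Crest.GeometryTopology.MTW

namespace Crest.Agent.R226.HolderEnd2_915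

open Crest.Agent.R226 Crest.Agent.R226.Kant624 Crest.Agent.R226.Reduction624
  Crest.Agent.R226.HolderEnd915

/-- the exponent attached to the growth constants. -/
noncomputable def expo (d₀ N₁ : ℝ) : ℝ := 1 / (2 + Real.log (max N₁ 1) / Real.log (1 + d₀))




variable {M : Type*} [MetricSpace M] [CompactSpace M] [MeasurableSpace M] [BorelSpace M]


end Crest.Agent.R226.HolderEnd2_915
end

-- ▼ part R226/Midpoint_659
section

set_option autoImplicit false

open MeasureTheory Bundle Set Filter
open scoped Manifold ContDiff Bundle ENNReal Topology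
open Crest.GeometryTopology.MTW

namespace Crest.Agent.R226.Mid659

open Crest.Agent.R226 Crest.Agent.R226.Kant624 Crest.Agent.R226.GeoBasic616

/-! ### Metric part -/

section Metric

variable {M : Type*} [MetricSpace M]

/-- `D(x,y) = u(x) + u^c(y) + c(x,y)`. -/
noncomputable def DD (u : M → ℝ) (x y : M) : ℝ := u x + ctr u y + halfDistSq x y






variable [CompactSpace M]









end Metric

/-! ### Manifold part -/

section Mfd

variable {n : ℕ} {M : Type*} [MetricSpace M] [ChartedSpace (EuclideanSpace ℝ (Fin n)) M]
  [IsManifold (𝓡 n) ∞ M]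
  [RiemannianBundle (fun p : M => TangentSpace (𝓡 n) p)]

/-- `z` is the midpoint of the contact geodesic from `exp_z(-w/2)` to `exp_z(w/2)`. -/
structure IsMid (G : GeoData n M) (u : M → ℝ) (z : M) (w : TangentSpace (𝓡 n) z) : Prop where
  left : (-(1 / 2 : ℝ)) • w ∈ G.K z
  right : (1 / 2 : ℝ) • w ∈ G.K z
  dist_eq : dist (G.ex z ((-(1 / 2 : ℝ)) • w)) (G.ex z ((1 / 2 : ℝ) • w)) = ‖w‖
  contact : DD u (G.ex z ((-(1 / 2 : ℝ)) • w)) (G.ex z ((1 / 2 : ℝ) • w)) = 0


variable {G : GeoData n M}












variable [CompactSpace M]






open Classical in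
/-- the velocity at the midpoint `z` of the contact geodesic through `z`. -/
noncomputable def mv (G : GeoData n M) (u : M → ℝ) (z : M) : TangentSpace (𝓡 n) z :=
  if h : ∃ w, IsMid G u z w then h.choose else 0

/-- the initial point of the contact geodesic with midpoint `z`. -/
noncomputable def X (G : GeoData n M) (u : M → ℝ) (z : M) : M :=
  G.ex z ((-(1 / 2 : ℝ)) • mv G u z)

/-- the end point of the contact geodesic with midpoint `z`. -/
noncomputable def Y (G : GeoData n M) (u : M → ℝ) (z : M) : M :=
  G.ex z ((1 / 2 : ℝ) • mv G u z)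















/-! ### Symmetry -/








/-! ### Uniform estimates -/





end Mfd

end Crest.Agent.R226.Mid659
end

-- ▼ part R226/Taylor3_344
section

set_option autoImplicit false
set_option linter.unusedSectionVars false

open MeasureTheory Bundle Set Filter
open scoped Manifold ContDiff Bundle ENNReal Topology
open Crest.GeometryTopology.MTW

namespace Crest.Agent.R226.Taylor344

variable {n : ℕ} {M : Type*} [MetricSpace M] [ChartedSpace (EuclideanSpace ℝ (Fin n)) M]
  [IsManifold (𝓡 n) ∞ M]
  [RiemannianBundle (fun p : M => TangentSpace (𝓡 n) p)]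

/-- a shortest logarithm -/
noncomputable def lg (G : GeoData n M) (z z' : M) : TangentSpace (𝓡 n) z :=
  Classical.choose (G.surj z z')



/-- `ell z1 z2 z = ⟪w, log_{z1} z⟫`, `w` the unit vector at `z1` towards `z2`. -/
noncomputable def ell (G : GeoData n M) (z1 z2 z : M) : ℝ :=
  inner ℝ (lg G z1 z2) (lg G z1 z) / dist z1 z2


section

variable [IsContMDiffRiemannianBundle (𝓡 n) ∞ (EuclideanSpace ℝ (Fin n))
  (fun p : M => TangentSpace (𝓡 n) p)] [CompactSpace M]





end

end Crest.Agent.R226.Taylor344
end

-- ▼ part R226/Modulus_619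
section

set_option autoImplicit false
set_option linter.unusedSectionVars false

open Set Filter Topology
open Crest.GeometryTopology.MTW

namespace Crest.Agent.R226.Mod619

open Crest.Agent.R226 Crest.Agent.R226.Kant624

variable {M : Type*} [MetricSpace M]

/-- `D_u(x,y) = u(x) + u^c(y) + c(x,y) ≥ 0`. -/
noncomputable def D (u : M → ℝ) (x y : M) : ℝ := u x + ctr u y + halfDistSq x y



section Compact

variable [CompactSpace M]














end Compact

end Crest.Agent.R226.Mod619
end

-- ▼ part R226/Step2_892
section

set_option autoImplicit false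
set_option linter.unusedSectionVars false

open MeasureTheory Bundle Set Filter
open scoped Manifold ContDiff Bundle ENNReal Topology
open Crest.GeometryTopology.MTW

namespace Crest.Agent.R226.Step2_892

open Crest.Agent.R226 Crest.Agent.R226.Kant624

section Metric

variable {M : Type*} [MetricSpace M]

/-- `D(x,y) = u(x) + u^c(y) + c(x,y) ≥ 0`. -/
noncomputable def DD (u : M → ℝ) (x y : M) : ℝ := u x + ctr u y + halfDistSq x y







section Compact

variable [CompactSpace M]






end Compact

end Metric

section Mfd

variable {n : ℕ} {M : Type*} [MetricSpace M] [ChartedSpace (EuclideanSpace ℝ (Fin n)) M]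
  [IsManifold (𝓡 n) ∞ M]
  [RiemannianBundle (fun p : M => TangentSpace (𝓡 n) p)]

variable (G : GeoData n M)




end Mfd

section Contract


variable {E : Type*} [AddCommGroup E] [Module ℝ E]






end Contract

section Mfd2

variable {n : ℕ} {M : Type*} [MetricSpace M] [ChartedSpace (EuclideanSpace ℝ (Fin n)) M]
  [IsManifold (𝓡 n) ∞ M]
  [RiemannianBundle (fun p : M => TangentSpace (𝓡 n) p)]

variable (G : GeoData n M)







section Vol

variable [MeasurableSpace M]




end Vol

end Mfd2

section Final

variable {n : ℕ} {M : Type*} [MetricSpace M] [CompactSpace M]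
  [ChartedSpace (EuclideanSpace ℝ (Fin n)) M]
  [IsManifold (𝓡 n) ∞ M]
  [RiemannianBundle (fun p : M => TangentSpace (𝓡 n) p)]

variable (G : GeoData n M)





variable [MeasurableSpace M] [BorelSpace M]



end Final

end Crest.Agent.R226.Step2_892
end

-- ▼ part R226/EMain_915

set_option autoImplicit false
set_option linter.unusedSectionVars false

open MeasureTheory Bundle Set Filter
open scoped Manifold ContDiff Bundle ENNReal Topology
open Crest.GeometryTopology.MTW

namespace Crest.Agent.R226.EMain915

open Crest.Agent.R226 Crest.Agent.R226.Kant624 Crest.Agent.R226.Reduction624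
  Crest.Agent.R226.E1Shape964 Crest.Agent.R226.Dasm290

section Steps

variable {n : ℕ} {M : Type*} [MetricSpace M] [ChartedSpace (EuclideanSpace ℝ (Fin n)) M]
  [IsManifold (𝓡 n) ∞ M]
  [RiemannianBundle (fun p : M => TangentSpace (𝓡 n) p)]
  [CompactSpace M] {G : GeoData n M}




variable [MeasurableSpace M] [BorelSpace M]


end Steps

section Main

variable {n : ℕ} {M : Type*} [MetricSpace M] [ChartedSpace (EuclideanSpace ℝ (Fin n)) M]
  [IsManifold (𝓡 n) ∞ M]
  [RiemannianBundle (fun p : M => TangentSpace (𝓡 n) p)]
  [IsContMDiffRiemannianBundle (𝓡 n) ∞ (EuclideanSpace ℝ (Fin n))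
    (fun p : M => TangentSpace (𝓡 n) p)]
  [IsRiemannianManifold (𝓡 n) M] [CompactSpace M] [MeasurableSpace M] [BorelSpace M]




/-- F3 for `μH[n]`, in the form of `Reduction624`. -/
theorem aeUnique (G : GeoData n M) :
    AEUnique (Measure.hausdorffMeasure (n : ℝ) : Measure M) := by
  intro u hu
  exact DiffAE225.ae_subsingleton_cSub G hu



end Main

end Crest.Agent.R226.EMain915
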