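import Crest.Agent.R226.Kant_624

-- ▼ part R226/Reduction_624
section

set_option autoImplicit false
set_option linter.unusedSectionVars false

open MeasureTheory Set Filter Topology
open scoped ENNReal NNReal
open Crest.GeometryTopology.MTW

namespace Crest.Agent.R226.Reduction624

open Crest.Agent.R226 Crest.Agent.R226.Kant624

variable {M : Type*} [MetricSpace M] [MeasurableSpace M] [BorelSpace M]

/-- F3: a.e. uniqueness of `c`-subgradients of `c`-convex functions. -/
def AEUnique (vol : Measure M) : Prop :=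
  ∀ u : M → ℝ, CConv u → ∀ᵐ x ∂vol, (cSub u x).Subsingleton

/-- Target of group E (`m = lam / Lam`): uniform bi-Hölder regularity of Alexandrov solutions. -/
def EStatement (vol : Measure M) (m : ℝ) : Prop :=
  ∃ α : ℝ, 0 < α ∧ α ≤ 1 ∧ ∃ C : ℝ, ∀ u : M → ℝ, CConv u → AlexPinch vol u m →
    AlexPinch vol (ctr u) m →
    ∃ Th : M ≃ₜ M, (∀ x, cSub u x = {Th x}) ∧
      (∀ x x' : M, dist (Th x) (Th x') ≤ C * dist x x' ^ α) ∧
      (∀ y y' : M, dist (Th.symm y) (Th.symm y') ≤ C * dist y y' ^ α)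

lemma smul_le_withDensity {vol : Measure M} {ρ : M → ℝ} {lam : ℝ}
    (h : ∀ᵐ x ∂vol, lam ≤ ρ x) :
    ENNReal.ofReal lam • vol ≤ vol.withDensity fun x => ENNReal.ofReal (ρ x) := by
  rw [Measure.le_iff]
  intro B hB
  rw [withDensity_apply _ hB, Measure.smul_apply, smul_eq_mul, ← setLIntegral_const]
  refine lintegral_mono_ae ?_
  filter_upwards [ae_restrict_of_ae h] with x hx
  exact ENNReal.ofReal_le_ofReal hx

lemma withDensity_le_smul {vol : Measure M} {ρ : M → ℝ} {Lam : ℝ}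
    (h : ∀ᵐ x ∂vol, ρ x ≤ Lam) :
    (vol.withDensity fun x => ENNReal.ofReal (ρ x)) ≤ ENNReal.ofReal Lam • vol := by
  rw [Measure.le_iff]
  intro B hB
  rw [withDensity_apply _ hB, Measure.smul_apply, smul_eq_mul, ← setLIntegral_const]
  refine lintegral_mono_ae ?_
  filter_upwards [ae_restrict_of_ae h] with x hx
  exact ENNReal.ofReal_le_ofReal hx

/-- **Reduction of S0350** for an arbitrary Borel measure `vol` on a compact metric space. -/
theorem uniform_biHolder [CompactSpace M] (vol : Measure M) {lam Lam : ℝ} (hlam : 0 < lam)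
    (hle : lam ≤ Lam) (hF3 : AEUnique vol) (hE : EStatement vol (lam / Lam)) :
    ∃ α : ℝ, 0 < α ∧ α ≤ 1 ∧ ∃ C : ℝ, ∀ ρ₀ ρ₁ : M → ℝ, Measurable ρ₀ → Measurable ρ₁ →
      (∀ᵐ x ∂vol, lam ≤ ρ₀ x ∧ ρ₀ x ≤ Lam ∧ lam ≤ ρ₁ x ∧ ρ₁ x ≤ Lam) →
      (∫⁻ x, ENNReal.ofReal (ρ₀ x) ∂vol) = 1 →
      (∫⁻ x, ENNReal.ofReal (ρ₁ x) ∂vol) = 1 →
      ∀ T : M → M,
        IsMongeOptimal (vol.withDensity fun x => ENNReal.ofReal (ρ₀ x))
          (vol.withDensity fun x => ENNReal.ofReal (ρ₁ x)) T →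
        ∃ Th : M ≃ₜ M,
          (∀ᵐ x ∂(vol.withDensity fun x => ENNReal.ofReal (ρ₀ x)), T x = Th x) ∧
          (∀ x x' : M, dist (Th x) (Th x') ≤ C * dist x x' ^ α) ∧
          (∀ y y' : M, dist (Th.symm y) (Th.symm y') ≤ C * dist y y' ^ α) := by
  obtain ⟨α, hα0, hα1, C, hC⟩ := hE
  refine ⟨α, hα0, hα1, C, ?_⟩
  intro ρ₀ ρ₁ _ _ hρ h0 h1 T hT
  set μ : Measure M := vol.withDensity fun x => ENNReal.ofReal (ρ₀ x) with hμdef
  set ν : Measure M := vol.withDensity fun x => ENNReal.ofReal (ρ₁ x) with hνdef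
  have : IsProbabilityMeasure μ := ⟨by rw [hμdef, withDensity_apply _ MeasurableSet.univ,
    Measure.restrict_univ, h0]⟩
  have : IsProbabilityMeasure ν := ⟨by rw [hνdef, withDensity_apply _ MeasurableSet.univ,
    Measure.restrict_univ, h1]⟩
  have hμ : μ ≪ vol := withDensity_absolutelyContinuous _ _
  have hν : ν ≪ vol := withDensity_absolutelyContinuous _ _
  obtain ⟨u, S, R, hu, hS, hR, hSu, hRu, hm1, hm2⟩ := exists_transport vol μ ν hμ hν hF3
  have b1 : ENNReal.ofReal lam • vol ≤ μ := smul_le_withDensity (hρ.mono fun x hx => hx.1)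
  have b2 : μ ≤ ENNReal.ofReal Lam • vol := withDensity_le_smul (hρ.mono fun x hx => hx.2.1)
  have b3 : ENNReal.ofReal lam • vol ≤ ν := smul_le_withDensity (hρ.mono fun x hx => hx.2.2.1)
  have b4 : ν ≤ ENNReal.ofReal Lam • vol := withDensity_le_smul (hρ.mono fun x hx => hx.2.2.2)
  have hP : AlexPinch vol u (lam / Lam) :=
    alexPinch_of hμ hν hu hS hR hSu hRu hm1 hm2 hlam hle b1 b2 b3 b4
  have hP' : AlexPinch vol (ctr u) (lam / Lam) := by
    refine alexPinch_of hν hμ (CConv_ctr (CConv.continuous hu)) hR hS hRu ?_ hm2 hm1 hlam hle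
      b3 b4 b1 b2
    rw [ctr_ctr hu]
    exact hSu
  obtain ⟨Th, hTh, hH1, hH2⟩ := hC u hu hP hP'
  refine ⟨Th, ?_, hH1, hH2⟩
  filter_upwards [monge_mem vol μ ν hμ hu hS hSu hm1 hT] with x hx
  rw [hTh x] at hx
  exact hx

end Crest.Agent.R226.Reduction624
end

-- ▼ part R226/HolderEnd_915

set_option autoImplicit false
set_option linter.unusedSectionVars false

open MeasureTheory Set Filter Topology
open scoped ENNReal NNReal
open Crest.GeometryTopology.MTW

namespace Crest.Agent.R226.HolderEnd915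

open Crest.Agent.R226 Crest.Agent.R226.Kant624 Crest.Agent.R226.Reduction624

/-! ### the iteration -/


/-! ### assembly -/

section Assembly

variable {M : Type*} [MetricSpace M] [CompactSpace M]

/-- the gap function `D(x,y) = u(x) + u^c(y) + c(x,y) ≥ 0`. -/
noncomputable def Dg (u : M → ℝ) (x y : M) : ℝ := u x + ctr u y + halfDistSq x y


lemma Dg_eq_zero {u : M → ℝ} (hu : CConv u) {x y : M} : Dg u x y = 0 ↔ y ∈ cSub u x :=
  (mem_cSub_iff (CConv.continuous hu) x y).symm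

/-- moving the first point. -/
lemma Dg_le_fst {u : M → ℝ} (hu : CConv u) {x x' y' : M} (h' : y' ∈ cSub u x') :
    Dg u x y' ≤ 2 * Metric.diam (univ : Set M) * dist x x' := by
  have h0 := (Dg_eq_zero hu).2 h'
  have h1 := CConv.abs_sub_le hu x x'
  have h2 := halfDistSq_lip x x' y'
  unfold Dg at *
  have := (abs_le.1 h1).2
  linarith

/-- moving the second point. -/
lemma Dg_le_snd {u : M → ℝ} (hu : CConv u) {x y y' : M} (h : y ∈ cSub u x) :
    Dg u x y' ≤ 2 * Metric.diam (univ : Set M) * dist y y' := by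
  have h0 := (Dg_eq_zero hu).2 h
  have h1 := CConv.abs_sub_le (CConv_ctr (CConv.continuous hu)) y' y
  have h2 := halfDistSq_lip y' y x
  rw [halfDistSq_comm y' x, halfDistSq_comm y x] at h2
  unfold Dg at *
  have := (abs_le.1 h1).2
  rw [dist_comm y' y] at *
  linarith

variable [MeasurableSpace M] [BorelSpace M]

/-- the class of pinched potentials. -/
def Cls (vol : Measure M) (m : ℝ) : Set (M → ℝ) :=
  {u | CConv u ∧ AlexPinch vol u m ∧ AlexPinch vol (ctr u) m}

lemma Cls_ctr {vol : Measure M} {m : ℝ} {u : M → ℝ} (hu : u ∈ Cls vol m) :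
    ctr u ∈ Cls vol m := by
  refine ⟨CConv_ctr (CConv.continuous hu.1), hu.2.2, ?_⟩
  rw [ctr_ctr hu.1]
  exact hu.2.1

/-- **Final assembly**: single-valuedness + power decay of the gap ⇒ `EStatement`. -/
theorem estatement_of_decay (vol : Measure M) (m : ℝ)
    (hs : ∀ u ∈ Cls vol m, ∀ x, (cSub u x).Subsingleton)
    (hq : ∃ α : ℝ, 0 < α ∧ α ≤ 1 ∧ ∃ C : ℝ, ∀ u ∈ Cls vol m,
      ∀ x y x' y' : M, y ∈ cSub u x → y' ∈ cSub u x' → ∀ h : ℝ, 0 < h → Dg u x y' ≤ h →
        dist x x' ≤ C * h ^ α ∧ dist y y' ≤ C * h ^ α) :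
    EStatement vol m := by
  obtain ⟨α, hα0, hα1, C, hC⟩ := hq
  set dm : ℝ := Metric.diam (univ : Set M) with hdm
  have hdm0 : 0 ≤ dm := Metric.diam_nonneg
  set C' : ℝ := |C| * (2 * dm + 1) ^ α with hC'
  refine ⟨α, hα0, hα1, C', ?_⟩
  intro u hu hp hp'
  have hcl : u ∈ Cls vol m := ⟨hu, hp, hp'⟩
  have hcl' : ctr u ∈ Cls vol m := Cls_ctr hcl
  choose T hT using hu
  have hT' : ∀ x, T x ∈ cSub u x := hT
  choose R hR using CConv_ctr (CConv.continuous hcl.1)
  have hR' : ∀ y, R y ∈ cSub (ctr u) y := hR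
  have hRT : ∀ x, R (T x) = x := fun x =>
    hs _ hcl' (T x) (hR' _) ((mem_cSub_ctr_iff hcl.1 x (T x)).2 (hT' x))
  have hTR : ∀ y, T (R y) = y := fun y =>
    hs _ hcl (R y) (hT' _) ((mem_cSub_ctr_iff hcl.1 (R y) y).1 (hR' y))
  have hmem : ∀ y, y ∈ cSub u (R y) := fun y => (mem_cSub_ctr_iff hcl.1 (R y) y).1 (hR' y)
  have aux : ∀ s t : ℝ, 0 < s → t ≤ C * ((2 * dm + 1) * s) ^ α → t ≤ C' * s ^ α := by
    intro s t hs' ht
    rw [Real.mul_rpow (by positivity) hs'.le] at ht
    calc t ≤ C * ((2 * dm + 1) ^ α * s ^ α) := ht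
      _ ≤ |C| * ((2 * dm + 1) ^ α * s ^ α) :=
        mul_le_mul_of_nonneg_right (le_abs_self C) (by positivity)
      _ = C' * s ^ α := by rw [hC']; ring
  have H1 : ∀ x x' : M, dist (T x) (T x') ≤ C' * dist x x' ^ α := by
    intro x x'
    rcases eq_or_ne x x' with rfl | hne
    · rw [dist_self, dist_self, Real.zero_rpow hα0.ne', mul_zero]
    have hpos : 0 < dist x x' := dist_pos.2 hne
    refine aux _ _ hpos ?_
    refine (hC u hcl x (T x) x' (T x') (hT' x) (hT' x') _ (by positivity) ?_).2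
    refine (Dg_le_fst hcl.1 (hT' x')).trans ?_
    nlinarith
  have H2 : ∀ y y' : M, dist (R y) (R y') ≤ C' * dist y y' ^ α := by
    intro y y'
    rcases eq_or_ne y y' with rfl | hne
    · rw [dist_self, dist_self, Real.zero_rpow hα0.ne', mul_zero]
    have hpos : 0 < dist y y' := dist_pos.2 hne
    refine aux _ _ hpos ?_
    refine (hC u hcl (R y) y (R y') y' (hmem y) (hmem y') _ (by positivity) ?_).1
    refine (Dg_le_snd hcl.1 (hmem y)).trans ?_
    nlinarith
  have cont : ∀ F : M → M, (∀ x x' : M, dist (F x) (F x') ≤ C' * dist x x' ^ α) →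
      Continuous F := by
    intro F hF
    rw [continuous_iff_continuousAt]
    intro x
    rw [ContinuousAt, tendsto_iff_dist_tendsto_zero]
    have h1 : Tendsto (fun z : M => C' * dist z x ^ α) (𝓝 x) (𝓝 0) := by
      have h2 : Tendsto (fun z : M => dist z x) (𝓝 x) (𝓝 0) := by
        have := (continuous_id.dist (continuous_const (y := x))).tendsto x
        simpa using this
      have h3 : Tendsto (fun z : M => dist z x ^ α) (𝓝 x) (𝓝 0) := by
        have := h2.rpow_const (p := α) (Or.inr hα0.le)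
        rwa [Real.zero_rpow hα0.ne'] at this
      simpa using h3.const_mul C'
    exact squeeze_zero (fun z => dist_nonneg) (fun z => hF z x) h1
  refine ⟨⟨⟨T, R, hRT, hTR⟩, cont T H1, cont R H2⟩, ?_, H1, H2⟩
  intro x
  ext y
  constructor
  · intro hy
    exact hs u hcl x hy (hT' x)
  · intro hy
    have : y = T x := hy
    rw [this]
    exact hT' x


end Assembly

end Crest.Agent.R226.HolderEnd915
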