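/-
R226 / E (helper977): leaf (L4) of the scheme 1752/1855.
* `exists_far`: the far point `x~` of a section without growth, and the contact `y*` of `x~` with a
  large gap on the near side (triangle inequality + local ⇒ global);
* `core_le`: contacts of the core are contacts of the far point up to `28 H`.
-/
import Crest.Agent.R226.OscEnd_977

set_option autoImplicit false
set_option linter.unusedSectionVars false

open MeasureTheory Bundle Set Filter
open scoped Manifold ContDiff Bundle ENNReal Topology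
open Crest.GeometryTopology.MTW

namespace Crest.Agent.R226.Far977

open Crest.Agent.R226 Crest.Agent.R226.Kant624 Crest.Agent.R226.Reduction624
  Crest.Agent.R226.HolderEnd915 Crest.Agent.R226.E1Shape964 Crest.Agent.R226.Dasm290
  Crest.Agent.R226.Osc977

/-! ### linear algebra of the core -/

section Lin

variable {E : Type*} [NormedAddCommGroup E] [InnerProductSpace ℝ E]










end Lin

/-! ### the triangle inequality -/

section Geo

variable {n : ℕ} {M : Type*} [MetricSpace M] [ChartedSpace (EuclideanSpace ℝ (Fin n)) M]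
  [IsManifold (𝓡 n) ∞ M]
  [RiemannianBundle (fun p : M => TangentSpace (𝓡 n) p)]

/-- **Triangle inequality**: pulling the target `y₀ = exp_x p` back to `exp_x ((1-s) p)` decreases
the differences of the cost by at most the factor `1 - s`. -/
theorem tri_ineq {G : GeoData n M} {xt : M} {p : TangentSpace (𝓡 n) xt} (hp : p ∈ G.K xt)
    {s : ℝ} (hs : 0 ≤ s) (hs1 : s ≤ 1) (x : M) :
    (1 - s) * (halfDistSq x (G.ex xt p) - halfDistSq xt (G.ex xt p)) ≤
      halfDistSq x (G.ex xt ((1 - s) • p)) - halfDistSq xt (G.ex xt ((1 - s) • p)) := by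
  have hK : dist xt (G.ex xt p) = ‖p‖ := hp
  have h1 : dist xt (G.ex xt ((1 - s) • p)) ≤ (1 - s) * ‖p‖ := by
    have := G.dist_le xt p 0 (1 - s)
    rw [zero_smul, G.ex_zero] at this
    refine this.trans (le_of_eq ?_)
    rw [zero_sub, abs_neg, abs_of_nonneg (by linarith)]
  have h2 : dist (G.ex xt ((1 - s) • p)) (G.ex xt p) ≤ s * ‖p‖ := by
    have := G.dist_le xt p (1 - s) 1
    rw [one_smul] at this
    refine this.trans (le_of_eq ?_)
    rw [abs_sub_comm, abs_of_nonneg (by linarith)]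
    ring
  have h3 := dist_triangle x (G.ex xt ((1 - s) • p)) (G.ex xt p)
  set a : ℝ := dist x (G.ex xt ((1 - s) • p)) with ha
  have ha0 : 0 ≤ a := dist_nonneg
  have hl0 : 0 ≤ ‖p‖ := norm_nonneg _
  have h4 : dist x (G.ex xt p) ≤ a + s * ‖p‖ := by linarith
  have h5 : dist x (G.ex xt p) ^ 2 ≤ (a + s * ‖p‖) ^ 2 := by
    have : (0:ℝ) ≤ dist x (G.ex xt p) := dist_nonneg
    gcongr
  have h6 : dist xt (G.ex xt ((1 - s) • p)) ^ 2 ≤ ((1 - s) * ‖p‖) ^ 2 := by
    have : (0:ℝ) ≤ dist xt (G.ex xt ((1 - s) • p)) := dist_nonneg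
    gcongr
  unfold halfDistSq
  rw [hK, ← ha]
  have h7 : 0 ≤ s * (a - (1 - s) * ‖p‖) ^ 2 := by positivity
  have h8 : (1 - s) * (dist x (G.ex xt p) ^ 2) ≤ (1 - s) * (a + s * ‖p‖) ^ 2 :=
    mul_le_mul_of_nonneg_left h5 (by linarith)
  nlinarith

variable [CompactSpace M] {G : GeoData n M}

lemma continuous_Dd {u : M → ℝ} (hu : CConv u) (y : M) : Continuous (fun x => Dd u x y) := by
  have h1 := CConv.continuous hu
  have h2 := continuous_halfDistSq (M := M)
  unfold Dd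
  fun_prop

lemma isCompact_sec {u : M → ℝ} (hu : CConv u) (y : M) (h : ℝ) :
    IsCompact {x : M | Dd u x y ≤ h} :=
  (isClosed_le (continuous_Dd hu y) continuous_const).isCompact

lemma exists_contact {u : M → ℝ} (hu : CConv u) (y : M) : ∃ x, Dd u x y = 0 := by
  obtain ⟨x, hx⟩ := CConv_ctr (CConv.continuous hu) y
  refine ⟨x, ?_⟩
  rw [Dd_eq_zero (CConv.continuous hu)]
  exact (mem_cSub_ctr_iff hu x y).1 hx

lemma continuous_cost (y : M) : Continuous (fun x : M => halfDistSq x y) := by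
  have h2 := continuous_halfDistSq (M := M)
  fun_prop

/-- the nearest point of the section. -/
theorem exists_nearest {u : M → ℝ} (hu : CConv u) (y : M) {h : ℝ} (hh : 0 ≤ h) :
    ∃ x : M, Dd u x y ≤ h ∧ ∀ x' : M, Dd u x' y ≤ h → halfDistSq x y ≤ halfDistSq x' y := by
  obtain ⟨x0, hx0⟩ := exists_contact hu y
  obtain ⟨x, hx, hmin⟩ := (isCompact_sec hu y h).exists_isMinOn ⟨x0, by
    show Dd u x0 y ≤ h
    rw [hx0]; exact hh⟩ (continuous_cost y).continuousOn
  exact ⟨x, hx, fun x' hx' => hmin hx'⟩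





/-! ### the core -/

/-- `F_y(q) = |q|²/2 - c(exp_{y₀} q, y)`. -/
noncomputable def Fq (G : GeoData n M) (y0 y : M) (q : TangentSpace (𝓡 n) y0) : ℝ :=
  ‖q‖ ^ 2 / 2 - halfDistSq (G.ex y0 q) y

/-- exact formula for the gap with respect to another target. -/
theorem Dd_sub {u : M → ℝ} {y0 y : M} {q q' : TangentSpace (𝓡 n) y0} (hq : q ∈ G.K y0)
    (hq' : q' ∈ G.K y0) : Dd u (G.ex y0 q) y - Dd u (G.ex y0 q') y =
      Dd u (G.ex y0 q) y0 - Dd u (G.ex y0 q') y0 + Fq G y0 y q' - Fq G y0 y q := by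
  unfold Dd Fq
  rw [halfDistSq_ex' hq, halfDistSq_ex' hq']
  ring

/-- (Fam) for `F_y`: `F_y + μ|q|²/2` is quasiconvex on `K(y₀)`, `μ ≥ 0`. -/
theorem fam (hg : GoodAll G) {y0 : M} (y : M) {μ : ℝ} (hμ : 0 ≤ μ)
    {p q : TangentSpace (𝓡 n) y0} (hp : p ∈ G.K y0) (hq : q ∈ G.K y0) {a b : ℝ} (ha : 0 ≤ a)
    (hb : 0 ≤ b) (hab : a + b = 1) :
    Fq G y0 y (a • p + b • q) + μ * (‖a • p + b • q‖ ^ 2 / 2) ≤
      max (Fq G y0 y p + μ * (‖p‖ ^ 2 / 2)) (Fq G y0 y q + μ * (‖q‖ ^ 2 / 2)) := by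
  have hU : CConv (fun z : M => -halfDistSq z y) := fun z => ⟨y, fun z' => by
    show -halfDistSq z y + halfDistSq z y ≤ -halfDistSq z' y + halfDistSq z' y
    linarith⟩
  have h1 := quasi_fam hg hU (μ := 1 + μ) (by linarith) hp hq ha hb hab
  unfold Fq
  have e : ∀ X Y : ℝ, X - Y + μ * X = -Y + (1 + μ) * X := by intro X Y; ring
  rw [e, e, e]
  exact h1

/-- three collinear velocities `q_e, q', q_x`, `q' = a q_e + b q_x`. -/
theorem fam_bound (hg : GoodAll G) {y0 : M} (y : M) {H r N : ℝ} (hH : 0 < H) (hr : 0 < r)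
    (hN : 0 ≤ N) {qe qx : TangentSpace (𝓡 n) y0} (hqe : qe ∈ G.K y0) (hqx : qx ∈ G.K y0) {a b : ℝ}
    (ha : 0 ≤ a) (hb : 0 ≤ b) (hab : a + b = 1)
    (hF : Fq G y0 y qe ≤ Fq G y0 y (a • qe + b • qx) + H)
    (h1 : r ≤ ‖a • qe + b • qx‖ ^ 2 / 2 - ‖qe‖ ^ 2 / 2)
    (h2 : ‖qx‖ ^ 2 / 2 - ‖a • qe + b • qx‖ ^ 2 / 2 ≤ N * r) :
    Fq G y0 y (a • qe + b • qx) - Fq G y0 y qx ≤ N * H := by
  by_contra hneg
  push Not at hneg
  set q' := a • qe + b • qx with hq'
  set η : ℝ := Fq G y0 y q' - Fq G y0 y qx - N * H with hη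
  have hη0 : 0 < η := by linarith
  set μ : ℝ := (H + η / (2 * (N + 1))) / r with hμ
  have hN1 : 0 < N + 1 := by linarith
  have hμ0 : 0 < μ := by positivity
  have hμr : μ * r = H + η / (2 * (N + 1)) := by rw [hμ]; field_simp
  have h3 := fam hg y hμ0.le hqe hqx ha hb hab
  rw [← hq'] at h3
  have h4 : Fq G y0 y qe + μ * (‖qe‖ ^ 2 / 2) < Fq G y0 y q' + μ * (‖q'‖ ^ 2 / 2) := by
    have h5 : μ * r ≤ μ * (‖q'‖ ^ 2 / 2 - ‖qe‖ ^ 2 / 2) := mul_le_mul_of_nonneg_left h1 hμ0.le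
    have h6 : 0 < η / (2 * (N + 1)) := by positivity
    nlinarith
  have h5 : Fq G y0 y qx + μ * (‖qx‖ ^ 2 / 2) < Fq G y0 y q' + μ * (‖q'‖ ^ 2 / 2) := by
    have h6 : μ * (‖qx‖ ^ 2 / 2 - ‖q'‖ ^ 2 / 2) ≤ μ * (N * r) :=
      mul_le_mul_of_nonneg_left h2 hμ0.le
    have h7 : μ * (N * r) = N * H + N * (η / (2 * (N + 1))) := by
      calc μ * (N * r) = N * (μ * r) := by ring
        _ = _ := by rw [hμr]; ring
    have h8 : N * (η / (2 * (N + 1))) < η := by
      have h9 : N * (η / (2 * (N + 1))) = (N / (N + 1)) * (η / 2) := by field_simp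
      have h10 : N / (N + 1) ≤ 1 := by rw [div_le_one hN1]; linarith
      have h11 : (N / (N + 1)) * (η / 2) ≤ 1 * (η / 2) :=
        mul_le_mul_of_nonneg_right h10 (by linarith)
      linarith
    nlinarith
  exact absurd h3 (not_le.2 (max_lt h4 h5))


end Geo

end Crest.Agent.R226.Far977
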