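import Crest.Agent.R226.JacCalc_344
import Crest.Agent.R226.Taylor2_344
import Crest.Agent.R226.CutSmooth_77
import Crest.Agent.R226.VolChartB_767
import Crest.Agent.R226.E1Shape_964

-- ▼ part R226/Jac1_344
section

set_option autoImplicit false
set_option linter.unusedSectionVars false

open MeasureTheory Bundle Set Filter
open scoped Manifold ContDiff Bundle ENNReal Topology
open Crest.GeometryTopology.MTW

namespace Crest.Agent.R226.Jac344

open Crest.Agent.R226.LoeperUnif128 Crest.Agent.R226.TMSmooth771 Crest.Agent.R226.Taylor344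
open Crest.Agent.R226.ChartCost77 Crest.Agent.R226.Index77 Crest.Agent.R226.JacCalc344

variable {n : ℕ} {M : Type*} [MetricSpace M] [ChartedSpace (EuclideanSpace ℝ (Fin n)) M]
  [IsManifold (𝓡 n) ∞ M]
  [RiemannianBundle (fun p : M => TangentSpace (𝓡 n) p)]

/-- the midpoint function: `rho x p p' = ‖p'‖²/4 + 2 c(exp_x(p'/2), exp_x p) ≥ c(x, exp_x p)`, with
equality at `p' = p` for `p ∈ K x`. -/
noncomputable def rho (G : GeoData n M) (x : M) (p p' : TangentSpace (𝓡 n) x) : ℝ :=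
  ‖p'‖ ^ 2 / 4 + 2 * halfDistSq (G.ex x ((1 / 2 : ℝ) • p')) (G.ex x p)

/-- the Hessian of `rho x p` at `p`. -/
noncomputable def Hf (G : GeoData n M) (x : M) (p : TangentSpace (𝓡 n) x) :
    TangentSpace (𝓡 n) x →L[ℝ] TangentSpace (𝓡 n) x →L[ℝ] ℝ :=
  fderiv ℝ (fderiv ℝ (rho G x p)) p

theorem halfDistSq_le_two (x z y : M) :
    halfDistSq x y ≤ 2 * halfDistSq x z + 2 * halfDistSq z y := by
  unfold halfDistSq
  have h1 := dist_triangle x z y
  have h2 : dist x y ^ 2 ≤ (dist x z + dist z y) ^ 2 := by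
    gcongr
  nlinarith [sq_nonneg (dist x z - dist z y)]

theorem le_rho (G : GeoData n M) (x : M) (p p' : TangentSpace (𝓡 n) x) :
    halfDistSq x (G.ex x p) ≤ rho G x p p' := by
  have h1 := halfDistSq_le_two x (G.ex x ((1 / 2 : ℝ) • p')) (G.ex x p)
  have h2 : 2 * halfDistSq x (G.ex x ((1 / 2 : ℝ) • p')) ≤ ‖p'‖ ^ 2 / 4 := by
    unfold halfDistSq
    have h3 := CutTop478.dist_ex_le G x ((1 / 2 : ℝ) • p')
    rw [norm_smul] at h3
    norm_num at h3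
    have h4 : dist x (G.ex x ((1 / 2 : ℝ) • p')) ^ 2 ≤ (1 / 2 * ‖p'‖) ^ 2 := by
      gcongr
    nlinarith
  unfold rho
  linarith

theorem dist_half {G : GeoData n M} {x : M} {p : TangentSpace (𝓡 n) x} (hp : p ∈ G.K x) :
    dist (G.ex x ((1 / 2 : ℝ) • p)) (G.ex x p) = ‖p‖ / 2 := by
  have := CutTop478.dist_seg G (a := 1) (v := p) (by rwa [one_smul]) (s := 1 / 2) (t := 1)
    (by norm_num) (by norm_num) le_rfl
  rw [one_smul] at this
  rw [this]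
  ring

theorem rho_self {G : GeoData n M} {x : M} {p : TangentSpace (𝓡 n) x} (hp : p ∈ G.K x) :
    rho G x p p = halfDistSq x (G.ex x p) := by
  unfold rho halfDistSq
  rw [dist_half hp]
  have : dist x (G.ex x p) = ‖p‖ := hp
  rw [this]
  ring

section smooth

variable [IsContMDiffRiemannianBundle (𝓡 n) ∞ (EuclideanSpace ℝ (Fin n))
  (fun p : M => TangentSpace (𝓡 n) p)]

/-- `rho` with the end point in a chart, in bundle coordinates at `x₀`. -/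
noncomputable def bh (G : GeoData n M) (x₀ y₀ : M) (z : EE n × EE n × EE n) : ℝ :=
  ‖(tmci x₀ (z.1, z.2.1)).2‖ ^ 2 / 4 +
    2 * halfDistSq (exT G (tmci x₀ (z.1, (1 / 2 : ℝ) • z.2.1)))
      ((extChartAt (𝓡 n) y₀).symm z.2.2)

/-- the exponential map in bundle coordinates. -/
noncomputable def Eh (G : GeoData n M) (x₀ y₀ : M) (z : EE n × EE n) : EE n :=
  extChartAt (𝓡 n) y₀ (exT G (tmci x₀ z))

theorem contDiffAt_Eh (G : GeoData n M) (x₀ : M) (p₀ : TangentSpace (𝓡 n) x₀) {y₀ : M}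
    (hy : G.ex x₀ p₀ ∈ (chartAt (EuclideanSpace ℝ (Fin n)) y₀).source) :
    ContDiffAt ℝ ∞ (Eh G x₀ y₀) (extChartAt (𝓡 n) x₀ x₀, dphi x₀ x₀ p₀) := by
  have hx : (⟨x₀, p₀⟩ : TangentBundle (𝓡 n) M).1 ∈ (chartAt (EuclideanSpace ℝ (Fin n)) x₀).source :=
    mem_chart_source _ x₀
  have hxt : extChartAt (𝓡 n) x₀ x₀ ∈ (extChartAt (𝓡 n) x₀).target :=
    (extChartAt (𝓡 n) x₀).map_source (mem_extChartAt_source x₀)
  have e1 : tmci x₀ (extChartAt (𝓡 n) x₀ x₀, dphi x₀ x₀ p₀) = (⟨x₀, p₀⟩ : TangentBundle (𝓡 n) M) :=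
    tmci_tmc (x₀ := x₀) (p := (⟨x₀, p₀⟩ : TangentBundle (𝓡 n) M)) hx
  have h1 := contMDiffAt_tmci (x₀ := x₀) (q := (extChartAt (𝓡 n) x₀ x₀, dphi x₀ x₀ p₀)) hxt
  have hex : ContMDiff (𝓡 n).tangent (𝓡 n) ∞ (exT G) := G.smooth
  have h2 := (hex.contMDiffAt).comp (extChartAt (𝓡 n) x₀ x₀, dphi x₀ x₀ p₀) h1
  have h3 : ContMDiffAt (𝓡 n) 𝓘(ℝ, EE n) ∞ (extChartAt (𝓡 n) y₀)
      ((exT G ∘ tmci x₀) (extChartAt (𝓡 n) x₀ x₀, dphi x₀ x₀ p₀)) := by
    apply contMDiffAt_extChartAt'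
    simp only [Function.comp_apply, e1]
    exact hy
  exact contMDiffAt_iff_contDiffAt.1
    (ContMDiffAt.comp (extChartAt (𝓡 n) x₀ x₀, dphi x₀ x₀ p₀) h3 h2)

theorem contDiffAt_bh {G : GeoData n M} (hC : CutFacts G) {x₀ : M} {p₀ : TangentSpace (𝓡 n) x₀}
    (hp : p₀ ∈ G.K x₀) {y₀ : M} (hy : y₀ = G.ex x₀ p₀) :
    ContDiffAt ℝ ∞ (bh G x₀ y₀) (extChartAt (𝓡 n) x₀ x₀, dphi x₀ x₀ p₀,
      extChartAt (𝓡 n) y₀ y₀) := by
  have hx : (⟨x₀, p₀⟩ : TangentBundle (𝓡 n) M).1 ∈ (chartAt (EuclideanSpace ℝ (Fin n)) x₀).source :=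
    mem_chart_source _ x₀
  have hxt : extChartAt (𝓡 n) x₀ x₀ ∈ (extChartAt (𝓡 n) x₀).target :=
    (extChartAt (𝓡 n) x₀).map_source (mem_extChartAt_source x₀)
  have hyt : extChartAt (𝓡 n) y₀ y₀ ∈ (extChartAt (𝓡 n) y₀).target :=
    (extChartAt (𝓡 n) y₀).map_source (mem_extChartAt_source y₀)
  obtain ⟨b, hb⟩ : ∃ b : EE n × EE n × EE n, b = (extChartAt (𝓡 n) x₀ x₀, dphi x₀ x₀ p₀,
      extChartAt (𝓡 n) y₀ y₀) := ⟨_, rfl⟩
  have e1 : tmci x₀ (extChartAt (𝓡 n) x₀ x₀, (1 / 2 : ℝ) • dphi x₀ x₀ p₀) =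
      (⟨x₀, (1 / 2 : ℝ) • p₀⟩ : TangentBundle (𝓡 n) M) := by
    rw [← map_smul]
    exact tmci_tmc (x₀ := x₀) (p := (⟨x₀, (1 / 2 : ℝ) • p₀⟩ : TangentBundle (𝓡 n) M)) hx
  -- the norm part
  have hn1 : ContMDiffAt 𝓘(ℝ, EE n × EE n × EE n) 𝓘(ℝ, EE n × EE n) ∞
      (fun z : EE n × EE n × EE n => (z.1, z.2.1)) b := by
    apply ContDiffAt.contMDiffAt
    fun_prop
  have hn2 := ContMDiffAt.comp b
    (contMDiffAt_tmci (x₀ := x₀) (q := ((fun z : EE n × EE n × EE n => (z.1, z.2.1)) b))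
      (by rw [hb]; exact hxt)) hn1
  have hn3 : ContMDiffAt 𝓘(ℝ, EE n × EE n × EE n) 𝓘(ℝ, ℝ) ∞
      (fun z : EE n × EE n × EE n => ‖(tmci x₀ (z.1, z.2.1)).2‖ ^ 2) b :=
    (contMDiff_norm_sq (n := n) (M := M)).contMDiffAt.comp b hn2
  have hn4 : ContDiffAt ℝ ∞ (fun z : EE n × EE n × EE n => ‖(tmci x₀ (z.1, z.2.1)).2‖ ^ 2) b :=
    contMDiffAt_iff_contDiffAt.1 hn3
  -- the cost part
  have hc1 : ContMDiffAt 𝓘(ℝ, EE n × EE n × EE n) 𝓘(ℝ, EE n × EE n) ∞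
      (fun z : EE n × EE n × EE n => (z.1, (1 / 2 : ℝ) • z.2.1)) b := by
    apply ContDiffAt.contMDiffAt
    fun_prop
  have hc2 := ContMDiffAt.comp b
    (contMDiffAt_tmci (x₀ := x₀)
      (q := ((fun z : EE n × EE n × EE n => (z.1, (1 / 2 : ℝ) • z.2.1)) b))
      (by rw [hb]; exact hxt)) hc1
  have hex : ContMDiff (𝓡 n).tangent (𝓡 n) ∞ (exT G) := G.smooth
  have hc3 := (hex.contMDiffAt).comp b hc2
  have hc4 : ContMDiffAt 𝓘(ℝ, EE n × EE n × EE n) (𝓡 n) ∞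
      (fun z : EE n × EE n × EE n => (extChartAt (𝓡 n) y₀).symm z.2.2) b := by
    have h5 : ContMDiffAt 𝓘(ℝ, EE n × EE n × EE n) 𝓘(ℝ, EE n) ∞
        (fun z : EE n × EE n × EE n => z.2.2) b := by
      apply ContDiffAt.contMDiffAt
      fun_prop
    have h6 : ContMDiffAt 𝓘(ℝ, EE n) (𝓡 n) ∞ (extChartAt (𝓡 n) y₀).symm
        ((fun z : EE n × EE n × EE n => z.2.2) b) := by
      rw [hb]
      exact contMDiffAt_symm y₀
    exact ContMDiffAt.comp b h6 h5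
  have hc5 := hc3.prodMk hc4
  obtain ⟨z, v, hv, -, hvy, -, hz⟩ := exists_mid hp
  have hc6 := hC.smooth_cost z v (sym_mem_I hC hv)
  rw [hvy, ← hy, hz] at hc6
  have hc7 : ContMDiffAt ((𝓡 n).prod (𝓡 n)) 𝓘(ℝ) ∞ (fun q : M × M => halfDistSq q.1 q.2)
      ((fun z : EE n × EE n × EE n =>
        (exT G (tmci x₀ (z.1, (1 / 2 : ℝ) • z.2.1)), (extChartAt (𝓡 n) y₀).symm z.2.2)) b) := by
    rw [hb]
    simp only [e1, extChartAt_to_inv]
    exact hc6
  have hc8 : ContMDiffAt 𝓘(ℝ, EE n × EE n × EE n) 𝓘(ℝ, ℝ) ∞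
      (fun z : EE n × EE n × EE n => halfDistSq (exT G (tmci x₀ (z.1, (1 / 2 : ℝ) • z.2.1)))
        ((extChartAt (𝓡 n) y₀).symm z.2.2)) b :=
    ContMDiffAt.comp b hc7 hc5
  have hc9 : ContDiffAt ℝ ∞ (fun z : EE n × EE n × EE n =>
      halfDistSq (exT G (tmci x₀ (z.1, (1 / 2 : ℝ) • z.2.1)))
        ((extChartAt (𝓡 n) y₀).symm z.2.2)) b := contMDiffAt_iff_contDiffAt.1 hc8
  rw [← hb]
  unfold bh
  exact (hn4.div_const 4).add (contDiffAt_const.mul hc9)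

end smooth

end Crest.Agent.R226.Jac344
end

-- ▼ part R226/Jac2_344
section

set_option autoImplicit false
set_option linter.unusedSectionVars false

open MeasureTheory Bundle Set Filter
open scoped Manifold ContDiff Bundle ENNReal Topology
open Crest.GeometryTopology.MTW

namespace Crest.Agent.R226.Jac344

open Crest.Agent.R226.LoeperUnif128 Crest.Agent.R226.TMSmooth771 Crest.Agent.R226.Taylor344
open Crest.Agent.R226.ChartCost77 Crest.Agent.R226.Index77 Crest.Agent.R226.JacCalc344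

section euc

variable {E F : Type*} [NormedAddCommGroup E] [NormedSpace ℝ E]
  [NormedAddCommGroup F] [NormedSpace ℝ F]

/-- mixed second derivative of `n1(w) + 2 F(m1(w), y)`. -/
theorem mixed_comp {f : E × F → ℝ} {n1 : E → ℝ} {m1 : E → E} {Φ : E × F → ℝ} {w0 : E} {y0 : F}
    (hf2 : ContDiffAt ℝ 2 f (w0, y0))
    (hf : ∀ᶠ q in 𝓝 (w0, y0), f q = n1 q.1 + 2 * Φ (m1 q.1, q.2))
    (hn : DifferentiableAt ℝ n1 w0) (hm : DifferentiableAt ℝ m1 w0)
    (hΦ : ContDiffAt ℝ 2 Φ (m1 w0, y0)) (k : F) (h : E) :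
    fderiv ℝ (fderiv ℝ f) (w0, y0) (0, k) (h, 0) =
      2 * fderiv ℝ (fderiv ℝ Φ) (m1 w0, y0) (0, k) (fderiv ℝ m1 w0 h, 0) := by
  -- first derivative along `w`
  have hΦd : ∀ᶠ y in 𝓝 y0, DifferentiableAt ℝ Φ (m1 w0, y) := by
    have h1 := eventually_diff hΦ
    have h2 : Tendsto (fun y : F => (m1 w0, y)) (𝓝 y0) (𝓝 (m1 w0, y0)) :=
      (Continuous.prodMk_right (m1 w0)).tendsto _
    exact h2.eventually h1
  have hfy : ∀ᶠ y in 𝓝 y0, ∀ᶠ q in 𝓝 (w0, y), f q = n1 q.1 + 2 * Φ (m1 q.1, q.2) := by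
    have h2 : Tendsto (fun y : F => (w0, y)) (𝓝 y0) (𝓝 (w0, y0)) :=
      (Continuous.prodMk_right w0).tendsto _
    exact h2.eventually hf.eventually_nhds
  have h1 : ∀ᶠ y in 𝓝 y0, fderiv ℝ f (w0, y) (h, 0) =
      fderiv ℝ n1 w0 h + 2 * fderiv ℝ Φ (m1 w0, y) (fderiv ℝ m1 w0 h, 0) := by
    filter_upwards [hΦd, hfy] with y hy1 hy2
    have hd : HasFDerivAt (fun q : E × F => n1 q.1 + 2 * Φ (m1 q.1, q.2))
        ((fderiv ℝ n1 w0).comp (ContinuousLinearMap.fst ℝ E F) +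
          (2 : ℝ) • ((fderiv ℝ Φ (m1 w0, y)).comp
            (((fderiv ℝ m1 w0).comp (ContinuousLinearMap.fst ℝ E F)).prod
              (ContinuousLinearMap.snd ℝ E F)))) (w0, y) := by
      have e1 : HasFDerivAt (fun q : E × F => n1 q.1)
          ((fderiv ℝ n1 w0).comp (ContinuousLinearMap.fst ℝ E F)) (w0, y) :=
        HasFDerivAt.comp (w0, y) (g := n1) (f := Prod.fst) hn.hasFDerivAt hasFDerivAt_fst
      have e2 : HasFDerivAt (fun q : E × F => m1 q.1)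
          ((fderiv ℝ m1 w0).comp (ContinuousLinearMap.fst ℝ E F)) (w0, y) :=
        HasFDerivAt.comp (w0, y) (g := m1) (f := Prod.fst) hm.hasFDerivAt hasFDerivAt_fst
      have e3 : HasFDerivAt (fun q : E × F => (m1 q.1, q.2))
          (((fderiv ℝ m1 w0).comp (ContinuousLinearMap.fst ℝ E F)).prod
              (ContinuousLinearMap.snd ℝ E F)) (w0, y) := e2.prodMk hasFDerivAt_snd
      have e4 : HasFDerivAt (fun q : E × F => Φ (m1 q.1, q.2))
          ((fderiv ℝ Φ (m1 w0, y)).comp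
            (((fderiv ℝ m1 w0).comp (ContinuousLinearMap.fst ℝ E F)).prod
              (ContinuousLinearMap.snd ℝ E F))) (w0, y) :=
        HasFDerivAt.comp (w0, y) (g := Φ) (f := fun q : E × F => (m1 q.1, q.2))
          hy1.hasFDerivAt e3
      exact e1.add (e4.const_mul 2)
    have hd2 := hd.congr_of_eventuallyEq hy2
    rw [hd2.fderiv]
    simp
  -- second derivative along `y`
  have h2 : HasFDerivAt (fun y : F => fderiv ℝ f (w0, y) (h, 0))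
      (((ContinuousLinearMap.apply ℝ ℝ ((h, 0) : E × F)).comp
        (fderiv ℝ (fderiv ℝ f) (w0, y0))).comp (ContinuousLinearMap.inr ℝ E F)) y0 := by
    have e1 := hasFDerivAt_fderiv hf2
    have e2 : HasFDerivAt (fun y : F => (w0, y)) (ContinuousLinearMap.inr ℝ E F) y0 :=
      hasFDerivAt_prodMk_right _ _
    have e3 := ((ContinuousLinearMap.apply ℝ ℝ ((h, 0) : E × F)).hasFDerivAt).comp (w0, y0) e1
    exact e3.comp y0 e2
  have h3 : HasFDerivAt (fun y : F => fderiv ℝ n1 w0 h +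
      2 * fderiv ℝ Φ (m1 w0, y) (fderiv ℝ m1 w0 h, 0))
      ((2 : ℝ) • ((((ContinuousLinearMap.apply ℝ ℝ ((fderiv ℝ m1 w0 h, 0) : E × F)).comp
        (fderiv ℝ (fderiv ℝ Φ) (m1 w0, y0))).comp (ContinuousLinearMap.inr ℝ E F)))) y0 := by
    have e1 := hasFDerivAt_fderiv hΦ
    have e2 : HasFDerivAt (fun y : F => (m1 w0, y)) (ContinuousLinearMap.inr ℝ E F) y0 :=
      hasFDerivAt_prodMk_right _ _
    have e3 := ((ContinuousLinearMap.apply ℝ ℝ ((fderiv ℝ m1 w0 h, 0) : E × F)).hasFDerivAt).comp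
      (m1 w0, y0) e1
    exact ((e3.comp y0 e2).const_mul 2).const_add _
  have h4 := h2.unique (h3.congr_of_eventuallyEq h1)
  have h5 := congrArg (fun L : F →L[ℝ] ℝ => L k) h4
  simpa using h5

end euc

variable {n : ℕ} {M : Type*} [MetricSpace M] [ChartedSpace (EuclideanSpace ℝ (Fin n)) M]
  [IsManifold (𝓡 n) ∞ M]
  [RiemannianBundle (fun p : M => TangentSpace (𝓡 n) p)]
  [IsContMDiffRiemannianBundle (𝓡 n) ∞ (EuclideanSpace ℝ (Fin n))
  (fun p : M => TangentSpace (𝓡 n) p)]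

/-- injection of the `w'` variable -/
noncomputable def i2 (n : ℕ) : EE n →L[ℝ] EE n × EE n × EE n :=
  (ContinuousLinearMap.inr ℝ (EE n) (EE n × EE n)).comp (ContinuousLinearMap.inl ℝ (EE n) (EE n))

/-- injection of the `y` variable -/
noncomputable def i3 (n : ℕ) : EE n →L[ℝ] EE n × EE n × EE n :=
  (ContinuousLinearMap.inr ℝ (EE n) (EE n × EE n)).comp (ContinuousLinearMap.inr ℝ (EE n) (EE n))

@[simp] theorem i2_apply (h : EE n) : i2 n h = (0, h, 0) := rfl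
@[simp] theorem i3_apply (h : EE n) : i3 n h = (0, 0, h) := rfl

/-- the point `(x̂, w, Ê(x̂, w))` -/
noncomputable def P3 (G : GeoData n M) (x₀ y₀ : M) (z : EE n × EE n) : EE n × EE n × EE n :=
  (z.1, z.2, Eh G x₀ y₀ z)

/-- Hessian of `rho` in coordinates -/
noncomputable def Hh (G : GeoData n M) (x₀ y₀ : M) (z : EE n × EE n) : EE n →L[ℝ] EE n →L[ℝ] ℝ :=
  (fderiv ℝ (fderiv ℝ (bh G x₀ y₀)) (P3 G x₀ y₀ z)).bilinearComp (i2 n) (i2 n)

/-- mixed derivative in coordinates -/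
noncomputable def Nh (G : GeoData n M) (x₀ y₀ : M) (z : EE n × EE n) : EE n →L[ℝ] EE n →L[ℝ] ℝ :=
  (fderiv ℝ (fderiv ℝ (bh G x₀ y₀)) (P3 G x₀ y₀ z)).bilinearComp (i3 n) (i2 n)

/-- fibre derivative of `exp` in coordinates -/
noncomputable def Jh (G : GeoData n M) (x₀ y₀ : M) (z : EE n × EE n) : EE n →L[ℝ] EE n :=
  (fderiv ℝ (Eh G x₀ y₀) z).comp (ContinuousLinearMap.inr ℝ (EE n) (EE n))

theorem bh_eq (G : GeoData n M) (x₀ y₀ x : M) (hx : x ∈ (chartAt (EuclideanSpace ℝ (Fin n)) x₀).source)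
    (p p' : TangentSpace (𝓡 n) x) (hy : G.ex x p ∈ (chartAt (EuclideanSpace ℝ (Fin n)) y₀).source) :
    bh G x₀ y₀ (extChartAt (𝓡 n) x₀ x, dphi x₀ x p',
      Eh G x₀ y₀ (extChartAt (𝓡 n) x₀ x, dphi x₀ x p)) = rho G x p p' := by
  have e1 : ∀ q : TangentSpace (𝓡 n) x, tmci x₀ (extChartAt (𝓡 n) x₀ x, dphi x₀ x q) =
      (⟨x, q⟩ : TangentBundle (𝓡 n) M) := fun q =>
    tmci_tmc (x₀ := x₀) (p := (⟨x, q⟩ : TangentBundle (𝓡 n) M)) hx
  have e2 : Eh G x₀ y₀ (extChartAt (𝓡 n) x₀ x, dphi x₀ x p) = extChartAt (𝓡 n) y₀ (G.ex x p) := by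
    unfold Eh
    rw [e1]
    rfl
  have e3 : (extChartAt (𝓡 n) y₀).symm (extChartAt (𝓡 n) y₀ (G.ex x p)) = G.ex x p := by
    apply (extChartAt (𝓡 n) y₀).left_inv
    rwa [extChartAt_source]
  have e4 : ‖(tmci x₀ (extChartAt (𝓡 n) x₀ x, dphi x₀ x p')).2‖ ^ 2 = ‖p'‖ ^ 2 :=
    congrArg (fun q : TangentBundle (𝓡 n) M => ‖q.2‖ ^ 2) (e1 p')
  unfold bh rho
  simp only [e2, e3, e4, ← map_smul]
  rw [e1]
  rfl

/-- along `KT`, `w` is a critical point of `w' ↦ bh (x̂, w', Ê(x̂,w))`. -/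
theorem crit (G : GeoData n M) {x₀ y₀ x : M}
    (hx : x ∈ (chartAt (EuclideanSpace ℝ (Fin n)) x₀).source) {p : TangentSpace (𝓡 n) x}
    (hp : p ∈ G.K x) (hy : G.ex x p ∈ (chartAt (EuclideanSpace ℝ (Fin n)) y₀).source)
    (hd : DifferentiableAt ℝ (bh G x₀ y₀) (P3 G x₀ y₀ (extChartAt (𝓡 n) x₀ x, dphi x₀ x p)))
    (h : EE n) :
    fderiv ℝ (bh G x₀ y₀) (P3 G x₀ y₀ (extChartAt (𝓡 n) x₀ x, dphi x₀ x p)) (0, h, 0) = 0 := by
  obtain ⟨z, hz⟩ : ∃ z : EE n × EE n, z = (extChartAt (𝓡 n) x₀ x, dphi x₀ x p) := ⟨_, rfl⟩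
  have hmin : ∀ w' : EE n, bh G x₀ y₀ (P3 G x₀ y₀ z) ≤ bh G x₀ y₀ (z.1, w', Eh G x₀ y₀ z) := by
    intro w'
    have hxt : extChartAt (𝓡 n) x₀ x ∈ (extChartAt (𝓡 n) x₀).target :=
      (extChartAt (𝓡 n) x₀).map_source (by rwa [extChartAt_source])
    have hsurj : ∃ p' : TangentSpace (𝓡 n) x, dphi x₀ x p' = w' := by
      have h1 := dphi_dpsi x₀ hxt w'
      have h2 : (extChartAt (𝓡 n) x₀).symm (extChartAt (𝓡 n) x₀ x) = x :=
        (extChartAt (𝓡 n) x₀).left_inv (by rwa [extChartAt_source])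
      rw [h2] at h1
      exact ⟨_, h1⟩
    obtain ⟨p', rfl⟩ := hsurj
    have h1 := bh_eq G x₀ y₀ x hx p p' hy
    have h2 := bh_eq G x₀ y₀ x hx p p hy
    unfold P3
    rw [hz]
    simp only at h1 h2 ⊢
    rw [h1, h2, rho_self hp]
    exact le_rho G x p p'
  rw [← hz] at hd ⊢
  have hloc : IsLocalMin (fun t : ℝ => bh G x₀ y₀ (z.1, z.2 + t • h, Eh G x₀ y₀ z)) 0 := by
    refine Filter.Eventually.of_forall fun t => ?_
    have := hmin (z.2 + t • h)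
    simpa [P3] using this
  have hder : HasDerivAt (fun t : ℝ => bh G x₀ y₀ (z.1, z.2 + t • h, Eh G x₀ y₀ z))
      (fderiv ℝ (bh G x₀ y₀) (P3 G x₀ y₀ z) (0, h, 0)) 0 := by
    have h1 : HasDerivAt (fun t : ℝ => (z.1, z.2 + t • h, Eh G x₀ y₀ z)) ((0, h, 0) : EE n × EE n × EE n) 0 := by
      have e1 : HasDerivAt (fun t : ℝ => z.2 + t • h) h 0 := by
        have := ((hasDerivAt_id (0:ℝ)).smul_const h).const_add z.2
        simpa using this
      exact (hasDerivAt_const _ _).prodMk (e1.prodMk (hasDerivAt_const _ _))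
    have h2 : HasFDerivAt (bh G x₀ y₀) (fderiv ℝ (bh G x₀ y₀) (P3 G x₀ y₀ z))
        (z.1, z.2 + (0:ℝ) • h, Eh G x₀ y₀ z) := by
      rw [zero_smul, add_zero]
      exact hd.hasFDerivAt
    exact h2.comp_hasDerivAt (0 : ℝ) h1
  exact hloc.hasDerivAt_eq_zero hder

/-- the Hessian of `rho` in coordinates. -/
theorem Hf_eq (G : GeoData n M) {x₀ y₀ x : M}
    (hx : x ∈ (chartAt (EuclideanSpace ℝ (Fin n)) x₀).source) {p : TangentSpace (𝓡 n) x}
    (hy : G.ex x p ∈ (chartAt (EuclideanSpace ℝ (Fin n)) y₀).source)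
    (hd : ContDiffAt ℝ 2 (bh G x₀ y₀) (P3 G x₀ y₀ (extChartAt (𝓡 n) x₀ x, dphi x₀ x p)))
    (ξ η : TangentSpace (𝓡 n) x) :
    Hf G x p ξ η =
      Hh G x₀ y₀ (extChartAt (𝓡 n) x₀ x, dphi x₀ x p) (dphi x₀ x ξ) (dphi x₀ x η) := by
  obtain ⟨z, hz⟩ : ∃ z : EE n × EE n, z = (extChartAt (𝓡 n) x₀ x, dphi x₀ x p) := ⟨_, rfl⟩
  have h1 : rho G x p = fun p' => bh G x₀ y₀ (((i2 n).comp (dphi x₀ x)) p' +
      (z.1, 0, Eh G x₀ y₀ z)) := by
    funext p'
    rw [← bh_eq G x₀ y₀ x hx p p' hy, ← hz]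
    congr 1
    simp [hz]
  have h2 : ((i2 n).comp (dphi x₀ x)) p + (z.1, 0, Eh G x₀ y₀ z) = P3 G x₀ y₀ z := by
    unfold P3
    simp [hz]
  rw [← hz] at hd ⊢
  have h3 := hess_comp_affine (f := bh G x₀ y₀) ((i2 n).comp (dphi x₀ x))
    (z.1, 0, Eh G x₀ y₀ z) (p := p) (by rw [h2]; exact hd) ξ η
  unfold Hf
  rw [h1, h3, h2]
  rfl

/-- the identity at interior points. -/
theorem ident_int {G : GeoData n M} (hC : CutFacts G) {x₀ y₀ x : M}
    (hx : x ∈ (chartAt (EuclideanSpace ℝ (Fin n)) x₀).source) {p : TangentSpace (𝓡 n) x}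
    (hp : p ∈ G.I x) (hy : G.ex x p ∈ (chartAt (EuclideanSpace ℝ (Fin n)) y₀).source)
    (hd : ContDiffAt ℝ 2 (bh G x₀ y₀) (P3 G x₀ y₀ (extChartAt (𝓡 n) x₀ x, dphi x₀ x p)))
    (hE : DifferentiableAt ℝ (Eh G x₀ y₀) (extChartAt (𝓡 n) x₀ x, dphi x₀ x p)) :
    Hh G x₀ y₀ (extChartAt (𝓡 n) x₀ x, dphi x₀ x p) =
      - (Nh G x₀ y₀ (extChartAt (𝓡 n) x₀ x, dphi x₀ x p)).comp
        (Jh G x₀ y₀ (extChartAt (𝓡 n) x₀ x, dphi x₀ x p)) := by
  obtain ⟨z, hz⟩ : ∃ z : EE n × EE n, z = (extChartAt (𝓡 n) x₀ x, dphi x₀ x p) := ⟨_, rfl⟩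
  rw [← hz] at hd hE ⊢
  have hxt : z.1 ∈ (extChartAt (𝓡 n) x₀).target := by
    rw [hz]
    exact (extChartAt (𝓡 n) x₀).map_source (by rwa [extChartAt_source])
  have hzx : tmci x₀ z = (⟨x, p⟩ : TangentBundle (𝓡 n) M) := by
    rw [hz]
    exact tmci_tmc (x₀ := x₀) (p := (⟨x, p⟩ : TangentBundle (𝓡 n) M)) hx
  have hcP : ContinuousAt (P3 G x₀ y₀) z :=
    continuousAt_fst.prodMk (continuousAt_snd.prodMk hE.continuousAt)
  -- nearby points of the fibre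
  have hline : ContinuousAt (fun w' : EE n => (z.1, w')) z.2 :=
    (Continuous.prodMk_right z.1).continuousAt
  have hcI : ∀ᶠ w' in 𝓝 z.2, tmci x₀ (z.1, w') ∈ G.IT := by
    have h1 : ∀ᶠ q in 𝓝 z, tmci x₀ q ∈ G.IT := by
      apply eventually_nhds_tmci hxt (P := fun q => q ∈ G.IT)
      rw [hzx]
      exact hC.isOpen_IT.mem_nhds hp
    exact hline.eventually h1
  have hcy : ∀ᶠ w' in 𝓝 z.2, exT G (tmci x₀ (z.1, w')) ∈
      (chartAt (EuclideanSpace ℝ (Fin n)) y₀).source := by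
    have h1 : ∀ᶠ q in 𝓝 z, exT G (tmci x₀ q) ∈
        (chartAt (EuclideanSpace ℝ (Fin n)) y₀).source := by
      apply eventually_nhds_tmci hxt (P := fun q => exT G q ∈
        (chartAt (EuclideanSpace ℝ (Fin n)) y₀).source)
      rw [hzx]
      have hcont : Continuous (exT G) := G.smooth.continuous
      exact hcont.continuousAt.eventually_mem
        ((chartAt (EuclideanSpace ℝ (Fin n)) y₀).open_source.mem_nhds hy)
    exact hline.eventually h1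
  have hcd : ∀ᶠ w' in 𝓝 z.2, DifferentiableAt ℝ (bh G x₀ y₀) (P3 G x₀ y₀ (z.1, w')) := by
    have h1 : ∀ᶠ q in 𝓝 z, DifferentiableAt ℝ (bh G x₀ y₀) (P3 G x₀ y₀ q) :=
      hcP.eventually (eventually_diff hd)
    exact hline.eventually h1
  have hzero : ∀ᶠ w' in 𝓝 z.2,
      (fderiv ℝ (bh G x₀ y₀) (P3 G x₀ y₀ (z.1, w'))).comp (i2 n) = 0 := by
    filter_upwards [hcI, hcy, hcd] with w' h1 h2 h3
    ext1 h
    have hzz : (z.1, w') = (extChartAt (𝓡 n) x₀ (tmci x₀ (z.1, w')).1,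
        dphi x₀ (tmci x₀ (z.1, w')).1 (tmci x₀ (z.1, w')).2) :=
      (tmc_tmci (x₀ := x₀) (q := (z.1, w')) hxt).symm
    have h4 := crit G (x₀ := x₀) (y₀ := y₀) (x := (tmci x₀ (z.1, w')).1)
      (tmci_mem_source (x₀ := x₀) (q := (z.1, w')) hxt) (p := (tmci x₀ (z.1, w')).2)
      (hC.I_subset _ h1) h2 (by rw [← hzz]; exact h3) h
    rw [← hzz] at h4
    exact h4
  -- differentiate
  have hP : HasFDerivAt (fun w' : EE n => P3 G x₀ y₀ (z.1, w')) ((i2 n) + (i3 n).comp (Jh G x₀ y₀ z))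
      z.2 := by
    have e1 : HasFDerivAt (fun w' : EE n => (z.1, w')) (ContinuousLinearMap.inr ℝ (EE n) (EE n))
        z.2 := hasFDerivAt_prodMk_right _ _
    have e2 : HasFDerivAt (fun w' : EE n => Eh G x₀ y₀ (z.1, w')) (Jh G x₀ y₀ z) z.2 :=
      HasFDerivAt.comp z.2 (g := Eh G x₀ y₀) (f := fun w' : EE n => (z.1, w')) hE.hasFDerivAt e1
    have e3 : HasFDerivAt (fun w' : EE n => ((z.1, w', Eh G x₀ y₀ (z.1, w')) : EE n × EE n × EE n))
        ((0 : EE n →L[ℝ] EE n).prod ((ContinuousLinearMap.id ℝ (EE n)).prod (Jh G x₀ y₀ z))) z.2 :=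
      (hasFDerivAt_const _ _).prodMk ((hasFDerivAt_id _).prodMk e2)
    refine e3.congr_fderiv ?_
    ext1 h
    simp
  have hH := hasFDerivAt_fderiv hd
  have h5 : HasFDerivAt (fun w' : EE n => fderiv ℝ (bh G x₀ y₀) (P3 G x₀ y₀ (z.1, w')))
      ((fderiv ℝ (fderiv ℝ (bh G x₀ y₀)) (P3 G x₀ y₀ z)).comp
        ((i2 n) + (i3 n).comp (Jh G x₀ y₀ z))) z.2 :=
    HasFDerivAt.comp z.2 (g := fderiv ℝ (bh G x₀ y₀)) (f := fun w' : EE n => P3 G x₀ y₀ (z.1, w'))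
      hH hP
  have h6 : ∀ h k : EE n, fderiv ℝ (fderiv ℝ (bh G x₀ y₀)) (P3 G x₀ y₀ z)
      (i2 n h) (i2 n k) + fderiv ℝ (fderiv ℝ (bh G x₀ y₀)) (P3 G x₀ y₀ z)
      (i3 n (Jh G x₀ y₀ z h)) (i2 n k) = 0 := by
    intro h k
    have h7 := ((ContinuousLinearMap.apply ℝ ℝ (i2 n k)).hasFDerivAt).comp z.2 h5
    have h8 : HasFDerivAt (⇑((ContinuousLinearMap.apply ℝ ℝ) ((i2 n) k)) ∘
        fun w' : EE n => fderiv ℝ (bh G x₀ y₀) (P3 G x₀ y₀ (z.1, w'))) (0 : EE n →L[ℝ] ℝ) z.2 := by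
      refine (hasFDerivAt_const (0 : ℝ) z.2).congr_of_eventuallyEq ?_
      filter_upwards [hzero] with w' hw'
      have := congrArg (fun L : EE n →L[ℝ] ℝ => L k) hw'
      simpa using this
    have h9 := congrArg (fun L : EE n →L[ℝ] ℝ => L h) (h7.unique h8)
    simpa using h9
  ext1 h
  ext1 k
  have h10 := h6 h k
  simp only [Hh, Nh, ContinuousLinearMap.bilinearComp_apply, neg_apply,
    ContinuousLinearMap.comp_apply]
  linarith

end Crest.Agent.R226.Jac344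
end

-- ▼ part R226/Jac3_344
section

set_option autoImplicit false
set_option linter.unusedSectionVars false

open MeasureTheory Bundle Set Filter
open scoped Manifold ContDiff Bundle ENNReal Topology
open Crest.GeometryTopology.MTW

namespace Crest.Agent.R226.Jac344

open Crest.Agent.R226.LoeperUnif128 Crest.Agent.R226.TMSmooth771 Crest.Agent.R226.Taylor344
open Crest.Agent.R226.ChartCost77 Crest.Agent.R226.Index77 Crest.Agent.R226.JacCalc344
open Crest.Agent.R226.TaylorCalc344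

variable {n : ℕ} {M : Type*} [MetricSpace M] [ChartedSpace (EuclideanSpace ℝ (Fin n)) M]
  [IsManifold (𝓡 n) ∞ M]
  [RiemannianBundle (fun p : M => TangentSpace (𝓡 n) p)]
  [IsContMDiffRiemannianBundle (𝓡 n) ∞ (EuclideanSpace ℝ (Fin n))
  (fun p : M => TangentSpace (𝓡 n) p)]

theorem two_le_inf : (2 : WithTop ℕ∞) ≤ ((⊤ : ℕ∞) : WithTop ℕ∞) := ENat.LEInfty.out

theorem tmci_mk {x₀ x : M} (hx : x ∈ (chartAt (EuclideanSpace ℝ (Fin n)) x₀).source)
    (q : TangentSpace (𝓡 n) x) : tmci x₀ (extChartAt (𝓡 n) x₀ x, dphi x₀ x q) =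
      (⟨x, q⟩ : TangentBundle (𝓡 n) M) :=
  tmci_tmc (x₀ := x₀) (p := (⟨x, q⟩ : TangentBundle (𝓡 n) M)) hx

theorem continuous_bilinearComp {E F : Type*} [NormedAddCommGroup E] [NormedSpace ℝ E]
    [FiniteDimensional ℝ E]
    [NormedAddCommGroup F] [NormedSpace ℝ F] (g1 g2 : E →L[ℝ] F) :
    Continuous (fun B : F →L[ℝ] F →L[ℝ] ℝ => B.bilinearComp g1 g2) := by
  rw [continuous_clm_apply]
  intro h
  rw [continuous_clm_apply]
  intro k
  simp only [ContinuousLinearMap.bilinearComp_apply]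
  fun_prop

/-- the good conditions at a point of the bundle chart. -/
def GoodPt (G : GeoData n M) (x₀ y₀ : M) (z : EE n × EE n) : Prop :=
  z.1 ∈ (extChartAt (𝓡 n) x₀).target ∧
  exT G (tmci x₀ z) ∈ (chartAt (EuclideanSpace ℝ (Fin n)) y₀).source ∧
  ContDiffAt ℝ 2 (bh G x₀ y₀) (P3 G x₀ y₀ z) ∧ ContDiffAt ℝ 2 (Eh G x₀ y₀) z

theorem goodPt_base {G : GeoData n M} (hC : CutFacts G) {x₀ : M} {p₀ : TangentSpace (𝓡 n) x₀}
    (hp : p₀ ∈ G.K x₀) {y₀ : M} (hy : y₀ = G.ex x₀ p₀) :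
    GoodPt G x₀ y₀ (extChartAt (𝓡 n) x₀ x₀, dphi x₀ x₀ p₀) := by
  have hx : (⟨x₀, p₀⟩ : TangentBundle (𝓡 n) M).1 ∈ (chartAt (EuclideanSpace ℝ (Fin n)) x₀).source :=
    mem_chart_source _ x₀
  have e1 : tmci x₀ (extChartAt (𝓡 n) x₀ x₀, dphi x₀ x₀ p₀) = (⟨x₀, p₀⟩ : TangentBundle (𝓡 n) M) :=
    tmci_tmc (x₀ := x₀) (p := (⟨x₀, p₀⟩ : TangentBundle (𝓡 n) M)) hx
  have e2 : exT G (⟨x₀, p₀⟩ : TangentBundle (𝓡 n) M) = y₀ := hy.symm
  have hys : G.ex x₀ p₀ ∈ (chartAt (EuclideanSpace ℝ (Fin n)) y₀).source := by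
    rw [← hy]; exact mem_chart_source _ y₀
  have e3 : Eh G x₀ y₀ (extChartAt (𝓡 n) x₀ x₀, dphi x₀ x₀ p₀) = extChartAt (𝓡 n) y₀ y₀ := by
    unfold Eh
    rw [e1, e2]
  refine ⟨(extChartAt (𝓡 n) x₀).map_source (mem_extChartAt_source x₀), ?_, ?_, ?_⟩
  · rw [e1, e2]; exact mem_chart_source _ y₀
  · unfold P3
    simp only [e3]
    exact (contDiffAt_bh hC hp hy).of_le two_le_inf
  · exact (contDiffAt_Eh G x₀ p₀ hys).of_le two_le_inf

theorem goodPt_eventually {G : GeoData n M} {x₀ y₀ : M} {z : EE n × EE n}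
    (h : GoodPt G x₀ y₀ z) : ∀ᶠ q in 𝓝 z, GoodPt G x₀ y₀ q := by
  obtain ⟨h1, h2, h3, h4⟩ := h
  have e1 : ∀ᶠ q : EE n × EE n in 𝓝 z, q.1 ∈ (extChartAt (𝓡 n) x₀).target :=
    (isOpen_tmci_source x₀).mem_nhds h1
  have e2 : ∀ᶠ q in 𝓝 z, exT G (tmci x₀ q) ∈
        (chartAt (EuclideanSpace ℝ (Fin n)) y₀).source := by
    apply eventually_nhds_tmci h1 (P := fun q => exT G q ∈
        (chartAt (EuclideanSpace ℝ (Fin n)) y₀).source)
    have hcont : Continuous (exT G) := G.smooth.continuous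
    exact hcont.continuousAt.eventually_mem
      ((chartAt (EuclideanSpace ℝ (Fin n)) y₀).open_source.mem_nhds h2)
  have hcP : ContinuousAt (P3 G x₀ y₀) z :=
    continuousAt_fst.prodMk (continuousAt_snd.prodMk h4.continuousAt)
  have e3 : ∀ᶠ q in 𝓝 z, ContDiffAt ℝ 2 (bh G x₀ y₀) (P3 G x₀ y₀ q) :=
    hcP.eventually (h3.eventually (by simp))
  have e4 : ∀ᶠ q in 𝓝 z, ContDiffAt ℝ 2 (Eh G x₀ y₀) q := h4.eventually (by simp)
  filter_upwards [e1, e2, e3, e4] with q q1 q2 q3 q4 using ⟨q1, q2, q3, q4⟩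

theorem continuousAt_hess {E : Type*} [NormedAddCommGroup E] [NormedSpace ℝ E] {f : E → ℝ} {p : E}
    (hf : ContDiffAt ℝ 2 f p) : ContinuousAt (fderiv ℝ (fderiv ℝ f)) p :=
  ((hf.fderiv_right (m := 1) (by norm_num)).fderiv_right (m := 0) (by norm_num)).continuousAt

theorem continuousAt_D2 {G : GeoData n M} {x₀ y₀ : M} {z : EE n × EE n}
    (h : GoodPt G x₀ y₀ z) :
    ContinuousAt (fun q => fderiv ℝ (fderiv ℝ (bh G x₀ y₀)) (P3 G x₀ y₀ q)) z := by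
  obtain ⟨h1, h2, h3, h4⟩ := h
  have hcP : ContinuousAt (P3 G x₀ y₀) z :=
    continuousAt_fst.prodMk (continuousAt_snd.prodMk h4.continuousAt)
  exact ContinuousAt.comp (f := P3 G x₀ y₀) (g := fderiv ℝ (fderiv ℝ (bh G x₀ y₀)))
    (continuousAt_hess h3) hcP

theorem continuousAt_Hh {G : GeoData n M} {x₀ y₀ : M} {z : EE n × EE n}
    (h : GoodPt G x₀ y₀ z) : ContinuousAt (Hh G x₀ y₀) z :=
  ContinuousAt.comp (f := fun q => fderiv ℝ (fderiv ℝ (bh G x₀ y₀)) (P3 G x₀ y₀ q))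
    (g := fun B : (EE n × EE n × EE n) →L[ℝ] (EE n × EE n × EE n) →L[ℝ] ℝ =>
      B.bilinearComp (i2 n) (i2 n))
    (continuous_bilinearComp (i2 n) (i2 n)).continuousAt (continuousAt_D2 h)

theorem continuousAt_Nh {G : GeoData n M} {x₀ y₀ : M} {z : EE n × EE n}
    (h : GoodPt G x₀ y₀ z) : ContinuousAt (Nh G x₀ y₀) z :=
  ContinuousAt.comp (f := fun q => fderiv ℝ (fderiv ℝ (bh G x₀ y₀)) (P3 G x₀ y₀ q))
    (g := fun B : (EE n × EE n × EE n) →L[ℝ] (EE n × EE n × EE n) →L[ℝ] ℝ =>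
      B.bilinearComp (i3 n) (i2 n))
    (continuous_bilinearComp (i3 n) (i2 n)).continuousAt (continuousAt_D2 h)

theorem continuousAt_Jh {G : GeoData n M} {x₀ y₀ : M} {z : EE n × EE n}
    (h : GoodPt G x₀ y₀ z) : ContinuousAt (Jh G x₀ y₀) z := by
  have h1 : ContinuousAt (fderiv ℝ (Eh G x₀ y₀)) z :=
    (h.2.2.2.fderiv_right (m := 1) (by norm_num)).continuousAt
  unfold Jh
  exact h1.clm_comp continuousAt_const

/-- the identity on `KT`. -/
theorem ident_K {G : GeoData n M} (hC : CutFacts G) {x₀ y₀ x : M}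
    (hx : x ∈ (chartAt (EuclideanSpace ℝ (Fin n)) x₀).source) {p : TangentSpace (𝓡 n) x}
    (hp : p ∈ G.K x) (hg : GoodPt G x₀ y₀ (extChartAt (𝓡 n) x₀ x, dphi x₀ x p)) :
    Hh G x₀ y₀ (extChartAt (𝓡 n) x₀ x, dphi x₀ x p) =
      - (Nh G x₀ y₀ (extChartAt (𝓡 n) x₀ x, dphi x₀ x p)).comp
        (Jh G x₀ y₀ (extChartAt (𝓡 n) x₀ x, dphi x₀ x p)) := by
  obtain ⟨γ, hγ⟩ : ∃ γ : ℝ → EE n × EE n,
      γ = fun r => (extChartAt (𝓡 n) x₀ x, dphi x₀ x (r • p)) := ⟨_, rfl⟩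
  have hγ1 : γ 1 = (extChartAt (𝓡 n) x₀ x, dphi x₀ x p) := by rw [hγ]; simp
  have hγc : Continuous γ := by
    rw [hγ]
    simp only [map_smul]
    fun_prop
  rw [← hγ1] at hg ⊢
  have hcH : Tendsto (fun r => Hh G x₀ y₀ (γ r)) (𝓝[<] 1) (𝓝 (Hh G x₀ y₀ (γ 1))) := by
    have := ContinuousAt.comp (f := γ) (g := Hh G x₀ y₀) (continuousAt_Hh hg) hγc.continuousAt
    exact this.tendsto.mono_left nhdsWithin_le_nhds
  have hcN : Tendsto (fun r => - (Nh G x₀ y₀ (γ r)).comp (Jh G x₀ y₀ (γ r))) (𝓝[<] 1)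
      (𝓝 (- (Nh G x₀ y₀ (γ 1)).comp (Jh G x₀ y₀ (γ 1)))) := by
    have h1 : ContinuousAt (fun z => - (Nh G x₀ y₀ z).comp (Jh G x₀ y₀ z)) (γ 1) :=
      ((continuousAt_Nh hg).clm_comp (continuousAt_Jh hg)).neg
    have := ContinuousAt.comp (f := γ) (g := fun z => - (Nh G x₀ y₀ z).comp (Jh G x₀ y₀ z))
      h1 hγc.continuousAt
    exact this.tendsto.mono_left nhdsWithin_le_nhds
  refine tendsto_nhds_unique hcH (hcN.congr' ?_)
  have hgev : ∀ᶠ r in 𝓝[<] (1:ℝ), GoodPt G x₀ y₀ (γ r) :=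
    (hγc.continuousAt.eventually (goodPt_eventually hg)).filter_mono nhdsWithin_le_nhds
  have hr0 : ∀ᶠ r in 𝓝[<] (1:ℝ), 0 ≤ r :=
    (eventually_ge_nhds (by norm_num : (0:ℝ) < 1)).filter_mono nhdsWithin_le_nhds
  filter_upwards [hgev, self_mem_nhdsWithin, hr0] with r hr hr1 hr0
  have hrI : r • p ∈ G.I x := CutTop478.smul_mem_I G hp hr0 hr1
  have hz : γ r = (extChartAt (𝓡 n) x₀ x, dphi x₀ x (r • p)) := by rw [hγ]
  rw [hz] at hr ⊢
  have hex : G.ex x (r • p) ∈ (chartAt (EuclideanSpace ℝ (Fin n)) y₀).source := by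
    have h1 := hr.2.1
    rw [tmci_mk hx] at h1
    exact h1
  exact (ident_int hC hx hrI hex hr.2.2.1 (hr.2.2.2.differentiableAt (by norm_num))).symm

/-- nondegeneracy of `Nh` at the base point. -/
theorem Nh_inj {G : GeoData n M} (hC : CutFacts G) {x₀ : M} {p₀ : TangentSpace (𝓡 n) x₀}
    (hp : p₀ ∈ G.K x₀) {y₀ : M} (hy : y₀ = G.ex x₀ p₀) {k : EE n}
    (hk : ∀ h, Nh G x₀ y₀ (extChartAt (𝓡 n) x₀ x₀, dphi x₀ x₀ p₀) k h = 0) : k = 0 := by
  have hx := mem_chart_source (EuclideanSpace ℝ (Fin n)) x₀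
  obtain ⟨z₀, v, hv, -, hvy, -, hz⟩ := exists_mid hp
  have hvI := sym_mem_I hC hv
  rw [← hy] at hvy
  obtain ⟨w0, hw0⟩ : ∃ w0 : EE n, w0 = dphi x₀ x₀ p₀ := ⟨_, rfl⟩
  obtain ⟨a0, ha0⟩ : ∃ a0 : EE n, a0 = extChartAt (𝓡 n) x₀ x₀ := ⟨_, rfl⟩
  have hgood := goodPt_base hC hp hy
  rw [← hw0, ← ha0] at hgood hk
  obtain ⟨hg1, hg2, hg3, hg4⟩ := hgood
  have hy0 : Eh G x₀ y₀ (a0, w0) = o y₀ := by
    rw [ha0, hw0]
    unfold Eh o
    rw [tmci_mk hx]
    exact congrArg _ hy.symm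
  have hP3 : P3 G x₀ y₀ (a0, w0) = (a0, w0, o y₀) := by
    unfold P3
    rw [hy0]
  rw [hP3] at hg3
  -- the midpoint map in coordinates
  obtain ⟨m1, hm1⟩ : ∃ m1 : EE n → EE n, m1 = fun w' => Eh G x₀ z₀ (a0, (1 / 2 : ℝ) • w') := ⟨_, rfl⟩
  have hhalfI : (1 / 2 : ℝ) • p₀ ∈ G.I x₀ := CutTop478.smul_mem_I G hp (by norm_num) (by norm_num)
  have hzs : G.ex x₀ ((1 / 2 : ℝ) • p₀) ∈ (chartAt (EuclideanSpace ℝ (Fin n)) z₀).source := by
    rw [← hz]; exact mem_chart_source _ z₀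
  have hEz : ContDiffAt ℝ ∞ (Eh G x₀ z₀) (a0, (1 / 2 : ℝ) • w0) := by
    have := contDiffAt_Eh G x₀ ((1 / 2 : ℝ) • p₀) hzs
    rw [map_smul, ← ha0, ← hw0] at this
    exact this
  have hm1c : ContDiffAt ℝ ∞ m1 w0 := by
    rw [hm1]
    exact ContDiffAt.comp w0 (g := Eh G x₀ z₀) (f := fun w' : EE n => (a0, (1 / 2 : ℝ) • w')) hEz
      (contDiffAt_const.prodMk (contDiffAt_id.const_smul _))
  have hm1d : DifferentiableAt ℝ m1 w0 := hm1c.differentiableAt (by simp)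
  have hm1o : m1 w0 = o z₀ := by
    rw [hm1]
    simp only
    rw [hw0, ← map_smul, ha0]
    unfold Eh o
    rw [tmci_mk hx]
    exact congrArg _ hz.symm
  -- cost in charts
  have hcs : ContDiffAt ℝ ∞ (cc (n := n) z₀ y₀) (o z₀, o y₀) := by
    apply cc_contDiffAt
    have := hC.smooth_cost z₀ v hvI
    rwa [hvy] at this
  -- the function of two variables
  obtain ⟨f, hf⟩ : ∃ f : EE n × EE n → ℝ, f = fun q => bh G x₀ y₀ (ContinuousLinearMap.inr ℝ (EE n)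
      (EE n × EE n) q + (a0, 0, 0)) := ⟨_, rfl⟩
  have hfpt : ContinuousLinearMap.inr ℝ (EE n) (EE n × EE n) (w0, o y₀) + (a0, 0, 0) =
      (a0, w0, o y₀) := by simp
  have hbhc : ContDiffAt ℝ 2 (bh G x₀ y₀) (ContinuousLinearMap.inr ℝ (EE n) (EE n × EE n)
      (w0, o y₀) + (a0, 0, 0)) := by rw [hfpt]; exact hg3
  have hf2 : ContDiffAt ℝ 2 f (w0, o y₀) := by
    rw [hf]
    exact ContDiffAt.comp (w0, o y₀) (g := bh G x₀ y₀)
      (f := fun q => ContinuousLinearMap.inr ℝ (EE n) (EE n × EE n) q + (a0, 0, 0)) hbhc (by fun_prop)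
  have hNf : ∀ h : EE n, Nh G x₀ y₀ (a0, w0) k h =
      fderiv ℝ (fderiv ℝ f) (w0, o y₀) (0, k) (h, 0) := by
    intro h
    have := hess_comp_affine (f := bh G x₀ y₀) (ContinuousLinearMap.inr ℝ (EE n) (EE n × EE n))
      (a0, 0, 0) (p := (w0, o y₀)) hbhc (0, k) (h, 0)
    rw [hf, this, hfpt]
    unfold Nh
    rw [hP3]
    rfl
  obtain ⟨n1, hn1⟩ : ∃ n1 : EE n → ℝ, n1 = fun w' => ‖(tmci x₀ (a0, w')).2‖ ^ 2 / 4 := ⟨_, rfl⟩
  have hn1d : DifferentiableAt ℝ n1 w0 := by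
    have h1 : ContMDiffAt 𝓘(ℝ, EE n) 𝓘(ℝ, EE n × EE n) ∞ (fun w' : EE n => (a0, w')) w0 := by
      apply ContDiffAt.contMDiffAt
      fun_prop
    have h2 := ContMDiffAt.comp w0 (contMDiffAt_tmci (x₀ := x₀) (q := (a0, w0)) hg1) h1
    have h3 : ContMDiffAt 𝓘(ℝ, EE n) 𝓘(ℝ, ℝ) ∞
        (fun w' : EE n => ‖(tmci x₀ (a0, w')).2‖ ^ 2) w0 :=
      (contMDiff_norm_sq (n := n) (M := M)).contMDiffAt.comp w0 h2
    have h4 : ContDiffAt ℝ ∞ (fun w' : EE n => ‖(tmci x₀ (a0, w')).2‖ ^ 2) w0 :=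
      contMDiffAt_iff_contDiffAt.1 h3
    rw [hn1]
    exact (h4.div_const 4).differentiableAt (by simp)
  have hfeq : ∀ᶠ q in 𝓝 (w0, o y₀), f q = n1 q.1 + 2 * cc (n := n) z₀ y₀ (m1 q.1, q.2) := by
    have h1 : ∀ᶠ q : EE n × EE n in 𝓝 (w0, o y₀), exT G (tmci x₀ (a0, (1 / 2 : ℝ) • q.1)) ∈
        (extChartAt (𝓡 n) z₀).source := by
      have h2 : ∀ᶠ q in 𝓝 (a0, (1 / 2 : ℝ) • w0), exT G (tmci x₀ q) ∈
          (extChartAt (𝓡 n) z₀).source := by
        apply eventually_nhds_tmci (q := (a0, (1 / 2 : ℝ) • w0)) hg1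
          (P := fun q => exT G q ∈ (extChartAt (𝓡 n) z₀).source)
        have h3 : tmci x₀ (a0, (1 / 2 : ℝ) • w0) = (⟨x₀, (1 / 2 : ℝ) • p₀⟩ : TangentBundle (𝓡 n) M) := by
          rw [hw0, ← map_smul, ha0, tmci_mk hx]
        rw [h3]
        have hcont : Continuous (exT G) := G.smooth.continuous
        apply hcont.continuousAt.eventually_mem
        have h4 : exT G (⟨x₀, (1 / 2 : ℝ) • p₀⟩ : TangentBundle (𝓡 n) M) = z₀ := hz.symm
        rw [h4]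
        exact extChartAt_source_mem_nhds (I := 𝓡 n) z₀
      have h5 : ContinuousAt (fun q : EE n × EE n => (a0, (1 / 2 : ℝ) • q.1)) (w0, o y₀) := by
        fun_prop
      exact h5.eventually h2
    filter_upwards [h1] with q hq
    have hq3 : ContinuousLinearMap.inr ℝ (EE n) (EE n × EE n) q + (a0, 0, 0) =
        (a0, q.1, q.2) := by
      ext1
      · simp
      · ext1 <;> simp
    rw [hf, hn1, hm1]
    simp only [hq3]
    simp only [bh, cc, Eh, (extChartAt (𝓡 n) z₀).left_inv hq]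
  have hmix := fun h => mixed_comp (f := f) (n1 := n1) (m1 := m1) (Φ := cc (n := n) z₀ y₀)
    (w0 := w0) (y0 := o y₀) hf2 hfeq hn1d hm1d (by rw [hm1o]; exact hcs.of_le two_le_inf) k h
  -- surjectivity of the derivative of `m1`
  have hsurj : ∀ ξ : EE n, ∃ h : EE n, fderiv ℝ m1 w0 h = ξ := by
    intro ξ
    have hcs' : ContDiffAt ℝ ∞ (cc (n := n) x₀ (G.ex x₀ ((1 / 2 : ℝ) • p₀)))
        (o x₀, o (G.ex x₀ ((1 / 2 : ℝ) • p₀))) :=
      cc_contDiffAt (hC.smooth_cost x₀ _ hhalfI)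
    obtain ⟨S, hS1, -⟩ := exists_right_inverse G (hC.I_subset _ hhalfI) hcs'
    have h1 : (fun q : TangentSpace (𝓡 n) x₀ => m1 (dphi x₀ x₀ q)) =
        fun q => ec G x₀ (G.ex x₀ ((1 / 2 : ℝ) • p₀)) ((1 / 2 : ℝ) • q) := by
      funext q
      rw [hm1]
      simp only
      rw [← map_smul, ha0]
      unfold Eh ec
      rw [tmci_mk hx, hz]
      rfl
    have h2 : HasFDerivAt (fun q : TangentSpace (𝓡 n) x₀ => m1 (dphi x₀ x₀ q))
        ((fderiv ℝ m1 w0).comp (dphi x₀ x₀)) p₀ := by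
      have e1 : HasFDerivAt m1 (fderiv ℝ m1 w0) (dphi x₀ x₀ p₀) := by
        rw [← hw0]; exact hm1d.hasFDerivAt
      exact e1.comp p₀ (dphi x₀ x₀).hasFDerivAt
    have h3 : HasFDerivAt (fun q : TangentSpace (𝓡 n) x₀ =>
        ec G x₀ (G.ex x₀ ((1 / 2 : ℝ) • p₀)) ((1 / 2 : ℝ) • q))
        ((fderiv ℝ (ec G x₀ (G.ex x₀ ((1 / 2 : ℝ) • p₀))) ((1 / 2 : ℝ) • p₀)).comp
          ((1 / 2 : ℝ) • ContinuousLinearMap.id ℝ (TangentSpace (𝓡 n) x₀))) p₀ := by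
      have e1 : HasFDerivAt (ec G x₀ (G.ex x₀ ((1 / 2 : ℝ) • p₀)))
          (fderiv ℝ (ec G x₀ (G.ex x₀ ((1 / 2 : ℝ) • p₀))) ((1 / 2 : ℝ) • p₀))
          ((1 / 2 : ℝ) • p₀) :=
        ((ec_contDiffAt G x₀ ((1 / 2 : ℝ) • p₀)).differentiableAt (by simp)).hasFDerivAt
      have e2 : HasFDerivAt (fun q : TangentSpace (𝓡 n) x₀ => (1 / 2 : ℝ) • q)
          ((1 / 2 : ℝ) • ContinuousLinearMap.id ℝ (TangentSpace (𝓡 n) x₀)) p₀ :=
        ((1 / 2 : ℝ) • ContinuousLinearMap.id ℝ (TangentSpace (𝓡 n) x₀)).hasFDerivAt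
      exact HasFDerivAt.comp p₀ e1 e2
    rw [h1] at h2
    have h4 := h2.unique h3
    refine ⟨dphi x₀ x₀ ((2 : ℝ) • S ξ), ?_⟩
    have h5 := congrArg (fun L : TangentSpace (𝓡 n) x₀ →L[ℝ] EE n => L ((2 : ℝ) • S ξ)) h4
    have h6 : ((1 / 2 : ℝ) • ContinuousLinearMap.id ℝ (TangentSpace (𝓡 n) x₀)) ((2 : ℝ) • S ξ) =
        S ξ := by
      simp [smul_smul]
    calc fderiv ℝ m1 w0 (dphi x₀ x₀ ((2 : ℝ) • S ξ))
        = fderiv ℝ (ec G x₀ (G.ex x₀ ((1 / 2 : ℝ) • p₀))) ((1 / 2 : ℝ) • p₀)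
          (((1 / 2 : ℝ) • ContinuousLinearMap.id ℝ (TangentSpace (𝓡 n) x₀)) ((2 : ℝ) • S ξ)) := h5
      _ = ξ := by rw [h6, hS1]
  -- conclusion
  have hall : ∀ ξ : EE n, fderiv ℝ (fderiv ℝ (cc (n := n) z₀ y₀)) (o z₀, o y₀) (0, k) (ξ, 0) = 0 := by
    intro ξ
    obtain ⟨h, rfl⟩ := hsurj ξ
    have h1 := hmix h
    rw [← hNf, hk h, hm1o] at h1
    linarith
  have hcs2 : ContDiffAt ℝ ∞ (cc (n := n) z₀ (G.ex z₀ v)) (o z₀, o (G.ex z₀ v)) := by
    rw [hvy]; exact hcs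
  obtain ⟨S, hS1, hS2⟩ := exists_right_inverse G (hC.I_subset _ hvI) hcs2
  have hSk : S k = 0 := by
    have h1 := hS2 k (S k)
    rw [hvy] at h1
    have h2 := hall (S k : TangentSpace (𝓡 n) z₀)
    have h3 : inner ℝ (S k) (S k) = (0 : ℝ) := by
      rw [h1]
      exact (congrArg Neg.neg h2).trans neg_zero
    exact (inner_self_eq_zero (𝕜 := ℝ)).1 h3
  have := hS1 k
  rw [hSk, map_zero] at this
  exact this.symm

end Crest.Agent.R226.Jac344
end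

-- ▼ part R226/Jac4_344
section

set_option autoImplicit false
set_option linter.unusedSectionVars false

open MeasureTheory Bundle Set Filter
open scoped Manifold ContDiff Bundle ENNReal Topology NNReal
open Crest.GeometryTopology.MTW

namespace Crest.Agent.R226.Jac344

open Crest.Agent.R226.LoeperUnif128 Crest.Agent.R226.TMSmooth771 Crest.Agent.R226.Taylor344
open Crest.Agent.R226.ChartCost77 Crest.Agent.R226.Index77 Crest.Agent.R226.JacCalc344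
open Crest.Agent.R226.TaylorCalc344 Crest.Agent.R226.VolChart767

variable {n : ℕ} {M : Type*} [MetricSpace M] [ChartedSpace (EuclideanSpace ℝ (Fin n)) M]
  [IsManifold (𝓡 n) ∞ M]
  [RiemannianBundle (fun p : M => TangentSpace (𝓡 n) p)]
  [IsContMDiffRiemannianBundle (𝓡 n) ∞ (EuclideanSpace ℝ (Fin n))
  (fun p : M => TangentSpace (𝓡 n) p)]

/-- the isometry as a continuous linear map -/
noncomputable def iL {x : M} (ι : EE n ≃ₗᵢ[ℝ] TangentSpace (𝓡 n) x) : EE n →L[ℝ] TangentSpace (𝓡 n) x :=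
  (ι.toContinuousLinearEquiv : EE n →L[ℝ] TangentSpace (𝓡 n) x)

@[simp] theorem iL_apply {x : M} (ι : EE n ≃ₗᵢ[ℝ] TangentSpace (𝓡 n) x) (a : EE n) :
    iL ι a = ι a := rfl

/-- determinant of the Hessian of `rho` at `ι a`, in an orthonormal basis. -/
noncomputable def detH (G : GeoData n M) (x : M) (ι : EE n ≃ₗᵢ[ℝ] TangentSpace (𝓡 n) x) (a : EE n) :
    ℝ :=
  detB ((Hf G x (ι a)).bilinearComp (iL ι) (iL ι))

/-- boundary vectors are null in each fibre. -/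
theorem null_K_diff_I [CompactSpace M] {G : GeoData n M} (hC : CutFacts G) (x : M)
    (ι : EE n ≃ₗᵢ[ℝ] TangentSpace (𝓡 n) x) :
    (volume : Measure (EE n)) {a | ι a ∈ G.K x ∧ ι a ∉ G.I x} = 0 := by
  have hcont : Continuous (fun a => ι a) := ι.continuous
  apply null_of_ray (volume : Measure (EE n)) (R := Metric.diam (univ : Set M))
  · have h1 : IsClosed {a : EE n | ι a ∈ G.K x} := (CutTop478.isClosed_K G x).preimage hcont
    have h2 : IsOpen {a : EE n | ι a ∈ G.I x} :=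
      (CutTop478.isOpen_I_of_isOpen_IT G hC.isOpen_IT x).preimage hcont
    exact h1.measurableSet.inter h2.measurableSet.compl
  · rintro a ⟨ha, -⟩
    rw [← ι.norm_map]
    exact CutTop478.norm_le_diam G ha
  · rintro a ⟨ha, haI⟩ t ht ⟨hta, -⟩
    apply haI
    refine ⟨t, ht, ?_⟩
    rwa [map_smul] at hta

theorem vol_local [CompactSpace M] [IsRiemannianManifold (𝓡 n) M] [MeasurableSpace M] [BorelSpace M]
    {G : GeoData n M} (hC : CutFacts G) (x₀ : M) (p₀ : TangentSpace (𝓡 n) x₀) (hp : p₀ ∈ G.K x₀) :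
    ∃ O : Set (TangentBundle (𝓡 n) M), IsOpen O ∧ (⟨x₀, p₀⟩ : TangentBundle (𝓡 n) M) ∈ O ∧
      ∃ C : ℝ≥0, ∀ (x : M) (ι : EE n ≃ₗᵢ[ℝ] TangentSpace (𝓡 n) x) (A : Set (EE n)),
        MeasurableSet A → (∀ a ∈ A, ι a ∈ G.K x ∧ (⟨x, ι a⟩ : TangentBundle (𝓡 n) M) ∈ O) →
        (Measure.hausdorffMeasure (n : ℝ) : Measure M) ((fun a => G.ex x (ι a)) '' A) ≤
            C * ∫⁻ a in A, ENNReal.ofReal |detH G x ι a| ∧
        ∫⁻ a in A, ENNReal.ofReal |detH G x ι a| ≤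
          C * (Measure.hausdorffMeasure (n : ℝ) : Measure M) ((fun a => G.ex x (ι a)) '' A) := by
  obtain ⟨y₀, hy⟩ : ∃ y₀, y₀ = G.ex x₀ p₀ := ⟨_, rfl⟩
  have hx₀ := mem_chart_source (EuclideanSpace ℝ (Fin n)) x₀
  obtain ⟨Z, hZ⟩ : ∃ Z : EE n × EE n, Z = (extChartAt (𝓡 n) x₀ x₀, dphi x₀ x₀ p₀) := ⟨_, rfl⟩
  have hgood := goodPt_base hC hp hy
  rw [← hZ] at hgood
  have hgoodev := goodPt_eventually hgood
  -- bounds for `Nh`
  obtain ⟨c, hc⟩ : ∃ c : ℝ, c = |detB (Nh G x₀ y₀ Z)| := ⟨_, rfl⟩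
  have hc0 : 0 < c := by
    rw [hc]
    apply abs_pos.2
    apply detB_ne_zero
    intro k hk
    apply Nh_inj hC hp hy (k := k)
    intro h
    rw [← hZ]
    exact hk h
  have hNcont : ContinuousAt (fun z => |detB (Nh G x₀ y₀ z)|) Z :=
    (continuous_abs.comp continuous_detB).continuousAt.comp (continuousAt_Nh hgood)
  have hNev : ∀ᶠ z in 𝓝 Z, c / 2 < |detB (Nh G x₀ y₀ z)| ∧ |detB (Nh G x₀ y₀ z)| < 2 * c := by
    have h1 : ∀ᶠ z in 𝓝 Z, c / 2 < |detB (Nh G x₀ y₀ z)| :=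
      hNcont.eventually (lt_mem_nhds (by
        change c / 2 < |detB (Nh G x₀ y₀ Z)|
        rw [← hc]; linarith))
    have h2 : ∀ᶠ z in 𝓝 Z, |detB (Nh G x₀ y₀ z)| < 2 * c :=
      hNcont.eventually (gt_mem_nhds (by
        change |detB (Nh G x₀ y₀ Z)| < 2 * c
        rw [← hc]; linarith))
    exact h1.and h2
  -- chart at `x₀`
  obtain ⟨C1, hC1, hb⟩ := dphi_bounds (n := n) x₀
  -- chart at `y₀`
  obtain ⟨K, r, hK⟩ := exists_goodChart (n := n) y₀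
  -- the neighbourhood
  have hTM : ContinuousAt (fun p : TangentBundle (𝓡 n) M => p.1)
        (⟨x₀, p₀⟩ : TangentBundle (𝓡 n) M) :=
    (FiberBundle.continuous_proj (EuclideanSpace ℝ (Fin n))
      (fun p : M => TangentSpace (𝓡 n) p)).continuousAt
  have hev : ∀ᶠ q in 𝓝 (⟨x₀, p₀⟩ : TangentBundle (𝓡 n) M),
      (GoodPt G x₀ y₀ (tmc x₀ q) ∧
        (c / 2 < |detB (Nh G x₀ y₀ (tmc x₀ q))| ∧ |detB (Nh G x₀ y₀ (tmc x₀ q))| < 2 * c)) ∧
      exT G q ∈ dom n y₀ r ∧ q.1 ∈ (chartAt (EuclideanSpace ℝ (Fin n)) x₀).source ∧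
        ∀ v : TangentSpace (𝓡 n) q.1, ‖dphi x₀ q.1 v‖ ≤ C1 * ‖v‖ ∧ ‖v‖ ≤ C1 * ‖dphi x₀ q.1 v‖ := by
    have h1 : ∀ᶠ q in 𝓝 (⟨x₀, p₀⟩ : TangentBundle (𝓡 n) M), GoodPt G x₀ y₀ (tmc x₀ q) ∧
        (c / 2 < |detB (Nh G x₀ y₀ (tmc x₀ q))| ∧ |detB (Nh G x₀ y₀ (tmc x₀ q))| < 2 * c) :=
      map_nhds_tmc (x₀ := x₀) (p := (⟨x₀, p₀⟩ : TangentBundle (𝓡 n) M)) hx₀
        (P := fun z => GoodPt G x₀ y₀ z ∧ (c / 2 < |detB (Nh G x₀ y₀ z)| ∧
          |detB (Nh G x₀ y₀ z)| < 2 * c)) (by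
            have : tmc x₀ (⟨x₀, p₀⟩ : TangentBundle (𝓡 n) M) = Z := hZ.symm
            rw [this]
            exact hgoodev.and hNev)
    have h2 : ∀ᶠ q in 𝓝 (⟨x₀, p₀⟩ : TangentBundle (𝓡 n) M), exT G q ∈ dom n y₀ r := by
      have hcont : Continuous (exT G) := G.smooth.continuous
      apply hcont.continuousAt.eventually_mem
      have h4 : exT G (⟨x₀, p₀⟩ : TangentBundle (𝓡 n) M) = y₀ := hy.symm
      rw [h4]
      exact hK.dom_mem_nhds
    have h3 := hTM.eventually hb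
    filter_upwards [h1, h2, h3] with q q1 q2 q3 using ⟨q1, q2, q3⟩
  obtain ⟨O, hOsub, hOopen, hOmem⟩ := mem_nhds_iff.1 hev
  -- constants
  obtain ⟨C3, hC3⟩ : ∃ C3 : ℝ, C3 = max (C1 ^ n * (2 * c)) (C1 ^ n * (2 / c)) := ⟨_, rfl⟩
  have hC3a : C1 ^ n * (2 * c) ≤ C3 := by rw [hC3]; exact le_max_left _ _
  have hC3b : C1 ^ n * (2 / c) ≤ C3 := by rw [hC3]; exact le_max_right _ _
  have hC3pos : 0 < C3 := lt_of_lt_of_le (by positivity) hC3a
  obtain ⟨C, hCdef⟩ : ∃ C : ℝ≥0, C = max (K ^ n * cH n * C3.toNNReal)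
      (C3.toNNReal * (cH n)⁻¹ * K ^ n) := ⟨_, rfl⟩
  refine ⟨O, hOopen, hOmem, C, fun x ι A hA hAO => ?_⟩
  -- empty case
  rcases A.eq_empty_or_nonempty with rfl | ⟨a₀, ha₀⟩
  · simp
  obtain ⟨-, -, hxs, hxb⟩ := hOsub (hAO a₀ ha₀).2
  change x ∈ _ at hxs
  obtain ⟨L, hL⟩ : ∃ L : EE n →L[ℝ] EE n, L = (dphi x₀ x).comp (iL ι) := ⟨_, rfl⟩
  have hLa : ∀ a, L a = dphi x₀ x (ι a) := fun a => by rw [hL]; rfl
  have hL1 : |L.det| ≤ C1 ^ n := by
    apply abs_det_le L hC1.le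
    intro v
    rw [hLa, ← ι.norm_map v]
    exact (hxb (ι v)).1
  have hL2 : (C1 ^ n)⁻¹ ≤ |L.det| := by
    apply le_abs_det L hC1
    intro v
    rw [hLa, ← ι.norm_map v]
    exact (hxb (ι v)).2
  have hL0 : 0 < |L.det| := lt_of_lt_of_le (by positivity) hL2
  -- the map in coordinates
  obtain ⟨z, hz⟩ : ∃ z : EE n → EE n × EE n, z = fun a => (extChartAt (𝓡 n) x₀ x, dphi x₀ x (ι a)) :=
    ⟨_, rfl⟩
  obtain ⟨f, hf⟩ : ∃ f : EE n → EE n, f = fun a => extChartAt (𝓡 n) y₀ (G.ex x (ι a)) := ⟨_, rfl⟩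
  obtain ⟨f', hf'⟩ : ∃ f' : EE n → (EE n →L[ℝ] EE n), f' = fun a => (Jh G x₀ y₀ (z a)).comp L :=
    ⟨_, rfl⟩
  have hfz : f = fun a => Eh G x₀ y₀ (z a) := by
    rw [hf, hz]
    funext a
    unfold Eh
    rw [tmci_mk hxs]
    rfl
  have hgoodA : ∀ a ∈ A, GoodPt G x₀ y₀ (z a) ∧
      (c / 2 < |detB (Nh G x₀ y₀ (z a))| ∧ |detB (Nh G x₀ y₀ (z a))| < 2 * c) := by
    intro a ha
    have := (hOsub (hAO a ha).2).1
    rw [hz]
    exact this
  have hdomA : ∀ a ∈ A, G.ex x (ι a) ∈ dom n y₀ r := fun a ha => (hOsub (hAO a ha).2).2.1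
  have hsrcA : ∀ a ∈ A, G.ex x (ι a) ∈ (chartAt (EuclideanSpace ℝ (Fin n)) y₀).source := by
    intro a ha
    have := hK.dom_subset_source (hdomA a ha)
    rwa [extChartAt_source] at this
  have hder : ∀ a ∈ A, HasFDerivAt f (f' a) a := by
    intro a ha
    obtain ⟨⟨-, -, -, hg4⟩, -⟩ := hgoodA a ha
    have h1 : HasFDerivAt z ((0 : EE n →L[ℝ] EE n).prod L) a := by
      rw [hz]
      have e1 : HasFDerivAt (fun a => dphi x₀ x (ι a)) L a := by
        have : (fun a => dphi x₀ x (ι a)) = fun a => L a := by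
          funext a; rw [hLa]
        rw [this]
        exact L.hasFDerivAt
      exact (hasFDerivAt_const _ _).prodMk e1
    have h2 := (hg4.differentiableAt (by norm_num)).hasFDerivAt.comp a h1
    rw [hfz, hf']
    refine h2.congr_fderiv ?_
    ext1 h
    simp [Jh]
  have hdet : ∀ a ∈ A, |detH G x ι a| = |L.det| * |detB (Nh G x₀ y₀ (z a))| * |(f' a).det| := by
    intro a ha
    obtain ⟨hg, -⟩ := hgoodA a ha
    have hza : z a = (extChartAt (𝓡 n) x₀ x, dphi x₀ x (ι a)) := by rw [hz]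
    have h1 : detH G x ι a = L.det ^ 2 * detB (Hh G x₀ y₀ (z a)) := by
      unfold detH
      apply detB_congr
      intro v w
      rw [ContinuousLinearMap.bilinearComp_apply, hLa, hLa, hza]
      exact Hf_eq G hxs (hsrcA a ha) (by rw [← hza]; exact hg.2.2.1) (ι v) (ι w)
    have h2 : Hh G x₀ y₀ (z a) = - (Nh G x₀ y₀ (z a)).comp (Jh G x₀ y₀ (z a)) := by
      rw [hza]
      exact ident_K hC hxs (hAO a ha).1 (by rw [← hza]; exact hg)
    have h3 : (f' a).det = (Jh G x₀ y₀ (z a)).det * L.det := by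
      rw [hf']
      exact LinearMap.det_comp _ _
    rw [h1, h2, abs_mul, detB_neg, detB_comp_left, h3, abs_mul, abs_mul, abs_pow]
    ring
  have hcmp1 : ∀ a ∈ A, |detH G x ι a| ≤ C3 * |(f' a).det| := by
    intro a ha
    rw [hdet a ha]
    have h1 := (hgoodA a ha).2.2
    have h2 : |L.det| * |detB (Nh G x₀ y₀ (z a))| ≤ C1 ^ n * (2 * c) := by
      gcongr
    gcongr
    exact h2.trans hC3a
  have hcmp2 : ∀ a ∈ A, |(f' a).det| ≤ C3 * |detH G x ι a| := by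
    intro a ha
    rw [hdet a ha]
    have h1 := (hgoodA a ha).2.1
    have hcn : (C1 ^ n)⁻¹ * (c / 2) ≤ |L.det| * |detB (Nh G x₀ y₀ (z a))| := by
      gcongr
    have h2 : 1 ≤ C3 * (|L.det| * |detB (Nh G x₀ y₀ (z a))|) := by
      calc (1:ℝ) = (C1 ^ n * (2 / c)) * ((C1 ^ n)⁻¹ * (c / 2)) := by field_simp
        _ ≤ C3 * (|L.det| * |detB (Nh G x₀ y₀ (z a))|) := by gcongr
    have h3 := abs_nonneg (f' a).det
    calc |(f' a).det| = 1 * |(f' a).det| := (one_mul _).symm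
      _ ≤ (C3 * (|L.det| * |detB (Nh G x₀ y₀ (z a))|)) * |(f' a).det| := by gcongr
      _ = _ := by ring
  -- the image
  have himg : (fun a => G.ex x (ι a)) '' A = (extChartAt (𝓡 n) y₀).symm '' (f '' A) := by
    rw [hf]
    ext y
    constructor
    · rintro ⟨a, ha, rfl⟩
      exact ⟨_, ⟨a, ha, rfl⟩, hK.left_inv (hdomA a ha)⟩
    · rintro ⟨_, ⟨a, ha, rfl⟩, rfl⟩
      exact ⟨a, ha, (hK.left_inv (hdomA a ha)).symm⟩
  have hball : f '' A ⊆ Metric.ball (extChartAt (𝓡 n) y₀ y₀) r := by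
    rintro _ ⟨a, ha, rfl⟩
    rw [hf]
    exact hK.mapsTo (hdomA a ha)
  have hcH : (0 : ℝ≥0) < cH n := cH_pos n
  constructor
  · rw [himg]
    calc (Measure.hausdorffMeasure (n : ℝ) : Measure M) ((extChartAt (𝓡 n) y₀).symm '' (f '' A))
        ≤ (K : ℝ≥0∞) ^ n * (cH n * volume (f '' A)) := hK.vol_symm_image_le hball
      _ ≤ (K : ℝ≥0∞) ^ n * (cH n * ∫⁻ a in A, ENNReal.ofReal |(f' a).det|) := by
          gcongr
          exact addHaar_image_le_lintegral_abs_det_fderiv volume hA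
            (fun a ha => (hder a ha).hasFDerivWithinAt)
      _ ≤ (K : ℝ≥0∞) ^ n * (cH n * ∫⁻ a in A, (C3.toNNReal : ℝ≥0∞) *
            ENNReal.ofReal |detH G x ι a|) := by
          gcongr _ * (_ * ?_)
          apply setLIntegral_mono' hA
          intro a ha
          have h1 : (C3.toNNReal : ℝ≥0∞) = ENNReal.ofReal C3 := rfl
          rw [h1, ← ENNReal.ofReal_mul hC3pos.le]
          exact ENNReal.ofReal_le_ofReal (hcmp2 a ha)
      _ = (K : ℝ≥0∞) ^ n * (cH n * ((C3.toNNReal : ℝ≥0∞) * ∫⁻ a in A,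
            ENNReal.ofReal |detH G x ι a|)) := by
          rw [lintegral_const_mul' _ _ ENNReal.coe_ne_top]
      _ = ((K ^ n * cH n * C3.toNNReal : ℝ≥0) : ℝ≥0∞) * ∫⁻ a in A,
            ENNReal.ofReal |detH G x ι a| := by
          push_cast; ring
      _ ≤ C * ∫⁻ a in A, ENNReal.ofReal |detH G x ι a| := by
          gcongr
          rw [hCdef]
          exact le_max_left _ _
  · -- restrict to the interior
    obtain ⟨A', hA'⟩ : ∃ A' : Set (EE n), A' = A ∩ {a | ι a ∈ G.I x} := ⟨_, rfl⟩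
    have hA'm : MeasurableSet A' := by
      rw [hA']
      refine hA.inter (IsOpen.measurableSet ?_)
      exact (CutTop478.isOpen_I_of_isOpen_IT G hC.isOpen_IT x).preimage ι.continuous
    have hA'A : A' ⊆ A := by rw [hA']; exact inter_subset_left
    have hinj : InjOn f A' := by
      intro a ha b hb hab
      rw [hA'] at ha hb
      rw [hf] at hab
      have h1 : G.ex x (ι a) = G.ex x (ι b) := hK.injOn (hdomA a ha.1) (hdomA b hb.1) hab
      have h2 : ι a = ι b := (hC.uniq x (ι b) hb.2 (ι a) (hAO a ha.1).1 h1)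
      exact ι.injective h2
    have hnull := null_K_diff_I hC x ι
    calc ∫⁻ a in A, ENNReal.ofReal |detH G x ι a|
        ≤ ∫⁻ a in A' ∪ {a | ι a ∈ G.K x ∧ ι a ∉ G.I x}, ENNReal.ofReal |detH G x ι a| := by
          apply lintegral_mono_set
          intro a ha
          by_cases h : ι a ∈ G.I x
          · left; rw [hA']; exact ⟨ha, h⟩
          · right; exact ⟨(hAO a ha).1, h⟩
      _ ≤ (∫⁻ a in A', ENNReal.ofReal |detH G x ι a|) +
          ∫⁻ a in {a | ι a ∈ G.K x ∧ ι a ∉ G.I x}, ENNReal.ofReal |detH G x ι a| :=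
          lintegral_union_le _ _ _
      _ = ∫⁻ a in A', ENNReal.ofReal |detH G x ι a| := by
          rw [setLIntegral_measure_zero _ _ hnull, add_zero]
      _ ≤ ∫⁻ a in A', (C3.toNNReal : ℝ≥0∞) * ENNReal.ofReal |(f' a).det| := by
          apply setLIntegral_mono' hA'm
          intro a ha
          have h1 : (C3.toNNReal : ℝ≥0∞) = ENNReal.ofReal C3 := rfl
          rw [h1, ← ENNReal.ofReal_mul hC3pos.le]
          exact ENNReal.ofReal_le_ofReal (hcmp1 a (hA'A ha))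
      _ = (C3.toNNReal : ℝ≥0∞) * ∫⁻ a in A', ENNReal.ofReal |(f' a).det| := by
          rw [lintegral_const_mul' _ _ ENNReal.coe_ne_top]
      _ = (C3.toNNReal : ℝ≥0∞) * volume (f '' A') := by
          rw [lintegral_abs_det_fderiv_eq_addHaar_image volume hA'm
            (fun a ha => (hder a (hA'A ha)).hasFDerivWithinAt) hinj]
      _ ≤ (C3.toNNReal : ℝ≥0∞) * volume (f '' A) := by
          gcongr
      _ = (C3.toNNReal : ℝ≥0∞) * (((cH n)⁻¹ : ℝ≥0) * (cH n * volume (f '' A))) := by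
          rw [← mul_assoc (((cH n)⁻¹ : ℝ≥0) : ℝ≥0∞), ← ENNReal.coe_mul,
            inv_mul_cancel₀ hcH.ne', ENNReal.coe_one, one_mul]
      _ ≤ (C3.toNNReal : ℝ≥0∞) * (((cH n)⁻¹ : ℝ≥0) * ((K : ℝ≥0∞) ^ n *
            (Measure.hausdorffMeasure (n : ℝ) : Measure M)
              ((extChartAt (𝓡 n) y₀).symm '' (f '' A)))) := by
          gcongr _ * (_ * ?_)
          exact hK.volume_le hball
      _ = ((C3.toNNReal * (cH n)⁻¹ * K ^ n : ℝ≥0) : ℝ≥0∞) *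
            (Measure.hausdorffMeasure (n : ℝ) : Measure M) ((fun a => G.ex x (ι a)) '' A) := by
          rw [← himg]
          push_cast
          ring
      _ ≤ _ := by
          gcongr
          rw [hCdef]
          exact le_max_right _ _

end Crest.Agent.R226.Jac344
end

-- ▼ part R226/Jac5_344

set_option autoImplicit false
set_option linter.unusedSectionVars false

open MeasureTheory Bundle Set Filter
open scoped Manifold ContDiff Bundle ENNReal Topology NNReal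
open Crest.GeometryTopology.MTW

namespace Crest.Agent.R226.Jac344

open Crest.Agent.R226.JacCalc344 Crest.Agent.R226.E1Shape964

variable {n : ℕ} {M : Type*} [MetricSpace M] [ChartedSpace (EuclideanSpace ℝ (Fin n)) M]
  [IsManifold (𝓡 n) ∞ M]
  [RiemannianBundle (fun p : M => TangentSpace (𝓡 n) p)]
  [IsContMDiffRiemannianBundle (𝓡 n) ∞ (EuclideanSpace ℝ (Fin n))
  (fun p : M => TangentSpace (𝓡 n) p)]

/-- isometries from the model space exist. -/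
theorem exists_iso (n : ℕ) {M : Type*} [MetricSpace M] [ChartedSpace (EuclideanSpace ℝ (Fin n)) M]
    [IsManifold (𝓡 n) ∞ M] [RiemannianBundle (fun p : M => TangentSpace (𝓡 n) p)] (x : M) :
    Nonempty (EE n ≃ₗᵢ[ℝ] TangentSpace (𝓡 n) x) := by
  have hfin : Module.finrank ℝ (TangentSpace (𝓡 n) x) = n := by
    have h1 : Module.finrank ℝ (EE n) = n := by simp
    exact h1
  exact ⟨((stdOrthonormalBasis ℝ (TangentSpace (𝓡 n) x)).reindex (finCongr hfin)).repr.symm⟩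

/-- **global volume comparison.** -/
theorem vol_global [CompactSpace M] [IsRiemannianManifold (𝓡 n) M] [MeasurableSpace M]
    [BorelSpace M] {G : GeoData n M} (hC : CutFacts G) :
    ∃ C : ℝ≥0, ∀ (x : M) (ι : EE n ≃ₗᵢ[ℝ] TangentSpace (𝓡 n) x) (A : Set (EE n)),
        MeasurableSet A → (∀ a ∈ A, ι a ∈ G.K x) →
        (Measure.hausdorffMeasure (n : ℝ) : Measure M) ((fun a => G.ex x (ι a)) '' A) ≤
            C * ∫⁻ a in A, ENNReal.ofReal |detH G x ι a| ∧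
        ∫⁻ a in A, ENNReal.ofReal |detH G x ι a| ≤
          C * (Measure.hausdorffMeasure (n : ℝ) : Measure M) ((fun a => G.ex x (ι a)) '' A) := by
  have key : ∃ O : Set (TangentBundle (𝓡 n) M), IsOpen O ∧ G.KT ⊆ O ∧ ∃ C : ℝ≥0,
      ∀ (x : M) (ι : EE n ≃ₗᵢ[ℝ] TangentSpace (𝓡 n) x) (A : Set (EE n)),
        MeasurableSet A → (∀ a ∈ A, ι a ∈ G.K x ∧ (⟨x, ι a⟩ : TangentBundle (𝓡 n) M) ∈ O) →
        (Measure.hausdorffMeasure (n : ℝ) : Measure M) ((fun a => G.ex x (ι a)) '' A) ≤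
            C * ∫⁻ a in A, ENNReal.ofReal |detH G x ι a| ∧
        ∫⁻ a in A, ENNReal.ofReal |detH G x ι a| ≤
          C * (Measure.hausdorffMeasure (n : ℝ) : Measure M) ((fun a => G.ex x (ι a)) '' A) := by
    refine hC.isCompact_KT.induction_on (p := fun S => ∃ O : Set (TangentBundle (𝓡 n) M), IsOpen O ∧
      S ⊆ O ∧ ∃ C : ℝ≥0,
      ∀ (x : M) (ι : EE n ≃ₗᵢ[ℝ] TangentSpace (𝓡 n) x) (A : Set (EE n)),
        MeasurableSet A → (∀ a ∈ A, ι a ∈ G.K x ∧ (⟨x, ι a⟩ : TangentBundle (𝓡 n) M) ∈ O) →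
        (Measure.hausdorffMeasure (n : ℝ) : Measure M) ((fun a => G.ex x (ι a)) '' A) ≤
            C * ∫⁻ a in A, ENNReal.ofReal |detH G x ι a| ∧
        ∫⁻ a in A, ENNReal.ofReal |detH G x ι a| ≤
          C * (Measure.hausdorffMeasure (n : ℝ) : Measure M) ((fun a => G.ex x (ι a)) '' A))
      ?_ ?_ ?_ ?_
    · refine ⟨∅, isOpen_empty, Subset.rfl, 0, fun x ι A hA hAO => ?_⟩
      have : A = ∅ := eq_empty_of_forall_notMem fun a ha => (hAO a ha).2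
      subst this
      simp
    · rintro s t hst ⟨O, hO, htO, C, h⟩
      exact ⟨O, hO, hst.trans htO, C, h⟩
    · rintro s t ⟨O, hO, hsO, C, h⟩ ⟨O', hO', htO', C', h'⟩
      refine ⟨O ∪ O', hO.union hO', union_subset_union hsO htO', C + C',
        fun x ι A hA hAO => ?_⟩
      obtain ⟨B, hB⟩ : ∃ B : Set (EE n), B = {a | (⟨x, ι a⟩ : TangentBundle (𝓡 n) M) ∈ O} :=
        ⟨_, rfl⟩
      have hBm : MeasurableSet B := by
        rw [hB]
        have hcont : Continuous fun a : EE n => (⟨x, ι a⟩ : TangentBundle (𝓡 n) M) :=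
          (CutTop478.continuous_mk (n := n) x).comp ι.continuous
        exact (hO.preimage hcont).measurableSet
      have h1 := h x ι (A ∩ B) (hA.inter hBm) (by
        rintro a ⟨ha, haB⟩
        rw [hB] at haB
        exact ⟨(hAO a ha).1, haB⟩)
      have h2 := h' x ι (A \ B) (hA.diff hBm) (by
        rintro a ⟨ha, haB⟩
        rw [hB] at haB
        refine ⟨(hAO a ha).1, ?_⟩
        rcases (hAO a ha).2 with h3 | h3
        · exact absurd h3 haB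
        · exact h3)
      have hsplit : ∫⁻ a in A, ENNReal.ofReal |detH G x ι a| =
          (∫⁻ a in A ∩ B, ENNReal.ofReal |detH G x ι a|) +
            ∫⁻ a in A \ B, ENNReal.ofReal |detH G x ι a| :=
        (lintegral_inter_add_sdiff _ A hBm).symm
      have himg : (fun a => G.ex x (ι a)) '' A =
          (fun a => G.ex x (ι a)) '' (A ∩ B) ∪ (fun a => G.ex x (ι a)) '' (A \ B) := by
        rw [← image_union, inter_union_sdiff]
      constructor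
      · rw [himg, hsplit]
        refine (measure_union_le _ _).trans ?_
        rw [ENNReal.coe_add, mul_add]
        apply add_le_add
        · refine h1.1.trans ?_
          gcongr
          exact le_self_add
        · refine h2.1.trans ?_
          gcongr
          exact le_add_self
      · rw [hsplit]
        have e1 : (Measure.hausdorffMeasure (n : ℝ) : Measure M)
            ((fun a => G.ex x (ι a)) '' (A ∩ B)) ≤
            (Measure.hausdorffMeasure (n : ℝ) : Measure M) ((fun a => G.ex x (ι a)) '' A) :=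
          measure_mono (image_mono inter_subset_left)
        have e2 : (Measure.hausdorffMeasure (n : ℝ) : Measure M)
            ((fun a => G.ex x (ι a)) '' (A \ B)) ≤
            (Measure.hausdorffMeasure (n : ℝ) : Measure M) ((fun a => G.ex x (ι a)) '' A) :=
          measure_mono (image_mono sdiff_subset)
        rw [ENNReal.coe_add, add_mul]
        apply add_le_add
        · refine h1.2.trans ?_
          gcongr
        · refine h2.2.trans ?_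
          gcongr
    · intro q hq
      obtain ⟨O, hO, hqO, C, h⟩ := vol_local hC q.1 q.2 hq
      exact ⟨O, mem_nhdsWithin_of_mem_nhds (hO.mem_nhds hqO), O, hO, Subset.rfl, C, h⟩
  obtain ⟨O, -, hKO, C, h⟩ := key
  exact ⟨C, fun x ι A hA hAK => h x ι A hA fun a ha => ⟨hAK a ha, hKO (hAK a ha)⟩⟩



end Crest.Agent.R226.Jac344
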