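import Crest.Agent.R226.NF1_946
import Crest.Agent.R226.NF5_946

-- ▼ part R226/NF2_946
section

set_option autoImplicit false

open MeasureTheory Bundle Set Filter
open scoped Manifold ContDiff Bundle ENNReal Topology
open Crest.GeometryTopology.MTW
open Crest.Agent.R226.Calc347 Crest.Agent.R226.MTWConc117 Crest.Agent.R226.Base347
open Crest.Agent.R226.Crit347 Crest.Agent.R226.Focal347

namespace Crest.Agent.R226.NF946

section abs
variable {E : Type*} [NormedAddCommGroup E] [InnerProductSpace ℝ E]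

/-- second derivative of the value function of the two-step problem, from a smooth minimiser -/
theorem value_second [FiniteDimensional ℝ E] {F : E × E → ℝ} {V : E → ℝ} {z p : E}
    (h1 : ContDiffAt ℝ ∞ F (0, z)) (h2 : ContDiffAt ℝ ∞ F (z, p))
    (hpos : ∀ h : E, h ≠ 0 → 0 < hess F (0, z) (0, h) (0, h) + hess F (z, p) (h, 0) (h, 0))
    {ζ : E → E} (hζ : Tendsto ζ (𝓝 0) (𝓝 z))
    (hV : ∀ᶠ ξ in 𝓝 0, V ξ = 2 * F (ξ, ζ ξ) + 2 * F (ζ ξ, p))
    (hle : ∀ᶠ ξ in 𝓝 0, ∀ w, V ξ ≤ 2 * F (ξ, w) + 2 * F (w, p)) (ξ : E) :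
    ∃ om : E, Sec (fun s : ℝ => V (s • ξ))
      (2 * hess F (0, z) (ξ, om) (ξ, om) + 2 * hess F (z, p) (om, 0) (om, 0)) := by
  have : CompleteSpace E := FiniteDimensional.complete ℝ E
  let L₂ : E × E →L[ℝ] E × E := (ContinuousLinearMap.inl ℝ E E) ∘L (ContinuousLinearMap.snd ℝ E E)
  have hL₂ : ∀ q : E × E, L₂ q + (0, p) = (q.2, p) := by intro q; simp [L₂]
  set g : E × E → ℝ := fun q => 2 * F q + 2 * F (L₂ q + (0, p)) with hg
  have hgq : ∀ ξ w : E, g (ξ, w) = 2 * F (ξ, w) + 2 * F (w, p) := by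
    intro ξ w; simp only [hg, hL₂]
  have h2' : ContDiffAt ℝ ∞ F (L₂ (0, z) + (0, p)) := by rw [hL₂]; exact h2
  have hg2 : ContDiffAt ℝ ∞ (fun q => F (L₂ q + (0, p))) (0, z) :=
    ContDiffAt.comp _ (f := fun q => L₂ q + (0, p)) h2' (by fun_prop)
  have hg1' : ContDiffAt ℝ ∞ (fun q => 2 * F q) (0, z) := contDiffAt_const.mul h1
  have hg2' : ContDiffAt ℝ ∞ (fun q => 2 * F (L₂ q + (0, p))) (0, z) := contDiffAt_const.mul hg2
  have hgs : ContDiffAt ℝ ∞ g (0, z) := hg1'.add hg2'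
  have hD : ∀ u v : E × E, hess g (0, z) u v =
      2 * hess F (0, z) u v + 2 * hess F (z, p) (u.2, 0) (v.2, 0) := by
    intro u v
    have e1 := hess_add' (f := fun q => 2 * F q) (g := fun q => 2 * F (L₂ q + (0, p)))
      (hg1'.of_le two_le_infty) (hg2'.of_le two_le_infty) u v
    have e3 := hess_const_mul' (h1.of_le two_le_infty) 2 u v
    have e4 := hess_const_mul' (hg2.of_le two_le_infty) 2 u v
    have e6 := hess_comp_affine' L₂ (0, p) (h2'.of_le two_le_infty) u v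
    rw [hL₂] at e6
    rw [hg, e1, e3, e4, e6]
    simp [L₂]
  have hgmin : ∀ᶠ ξ in 𝓝 (0 : E), IsLocalMin (fun w => g (ξ, w)) (ζ ξ) := by
    filter_upwards [hV, hle] with ξ h3 h4
    refine Filter.Eventually.of_forall fun w => ?_
    show g (ξ, ζ ξ) ≤ g (ξ, w)
    rw [hgq, hgq, ← h3]
    exact h4 w
  have hζ0 : ζ 0 = z := eq_of_tendsto_nhds hζ
  have hgdiff : DifferentiableAt ℝ g (0, z) := hgs.differentiableAt (by simp)
  have hfirst : fderiv ℝ g (0, z) ∘L ContinuousLinearMap.inr ℝ E E = 0 := by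
    have h5 : HasFDerivAt (fun w : E => g (0, w))
        (fderiv ℝ g (0, z) ∘L ContinuousLinearMap.inr ℝ E E) z :=
      hgdiff.hasFDerivAt.comp z (hasFDerivAt_prodMk_right _ _)
    have h6 := hgmin.self_of_nhds
    rw [hζ0] at h6
    exact h6.hasFDerivAt_eq_zero h5
  have hζs : ContDiffAt ℝ ∞ ζ 0 := by
    refine contDiffAt_minimiser hgs ?_ hζ hfirst hgmin
    intro h hh
    have h7 := hD (0, h) (0, h)
    have h8 := hpos h hh
    show 0 < hess g (0, z) (0, h) (0, h)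
    rw [h7]; linarith
  have hline : HasDerivAt (fun s : ℝ => s • ξ) ξ 0 := by
    simpa using (hasDerivAt_id (0 : ℝ)).smul_const ξ
  have hζc : ContDiffAt ℝ 2 (fun s : ℝ => ζ (s • ξ)) 0 := by
    have h9 : ContDiffAt ℝ 2 ζ ((0 : ℝ) • ξ) := by rw [zero_smul]; exact hζs.of_le two_le_infty
    exact ContDiffAt.comp (0 : ℝ) h9 (by fun_prop)
  set γ : ℝ → E × E := fun s => (s • ξ, ζ (s • ξ)) with hγ
  have hγc : ContDiffAt ℝ 2 γ 0 := by
    have h9 : ContDiffAt ℝ 2 (fun s : ℝ => s • ξ) 0 := by fun_prop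
    exact h9.prodMk hζc
  have hγ0 : γ 0 = (0, z) := by simp [hγ, hζ0]
  have hS := Sec.comp_curve (hgs.of_le two_le_infty) hγc hγ0
  -- the first and second derivatives of `γ`
  have hd1 : ∀ᶠ s in 𝓝 (0 : ℝ), HasDerivAt γ (ξ, deriv (fun s : ℝ => ζ (s • ξ)) s) s := by
    have h10 : ∀ᶠ s in 𝓝 (0 : ℝ), ContDiffAt ℝ 2 (fun s : ℝ => ζ (s • ξ)) s :=
      hζc.eventually (by simp)
    filter_upwards [h10] with s hs
    have h11 : HasDerivAt (fun s : ℝ => s • ξ) ξ s := by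
      simpa using (hasDerivAt_id s).smul_const ξ
    exact h11.prodMk (hs.differentiableAt (by norm_num)).hasDerivAt
  have hdγ : deriv γ =ᶠ[𝓝 0] fun s => (ξ, deriv (fun s : ℝ => ζ (s • ξ)) s) := by
    filter_upwards [hd1] with s hs using hs.deriv
  have hdd : DifferentiableAt ℝ (deriv (fun s : ℝ => ζ (s • ξ))) 0 := by
    have h4 : ContDiffAt ℝ 1 (fderiv ℝ (fun s : ℝ => ζ (s • ξ))) 0 :=
      hζc.fderiv_right (by norm_num)
    exact (h4.differentiableAt (by norm_num)).clm_apply (differentiableAt_const (1 : ℝ))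
  have hddγ : deriv (deriv γ) 0 = (0, deriv (deriv (fun s : ℝ => ζ (s • ξ))) 0) := by
    rw [hdγ.deriv_eq]
    exact ((hasDerivAt_const (0 : ℝ) ξ).prodMk hdd.hasDerivAt).deriv
  have hzero : ∀ v : E, fderiv ℝ g (0, z) (0, v) = 0 := by
    intro v
    have := congrArg (fun L : E →L[ℝ] ℝ => L v) hfirst
    simpa using this
  rw [hddγ, hzero, add_zero, hdγ.self_of_nhds, hD] at hS
  refine ⟨deriv (fun s : ℝ => ζ (s • ξ)) 0, hS.congr ?_⟩
  have hcl : ContinuousAt (fun s : ℝ => s • ξ) 0 := by fun_prop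
  have hV' : ∀ᶠ y in 𝓝 ((0 : ℝ) • ξ), V y = 2 * F (y, ζ y) + 2 * F (ζ y, p) := by
    rw [zero_smul]; exact hV
  filter_upwards [hcl.eventually hV'] with s hs
  rw [hs]
  exact (hgq _ _).symm

end abs

variable {n : ℕ} {M : Type*} [MetricSpace M] [ChartedSpace (EuclideanSpace ℝ (Fin n)) M]
  [IsManifold (𝓡 n) ∞ M]
  [RiemannianBundle (fun p : M => TangentSpace (𝓡 n) p)]
  [IsContMDiffRiemannianBundle (𝓡 n) ∞ (EuclideanSpace ℝ (Fin n))
    (fun p : M => TangentSpace (𝓡 n) p)] [CompactSpace M]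
  {G : GeoData n M}

omit [RiemannianBundle (fun p : M => TangentSpace (𝓡 n) p)]
  [IsContMDiffRiemannianBundle (𝓡 n) ∞ (EuclideanSpace ℝ (Fin n))
    (fun p : M => TangentSpace (𝓡 n) p)] [CompactSpace M] in
/-- convergence in a fibre from convergence in the tangent bundle -/
theorem tendsto_fiber {α : Type*} {l : Filter α} {x : M} {f : α → TangentSpace (𝓡 n) x}
    {v : TangentSpace (𝓡 n) x}
    (h : Tendsto (fun a => (⟨x, f a⟩ : TangentBundle (𝓡 n) M)) l (𝓝 ⟨x, v⟩)) :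
    Tendsto f l (𝓝 v) := by
  have h1 := FiberBundle.totalSpaceMk_isInducing (EuclideanSpace ℝ (Fin n))
    (TangentSpace (𝓡 n) : M → Type _) x
  rw [h1.tendsto_nhds_iff]
  exact h

/-- midpoints of minimisers, in normal coordinates -/
theorem exists_mid {x : M} {p : TangentSpace (𝓡 n) x} (hp : p ∈ G.I x) :
    ∃ ζ : TangentSpace (𝓡 n) x → TangentSpace (𝓡 n) x,
      Tendsto ζ (𝓝 0) (𝓝 ((1 / 2 : ℝ) • p)) ∧
      ∀ ξ, F G x (ξ, p) = 2 * F G x (ξ, ζ ξ) + 2 * F G x (ζ ξ, p) := by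
  let m : M × M → M := fun q => G.ex q.1 ((1 / 2 : ℝ) • CutSmooth77.wt G q)
  have hmid : ∀ q : M × M, halfDistSq q.1 q.2 =
      2 * halfDistSq q.1 (m q) + 2 * halfDistSq (m q) q.2 := by
    intro q
    have hK := CutSmooth77.wt_mem G q
    have hK' : (1 : ℝ) • CutSmooth77.wt G q ∈ G.K q.1 := by rwa [one_smul]
    have d1 : dist q.1 (m q) = 1 / 2 * ‖CutSmooth77.wt G q‖ :=
      CutTop478.dist_from G hK' (t := 1 / 2) (by norm_num) (by norm_num)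
    have d2 : dist (m q) (G.ex q.1 ((1 : ℝ) • CutSmooth77.wt G q)) =
        (1 - 1 / 2) * ‖CutSmooth77.wt G q‖ :=
      CutTop478.dist_seg G hK' (s := 1 / 2) (t := 1) (by norm_num) (by norm_num) le_rfl
    rw [one_smul, CutSmooth77.wt_ex] at d2
    have d3 : dist q.1 q.2 = ‖CutSmooth77.wt G q‖ := by
      have := (CutTop478.mem_K G).1 hK
      rwa [CutSmooth77.wt_ex] at this
    unfold halfDistSq
    rw [d3, d1, d2]
    ring
  have hhalf : (1 / 2 : ℝ) • p ∈ G.I x :=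
    CutTop478.star_I G x p hp (1 / 2) (by norm_num) (by norm_num)
  have hex : Tendsto (fun ξ : TangentSpace (𝓡 n) x => (G.ex x ξ, G.ex x p)) (𝓝 0)
      (𝓝 (x, G.ex x p)) := by
    have h1 := (continuous_ex (G := G) x).tendsto 0
    rw [G.ex_zero] at h1
    exact h1.prodMk_nhds tendsto_const_nhds
  have hm : Tendsto (fun ξ : TangentSpace (𝓡 n) x => m (G.ex x ξ, G.ex x p)) (𝓝 0)
      (𝓝 (G.ex x ((1 / 2 : ℝ) • p))) := by
    have hc : Continuous (fun p : TangentBundle (𝓡 n) M => G.ex p.1 ((1 / 2 : ℝ) • p.2)) :=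
      (CutTop478.continuous_ex G).comp (CutSmooth77.contMDiff_scale (1 / 2 : ℝ)).continuous
    exact (hc.tendsto (⟨x, p⟩ : TangentBundle (𝓡 n) M)).comp
      ((CutSmooth77.tendsto_Wt G hp).comp hex)
  refine ⟨fun ξ => CutSmooth77.wt G (x, m (G.ex x ξ, G.ex x p)), ?_, fun ξ => ?_⟩
  · apply tendsto_fiber
    have h1 : Tendsto (fun ξ : TangentSpace (𝓡 n) x => (x, m (G.ex x ξ, G.ex x p))) (𝓝 0)
      (𝓝 (x, G.ex x ((1 / 2 : ℝ) • p))) := tendsto_const_nhds.prodMk_nhds hm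
    exact (CutSmooth77.tendsto_Wt G hhalf).comp h1
  · have h1 := hmid (G.ex x ξ, G.ex x p)
    have h2 : G.ex x (CutSmooth77.wt G (x, m (G.ex x ξ, G.ex x p))) = m (G.ex x ξ, G.ex x p) :=
      CutSmooth77.wt_ex G (x, m (G.ex x ξ, G.ex x p))
    unfold F
    simp only [h2]
    exact h1

/-- `phi` as the minimum of the two-step Hessian: attained -/
theorem phi_eq_ex (hB : Base G) {x : M} {p : TangentSpace (𝓡 n) x} (hp : p ∈ G.I x)
    (ξ : TangentSpace (𝓡 n) x) : ∃ om : TangentSpace (𝓡 n) x,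
    G.phi x ξ p = 2 * G.phi x ξ ((1 / 2 : ℝ) • p) - 4 * inner ℝ om ξ + 4 * Hf G x p om om := by
  obtain ⟨ζ, hζ, hζe⟩ := exists_mid (G := G) hp
  have hpK := hB.I_subset x hp
  have hhalf : (1 / 2 : ℝ) • p ∈ G.I x := hB.smul_mem_I hpK (by norm_num) (by norm_num)
  obtain ⟨om, hom⟩ := value_second (F := F G x) (V := fun ξ => F G x (ξ, p)) (z := (1 / 2 : ℝ) • p)
    (p := p) (hB.contDiffAt_F_zero hhalf) (contDiffAt_F_half hB hpK)
    (fun h hh => by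
      have h1 := Hf_pos hB hp hh
      rw [Hf_apply hB hpK, real_inner_self_eq_norm_sq] at h1
      rw [hB.hess_F_snd hhalf]
      linarith) hζ (Eventually.of_forall hζe)
    (Eventually.of_forall fun ξ w => halfDistSq_le_two _ _ _) ξ
  refine ⟨om, ?_⟩
  have h1 := (hB.sec_phi hp ξ).unique hom
  rw [h1, hB.hess_F hhalf, Hf_apply hB hpK, real_inner_self_eq_norm_sq]
  ring

/-- **the normal form of `phi`** : `phi x ξ p = 2 phi x ξ (p/2) - ⟪Hf(p)⁻¹ ξ, ξ⟫` for `p ∈ I`. -/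
theorem phi_eq (hB : Base G) {x : M} {p : TangentSpace (𝓡 n) x} (hp : p ∈ G.I x)
    {ξ v : TangentSpace (𝓡 n) x} (hv : ∀ η, Hf G x p v η = inner ℝ ξ η) :
    G.phi x ξ p = 2 * G.phi x ξ ((1 / 2 : ℝ) • p) - Hf G x p v v := by
  have hpK := hB.I_subset x hp
  apply le_antisymm
  · have h1 := phi_le_Hf hB hp ξ ((1 / 2 : ℝ) • v)
    have e : Hf G x p ((1 / 2 : ℝ) • v) ((1 / 2 : ℝ) • v) = 1 / 4 * Hf G x p v v := by
      rw [map_smul, map_smul, smul_apply, smul_eq_mul, smul_eq_mul]; ring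
    rw [e, real_inner_smul_left, real_inner_comm, ← hv v] at h1
    linarith
  · obtain ⟨om, hom⟩ := phi_eq_ex hB hp ξ
    have h2 : 0 ≤ Hf G x p (om - (1 / 2 : ℝ) • v) (om - (1 / 2 : ℝ) • v) := Hf_nonneg hB hpK _
    have h3 : Hf G x p (om - (1 / 2 : ℝ) • v) (om - (1 / 2 : ℝ) • v) =
        Hf G x p om om - inner ℝ ξ om + 1 / 4 * Hf G x p v v := by
      have h4 : Hf G x p om v = inner ℝ ξ om := by rw [Hf_symm hB hpK, hv]
      simp only [map_sub, map_smul, sub_apply, smul_apply, smul_eq_mul]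
      rw [h4, hv om]; ring
    rw [h3] at h2
    have h5 := real_inner_comm om ξ
    rw [hom]
    linarith

omit [IsContMDiffRiemannianBundle (𝓡 n) ∞ (EuclideanSpace ℝ (Fin n))
    (fun p : M => TangentSpace (𝓡 n) p)] [CompactSpace M] in
/-- surjectivity of `Hf(p)`, `p ∈ I` -/
theorem exists_Hf_eq (hB : Base G) {x : M} {p : TangentSpace (𝓡 n) x} (hp : p ∈ G.I x)
    (ξ : TangentSpace (𝓡 n) x) : ∃ v, ∀ η, Hf G x p v η = inner ℝ ξ η := by
  have hinj : Function.Injective (Hf G x p) := by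
    rw [injective_iff_map_eq_zero]
    intro v hv
    by_contra hne
    have h1 := Hf_pos hB hp hne
    rw [hv] at h1
    simp at h1
  have hfin : Module.finrank ℝ (TangentSpace (𝓡 n) x) =
      Module.finrank ℝ (TangentSpace (𝓡 n) x →L[ℝ] ℝ) := by
    rw [← (LinearMap.toContinuousLinearMap (𝕜 := ℝ) (E := TangentSpace (𝓡 n) x)
      (F' := ℝ)).finrank_eq]
    exact (Subspace.dual_finrank_eq (K := ℝ) (V := TangentSpace (𝓡 n) x)).symm
  have hsurj := (LinearMap.injective_iff_surjective_of_finrank_eq_finrank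
    (f := (Hf G x p : TangentSpace (𝓡 n) x →ₗ[ℝ] (TangentSpace (𝓡 n) x →L[ℝ] ℝ))) hfin).1 hinj
  obtain ⟨v, hv⟩ := hsurj (innerSL ℝ ξ)
  refine ⟨v, fun η => ?_⟩
  have := congrArg (fun L : TangentSpace (𝓡 n) x →L[ℝ] ℝ => L η) hv
  simpa using this

end Crest.Agent.R226.NF946
end

-- ▼ part R226/NF6_946

set_option autoImplicit false

open MeasureTheory Bundle Set Filter
open scoped Manifold ContDiff Bundle ENNReal Topology
open Crest.GeometryTopology.MTW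
open Crest.Agent.R226.Calc347 Crest.Agent.R226.MTWConc117 Crest.Agent.R226.Base347
open Crest.Agent.R226.TMSmooth771 Crest.Agent.R226.LoeperUnif128

namespace Crest.Agent.R226.NF946

section abs
variable {E : Type*} [NormedAddCommGroup E] [InnerProductSpace ℝ E]

theorem PkB.apply {F : E × E → ℝ} {k : ℕ} {B : ℝ} {q : E} (h : PkB F k B q) (u v : E) :
    ContDiffAt ℝ k (fun q => PfA F q u v) q ∧
    ∀ j ≤ k, ‖iteratedFDeriv ℝ j (fun q => PfA F q u v) q‖ ≤ B * ‖u‖ * ‖v‖ := by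
  obtain ⟨h1, h2⟩ := apply_bound_gen h.1 h.2 u
  exact apply_bound_gen h1 h2 v

theorem PkB.line {F : E × E → ℝ} {k : ℕ} {B : ℝ} {p η : E} {s : ℝ} (h : PkB F k B (p + s • η))
    (u v : E) :
    ContDiffAt ℝ k (fun s : ℝ => PfA F (p + s • η) u v) s ∧
    ∀ j ≤ k, |iteratedDeriv j (fun s : ℝ => PfA F (p + s • η) u v) s| ≤
      B * ‖u‖ * ‖v‖ * ‖η‖ ^ j := by
  obtain ⟨h1, h2⟩ := h.apply u v
  obtain ⟨h3, h4⟩ := line_bound_gen h1 h2
  refine ⟨h3, fun j hj => ?_⟩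
  rw [← Real.norm_eq_abs, ← norm_iteratedFDeriv_eq_norm_iteratedDeriv]
  exact h4 j hj

end abs

section real

/-- a `C²` function on `[0,1]` with `|g''| ≤ C` is semiconvex: chord estimate -/
theorem chord_le {g : ℝ → ℝ} {C : ℝ} (hg : ∀ s ∈ Icc (0 : ℝ) 1, ContDiffAt ℝ 2 g s)
    (hC : ∀ s ∈ Icc (0 : ℝ) 1, -C ≤ iteratedDeriv 2 g s) {t : ℝ} (ht : t ∈ Icc (0 : ℝ) 1) :
    g t ≤ (1 - t) * g 0 + t * g 1 + C / 2 * (t * (1 - t)) := by
  -- `g + C s²/2` is convex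
  have hconv : ConvexOn ℝ (Icc (0 : ℝ) 1) (fun s => g s + C / 2 * s ^ 2) := by
    refine convexOn_of_deriv2_nonneg (convex_Icc 0 1) ?_ ?_ ?_ ?_
    · intro s hs
      exact ((hg s hs).continuousAt.continuousWithinAt).add (by fun_prop)
    · intro s hs
      have hs' := interior_subset hs
      exact (((hg s hs').differentiableAt (by norm_num)).add (by fun_prop)).differentiableWithinAt
    · rw [interior_Icc]
      intro s hs
      have hs' : s ∈ Icc (0 : ℝ) 1 := Ioo_subset_Icc_self hs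
      have h1 : ContDiffAt ℝ 2 (fun s => g s + C / 2 * s ^ 2) s := (hg s hs').add (by fun_prop)
      have h2 : DifferentiableAt ℝ (deriv (fun s => g s + C / 2 * s ^ 2)) s :=
        differentiableAt_deriv_of_contDiffAt_two h1
      exact h2.differentiableWithinAt
    · rw [interior_Icc]
      intro s hs
      have hs' : s ∈ Icc (0 : ℝ) 1 := Ioo_subset_Icc_self hs
      have h3 : iteratedDeriv 2 (fun s => g s + C / 2 * s ^ 2) s = iteratedDeriv 2 g s + C := by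
        have h4 := iteratedDeriv_add (n := 2) (f := g) (g := fun s => C / 2 * s ^ 2) (x := s)
          (hg s hs') (by fun_prop)
        have h5 : iteratedDeriv 2 (fun s : ℝ => C / 2 * s ^ 2) s = C := by
          rw [iteratedDeriv_two_eq]
          have h6 : deriv (fun s : ℝ => C / 2 * s ^ 2) = fun s => C * s := by
            funext s
            have h7 : HasDerivAt (fun s : ℝ => C / 2 * s ^ 2) (C / 2 * (2 * s)) s := by
              have := (hasDerivAt_pow 2 s).const_mul (C / 2)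
              simpa using this
            rw [h7.deriv]; ring
          rw [h6]
          have h8 : HasDerivAt (fun s : ℝ => C * s) (C * 1) s := (hasDerivAt_id s).const_mul C
          rw [h8.deriv, mul_one]
        rw [h5] at h4
        exact h4
      have h9 : deriv^[2] (fun s => g s + C / 2 * s ^ 2) s =
          iteratedDeriv 2 (fun s => g s + C / 2 * s ^ 2) s := by
        rw [iteratedDeriv_eq_iterate]
      rw [h9, h3]
      have := hC s hs'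
      linarith
  have h := hconv.2 (left_mem_Icc.2 zero_le_one) (right_mem_Icc.2 zero_le_one)
    (sub_nonneg.2 ht.2) ht.1 (by ring)
  simp only [smul_eq_mul, mul_zero, mul_one, zero_add] at h
  have e : g t + C / 2 * t ^ 2 ≤ (1 - t) * (g 0 + C / 2 * 0 ^ 2) + t * (g 1 + C / 2 * 1 ^ 2) := h
  nlinarith [e]

end real

variable {n : ℕ} {M : Type*} [MetricSpace M] [ChartedSpace (EuclideanSpace ℝ (Fin n)) M]
  [IsManifold (𝓡 n) ∞ M]
  [RiemannianBundle (fun p : M => TangentSpace (𝓡 n) p)]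
  [IsContMDiffRiemannianBundle (𝓡 n) ∞ (EuclideanSpace ℝ (Fin n))
    (fun p : M => TangentSpace (𝓡 n) p)]
  {G : GeoData n M}

/-- local uniform bounds near `(θ₁ q, θ₂ q)` -/
theorem unif_Ft_near {y : M} {q : TangentSpace (𝓡 n) y} {θ₁ θ₂ : ℝ} (h1 : |θ₁| ≤ 1)
    (h2 : |θ₂| ≤ 1)
    (hs : ContMDiffAt ((𝓡 n).prod (𝓡 n)) 𝓘(ℝ) ∞ (fun q : M × M => halfDistSq q.1 q.2)
      (G.ex y (θ₁ • q), G.ex y (θ₂ • q))) (k : ℕ) :
    ∃ N ∈ 𝓝 (⟨y, q⟩ : TangentBundle (𝓡 n) M), ∃ δ B : ℝ, 0 < δ ∧ 0 ≤ B ∧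
      ∀ x : M, ∀ p w b : TangentSpace (𝓡 n) x, (⟨x, p⟩ : TangentBundle (𝓡 n) M) ∈ N →
        ‖w - θ₁ • p‖ < δ → ‖b - θ₂ • p‖ < δ →
        ContDiffAt ℝ k (F G x) (w, b) ∧ ∀ j ≤ k, ‖iteratedFDeriv ℝ j (F G x) (w, b)‖ ≤ B := by
  obtain ⟨ε, B, C, hε, hB0, hC, hev⟩ := unif_F_local (G := G) (y := y)
    (w₀ := θ₁ • q) (b₀ := θ₂ • q) hs k
  have hy : (⟨y, q⟩ : TangentBundle (𝓡 n) M).1 ∈ (chartAt (EuclideanSpace ℝ (Fin n)) y).source :=
    mem_chart_source _ y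
  have h3 : ContinuousAt (fun p : TangentBundle (𝓡 n) M => p.1)
      (⟨y, q⟩ : TangentBundle (𝓡 n) M) :=
    (FiberBundle.continuous_proj (EuclideanSpace ℝ (Fin n))
      (fun p : M => TangentSpace (𝓡 n) p)).continuousAt
  have h4 : ∀ᶠ p in 𝓝 (⟨y, q⟩ : TangentBundle (𝓡 n) M),
      dist (tmc y p) (tmc y (⟨y, q⟩ : TangentBundle (𝓡 n) M)) < ε / 2 :=
    map_nhds_tmc (x₀ := y) (p := (⟨y, q⟩ : TangentBundle (𝓡 n) M)) hy
      (P := fun a => dist a (tmc y (⟨y, q⟩ : TangentBundle (𝓡 n) M)) < ε / 2)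
      (Metric.ball_mem_nhds _ (by positivity))
  refine ⟨_, (h3.eventually hev).and h4, ε / (2 * C), B, by positivity, hB0, ?_⟩
  rintro x p w b ⟨⟨hx, hbd, hx2⟩, hp⟩ hw hb
  have hp2 : dist (dphi y x p) (dphi y y q) < ε / 2 := lt_of_le_of_lt (le_max_right _ _) hp
  rw [dist_eq_norm] at hp2
  have key : ∀ u : TangentSpace (𝓡 n) x, ‖u‖ < ε / (2 * C) → ‖dphi y x u‖ < ε / 2 := by
    intro u hu
    have h3 := (hbd u).1
    rw [lt_div_iff₀ (by positivity)] at hu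
    nlinarith
  have key2 : ∀ θ : ℝ, |θ| ≤ 1 → ∀ u : TangentSpace (𝓡 n) x, ‖u - θ • p‖ < ε / (2 * C) →
      dist (dphi y x u) (dphi y y (θ • q)) < ε := by
    intro θ hθ u hu
    rw [dist_eq_norm]
    have e1 : dphi y x u - dphi y y (θ • q) =
        dphi y x (u - θ • p) + θ • (dphi y x p - dphi y y q) := by
      rw [map_sub, map_smul, map_smul, smul_sub]; abel
    rw [e1]
    refine (norm_add_le _ _).trans_lt ?_
    rw [norm_smul, Real.norm_eq_abs]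
    have h4 := key _ hu
    have h6 := norm_nonneg (dphi y x p - dphi y y q)
    have h7 : |θ| * ‖dphi y x p - dphi y y q‖ ≤ 1 * ‖dphi y x p - dphi y y q‖ := by gcongr
    linarith
  exact hx2 w b (key2 θ₁ h1 w hw) (key2 θ₂ h2 b hb)

/-- uniform bounds near `(θ₁ p, θ₂ p)`, `p ∈ K(x)` -/
theorem unif_Ft (hB : Base G) {θ₁ θ₂ : ℝ} (h1 : |θ₁| ≤ 1) (h2 : |θ₂| ≤ 1)
    (hs : ∀ y, ∀ q ∈ G.K y, ContMDiffAt ((𝓡 n).prod (𝓡 n)) 𝓘(ℝ) ∞
      (fun q : M × M => halfDistSq q.1 q.2) (G.ex y (θ₁ • q), G.ex y (θ₂ • q))) (k : ℕ) :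
    ∃ δ B : ℝ, 0 < δ ∧ 0 ≤ B ∧
    ∀ x : M, ∀ p w b : TangentSpace (𝓡 n) x, p ∈ G.K x →
      ‖w - θ₁ • p‖ < δ → ‖b - θ₂ • p‖ < δ →
      ContDiffAt ℝ k (F G x) (w, b) ∧ ∀ j ≤ k, ‖iteratedFDeriv ℝ j (F G x) (w, b)‖ ≤ B := by
  let P : Set (TangentBundle (𝓡 n) M) → Prop := fun S => ∃ δ B : ℝ, 0 < δ ∧ 0 ≤ B ∧
    ∀ x : M, ∀ p w b : TangentSpace (𝓡 n) x, (⟨x, p⟩ : TangentBundle (𝓡 n) M) ∈ S →
      ‖w - θ₁ • p‖ < δ → ‖b - θ₂ • p‖ < δ →
      ContDiffAt ℝ k (F G x) (w, b) ∧ ∀ j ≤ k, ‖iteratedFDeriv ℝ j (F G x) (w, b)‖ ≤ B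
  have hP : P G.KT := by
    refine hB.isCompact_KT.induction_on (p := P) ?_ ?_ ?_ ?_
    · exact ⟨1, 0, one_pos, le_rfl, fun x p w b h => (Set.notMem_empty _ h).elim⟩
    · rintro s t hst ⟨δ, B, hδ, hB0, h⟩
      exact ⟨δ, B, hδ, hB0, fun x p w b hp => h x p w b (hst hp)⟩
    · rintro s t ⟨δ, B, hδ, hB0, h⟩ ⟨δ', B', hδ', hB0', h'⟩
      refine ⟨min δ δ', max B B', lt_min hδ hδ', le_max_of_le_left hB0, ?_⟩
      rintro x p w b (hp | hp) hw hb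
      · obtain ⟨h1, h2⟩ := h x p w b hp (hw.trans_le (min_le_left _ _))
          (hb.trans_le (min_le_left _ _))
        exact ⟨h1, fun j hj => (h2 j hj).trans (le_max_left _ _)⟩
      · obtain ⟨h1, h2⟩ := h' x p w b hp (hw.trans_le (min_le_right _ _))
          (hb.trans_le (min_le_right _ _))
        exact ⟨h1, fun j hj => (h2 j hj).trans (le_max_right _ _)⟩
    · rintro ⟨y, q⟩ hq
      obtain ⟨N, hN, δ, B, hδ, hB0, h⟩ := unif_Ft_near h1 h2 (hs y q hq) k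
      exact ⟨N, mem_nhdsWithin_of_mem_nhds hN, δ, B, hδ, hB0, h⟩
  obtain ⟨δ, B, hδ, hB0, h⟩ := hP
  exact ⟨δ, B, hδ, hB0, fun x p w b hp => h x p w b hp⟩

/-- uniform bounds of the cost near `(0, θ p)`, `p ∈ K(x)`, `0 ≤ θ < 1` -/
theorem unif_F0 (hB : Base G) {θ : ℝ} (h0 : 0 ≤ θ) (h1 : θ < 1) (k : ℕ) :
    ∃ δ B : ℝ, 0 < δ ∧ 0 ≤ B ∧
    ∀ x : M, ∀ p w b : TangentSpace (𝓡 n) x, p ∈ G.K x → ‖w‖ < δ → ‖b - θ • p‖ < δ →
      ContDiffAt ℝ k (F G x) (w, b) ∧ ∀ j ≤ k, ‖iteratedFDeriv ℝ j (F G x) (w, b)‖ ≤ B := by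
  obtain ⟨δ, B, hδ, hB0, h⟩ := unif_Ft hB (θ₁ := 0) (θ₂ := θ) (by simp)
    (by rw [abs_of_nonneg h0]; exact h1.le) (fun y q hq => by
      rw [zero_smul, G.ex_zero]
      exact hB.smooth_cost y _ (hB.smul_mem_I hq h0 h1)) k
  exact ⟨δ, B, hδ, hB0, fun x p w b hp hw hb => h x p w b hp (by simpa using hw) hb⟩

omit [IsContMDiffRiemannianBundle (𝓡 n) ∞ (EuclideanSpace ℝ (Fin n))
    (fun p : M => TangentSpace (𝓡 n) p)] in
/-- `phi` as an entry of `PfA` -/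
theorem phi_eq_PfA {x : M} {q : TangentSpace (𝓡 n) x} (h : ContDiffAt ℝ 2 (F G x) (0, q))
    (ξ : TangentSpace (𝓡 n) x) : G.phi x ξ q = PfA (F G x) q ξ ξ := by
  rw [PfA_apply h]
  have h1 := hess_fst h ξ
  simp only [zero_add] at h1
  exact h1.2

/-- uniform `C^k` bounds of `phi` near `θ K(x)` along lines -/
theorem unif_phi (hB : Base G) {θ : ℝ} (h0 : 0 ≤ θ) (h1 : θ < 1) (k : ℕ) :
    ∃ δ B : ℝ, 0 < δ ∧ 0 ≤ B ∧
    ∀ x : M, ∀ p q η ξ : TangentSpace (𝓡 n) x, ∀ s : ℝ, p ∈ G.K x →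
      ‖q + s • η - θ • p‖ < δ →
      ContDiffAt ℝ k (fun s : ℝ => G.phi x ξ (q + s • η)) s ∧
      ∀ j ≤ k, |iteratedDeriv j (fun s : ℝ => G.phi x ξ (q + s • η)) s| ≤
        B * ‖ξ‖ ^ 2 * ‖η‖ ^ j := by
  obtain ⟨δ, B, hδ, hB0, h⟩ := unif_F0 hB h0 h1 (k + 2)
  refine ⟨δ, B, hδ, hB0, fun x p q η ξ s hp hq => ?_⟩
  have h2le : (2 : WithTop ℕ∞) ≤ ((k + 2 : ℕ) : WithTop ℕ∞) := by
    have : (2 : ℕ) ≤ k + 2 := by omega
    exact_mod_cast this
  obtain ⟨h2, h3⟩ := h x p 0 (q + s • η) hp (by simpa using hδ) hq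
  obtain ⟨h4, h5⟩ := (PfA_bound (F := F G x) h2 h3).line ξ ξ
  have hev : (fun s : ℝ => G.phi x ξ (q + s • η)) =ᶠ[𝓝 s]
      fun s : ℝ => PfA (F G x) (q + s • η) ξ ξ := by
    have hc : ContinuousAt (fun s : ℝ => ‖q + s • η - θ • p‖) s := by fun_prop
    filter_upwards [hc.eventually_lt continuousAt_const hq] with t ht
    exact phi_eq_PfA ((h x p 0 (q + t • η) hp (by simpa using hδ) ht).1.of_le h2le) ξ
  refine ⟨h4.congr_of_eventuallyEq hev, fun j hj => ?_⟩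
  rw [hev.iteratedDeriv_eq j]
  refine (h5 j hj).trans (le_of_eq ?_)
  ring

/-- boundedness of `phi` on `θ K(x)` -/
theorem unif_phi_bdd (hB : Base G) {θ : ℝ} (h0 : 0 ≤ θ) (h1 : θ < 1) :
    ∃ B : ℝ, 0 ≤ B ∧ ∀ x : M, ∀ p ξ : TangentSpace (𝓡 n) x, p ∈ G.K x →
      |G.phi x ξ (θ • p)| ≤ B * ‖ξ‖ ^ 2 := by
  obtain ⟨δ, B, hδ, hB0, h⟩ := unif_phi hB h0 h1 0
  refine ⟨B, hB0, fun x p ξ hp => ?_⟩
  have h2 := (h x p (θ • p) 0 ξ 0 hp (by simpa using hδ)).2 0 le_rfl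
  simpa using h2

/-- `⟪Hf(p)⁻¹ ξ, ξ⟫` for `p ∈ I` -/
noncomputable def Rf (G : GeoData n M) (x : M) (ξ p : TangentSpace (𝓡 n) x) : ℝ :=
  2 * G.phi x ξ ((1 / 2 : ℝ) • p) - G.phi x ξ p

omit [IsContMDiffRiemannianBundle (𝓡 n) ∞ (EuclideanSpace ℝ (Fin n))
    (fun p : M => TangentSpace (𝓡 n) p)] in
/-- lower bound of `Rf` by test vectors -/
theorem le_Rf (hB : Base G) {x : M} {p : TangentSpace (𝓡 n) x} (hp : p ∈ G.I x)
    (ξ w : TangentSpace (𝓡 n) x) : 2 * inner ℝ w ξ - Hf G x p w w ≤ Rf G x ξ p := by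
  have h := phi_le_Hf hB hp ξ ((1 / 2 : ℝ) • w)
  have e : Hf G x p ((1 / 2 : ℝ) • w) ((1 / 2 : ℝ) • w) = 1 / 4 * Hf G x p w w := by
    rw [map_smul, map_smul, smul_apply, smul_eq_mul, smul_eq_mul]; ring
  rw [e, real_inner_smul_left] at h
  unfold Rf
  linarith

theorem Rf_eq [CompactSpace M] (hB : Base G) {x : M} {p : TangentSpace (𝓡 n) x} (hp : p ∈ G.I x)
    {ξ v : TangentSpace (𝓡 n) x} (hv : ∀ η, Hf G x p v η = inner ℝ ξ η) :
    Rf G x ξ p = Hf G x p v v := by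
  unfold Rf
  rw [phi_eq hB hp hv]; ring

/-- **(N4), convexity form** : `Rf` is uniformly semiconvex along segments orthogonal to `ξ`. -/
theorem Rf_semiconvex (hB : Base G) (hM : MTWFacts G) : ∃ C : ℝ, 0 ≤ C ∧ ∀ x : M,
    ∀ p q ξ : TangentSpace (𝓡 n) x, segment ℝ p q ⊆ G.I x → inner ℝ (q - p) ξ = 0 →
    ∀ t : ℝ, 0 ≤ t → t ≤ 1 →
      Rf G x ξ ((1 - t) • p + t • q) ≤ (1 - t) * Rf G x ξ p + t * Rf G x ξ q +
        C * ‖ξ‖ ^ 2 * ‖q - p‖ ^ 2 * (t * (1 - t)) := by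
  obtain ⟨δ, B, hδ, hB0, h⟩ := unif_phi hB (θ := 1 / 2) (by norm_num) (by norm_num) 2
  refine ⟨B, hB0, fun x p q ξ hseg hξ t h0 h1 => ?_⟩
  have hc := hM.concave x p q ξ hseg hξ t h0 h1
  -- semiconvexity of `phi x ξ (·/2)`
  set g : ℝ → ℝ := fun s => G.phi x ξ ((1 / 2 : ℝ) • p + s • ((1 / 2 : ℝ) • (q - p))) with hg
  have hmem : ∀ s ∈ Icc (0 : ℝ) 1, (1 - s) • p + s • q ∈ G.K x := fun s hs =>
    hB.I_subset x (hseg ⟨1 - s, s, by linarith [hs.2], hs.1, by ring, rfl⟩)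
  have hpt : ∀ s : ℝ, (1 / 2 : ℝ) • p + s • ((1 / 2 : ℝ) • (q - p)) =
      (1 / 2 : ℝ) • ((1 - s) • p + s • q) := by intro s; module
  have hloc : ∀ s ∈ Icc (0 : ℝ) 1, ContDiffAt ℝ 2 g s ∧ ∀ j ≤ 2, |iteratedDeriv j g s| ≤
      B * ‖ξ‖ ^ 2 * ‖(1 / 2 : ℝ) • (q - p)‖ ^ j := by
    intro s hs
    refine h x _ _ _ ξ s (hmem s hs) ?_
    rw [hpt, sub_self, norm_zero]; exact hδ
  have hch := chord_le (g := g) (C := B * ‖ξ‖ ^ 2 * ‖(1 / 2 : ℝ) • (q - p)‖ ^ 2)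
    (fun s hs => (hloc s hs).1) (fun s hs => (abs_le.1 ((hloc s hs).2 2 le_rfl)).1)
    (t := t) ⟨h0, h1⟩
  have e0 : g 0 = G.phi x ξ ((1 / 2 : ℝ) • p) := by simp [hg]
  have e1 : g 1 = G.phi x ξ ((1 / 2 : ℝ) • q) := by
    simp only [hg]; congr 1; module
  have et : g t = G.phi x ξ ((1 / 2 : ℝ) • ((1 - t) • p + t • q)) := by
    simp only [hg]; rw [hpt]
  have en : ‖(1 / 2 : ℝ) • (q - p)‖ ^ 2 = 1 / 4 * ‖q - p‖ ^ 2 := by
    rw [norm_smul, mul_pow]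
    have : ‖(1 / 2 : ℝ)‖ = 1 / 2 := by norm_num
    rw [this]; ring
  rw [e0, e1, et, en] at hch
  have hnn : 0 ≤ B * ‖ξ‖ ^ 2 * ‖q - p‖ ^ 2 * (t * (1 - t)) := by
    have : 0 ≤ t * (1 - t) := mul_nonneg h0 (by linarith)
    positivity
  unfold Rf
  nlinarith [hch, hc, hnn]

end Crest.Agent.R226.NF946
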