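/-
R226 / E2-NF (helper946): part 7a (abstract): directional derivatives of `HfA`, the derivative of
the Gauss identity, a second-order comparison.
-/
import Crest.Agent.R226.NF3_946

set_option autoImplicit false

open Set Filter
open scoped ContDiff Topology
open Crest.Agent.R226.Calc347

namespace Crest.Agent.R226.NF946

section gen
variable {E : Type*} [NormedAddCommGroup E] [NormedSpace ℝ E]
variable {V : Type*} [NormedAddCommGroup V] [NormedSpace ℝ V]
variable {W : Type*} [NormedAddCommGroup W] [NormedSpace ℝ W]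

theorem hasDerivAt_line_gen {g : E → W} {p : E} (h : DifferentiableAt ℝ g p) (θ : E) :
    HasDerivAt (fun s : ℝ => g (p + s • θ)) (fderiv ℝ g p θ) 0 := by
  have hγ : HasDerivAt (fun s : ℝ => p + s • θ) θ 0 := by
    simpa using ((hasDerivAt_id (0 : ℝ)).smul_const θ).const_add p
  have h0 : HasFDerivAt g (fderiv ℝ g p) (p + (0 : ℝ) • θ) := by
    simpa using h.hasFDerivAt
  exact h0.comp_hasDerivAt 0 hγ

theorem hasDerivAt_apply_gen {g : ℝ → V →L[ℝ] W} {g' : V →L[ℝ] W} {s : ℝ}
    (h : HasDerivAt g g' s) (u : V) : HasDerivAt (fun s => g s u) (g' u) s := by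
  have := h.clm_apply (hasDerivAt_const s u)
  simpa using this


theorem fderiv_apply_gen {g : E → V →L[ℝ] W} {p : E} (h : DifferentiableAt ℝ g p) (θ : E) (u : V) :
    fderiv ℝ (fun q => g q u) p θ = fderiv ℝ g p θ u := by
  have h1 := h.hasFDerivAt.clm_apply (hasFDerivAt_const u p)
  rw [h1.fderiv]
  simp



end gen

section abs
variable {E : Type*} [NormedAddCommGroup E] [InnerProductSpace ℝ E]

/-- directional derivative of the entries of `HfA` -/
noncomputable def DHfA (F : E × E → ℝ) (p θ u v : E) : ℝ := fderiv ℝ (fun q => HfA F q u v) p θ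


theorem hasDerivAt_HfA_line {F : E × E → ℝ} {p u v : E}
    (h : DifferentiableAt ℝ (fun q => HfA F q u v) p)
    (θ : E) : HasDerivAt (fun s : ℝ => HfA F (p + s • θ) u v) (DHfA F p θ u v) 0 :=
  hasDerivAt_line_gen h θ

/-- derivative of the Gauss identity -/
theorem DHfA_gauss {F : E × E → ℝ} {p : E}
    (h : ∀ u v, DifferentiableAt ℝ (fun q => HfA F q u v) p)
    (hG : ∀ᶠ q in 𝓝 p, ∀ η, HfA F q q η = inner ℝ q η) (θ η : E) :
    DHfA F p θ p η = inner ℝ θ η - HfA F p θ η := by
  have h1 := hasDerivAt_HfA_line (h p η) θ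
  have h2 := hasDerivAt_HfA_line (h θ η) θ
  have h3 : HasDerivAt (fun s : ℝ => HfA F (p + s • θ) p η + s * HfA F (p + s • θ) θ η)
      (DHfA F p θ p η + (1 * HfA F (p + (0 : ℝ) • θ) θ η + 0 * DHfA F p θ θ η)) 0 :=
    h1.add ((hasDerivAt_id (0 : ℝ)).mul h2)
  have hc : ContinuousAt (fun s : ℝ => p + s • θ) 0 := by fun_prop
  have hev : ∀ᶠ s in 𝓝 (0 : ℝ), HfA F (p + s • θ) p η + s * HfA F (p + s • θ) θ η =
      inner ℝ (p + s • θ) η := by
    have h4 : ∀ᶠ q in 𝓝 (p + (0 : ℝ) • θ), ∀ η, HfA F q q η = inner ℝ q η := by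
      rw [zero_smul, add_zero]; exact hG
    filter_upwards [hc.eventually h4] with s hs
    rw [← hs η, map_add, map_smul]
    rfl
  have h5 : HasDerivAt (fun s : ℝ => inner ℝ (p + s • θ) η) (inner ℝ θ η) 0 := by
    have e : (fun s : ℝ => inner ℝ (p + s • θ) η) = fun s : ℝ => inner ℝ p η + s * inner ℝ θ η := by
      funext s; rw [inner_add_left, real_inner_smul_left]
    rw [e]
    simpa using ((hasDerivAt_id (0 : ℝ)).mul_const (inner ℝ θ η)).const_add (inner ℝ p η)
  have h6 := h3.unique (h5.congr_of_eventuallyEq hev)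
  rw [zero_smul, add_zero] at h6
  linarith

theorem continuousAt_DHfA {F : E × E → ℝ} {p u v : E}
    (h : ContDiffAt ℝ 1 (fun q => HfA F q u v) p) (θ : E) :
    ContinuousAt (fun q => DHfA F q θ u v) p := by
  have h1 : ContinuousAt (fderiv ℝ (fun q => HfA F q u v)) p :=
    (h.fderiv_right (m := 0) (by norm_num)).continuousAt
  exact h1.clm_apply continuousAt_const


end abs

section real


end real


end Crest.Agent.R226.NF946
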