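/-
R226 (helper413), leaf L7: the sup-functional iteration of doc 1855 (2) (helper847), abstract form.

States `w : ι` with a size `A w h` and a volume `V w h`, both nondecreasing in the level `h`.
If for every `B` and `δm > 0` there are `δ ≤ δm` and `C1` such that at every state `w₀` without
growth and with the row bound there is a state `w` with `A w (K h) ≥ (1-δ) A w₀ h - C1 h` and
`V w (K h) ≥ B V w₀ h`, then `A w h ≤ C h ^ g` for all states.
-/
import Mathlib.Analysis.SpecialFunctions.Pow.Real
import Mathlib.Analysis.SpecialFunctions.Log.Basic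
import Mathlib.Tactic

set_option autoImplicit false
set_option linter.unusedVariables false

open Set Filter

namespace Crest.Agent.R226.SupIter413

section

variable {ι : Type*}

/-- iteration of `Ψ h ≤ max (q⁻¹ Ψ (K h)) (C h)`. -/
theorem iter_decay {Ψ : ℝ → ℝ} {K q C1 B g : ℝ} (hK : 1 < K) (hq : 1 < q) (hB : 0 ≤ B)
    (hC1 : 0 ≤ C1) (hb : ∀ h, 0 < h → Ψ h ≤ B) (hg0 : 0 < g) (hg1 : g ≤ 1) (hg : K ^ g ≤ q)
    (h0 : 0 < (1 : ℝ) / K)
    (hstep : ∀ h, 0 < h → K * h ≤ 1 → q * Ψ h ≤ Ψ (K * h) ∨ Ψ h ≤ C1 * h) :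
    ∀ h, 0 < h → h ≤ 1 → Ψ h ≤ (B * K + C1) * h ^ g := by
  have hK0 : 0 < K := by linarith
  have main : ∀ k : ℕ, ∀ h, 0 < h → h ≤ 1 → 1 < K ^ (k + 1) * h → Ψ h ≤ (B * K + C1) * h ^ g := by
    intro k
    induction k with
    | zero =>
      intro h hh h1 hk
      rw [zero_add, pow_one] at hk
      have hKg : (1 : ℝ) / K ≤ h := by
        rw [div_le_iff₀ hK0]; linarith
      have h2 : (1 / K : ℝ) ≤ h ^ g := by
        calc (1 / K : ℝ) ≤ h := hKg
          _ = h ^ (1 : ℝ) := (Real.rpow_one h).symm
          _ ≤ h ^ g := Real.rpow_le_rpow_of_exponent_ge hh h1 hg1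
      calc Ψ h ≤ B := hb h hh
        _ = B * K * (1 / K) := by field_simp
        _ ≤ B * K * h ^ g := by gcongr
        _ ≤ (B * K + C1) * h ^ g := by
            have : 0 ≤ h ^ g := Real.rpow_nonneg hh.le g
            nlinarith
    | succ k ih =>
      intro h hh h1 hk
      have hhg : 0 ≤ h ^ g := Real.rpow_nonneg hh.le g
      by_cases hKh : K * h ≤ 1
      · rcases hstep h hh hKh with h3 | h3
        · have h4 := ih (K * h) (by positivity) hKh (by
            calc (1 : ℝ) < K ^ (k + 1 + 1) * h := hk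
              _ = K ^ (k + 1) * (K * h) := by ring)
          rw [Real.mul_rpow hK0.le hh.le] at h4
          have h5 : q * Ψ h ≤ q * ((B * K + C1) * h ^ g) := by
            calc q * Ψ h ≤ Ψ (K * h) := h3
              _ ≤ (B * K + C1) * (K ^ g * h ^ g) := h4
              _ ≤ (B * K + C1) * (q * h ^ g) := by gcongr
              _ = q * ((B * K + C1) * h ^ g) := by ring
          exact le_of_mul_le_mul_left h5 (by linarith)
        · have h2 : h ≤ h ^ g := by
            calc h = h ^ (1 : ℝ) := (Real.rpow_one h).symm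
              _ ≤ h ^ g := Real.rpow_le_rpow_of_exponent_ge hh h1 hg1
          calc Ψ h ≤ C1 * h := h3
            _ ≤ C1 * h ^ g := by gcongr
            _ ≤ (B * K + C1) * h ^ g := by
                have : 0 ≤ B * K := by positivity
                nlinarith
      · push Not at hKh
        -- same as the base case
        have hKg : (1 : ℝ) / K ≤ h := by
          rw [div_le_iff₀ hK0]; linarith
        have h2 : (1 / K : ℝ) ≤ h ^ g := by
          calc (1 / K : ℝ) ≤ h := hKg
            _ = h ^ (1 : ℝ) := (Real.rpow_one h).symm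
            _ ≤ h ^ g := Real.rpow_le_rpow_of_exponent_ge hh h1 hg1
        calc Ψ h ≤ B := hb h hh
          _ = B * K * (1 / K) := by field_simp
          _ ≤ B * K * h ^ g := by gcongr
          _ ≤ (B * K + C1) * h ^ g := by nlinarith
  intro h hh h1
  obtain ⟨k, hk⟩ := pow_unbounded_of_one_lt (1 / h) hK
  refine main k h hh h1 ?_
  rw [div_lt_iff₀ hh] at hk
  calc (1 : ℝ) < K ^ k * h := hk
    _ ≤ K ^ (k + 1) * h := by
        gcongr
        · exact hK.le
        · omega



/-- exponent bookkeeping for `sup_iter`. -/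
theorem exp_half_le {x : ℝ} (h0 : 0 ≤ x) (h1 : x ≤ 1) : Real.exp (x / 2) ≤ 1 + x := by
  have h2 : 1 - x / 2 ≤ Real.exp (-(x / 2)) := by
    have := Real.add_one_le_exp (-(x / 2))
    linarith
  have h3 : 0 < 1 - x / 2 := by linarith
  have h4 : Real.exp (x / 2) * (1 - x / 2) ≤ 1 := by
    calc Real.exp (x / 2) * (1 - x / 2) ≤ Real.exp (x / 2) * Real.exp (-(x / 2)) := by
          gcongr
      _ = 1 := by rw [← Real.exp_add]; simp
  have h5 : 1 ≤ (1 + x) * (1 - x / 2) := by nlinarith
  have h6 : Real.exp (x / 2) * (1 - x / 2) ≤ (1 + x) * (1 - x / 2) := h4.trans h5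
  exact le_of_mul_le_mul_right h6 h3


end

end Crest.Agent.R226.SupIter413
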