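import Crest.Agent.R226.T1iDef_115
import Crest.Agent.R226.SymExp_413
import Crest.Agent.R226.ExLip_659
import Crest.Agent.R226.NS1Def_683
import Crest.Agent.R226.Semiconcave_345
import Crest.Agent.R226.CutTop_478
import Mathlib
import Crest.Agent.R226.Jac5_344
import Crest.Agent.R226.VolChartB_767
import Crest.Agent.R226.Far_977
import Crest.Agent.R226.Jac6_344
import Crest.Agent.R226.EStep1_700
import Crest.Agent.R226.OscEnd_977
import Crest.Agent.R226.NGcol_487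
import Crest.Agent.R226.SupPair_413
import Crest.Agent.R226.TallGeo_114
import Crest.Agent.R226.Plan_619_Mg
import Crest.Agent.R226.WNc_344

-- ▼ part R226/ZetaP_186
section

set_option autoImplicit false
set_option linter.unusedSectionVars false
set_option linter.unusedVariables false

open MeasureTheory Bundle Set Filter
open scoped Manifold ContDiff Bundle ENNReal Topology
open Crest.GeometryTopology.MTW
open Crest.Agent.R226.Calc347 Crest.Agent.R226.MTWConc117 Crest.Agent.R226.Base347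
open Crest.Agent.R226.Crit347 Crest.Agent.R226.Focal347 Crest.Agent.R226.NF946

namespace Crest.Agent.R226.Zeta186

/-- second-order Taylor lower bound -/
theorem taylor_ge {g : ℝ → ℝ} {C : ℝ} (hg : ∀ s ∈ Icc (0 : ℝ) 1, ContDiffAt ℝ 2 g s)
    (hC : ∀ s ∈ Icc (0 : ℝ) 1, -C ≤ iteratedDeriv 2 g s) {d : ℝ} (hd : HasDerivAt g d 0) :
    g 0 + d - C / 2 ≤ g 1 := by
  have h1 := hd.tendsto_slope_zero_right
  have h2 : Tendsto (fun t : ℝ => g 1 - g 0 + C / 2 * (1 - t)) (𝓝[>] 0)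
      (𝓝 (g 1 - g 0 + C / 2 * (1 - 0))) := by
    have : Continuous fun t : ℝ => g 1 - g 0 + C / 2 * (1 - t) := by fun_prop
    exact (this.tendsto 0).mono_left nhdsWithin_le_nhds
  have h3 : ∀ᶠ t : ℝ in 𝓝[>] 0, t⁻¹ • (g (0 + t) - g 0) ≤ g 1 - g 0 + C / 2 * (1 - t) := by
    have h4 : Ioo (0 : ℝ) 1 ∈ 𝓝[>] (0 : ℝ) := Ioo_mem_nhdsGT one_pos
    filter_upwards [h4] with t ht
    have h5 := chord_le hg hC (t := t) ⟨ht.1.le, ht.2.le⟩
    rw [zero_add, smul_eq_mul, inv_mul_le_iff₀ ht.1]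
    nlinarith
  have h6 := le_of_tendsto_of_tendsto h1 h2 h3
  linarith

variable {n : ℕ} {M : Type*} [MetricSpace M] [ChartedSpace (EuclideanSpace ℝ (Fin n)) M]
  [IsManifold (𝓡 n) ∞ M]
  [RiemannianBundle (fun p : M => TangentSpace (𝓡 n) p)]
  [IsContMDiffRiemannianBundle (𝓡 n) ∞ (EuclideanSpace ℝ (Fin n))
    (fun p : M => TangentSpace (𝓡 n) p)]
  {G : GeoData n M}

/-- lower bound of the cost near `(0, q₀/2)` -/
theorem cost_ge (hB : Base G) : ∃ B δ : ℝ, 0 ≤ B ∧ 0 < δ ∧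
    ∀ (y : M) (q₀ b w : TangentSpace (𝓡 n) y), q₀ ∈ G.K y → ‖w‖ < δ → ‖b - (1 / 2 : ℝ) • q₀‖ < δ →
      b ∈ G.I y → ‖b‖ ^ 2 / 2 - inner ℝ b w - B / 2 * ‖w‖ ^ 2 ≤ F G y (w, b) := by
  obtain ⟨δ, B, hδ, hB0, hF⟩ := unif_F0 hB (θ := 1 / 2) (by norm_num) (by norm_num) 2
  refine ⟨B, δ, hB0, hδ, fun y q₀ b w hq hw hb hbI => ?_⟩
  set g : ℝ → ℝ := fun s => F G y ((0, b) + s • (w, 0)) with hg
  have hpt : ∀ s : ℝ, ((0 : TangentSpace (𝓡 n) y), b) + s • (w, (0 : TangentSpace (𝓡 n) y)) =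
      (s • w, b) := by
    intro s; simp
  have hin : ∀ s ∈ Icc (0 : ℝ) 1, ContDiffAt ℝ 2 g s ∧ -(B * ‖w‖ ^ 2) ≤ iteratedDeriv 2 g s := by
    intro s hs
    have hn : ‖s • w‖ < δ := by
      rw [norm_smul, Real.norm_of_nonneg hs.1]
      calc s * ‖w‖ ≤ 1 * ‖w‖ := by gcongr; exact hs.2
        _ = ‖w‖ := one_mul _
        _ < δ := hw
    obtain ⟨h1, h2⟩ := hF y q₀ (s • w) b hq hn hb
    rw [← hpt] at h1 h2
    obtain ⟨h3, h4⟩ := line_bound_gen (k := 2) (g := F G y) h1 h2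
    refine ⟨h3, ?_⟩
    have h5 := h4 2 le_rfl
    have h6 : ‖((w, 0) : TangentSpace (𝓡 n) y × TangentSpace (𝓡 n) y)‖ = ‖w‖ := by
      simp [Prod.norm_def]
    rw [h6, norm_iteratedFDeriv_eq_norm_iteratedDeriv, Real.norm_eq_abs] at h5
    have h7 := abs_le.1 h5
    exact h7.1
  have hd : HasDerivAt g (-inner ℝ b w) 0 := by
    have h1 := hasDerivAt_nc hB hbI w
    refine h1.congr_of_eventuallyEq (Eventually.of_forall fun s => ?_)
    show F G y ((0, b) + s • (w, 0)) = _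
    rw [hpt]; rfl
  have h1 := taylor_ge (fun s hs => (hin s hs).1) (fun s hs => (hin s hs).2) hd
  have h2 : g 0 = ‖b‖ ^ 2 / 2 := by
    show F G y ((0, b) + (0 : ℝ) • (w, 0)) = _
    rw [hpt, zero_smul]
    show halfDistSq (G.ex y 0) (G.ex y b) = _
    rw [G.ex_zero]
    exact halfDistSq_of_mem_K (hB.I_subset y hbI)
  have h3 : g 1 = F G y (w, b) := by
    show F G y ((0, b) + (1 : ℝ) • (w, 0)) = _
    rw [hpt, one_smul]
  rw [h2, h3] at h1
  linarith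

/-- **uniform lower Lipschitz bound of `exp_y` near `q₀/2`, `q₀ ∈ K(y)`.** -/
theorem half_lower (hB : Base G) : ∃ C δ : ℝ, 0 ≤ C ∧ 0 < δ ∧
    ∀ (y : M) (q₀ U : TangentSpace (𝓡 n) y), q₀ ∈ G.K y → ‖U‖ < δ →
      (1 / 2 : ℝ) • q₀ + U ∈ G.I y →
      ‖U‖ ^ 2 ≤ C * dist (G.ex y ((1 / 2 : ℝ) • q₀)) (G.ex y ((1 / 2 : ℝ) • q₀ + U)) ^ 2 := by
  obtain ⟨C₁, hC₁, hsc⟩ := hB.semiconcave
  obtain ⟨B, δ, hB0, hδ, hF⟩ := cost_ge hB
  have hD : 0 < B + 4 * C₁ := by linarith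
  set t : ℝ := 1 / (B + 4 * C₁) with ht
  have ht0 : 0 < t := by positivity
  have htD : t * (B + 4 * C₁) = 1 := by rw [ht]; field_simp
  refine ⟨6 * C₁ * (B + 4 * C₁), min δ (δ * (B + 4 * C₁)), by positivity, by positivity,
    fun y q₀ U hq hU hI => ?_⟩
  set r : TangentSpace (𝓡 n) y := (1 / 2 : ℝ) • q₀ with hr
  have hbK := hB.I_subset y hI
  obtain ⟨z, hz⟩ : ∃ z, G.ex y r = z := ⟨_, rfl⟩
  obtain ⟨w, hwn, -, hw⟩ := CutTop478.exists_vel G y q₀ (1 / 2) (z := z) (by rw [← hz])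
  -- `ex z ((1/2) w) = ex y q₀`, `ex z (-(1/2) w) = y`
  have e1 : G.ex z ((1 / 2 : ℝ) • w) = G.ex y q₀ := by
    rw [hw]; norm_num
  have e2 : G.ex z ((-(1 / 2) : ℝ) • w) = y := by
    rw [hw]; norm_num [G.ex_zero]
  have e3 : G.ex z ((-(1 / 4) : ℝ) • w) = G.ex y ((1 / 4 : ℝ) • q₀) := by
    rw [hw]; norm_num
  have hzy : dist z y = 1 / 2 * ‖q₀‖ := by
    have := dist_of_mem_K hq (s := 0) (t := 1 / 2) le_rfl (by norm_num) (by norm_num)
    rw [zero_smul, G.ex_zero, ← hr, hz] at this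
    rw [dist_comm, this]; ring
  have hzx : dist z (G.ex y q₀) = 1 / 2 * ‖q₀‖ := by
    have := dist_of_mem_K hq (s := 1 / 2) (t := 1) (by norm_num) (by norm_num) le_rfl
    rw [one_smul, ← hr, hz] at this
    rw [this]; ring
  have hfK : (1 / 2 : ℝ) • w ∈ G.K z := by
    show dist z (G.ex z _) = _
    rw [e1, hzx, norm_smul, hwn]; norm_num
  have hpK : (-(1 / 2) : ℝ) • w ∈ G.K z := by
    show dist z (G.ex z _) = _
    rw [e2, hzy, norm_smul, hwn]; norm_num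
  have hp4K : (-(1 / 4) : ℝ) • w ∈ G.K z := by
    have := hB.star z _ hpK (1 / 2) (by norm_num) (by norm_num)
    rw [smul_smul] at this
    norm_num at this ⊢
    exact this
  have hq4K : (1 / 4 : ℝ) • q₀ ∈ G.K y := hB.star y _ hq (1 / 4) (by norm_num) (by norm_num)
  -- the minimiser from `z` to `z'`
  obtain ⟨V, hVK, hV⟩ := CutTop478.exists_mem_K G z (G.ex y (r + U))
  have hVn : ‖V‖ = dist z (G.ex y (r + U)) := CutTop478.norm_of_mem_K G hVK hV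
  -- (2)
  have h2 : ‖q₀‖ ^ 2 / 8 - inner ℝ ((-(1 / 2) : ℝ) • w) V - C₁ * ‖V‖ ^ 2 ≤ ‖r + U‖ ^ 2 / 2 := by
    have a1 := halfDistSq_le_two y (G.ex y (r + U)) (G.ex y q₀)
    rw [halfDistSq_of_mem_K hq, halfDistSq_of_mem_K hbK] at a1
    have a2 := hsc z _ hfK V
    rw [e1, hV] at a2
    have a3 : halfDistSq z (G.ex y q₀) = ‖q₀‖ ^ 2 / 8 := by
      unfold halfDistSq; rw [hzx]; ring
    rw [a3, real_inner_smul_left] at a2
    rw [real_inner_smul_left]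
    linarith
  -- (1)
  have h1 : F G y (-(t • U), r + U) ≤ ‖q₀‖ ^ 2 / 8 + t * inner ℝ r U -
      inner ℝ ((-(1 / 2) : ℝ) • w) V + 2 * C₁ * (t ^ 2 * ‖U‖ ^ 2 + ‖V‖ ^ 2) := by
    have a1 := halfDistSq_le_two (G.ex y (-(t • U))) (G.ex y ((1 / 4 : ℝ) • q₀)) (G.ex z V)
    have a2 := hsc y _ hq4K (-(t • U))
    have a3 := hsc z _ hp4K V
    rw [e3] at a3
    rw [halfDistSq_of_mem_K hq4K] at a2
    have a4 : halfDistSq z (G.ex y ((1 / 4 : ℝ) • q₀)) = ‖q₀‖ ^ 2 / 32 := by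
      rw [← e3, halfDistSq_of_mem_K hp4K, norm_smul, hwn, mul_pow]
      norm_num
      ring
    rw [a4] at a3
    rw [halfDistSq_comm (G.ex z V)] at a3
    have a5 : F G y (-(t • U), r + U) = halfDistSq (G.ex y (-(t • U))) (G.ex z V) := by
      rw [hV]; rfl
    rw [a5]
    have a6 : ‖(1 / 4 : ℝ) • q₀‖ ^ 2 = ‖q₀‖ ^ 2 / 16 := by
      rw [norm_smul, mul_pow]; norm_num; ring
    have a7 : inner ℝ ((1 / 4 : ℝ) • q₀) (-(t • U)) = -(t * inner ℝ r U / 2) := by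
      rw [hr, inner_neg_right, real_inner_smul_left, inner_smul_right, real_inner_smul_left]; ring
    have a8 : ‖-(t • U)‖ ^ 2 = t ^ 2 * ‖U‖ ^ 2 := by
      rw [norm_neg, norm_smul, mul_pow, Real.norm_of_nonneg ht0.le]
    rw [a6, a7, a8] at a2
    have a10 : inner ℝ ((-(1 / 2) : ℝ) • w) V = -(1 / 2) * inner ℝ w V := real_inner_smul_left _ _ _
    rw [real_inner_smul_left] at a3
    rw [a10]
    linarith
  -- (3)
  have hn1 : ‖-(t • U)‖ < δ := by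
    rw [norm_neg, norm_smul, Real.norm_of_nonneg ht0.le]
    have := hU.trans_le (min_le_right _ _)
    calc t * ‖U‖ < t * (δ * (B + 4 * C₁)) := by gcongr
      _ = t * (B + 4 * C₁) * δ := by ring
      _ = δ := by rw [htD, one_mul]
  have hn2 : ‖r + U - (1 / 2 : ℝ) • q₀‖ < δ := by
    rw [← hr, add_sub_cancel_left]
    exact hU.trans_le (min_le_left _ _)
  have h3 := hF y q₀ (r + U) (-(t • U)) hq hn1 hn2 hI
  have a8 : ‖-(t • U)‖ ^ 2 = t ^ 2 * ‖U‖ ^ 2 := by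
    rw [norm_neg, norm_smul, mul_pow, Real.norm_of_nonneg ht0.le]
  have a9 : inner ℝ (r + U) (-(t • U)) = -(t * inner ℝ r U) - t * ‖U‖ ^ 2 := by
    rw [inner_neg_right, inner_smul_right, inner_add_left, real_inner_self_eq_norm_sq]; ring
  rw [a8, a9] at h3
  rw [hz, ← hVn]
  have h4 : t * ‖U‖ ^ 2 - (B / 2 + 2 * C₁) * t ^ 2 * ‖U‖ ^ 2 ≤ 3 * C₁ * ‖V‖ ^ 2 := by
    nlinarith
  have h5 : (B / 2 + 2 * C₁) * t ^ 2 = t / 2 := by
    have : (B / 2 + 2 * C₁) * t ^ 2 = t / 2 * (t * (B + 4 * C₁)) := by ring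
    rw [this, htD, mul_one]
  rw [h5] at h4
  have h6 : t * ‖U‖ ^ 2 ≤ 6 * C₁ * ‖V‖ ^ 2 := by linarith
  calc ‖U‖ ^ 2 = (B + 4 * C₁) * (t * ‖U‖ ^ 2) := by
        rw [← mul_assoc, mul_comm (B + 4 * C₁) t, htD, one_mul]
    _ ≤ (B + 4 * C₁) * (6 * C₁ * ‖V‖ ^ 2) := by gcongr
    _ = 6 * C₁ * (B + 4 * C₁) * ‖V‖ ^ 2 := by ring


section main
variable [CompactSpace M]

/-- the two-step energy from the moving point `exp_x (w + τ η)` to `exp_y q₀` through `exp_y (p'/2)` -/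
noncomputable def Phi (G : GeoData n M) (x y : M) (w η : TangentSpace (𝓡 n) x)
    (q₀ : TangentSpace (𝓡 n) y) (a : ℝ × TangentSpace (𝓡 n) y) : ℝ :=
  2 * halfDistSq (G.ex x (w + a.1 • η)) (G.ex y ((1 / 2 : ℝ) • a.2)) +
    2 * halfDistSq (G.ex y ((1 / 2 : ℝ) • a.2)) (G.ex y q₀)

theorem contDiffAt_Phi (hB : Base G) {x y : M} {w η : TangentSpace (𝓡 n) x}
    {q₀ : TangentSpace (𝓡 n) y} (hy : G.ex x w = y) (hq : q₀ ∈ G.K y) :
    ContDiffAt ℝ ∞ (Phi G x y w η q₀) (0, q₀) := by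
  have hI : (1 / 2 : ℝ) • q₀ ∈ G.I y := hB.smul_mem_I hq (by norm_num) (by norm_num)
  have c1 := hB.smooth_cost y _ hI
  have m1 : ContMDiffAt 𝓘(ℝ, ℝ × TangentSpace (𝓡 n) y) (𝓡 n) ∞
      (fun a : ℝ × TangentSpace (𝓡 n) y => G.ex x (w + a.1 • η)) (0, q₀) :=
    SymExp413.contMDiffAt_ex_comp (by fun_prop)
  have m2 : ContMDiffAt 𝓘(ℝ, ℝ × TangentSpace (𝓡 n) y) (𝓡 n) ∞
      (fun a : ℝ × TangentSpace (𝓡 n) y => G.ex y ((1 / 2 : ℝ) • a.2)) (0, q₀) :=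
    SymExp413.contMDiffAt_ex_comp (by fun_prop)
  have d1 : ContDiffAt ℝ ∞ (fun a : ℝ × TangentSpace (𝓡 n) y =>
      halfDistSq (G.ex x (w + a.1 • η)) (G.ex y ((1 / 2 : ℝ) • a.2))) (0, q₀) := by
    refine SymExp413.contDiffAt_pair (x := x) (y := y) (z := y) ?_ m1 m2
    simp only [zero_smul, add_zero, hy]
    exact c1
  have d2 : ContDiffAt ℝ ∞ (fun a : ℝ × TangentSpace (𝓡 n) y =>
      halfDistSq (G.ex y ((1 / 2 : ℝ) • a.2)) (G.ex y q₀)) (0, q₀) := by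
    have h1 := contDiffAt_F_half hB hq
    have h2 : ContDiffAt ℝ ∞ (fun a : ℝ × TangentSpace (𝓡 n) y => ((1 / 2 : ℝ) • a.2, q₀))
      (0, q₀) := by fun_prop
    exact ContDiffAt.comp (0, q₀) (g := F G y) (f := fun a : ℝ × TangentSpace (𝓡 n) y =>
      ((1 / 2 : ℝ) • a.2, q₀)) h1 h2
  exact (contDiffAt_const.mul d1).add (contDiffAt_const.mul d2)


/-- vertical part of the Hessian of `Phi`: the normal form `Hf` -/
theorem hess_Phi_snd (hB : Base G) {x y : M} {w η : TangentSpace (𝓡 n) x}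
    {q₀ : TangentSpace (𝓡 n) y} (hy : G.ex x w = y) (hq : q₀ ∈ G.K y)
    (u v : TangentSpace (𝓡 n) y) :
    hess (Phi G x y w η q₀) (0, q₀) (0, u) (0, v) = Hf G y q₀ u v := by
  have hI : (1 / 2 : ℝ) • q₀ ∈ G.I y := hB.smul_mem_I hq (by norm_num) (by norm_num)
  rw [SymExp413.hess_snd_snd ((contDiffAt_Phi hB hy hq).of_le two_le_infty)]
  have hev : (fun b' => Phi G x y w η q₀ (0, b')) =ᶠ[𝓝 q₀] rho G y q₀ := by
    have hc : ContinuousAt (fun b' : TangentSpace (𝓡 n) y => (1 / 2 : ℝ) • b') q₀ := by fun_prop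
    have h1 := hc.eventually ((hB.isOpen_I y).mem_nhds hI)
    filter_upwards [h1] with b' hb'
    show 2 * halfDistSq (G.ex x (w + (0 : ℝ) • η)) (G.ex y ((1 / 2 : ℝ) • b')) +
      2 * halfDistSq (G.ex y ((1 / 2 : ℝ) • b')) (G.ex y q₀) =
      ‖b'‖ ^ 2 / 4 + 2 * halfDistSq (G.ex y ((1 / 2 : ℝ) • b')) (G.ex y q₀)
    rw [zero_smul, add_zero, hy, halfDistSq_of_mem_K (hB.I_subset y hb'), norm_smul, mul_pow]
    norm_num
    ring
  unfold hess
  rw [(hev.fderiv (𝕜 := ℝ)).fderiv_eq]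
  rfl

/-- mixed part of the Hessian of `Phi` -/
theorem hess_Phi_mixed (hC : CutFacts G) {x y : M} {w η : TangentSpace (𝓡 n) x}
    {q₀ : TangentSpace (𝓡 n) y} (hy : G.ex x w = y) (hq : q₀ ∈ G.K y)
    {ξ : TangentSpace (𝓡 n) y}
    (hξ : ξ = LoeperMfd128.cv (n := n) (fun τ : ℝ => G.ex x (w + τ • η)) 0)
    (v : TangentSpace (𝓡 n) y) :
    hess (Phi G x y w η q₀) (0, q₀) (1, 0) (0, v) = -inner ℝ ξ v := by
  have hB := hC.base347
  have hI : (1 / 2 : ℝ) • q₀ ∈ G.I y := hB.smul_mem_I hq (by norm_num) (by norm_num)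
  have hs2 : ContDiffAt ℝ 2 (Phi G x y w η q₀) (0, q₀) :=
    (contDiffAt_Phi hB hy hq).of_le two_le_infty
  rw [hess_symm hs2]
  have hc1 : HasDerivAt (fun s : ℝ => q₀ + s • v) v 0 := by
    simpa using ((hasDerivAt_id (0 : ℝ)).smul_const v).const_add q₀
  have hc : HasDerivAt (fun s : ℝ => ((0 : ℝ), q₀ + s • v)) ((0 : ℝ), v) 0 :=
    (hasDerivAt_const (0 : ℝ) (0 : ℝ)).prodMk hc1
  have h1 := hess_curve hs2 hc (by simp) ((1 : ℝ), (0 : TangentSpace (𝓡 n) y))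
  have hct : Tendsto (fun s : ℝ => ((0 : ℝ), q₀ + s • v)) (𝓝 0) (𝓝 (0, q₀)) := by
    have := hc.continuousAt.tendsto
    simpa using this
  have hdiff : ∀ᶠ a in 𝓝 ((0 : ℝ), q₀), DifferentiableAt ℝ (Phi G x y w η q₀) a := by
    filter_upwards [hs2.eventually (by simp)] with a ha
    exact ha.differentiableAt (by norm_num)
  have hIev : ∀ᶠ s : ℝ in 𝓝 0, (1 / 2 : ℝ) • (q₀ + s • v) ∈ G.I y := by
    have hcc : ContinuousAt (fun s : ℝ => (1 / 2 : ℝ) • (q₀ + s • v)) 0 := by fun_prop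
    apply hcc.eventually
    simp only [zero_smul, add_zero]
    exact (hB.isOpen_I y).mem_nhds hI
  have h2 : HasDerivAt (fun s : ℝ => -inner ℝ (q₀ + s • v) ξ) (-inner ℝ v ξ) 0 := by
    have h5 : (fun s : ℝ => -inner ℝ (q₀ + s • v) ξ) =
        fun s : ℝ => -inner ℝ q₀ ξ + s * (-inner ℝ v ξ) := by
      funext s
      rw [inner_add_left, real_inner_smul_left]; ring
    rw [h5]
    have := ((hasDerivAt_id (0 : ℝ)).mul_const (-inner ℝ v ξ)).const_add (-inner ℝ q₀ ξ)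
    simpa using this
  rw [real_inner_comm]
  refine h1.unique (h2.congr_of_eventuallyEq ?_)
  filter_upwards [hIev, hct.eventually hdiff] with s b1 b2
  -- the `τ`-derivative
  have e : (1 / 2 : ℝ) • (q₀ + s • v) = (1 / 2 : ℝ) • q₀ + s • ((1 / 2 : ℝ) • v) := by
    rw [smul_add, smul_comm]
  have b1' := b1
  rw [e] at b1'
  have h3 := LoeperPt128.hasDerivAt_ff_right hC hy hξ b1'
  have h4 := (h3.const_mul 2).add_const
    (2 * halfDistSq (G.ex y ((1 / 2 : ℝ) • (q₀ + s • v))) (G.ex y q₀))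
  have h5 : HasDerivAt (fun τ : ℝ => (τ, q₀ + s • v)) ((1 : ℝ), (0 : TangentSpace (𝓡 n) y)) 0 :=
    (hasDerivAt_id (0 : ℝ)).prodMk (hasDerivAt_const (0 : ℝ) (q₀ + s • v))
  have h6 : HasDerivAt (Phi G x y w η q₀ ∘ fun τ : ℝ => (τ, q₀ + s • v))
      (fderiv ℝ (Phi G x y w η q₀) (0, q₀ + s • v) (1, 0)) 0 :=
    b2.hasFDerivAt.comp_hasDerivAt (0 : ℝ) h5
  have h7 : HasDerivAt (Phi G x y w η q₀ ∘ fun τ : ℝ => (τ, q₀ + s • v))
      (2 * -inner ℝ ((1 / 2 : ℝ) • q₀ + s • ((1 / 2 : ℝ) • v)) ξ) 0 := by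
    refine h4.congr_of_eventuallyEq (Eventually.of_forall fun τ => ?_)
    show 2 * halfDistSq (G.ex x (w + τ • η)) (G.ex y ((1 / 2 : ℝ) • (q₀ + s • v))) + _ =
      2 * halfDistSq (G.ex x (w + τ • η)) (G.ex y ((1 / 2 : ℝ) • q₀ + s • ((1 / 2 : ℝ) • v))) + _
    rw [e]
  rw [h6.unique h7, ← e, real_inner_smul_left]
  ring

/-- minimality of the midpoints -/
theorem Phi_ge {x y : M} {w η : TangentSpace (𝓡 n) x} {q₀ : TangentSpace (𝓡 n) y}
    (hx : G.ex y q₀ = x) {τ : ℝ} (hτ : w + τ • η ∈ G.K x) (p' : TangentSpace (𝓡 n) y) :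
    ‖w + τ • η‖ ^ 2 / 2 ≤ Phi G x y w η q₀ (τ, p') := by
  have h1 := halfDistSq_le_two (G.ex x (w + τ • η)) (G.ex y ((1 / 2 : ℝ) • p')) (G.ex y q₀)
  rw [hx, halfDistSq_comm _ x, halfDistSq_of_mem_K hτ] at h1
  show _ ≤ 2 * halfDistSq (G.ex x (w + τ • η)) (G.ex y ((1 / 2 : ℝ) • p')) +
    2 * halfDistSq (G.ex y ((1 / 2 : ℝ) • p')) (G.ex y q₀)
  rw [hx]
  exact h1

theorem Phi_mid (hB : Base G) {x y : M} {w η : TangentSpace (𝓡 n) x} {q₀ : TangentSpace (𝓡 n) y}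
    (hx : G.ex y q₀ = x) {τ : ℝ} (hτ : w + τ • η ∈ G.K x) {r : TangentSpace (𝓡 n) y}
    (hr : G.ex y r = G.ex x ((1 / 2 : ℝ) • (w + τ • η))) :
    Phi G x y w η q₀ (τ, (2 : ℝ) • r) = ‖w + τ • η‖ ^ 2 / 2 := by
  show 2 * halfDistSq (G.ex x (w + τ • η)) (G.ex y ((1 / 2 : ℝ) • ((2 : ℝ) • r))) +
    2 * halfDistSq (G.ex y ((1 / 2 : ℝ) • ((2 : ℝ) • r))) (G.ex y q₀) = _
  have e : (1 / 2 : ℝ) • ((2 : ℝ) • r) = r := by rw [smul_smul]; norm_num
  have h1 := halfDistSq_of_mem_K' hτ (s := 1 / 2) (t := 1) (by norm_num) (by norm_num) le_rfl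
  have h2 := halfDistSq_of_mem_K (hB.star x _ hτ (1 / 2) (by norm_num) (by norm_num))
  rw [one_smul] at h1
  rw [norm_smul, mul_pow, Real.norm_eq_abs, sq_abs] at h2
  rw [e, hr, hx, halfDistSq_comm (G.ex x (w + τ • η)), h1, halfDistSq_comm _ x, h2]
  ring

theorem Phi_crit (hB : Base G) {x y : M} {w η : TangentSpace (𝓡 n) x} {q₀ : TangentSpace (𝓡 n) y}
    (hx : G.ex y q₀ = x) {τ : ℝ} (hτ : w + τ • η ∈ G.K x) {r : TangentSpace (𝓡 n) y}
    (hr : G.ex y r = G.ex x ((1 / 2 : ℝ) • (w + τ • η)))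
    (hd : DifferentiableAt ℝ (Phi G x y w η q₀) (τ, (2 : ℝ) • r)) (θ : TangentSpace (𝓡 n) y) :
    fderiv ℝ (Phi G x y w η q₀) (τ, (2 : ℝ) • r) (0, θ) = 0 := by
  have h4 : HasDerivAt (fun t : ℝ => (τ, (2 : ℝ) • r + t • θ)) ((0 : ℝ), θ) 0 := by
    have h5 : HasDerivAt (fun t : ℝ => (2 : ℝ) • r + t • θ) θ 0 := by
      have := ((hasDerivAt_id (0 : ℝ)).smul_const θ).const_add ((2 : ℝ) • r)
      simpa using this
    exact (hasDerivAt_const (0 : ℝ) τ).prodMk h5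
  have h6 : HasFDerivAt (Phi G x y w η q₀) (fderiv ℝ (Phi G x y w η q₀) (τ, (2 : ℝ) • r))
      (τ, (2 : ℝ) • r + (0 : ℝ) • θ) := by
    rw [zero_smul, add_zero]; exact hd.hasFDerivAt
  have h7 := h6.comp_hasDerivAt (0 : ℝ) h4
  have h8 : IsLocalMin (Phi G x y w η q₀ ∘ fun t : ℝ => (τ, (2 : ℝ) • r + t • θ)) 0 := by
    refine Eventually.of_forall fun t => ?_
    show Phi G x y w η q₀ (τ, (2 : ℝ) • r + (0 : ℝ) • θ) ≤ Phi G x y w η q₀ (τ, (2 : ℝ) • r + t • θ)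
    rw [zero_smul, add_zero, Phi_mid hB hx hτ hr]
    exact Phi_ge hx hτ _
  exact h8.hasDerivAt_eq_zero h7

/-- **(L1b) `ZetaP`** -/
theorem zetaP [IsRiemannianManifold (𝓡 n) M] (hC : CutFacts G) :
    ∃ C : ℝ, 0 ≤ C ∧ T1i115.ZetaP G C := by
  have hB := hC.base347
  obtain ⟨A, δ, hA, hδ, hhalf⟩ := half_lower hB
  obtain ⟨L, hL, hlip⟩ := ExLip659.ex_lip G (Metric.diam (univ : Set M))
  refine ⟨√A * L, by positivity, ?_⟩
  intro x y w η hw hy q₀ hq hx ξ hξ ζ hζ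
  have hwK := hB.I_subset x hw
  have hqK := hB.I_subset y hq
  have hhI : (1 / 2 : ℝ) • q₀ ∈ G.I y := hB.smul_mem_I hqK (by norm_num) (by norm_num)
  -- the midpoint
  have hmid : G.ex y ((1 / 2 : ℝ) • q₀) = G.ex x ((1 / 2 : ℝ) • w) := by
    obtain ⟨p, hpK, hp⟩ := SymExp413.exists_rev hB hwK hy
    have h1 : p = q₀ := by
      refine CutTop478.uniq G y q₀ hq p hpK ?_
      have := hp 1
      rw [one_smul, sub_self, zero_smul, G.ex_zero] at this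
      rw [this, hx]
    rw [← h1, hp]; norm_num
  set z : ℝ → M := fun τ => G.ex x ((1 / 2 : ℝ) • (w + τ • η)) with hz
  set r : ℝ → TangentSpace (𝓡 n) y := fun τ => CutSmooth77.wt G (y, z τ) with hr
  have hrK : ∀ τ, r τ ∈ G.K y := fun τ => CutSmooth77.wt_mem G (y, z τ)
  have hre : ∀ τ, G.ex y (r τ) = z τ := fun τ => CutSmooth77.wt_ex G (y, z τ)
  have hzt : Tendsto z (𝓝 0) (𝓝 (G.ex y ((1 / 2 : ℝ) • q₀))) := by
    have h1 : Continuous z := (MTWConc117.contMDiff_ex G x).continuous.comp (by fun_prop)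
    have h2 := h1.tendsto 0
    rw [hmid]
    simpa [hz] using h2
  have hrt : Tendsto r (𝓝 0) (𝓝 ((1 / 2 : ℝ) • q₀)) := by
    apply tendsto_fiber
    exact (CutSmooth77.tendsto_Wt G hhI).comp (tendsto_const_nhds.prodMk_nhds hzt)
  -- the bound
  have hrb : ∀ᶠ τ : ℝ in 𝓝 0, ‖r τ - (1 / 2 : ℝ) • q₀‖ ≤ √A * (L * (|τ| / 2 * ‖η‖)) := by
    have h1 : ∀ᶠ τ : ℝ in 𝓝 0, ‖r τ - (1 / 2 : ℝ) • q₀‖ < δ := by
      have h2 : Tendsto (fun τ => ‖r τ - (1 / 2 : ℝ) • q₀‖) (𝓝 0) (𝓝 0) := by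
        have := (hrt.sub_const ((1 / 2 : ℝ) • q₀)).norm
        simpa using this
      exact h2.eventually (gt_mem_nhds hδ)
    filter_upwards [h1, hrt.eventually ((hB.isOpen_I y).mem_nhds hhI)] with τ a1 a2
    have a3 := hhalf y q₀ (r τ - (1 / 2 : ℝ) • q₀) hqK a1 (by rwa [add_sub_cancel])
    rw [add_sub_cancel, hre, hmid] at a3
    have a4 : dist (G.ex x ((1 / 2 : ℝ) • w)) (z τ) ≤ L * (|τ| / 2 * ‖η‖) := by
      have h3 := hlip x ((1 / 2 : ℝ) • w) ((1 / 2 : ℝ) • (w + τ • η)) (by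
        rw [norm_smul, ← (CutTop478.mem_K G).1 hwK]
        have h5 : dist x (G.ex x w) ≤ Metric.diam (univ : Set M) :=
          Metric.dist_le_diam_of_mem isCompact_univ.isBounded (mem_univ _) (mem_univ _)
        have h6 : (0 : ℝ) ≤ dist x (G.ex x w) := dist_nonneg
        norm_num
        linarith)
      refine h3.trans (le_of_eq ?_)
      congr 1
      rw [smul_add, sub_add_cancel_left, norm_neg, smul_smul, norm_smul, Real.norm_eq_abs, abs_mul,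
        abs_of_pos (by norm_num : (0 : ℝ) < 1 / 2)]
      ring
    have a5 : ‖r τ - (1 / 2 : ℝ) • q₀‖ ^ 2 ≤ (√A * (L * (|τ| / 2 * ‖η‖))) ^ 2 := by
      rw [mul_pow, Real.sq_sqrt hA]
      refine a3.trans ?_
      gcongr
    exact le_of_sq_le_sq a5 (by positivity)
  set R : ℝ := √A * L * ‖η‖ with hR
  have hR0 : 0 ≤ R := by positivity
  set D : ℝ → TangentSpace (𝓡 n) y := fun τ => τ⁻¹ • ((2 : ℝ) • r τ - q₀) with hD
  have hDb : ∀ᶠ τ : ℝ in 𝓝[>] 0, D τ ∈ Metric.closedBall (0 : TangentSpace (𝓡 n) y) R := by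
    filter_upwards [hrb.filter_mono nhdsWithin_le_nhds, self_mem_nhdsWithin] with τ a1 a2
    have a2' : 0 < τ := a2
    rw [abs_of_pos a2'] at a1
    have e : (2 : ℝ) • r τ - q₀ = (2 : ℝ) • (r τ - (1 / 2 : ℝ) • q₀) := by
      rw [smul_sub, smul_smul]; norm_num
    rw [mem_closedBall_zero_iff]
    show ‖τ⁻¹ • ((2 : ℝ) • r τ - q₀)‖ ≤ R
    rw [e, norm_smul, norm_smul, norm_inv, Real.norm_of_nonneg a2'.le,
      Real.norm_of_nonneg (by norm_num : (0 : ℝ) ≤ 2), inv_mul_le_iff₀ a2']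
    calc 2 * ‖r τ - (1 / 2 : ℝ) • q₀‖ ≤ 2 * (√A * (L * (τ / 2 * ‖η‖))) := by gcongr
      _ = τ * R := by rw [hR]; ring
  have hne : (𝓝[>] (0 : ℝ)).NeBot := inferInstance
  obtain ⟨U, hU⟩ : ∃ U : Ultrafilter ℝ, (U : Filter ℝ) ≤ 𝓝[>] 0 :=
    ⟨Ultrafilter.of (𝓝[>] (0 : ℝ)), Ultrafilter.of_le _⟩
  have hU0 : (U : Filter ℝ) ≤ 𝓝 0 := hU.trans nhdsWithin_le_nhds
  obtain ⟨Ds, hDs, hDt⟩ := (isCompact_closedBall (0 : TangentSpace (𝓡 n) y) R).ultrafilter_le_nhds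
    (U.map D) (by
      rw [Filter.le_principal_iff]
      exact hU hDb)
  have hDt' : Tendsto D U (𝓝 Ds) := hDt
  -- little-o
  have hs2 : ContDiffAt ℝ 2 (Phi G x y w η q₀) (0, q₀) :=
    (contDiffAt_Phi hB hy hqK).of_le two_le_infty
  have ho := (hasFDerivAt_fderiv' hs2).isLittleO
  set a : ℝ → ℝ × TangentSpace (𝓡 n) y := fun τ => (τ, (2 : ℝ) • r τ) with ha
  have hat : Tendsto a (𝓝 0) (𝓝 (0, q₀)) := by
    have h1 : Tendsto (fun τ => (2 : ℝ) • r τ) (𝓝 0) (𝓝 q₀) := by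
      have := hrt.const_smul (2 : ℝ)
      rw [smul_smul] at this
      norm_num at this
      exact this
    exact tendsto_id.prodMk_nhds h1
  have hsub : ∀ᶠ τ : ℝ in U, a τ - ((0 : ℝ), q₀) = τ • ((1 : ℝ), D τ) := by
    filter_upwards [hU self_mem_nhdsWithin] with τ hτ
    have hτ' : (0 : ℝ) < τ := hτ
    show ((τ - 0 : ℝ), (2 : ℝ) • r τ - q₀) = (τ • (1 : ℝ), τ • (τ⁻¹ • ((2 : ℝ) • r τ - q₀)))
    rw [smul_inv_smul₀ hτ'.ne', sub_zero, smul_eq_mul, mul_one]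
  have ho2 : (fun τ => fderiv ℝ (Phi G x y w η q₀) (a τ) -
      fderiv ℝ (Phi G x y w η q₀) (0, q₀) -
      hess (Phi G x y w η q₀) (0, q₀) (a τ - (0, q₀))) =o[(U : Filter ℝ)] fun τ => τ := by
    refine (ho.comp_tendsto (hat.mono_left hU0)).trans_isBigO ?_
    refine Asymptotics.IsBigO.of_bound (1 + R) ?_
    filter_upwards [hsub, hU hDb] with τ a1 a2
    rw [mem_closedBall_zero_iff] at a2
    show ‖a τ - (0, q₀)‖ ≤ _
    rw [a1, norm_smul, mul_comm]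
    gcongr
    rw [Prod.norm_def]
    refine max_le ?_ ?_
    · simp [hR0]
    · show ‖D τ‖ ≤ 1 + R
      linarith
  have hdiff : ∀ᶠ b in 𝓝 ((0 : ℝ), q₀), DifferentiableAt ℝ (Phi G x y w η q₀) b := by
    filter_upwards [hs2.eventually (by simp)] with b hb
    exact hb.differentiableAt (by norm_num)
  have hKev : ∀ᶠ τ : ℝ in 𝓝 0, w + τ • η ∈ G.K x := by
    filter_upwards [LoeperPt128.eventually_mem_I hC η hw] with τ hτ
    exact hB.I_subset x hτ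
  have hcrit : ∀ θ : TangentSpace (𝓡 n) y, ∀ᶠ τ : ℝ in 𝓝 0,
      fderiv ℝ (Phi G x y w η q₀) (a τ) (0, θ) = 0 := by
    intro θ
    filter_upwards [hKev, hat.eventually hdiff] with τ b1 b2
    exact Phi_crit hB hx b1 (hre τ) b2 θ
  have hr0 : (2 : ℝ) • r 0 = q₀ := by
    have h1 : r 0 = (1 / 2 : ℝ) • q₀ := by
      refine CutTop478.uniq G y _ hhI _ (hrK 0) ?_
      rw [hre, hmid]
      show G.ex x ((1 / 2 : ℝ) • (w + (0 : ℝ) • η)) = _
      rw [zero_smul, add_zero]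
    rw [h1, smul_smul]; norm_num
  have hcrit0 : ∀ θ : TangentSpace (𝓡 n) y,
      fderiv ℝ (Phi G x y w η q₀) (0, q₀) (0, θ) = 0 := by
    intro θ
    have h1 := (hcrit θ).self_of_nhds
    have h2 : a 0 = (0, q₀) := by
      show ((0 : ℝ), (2 : ℝ) • r 0) = _
      rw [hr0]
    rwa [h2] at h1
  have hlin : ∀ v θ : TangentSpace (𝓡 n) y,
      hess (Phi G x y w η q₀) (0, q₀) ((1 : ℝ), v) (0, θ) = Hf G y q₀ v θ - inner ℝ ξ θ := by
    intro v θ
    have e : ((1 : ℝ), v) = ((1 : ℝ), (0 : TangentSpace (𝓡 n) y)) + ((0 : ℝ), v) := by simp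
    rw [e, map_add, add_apply, hess_Phi_mixed hC hy hqK hξ, hess_Phi_snd hB hy hqK]
    ring
  have hlim : ∀ θ : TangentSpace (𝓡 n) y, Hf G y q₀ Ds θ = inner ℝ ξ θ := by
    intro θ
    have h1 : (fun τ : ℝ => (fderiv ℝ (Phi G x y w η q₀) (a τ) -
      fderiv ℝ (Phi G x y w η q₀) (0, q₀) -
      hess (Phi G x y w η q₀) (0, q₀) (a τ - (0, q₀))) ((0 : ℝ), θ)) =o[(U : Filter ℝ)]
        fun τ => τ := by
      rw [Asymptotics.isLittleO_iff]
      intro c hc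
      have hk : 0 < ‖((0 : ℝ), θ)‖ + 1 := by positivity
      filter_upwards [(Asymptotics.isLittleO_iff.1 ho2) (show 0 < c / (‖((0 : ℝ), θ)‖ + 1) by
        positivity)] with τ h
      refine (ContinuousLinearMap.le_opNorm _ _).trans ?_
      calc _ ≤ (c / (‖((0 : ℝ), θ)‖ + 1) * ‖τ‖) * (‖((0 : ℝ), θ)‖ + 1) := by
            gcongr
            linarith
        _ = c * ‖τ‖ := by field_simp
    have h2 := h1.tendsto_inv_smul_nhds_zero
    have h5 : Tendsto (fun τ : ℝ => -(Hf G y q₀ (D τ) θ - inner ℝ ξ θ)) U (𝓝 0) := by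
      refine h2.congr' ?_
      filter_upwards [hsub, hU self_mem_nhdsWithin, hU0 (hcrit θ)] with τ a1 a2 a3
      have a2' : (0 : ℝ) < τ := a2
      have a3' : fderiv ℝ (Phi G x y w η q₀) (a τ) (0, θ) = 0 := a3
      rw [a1, sub_apply, sub_apply, a3', hcrit0, map_smul, smul_apply, hlin,
        smul_eq_mul, smul_eq_mul]
      field_simp
      ring
    have h6 : Tendsto (fun τ : ℝ => -(Hf G y q₀ (D τ) θ - inner ℝ ξ θ)) U
        (𝓝 (-(Hf G y q₀ Ds θ - inner ℝ ξ θ))) := by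
      have h7 : Continuous fun v : TangentSpace (𝓡 n) y => -(Hf G y q₀ v θ - inner ℝ ξ θ) := by
        have : Continuous fun v : TangentSpace (𝓡 n) y => Hf G y q₀ v θ :=
          ((ContinuousLinearMap.apply ℝ ℝ θ).continuous.comp (Hf G y q₀).continuous)
        fun_prop
      exact (h7.tendsto Ds).comp hDt'
    have h8 := tendsto_nhds_unique h5 h6
    linarith
  have hfin : Ds = ζ := by
    by_contra hne'
    have h1 : Ds - ζ ≠ 0 := sub_ne_zero.2 hne'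
    have h2 := Hf_pos hB hq h1
    have h3 : Hf G y q₀ (Ds - ζ) (Ds - ζ) = 0 := by
      rw [map_sub (Hf G y q₀), sub_apply, hlim, hζ, sub_self]
    linarith
  rw [← hfin]
  have := mem_closedBall_zero_iff.1 hDs
  exact this

end main

end Crest.Agent.R226.Zeta186
end

-- ▼ part R226/NS1A_683
section

set_option autoImplicit false

open MeasureTheory Bundle Set Filter Manifold
open scoped Manifold ContDiff Bundle ENNReal Topology
open Crest.GeometryTopology.MTW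

namespace Crest.Agent.R226.NS683

open Crest.Agent.R226.Semiconcave345 Crest.Agent.R226.BundleTop345

variable {n : ℕ} {M : Type*} [MetricSpace M] [ChartedSpace (EuclideanSpace ℝ (Fin n)) M]
  [IsManifold (𝓡 n) ∞ M]
  [RiemannianBundle (fun p : M => TangentSpace (𝓡 n) p)]

/-- the cost along chords at `x` -/
noncomputable def Ph (G : GeoData n M) (x : M) (q : (EE n × EE n) × M) (t : ℝ) : ℝ :=
  halfDistSq (G.ex x (q.1.1 + t • q.1.2 : EE n)) q.2

/-- the region where `Ph` is smooth -/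
def RegPh (G : GeoData n M) (x : M) : Set (((EE n × EE n) × M) × ℝ) :=
  {q | dist (G.ex x (q.1.1.1 + q.2 • q.1.1.2 : EE n)) q.1.2 < G.r₀}

theorem contMDiffAt_Ph (G : GeoData n M) (x : M) {q : ((EE n × EE n) × M) × ℝ}
    (hq : q ∈ RegPh G x) :
    ContMDiffAt ((𝓘(ℝ, EE n × EE n).prod (𝓡 n)).prod 𝓘(ℝ, ℝ)) 𝓘(ℝ, ℝ) ∞
      (fun q : ((EE n × EE n) × M) × ℝ => Ph G x q.1 q.2) q := by
  have h0 : ContMDiffAt ((𝓘(ℝ, EE n × EE n).prod (𝓡 n)).prod 𝓘(ℝ, ℝ)) 𝓘(ℝ, EE n × EE n) ∞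
      (fun q : ((EE n × EE n) × M) × ℝ => q.1.1) q := contMDiffAt_fst.comp q contMDiffAt_fst
  have h0' : ContMDiffAt ((𝓘(ℝ, EE n × EE n).prod (𝓡 n)).prod 𝓘(ℝ, ℝ))
      (𝓘(ℝ, EE n × EE n).prod 𝓘(ℝ, ℝ)) ∞
      (fun q : ((EE n × EE n) × M) × ℝ => (q.1.1, q.2)) q := h0.prodMk contMDiffAt_snd
  have h1 : ContMDiffAt ((𝓘(ℝ, EE n × EE n).prod (𝓡 n)).prod 𝓘(ℝ, ℝ)) 𝓘(ℝ, EE n) ∞
      (fun q : ((EE n × EE n) × M) × ℝ => q.1.1.1 + q.2 • q.1.1.2) q := by
    have h2 : ContDiffAt ℝ ∞ (fun r : (EE n × EE n) × ℝ => r.1.1 + r.2 • r.1.2) (q.1.1, q.2) := by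
      fun_prop
    have h3 : ContMDiffAt (𝓘(ℝ, EE n × EE n).prod 𝓘(ℝ, ℝ)) 𝓘(ℝ, EE n) ∞
        (fun r : (EE n × EE n) × ℝ => r.1.1 + r.2 • r.1.2) (q.1.1, q.2) := by
      have h4 := h2.contMDiffAt
      rw [modelWithCornersSelf_prod, ← chartedSpaceSelf_prod] at h4
      exact h4
    exact ContMDiffAt.comp (g := fun r : (EE n × EE n) × ℝ => r.1.1 + r.2 • r.1.2) q h3 h0'
  have h2 : ContMDiffAt ((𝓘(ℝ, EE n × EE n).prod (𝓡 n)).prod 𝓘(ℝ, ℝ)) (𝓡 n) ∞
      (fun q : ((EE n × EE n) × M) × ℝ => G.ex x (q.1.1.1 + q.2 • q.1.1.2 : EE n)) q :=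
    ContMDiffAt.comp (g := fun v : EE n => G.ex x v) q
      (CutTop478.contMDiff_ex G x).contMDiffAt h1
  have h3 := h2.prodMk (contMDiffAt_snd.comp (f := fun q : ((EE n × EE n) × M) × ℝ => q.1) q
    contMDiffAt_fst)
  have hopen : IsOpen {q : M × M | dist q.1 q.2 < G.r₀} :=
    isOpen_lt continuous_dist continuous_const
  have h4 : ContMDiffAt ((𝓡 n).prod (𝓡 n)) 𝓘(ℝ, ℝ) ∞
      (fun q : M × M => halfDistSq q.1 q.2) (G.ex x (q.1.1.1 + q.2 • q.1.1.2 : EE n), q.1.2) :=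
    G.smooth_cost.contMDiffAt (hopen.mem_nhds hq)
  exact ContMDiffAt.comp (g := fun q : M × M => halfDistSq q.1 q.2) q h4 h3

theorem contMDiffAt_dPh (G : GeoData n M) (x : M) {q : ((EE n × EE n) × M) × ℝ}
    (hq : q ∈ RegPh G x) :
    ContMDiffAt ((𝓘(ℝ, EE n × EE n).prod (𝓡 n)).prod 𝓘(ℝ, ℝ)) 𝓘(ℝ, ℝ) ∞
      (fun q : ((EE n × EE n) × M) × ℝ => deriv (Ph G x q.1) q.2) q :=
  contMDiffAt_deriv_snd (Ph G x) q.1 q.2 (contMDiffAt_Ph G x hq)

theorem contMDiffAt_ddPh (G : GeoData n M) (x : M) {q : ((EE n × EE n) × M) × ℝ}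
    (hq : q ∈ RegPh G x) :
    ContMDiffAt ((𝓘(ℝ, EE n × EE n).prod (𝓡 n)).prod 𝓘(ℝ, ℝ)) 𝓘(ℝ, ℝ) ∞
      (fun q : ((EE n × EE n) × M) × ℝ => deriv (deriv (Ph G x q.1)) q.2) q :=
  contMDiffAt_deriv_snd (fun q => deriv (Ph G x q)) q.1 q.2 (contMDiffAt_dPh G x hq)

theorem hasDerivAt_Ph (G : GeoData n M) (x : M) {q : ((EE n × EE n) × M) × ℝ}
    (hq : q ∈ RegPh G x) : HasDerivAt (Ph G x q.1) (deriv (Ph G x q.1) q.2) q.2 :=
  (differentiableAt_slice (Ph G x) q.1 q.2 (contMDiffAt_Ph G x hq)).hasDerivAt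

theorem hasDerivAt_dPh (G : GeoData n M) (x : M) {q : ((EE n × EE n) × M) × ℝ}
    (hq : q ∈ RegPh G x) :
    HasDerivAt (deriv (Ph G x q.1)) (deriv (deriv (Ph G x q.1)) q.2) q.2 :=
  (differentiableAt_slice (fun q => deriv (Ph G x q)) q.1 q.2 (contMDiffAt_dPh G x hq)).hasDerivAt

/-- compact region of chord data -/
def SPh (G : GeoData n M) (x : M) (R : ℝ) : Set (((EE n × EE n) × M) × ℝ) :=
  {q | ‖q.1.1.1‖ ≤ R ∧ ‖q.1.1.2‖ ≤ R ∧ q.2 ∈ Icc (-1 : ℝ) 1 ∧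
    dist (G.ex x (q.1.1.1 + q.2 • q.1.1.2 : EE n)) q.1.2 ≤ G.r₀ / 2}

theorem continuous_exE (G : GeoData n M) (x : M) : Continuous (fun v : EE n => G.ex x v) :=
  (CutTop478.contMDiff_ex G x).continuous

theorem isCompact_SPh [CompactSpace M] (G : GeoData n M) (x : M) (R : ℝ) :
    IsCompact (SPh G x R) := by
  have h1 : IsCompact (((Metric.closedBall (0 : EE n) R ×ˢ Metric.closedBall (0 : EE n) R) ×ˢ
      (univ : Set M)) ×ˢ Icc (-1 : ℝ) 1) :=
    (((isCompact_closedBall _ _).prod (isCompact_closedBall _ _)).prod isCompact_univ).prod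
      isCompact_Icc
  have h2 : Continuous (fun q : ((EE n × EE n) × M) × ℝ =>
      dist (G.ex x (q.1.1.1 + q.2 • q.1.1.2 : EE n)) q.1.2) := by
    have h3 : Continuous (fun q : ((EE n × EE n) × M) × ℝ => q.1.1.1 + q.2 • q.1.1.2) := by
      fun_prop
    exact ((continuous_exE G x).comp h3).dist (continuous_snd.comp continuous_fst)
  have h3 : SPh G x R = (((Metric.closedBall (0 : EE n) R ×ˢ Metric.closedBall (0 : EE n) R) ×ˢ
      (univ : Set M)) ×ˢ Icc (-1 : ℝ) 1) ∩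
      {q | dist (G.ex x (q.1.1.1 + q.2 • q.1.1.2 : EE n)) q.1.2 ≤ G.r₀ / 2} := by
    ext q
    simp only [SPh, mem_ofPred_eq, mem_inter_iff, mem_prod, mem_univ, and_true,
      Metric.mem_closedBall, dist_zero_right]
    tauto
  rw [h3]
  exact h1.inter_right (isClosed_le h2 continuous_const)

theorem SPh_subset (G : GeoData n M) (x : M) (R : ℝ) : SPh G x R ⊆ RegPh G x := by
  rintro q ⟨-, -, -, h⟩
  have hr := G.r₀_pos
  change dist _ _ < _
  linarith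

/-- uniform continuity of the chords -/
theorem exists_delta_chord (G : GeoData n M) (x : M) (R : ℝ) {ρ : ℝ} (hρ0 : 0 < ρ) :
    ∃ δ : ℝ, 0 < δ ∧ δ ≤ 1 ∧ ∀ p Δ : EE n, ‖p‖ ≤ R → ‖Δ‖ ≤ R →
      ∀ t : ℝ, |t| ≤ δ → dist (G.ex x (p + t • Δ : EE n)) (G.ex x p) ≤ ρ := by
  have hcomp : IsCompact ((Metric.closedBall (0 : EE n) R ×ˢ Metric.closedBall (0 : EE n) R) ×ˢ
      Icc (-1 : ℝ) 1) :=
    ((isCompact_closedBall _ _).prod (isCompact_closedBall _ _)).prod isCompact_Icc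
  have hcont : Continuous (fun q : (EE n × EE n) × ℝ => G.ex x (q.1.1 + q.2 • q.1.2 : EE n)) := by
    have h3 : Continuous (fun q : (EE n × EE n) × ℝ => q.1.1 + q.2 • q.1.2) := by fun_prop
    exact (continuous_exE G x).comp h3
  have huc := hcomp.uniformContinuousOn_of_continuous hcont.continuousOn
  rw [Metric.uniformContinuousOn_iff] at huc
  obtain ⟨δ, hδ, h⟩ := huc ρ hρ0
  refine ⟨min (δ / 2) 1, by positivity, min_le_right _ _, ?_⟩
  intro p Δ hp hΔ t ht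
  have ht1 : |t| ≤ 1 := ht.trans (min_le_right _ _)
  have ht2 : |t| ≤ δ / 2 := ht.trans (min_le_left _ _)
  have h1 := h ((p, Δ), t) ⟨⟨by simpa using hp, by simpa using hΔ⟩, abs_le.1 ht1⟩
    ((p, Δ), 0) ⟨⟨by simpa using hp, by simpa using hΔ⟩, by simp⟩ (by
      simp only [Prod.dist_eq, dist_self, dist_zero_right, Real.norm_eq_abs]
      rw [max_eq_right (by positivity)]
      linarith)
  simp only [zero_smul, add_zero] at h1
  exact h1.le

/-- bounds of the derivatives -/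
theorem exists_bound_Ph [CompactSpace M] (G : GeoData n M) (x : M) (R : ℝ) :
    ∃ B : ℝ, 0 ≤ B ∧ ∀ q ∈ SPh G x R, |deriv (deriv (Ph G x q.1)) q.2| ≤ B ∧
      |deriv (Ph G x q.1) q.2| ≤ B := by
  obtain ⟨B₂, hB₂⟩ := (isCompact_SPh G x R).exists_bound_of_continuousOn
    (f := fun q : ((EE n × EE n) × M) × ℝ => deriv (deriv (Ph G x q.1)) q.2)
    (fun q hq => (contMDiffAt_ddPh G x (SPh_subset G x R hq)).continuousAt.continuousWithinAt)
  obtain ⟨B₁, hB₁⟩ := (isCompact_SPh G x R).exists_bound_of_continuousOn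
    (f := fun q : ((EE n × EE n) × M) × ℝ => deriv (Ph G x q.1) q.2)
    (fun q hq => (contMDiffAt_dPh G x (SPh_subset G x R hq)).continuousAt.continuousWithinAt)
  refine ⟨max 0 (max B₁ B₂), le_max_left _ _, fun q hq => ⟨?_, ?_⟩⟩
  · exact (hB₂ q hq).trans ((le_max_right _ _).trans (le_max_right _ _))
  · exact (hB₁ q hq).trans ((le_max_left _ _).trans (le_max_right _ _))

/-- two-sided Taylor upper bound -/
theorem taylor_two {f f' f'' : ℝ → ℝ} {δ B : ℝ}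
    (h1 : ∀ t : ℝ, |t| ≤ δ → HasDerivAt f (f' t) t) (h2 : ∀ t : ℝ, |t| ≤ δ → HasDerivAt f' (f'' t) t)
    (h3 : ∀ t : ℝ, |t| ≤ δ → f'' t ≤ B) {t : ℝ} (ht : |t| ≤ δ) :
    f t ≤ f 0 + f' 0 * t + B * t ^ 2 / 2 := by
  rcases le_total 0 t with h0 | h0
  · have hle : ∀ s ∈ Icc (0 : ℝ) t, |s| ≤ δ := by
      intro s hs
      rw [abs_of_nonneg hs.1]
      rw [abs_of_nonneg h0] at ht
      linarith [hs.2]
    exact taylor_upper (f := f) (f' := f') (f'' := f'') (B := B) h0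
      (fun s hs => h1 s (hle s hs)) (fun s hs => h2 s (hle s hs)) (fun s hs => h3 s (hle s hs))
  · have hle : ∀ s ∈ Icc (0 : ℝ) (-t), |(-s)| ≤ δ := by
      intro s hs
      rw [abs_neg, abs_of_nonneg hs.1]
      rw [abs_of_nonpos h0] at ht
      linarith [hs.2]
    have h4 := taylor_upper (f := fun s => f (-s)) (f' := fun s => -f' (-s))
      (f'' := fun s => f'' (-s)) (B := B) (T := -t) (by linarith)
      (fun s hs => by
        have h5 : HasDerivAt (fun s => f (-s)) (f' (-s) * (-1)) s :=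
          HasDerivAt.comp (h₂ := f) s (h1 (-s) (hle s hs)) (hasDerivAt_neg s)
        rwa [mul_neg_one] at h5)
      (fun s hs => by
        have h5 : HasDerivAt (fun s => -f' (-s)) (-(f'' (-s) * (-1))) s :=
          (HasDerivAt.comp (h₂ := f') s (h2 (-s) (hle s hs)) (hasDerivAt_neg s)).neg
        rwa [mul_neg_one, neg_neg] at h5)
      (fun s hs => h3 _ (hle s hs))
    simp only [neg_neg, neg_zero] at h4
    nlinarith

theorem tay_Ph [CompactSpace M] (G : GeoData n M) (x : M) (R : ℝ) {δ B : ℝ}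
    (q : (EE n × EE n) × M) (hmem : ∀ t : ℝ, |t| ≤ δ → (q, t) ∈ SPh G x R)
    (hB : ∀ q ∈ SPh G x R, |deriv (deriv (Ph G x q.1)) q.2| ≤ B ∧
      |deriv (Ph G x q.1) q.2| ≤ B) {t : ℝ} (ht : |t| ≤ δ) :
    Ph G x q t ≤ Ph G x q 0 + deriv (Ph G x q) 0 * t + B * t ^ 2 / 2 := by
  obtain ⟨f, hf⟩ : ∃ f : ℝ → ℝ, f = Ph G x q := ⟨_, rfl⟩
  have h1 : ∀ t : ℝ, |t| ≤ δ → HasDerivAt f (deriv f t) t := by
    intro t ht
    rw [hf]
    exact hasDerivAt_Ph G x (q := (q, t)) (SPh_subset G x R (hmem t ht))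
  have h2 : ∀ t : ℝ, |t| ≤ δ → HasDerivAt (deriv f) (deriv (deriv f) t) t := by
    intro t ht
    rw [hf]
    exact hasDerivAt_dPh G x (q := (q, t)) (SPh_subset G x R (hmem t ht))
  have h3 : ∀ t : ℝ, |t| ≤ δ → deriv (deriv f) t ≤ B := by
    intro t ht
    rw [hf]
    exact (le_abs_self _).trans (hB (q, t) (hmem t ht)).1
  rw [← hf]
  exact taylor_two h1 h2 h3 ht

/-- local part of the semiconcavity -/
theorem semi_near [CompactSpace M] (G : GeoData n M) (x : M) (R : ℝ) {δ B ε D : ℝ}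
    (hδ1 : δ ≤ 1)
    (hδ : ∀ p Δ : EE n, ‖p‖ ≤ R → ‖Δ‖ ≤ R →
      ∀ t : ℝ, |t| ≤ δ → dist (G.ex x (p + t • Δ : EE n)) (G.ex x p) ≤ G.r₀ / 4)
    (hB : ∀ q ∈ SPh G x R, |deriv (deriv (Ph G x q.1)) q.2| ≤ B ∧
      |deriv (Ph G x q.1) q.2| ≤ B)
    (hδ0 : 0 < δ) (hε0 : 0 < ε) (hε1 : ε ≤ 1 / 2) (hεD : ε * D ≤ G.r₀ / 4)
    (hD : ∀ x y : M, dist x y ≤ D) (p Δ : EE n) (hp : ‖p‖ ≤ R) (hΔ : ‖Δ‖ ≤ R) (x₁ : M) :
    ∃ κ : ℝ, |κ| ≤ B / ε ∧ ∀ t : ℝ, |t| ≤ δ →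
      halfDistSq x₁ (G.ex x (p + t • Δ : EE n)) ≤
        halfDistSq x₁ (G.ex x p) + κ * t + B / (2 * ε) * t ^ 2 := by
  obtain ⟨y, hy⟩ : ∃ y, y = G.ex x p := ⟨_, rfl⟩
  obtain ⟨v, hv, hvx⟩ := CutTop478.exists_mem_K G y x₁
  have hvn : dist y x₁ = ‖v‖ := by rw [← hvx]; exact hv
  have hvD : ‖v‖ ≤ D := by rw [← hvn]; exact hD _ _
  obtain ⟨z, hz⟩ : ∃ z, z = G.ex y (ε • v) := ⟨_, rfl⟩
  have hyz : dist y z ≤ ε * ‖v‖ := by
    have h := G.dist_le y v 0 ε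
    rw [zero_smul, G.ex_zero, ← hz] at h
    rwa [zero_sub, abs_neg, abs_of_pos hε0] at h
  have hyzρ : dist y z ≤ G.r₀ / 4 := hyz.trans (le_trans (by gcongr) hεD)
  have hzx : dist z x₁ ≤ (1 - ε) * ‖v‖ := by
    have h := G.dist_le y v ε 1
    rw [one_smul, ← hz, hvx, abs_of_nonpos (by linarith)] at h
    linarith
  have hmem : ∀ t : ℝ, |t| ≤ δ → ((((p, Δ), z) : (EE n × EE n) × M), t) ∈ SPh G x R := by
    intro t ht
    refine ⟨hp, hΔ, abs_le.1 (ht.trans hδ1), ?_⟩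
    change dist (G.ex x (p + t • Δ : EE n)) z ≤ G.r₀ / 2
    have h1 := hδ p Δ hp hΔ t ht
    rw [← hy] at h1
    have h2 := dist_triangle (G.ex x (p + t • Δ : EE n)) y z
    linarith
  have hb1 : |deriv (Ph G x ((p, Δ), z)) 0| ≤ B := (hB _ (hmem 0 (by simpa using hδ0.le))).2
  have htay : ∀ t : ℝ, |t| ≤ δ → Ph G x ((p, Δ), z) t ≤ Ph G x ((p, Δ), z) 0 +
      deriv (Ph G x ((p, Δ), z)) 0 * t + B * t ^ 2 / 2 := fun t ht =>
    tay_Ph G x R ((p, Δ), z) hmem hB ht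
  obtain ⟨dd, hdd⟩ : ∃ dd, dd = deriv (Ph G x ((p, Δ), z)) 0 := ⟨_, rfl⟩
  rw [← hdd] at hb1
  obtain ⟨κ, hκ⟩ : ∃ κ, κ = dd / ε := ⟨_, rfl⟩
  have hκB : |κ| ≤ B / ε := by
    rw [hκ, abs_div, abs_of_pos hε0]
    gcongr
  refine ⟨κ, hκB, fun t ht => ?_⟩
  rw [← hy]
  have hv0 : halfDistSq x₁ y = ‖v‖ ^ 2 / 2 := by
    rw [halfDistSq, dist_comm, hvn]
  rw [hv0]
  have h1 := cost_triangle (G.ex x (p + t • Δ : EE n)) x₁ z hε0 (by linarith)
  have h2 : halfDistSq (G.ex x (p + t • Δ : EE n)) z ≤ halfDistSq y z + dd * t + B * t ^ 2 / 2 := by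
    have h2 := htay t ht
    rw [← hdd] at h2
    have e1 : Ph G x ((p, Δ), z) 0 = halfDistSq y z := by
      unfold Ph
      simp only [zero_smul, add_zero]
      rw [← hy]
    rw [e1] at h2
    exact h2
  have h3 : halfDistSq y z ≤ ε ^ 2 * ‖v‖ ^ 2 / 2 := by
    rw [halfDistSq]
    have : dist y z ^ 2 ≤ (ε * ‖v‖) ^ 2 := by gcongr
    nlinarith
  have h4 : halfDistSq z x₁ ≤ (1 - ε) ^ 2 * ‖v‖ ^ 2 / 2 := by
    rw [halfDistSq]
    have : dist z x₁ ^ 2 ≤ ((1 - ε) * ‖v‖) ^ 2 := by gcongr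
    nlinarith
  have h5 : halfDistSq z x₁ / (1 - ε) ≤ (1 - ε) * ‖v‖ ^ 2 / 2 := by
    rw [div_le_iff₀ (by linarith)]
    nlinarith
  have h6 : halfDistSq (G.ex x (p + t • Δ : EE n)) z / ε ≤
      ε * ‖v‖ ^ 2 / 2 + κ * t + B / (2 * ε) * t ^ 2 := by
    rw [div_le_iff₀ hε0]
    have h7 : (ε * ‖v‖ ^ 2 / 2 + κ * t + B / (2 * ε) * t ^ 2) * ε =
        ε ^ 2 * ‖v‖ ^ 2 / 2 + dd * t + B * t ^ 2 / 2 := by
      rw [hκ]
      field_simp
    rw [h7]
    linarith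
  have h7 : halfDistSq x₁ (G.ex x (p + t • Δ : EE n)) =
      halfDistSq (G.ex x (p + t • Δ : EE n)) x₁ := by
    rw [halfDistSq, halfDistSq, dist_comm]
  rw [h7]
  linarith

/-- semiconcavity of the cost along chords of a ball of `T_xM` (model norm), uniform in the
other point. -/
theorem semiE [CompactSpace M] (G : GeoData n M) (x : M) (R : ℝ) :
    ∃ K : ℝ, 0 ≤ K ∧ ∀ p Δ : EE n, ‖p‖ ≤ R → ‖Δ‖ ≤ R → ∀ x₁ : M, ∃ κ : ℝ,
      ∀ t : ℝ, halfDistSq x₁ (G.ex x (p + t • Δ : EE n)) ≤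
        halfDistSq x₁ (G.ex x p) + κ * t + K * t ^ 2 := by
  obtain ⟨D, hD0, hD⟩ := exists_diam (M := M)
  have hr := G.r₀_pos
  obtain ⟨ε, hε⟩ : ∃ ε, ε = min (1 / 2) (G.r₀ / 4 / D) := ⟨_, rfl⟩
  have hε0 : 0 < ε := by rw [hε]; positivity
  have hε1 : ε ≤ 1 / 2 := by rw [hε]; exact min_le_left _ _
  have hεD : ε * D ≤ G.r₀ / 4 := by
    have : ε ≤ G.r₀ / 4 / D := by rw [hε]; exact min_le_right _ _
    calc ε * D ≤ G.r₀ / 4 / D * D := by gcongr
      _ = G.r₀ / 4 := by field_simp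
  obtain ⟨δ, hδ0, hδ1, hδ⟩ := exists_delta_chord G x R (ρ := G.r₀ / 4) (by positivity)
  obtain ⟨B, hB0, hB⟩ := exists_bound_Ph G x R
  refine ⟨B / (2 * ε) + D ^ 2 / (2 * δ ^ 2) + B / (ε * δ), by positivity, ?_⟩
  intro p Δ hp hΔ x₁
  obtain ⟨κ, hκB, hκ⟩ := semi_near G x R hδ1 hδ hB hδ0 hε0 hε1 hεD hD p Δ hp hΔ x₁
  refine ⟨κ, fun t => ?_⟩
  rcases le_or_gt |t| δ with hnear | hfar
  · have h1 := hκ t hnear
    have h8 : 0 ≤ (D ^ 2 / (2 * δ ^ 2) + B / (ε * δ)) * t ^ 2 := by positivity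
    nlinarith
  · have h1 : halfDistSq x₁ (G.ex x (p + t • Δ : EE n)) ≤ D ^ 2 / 2 := by
      rw [halfDistSq]
      have := hD x₁ (G.ex x (p + t • Δ : EE n))
      gcongr
    have h2 : D ^ 2 / 2 ≤ D ^ 2 / (2 * δ ^ 2) * t ^ 2 := by
      rw [div_mul_eq_mul_div, div_le_div_iff₀ (by positivity) (by positivity)]
      have : δ ^ 2 ≤ t ^ 2 := by
        rw [← sq_abs t]
        gcongr
      nlinarith [sq_nonneg D]
    have h3 : -(κ * t) ≤ B / (ε * δ) * t ^ 2 := by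
      have h4 : -(κ * t) ≤ |κ| * |t| := by
        rw [← abs_mul]
        exact neg_le_abs _
      have h5 : |t| ≤ t ^ 2 / δ := by
        rw [le_div_iff₀ hδ0, ← sq_abs t, sq]
        exact mul_le_mul_of_nonneg_left hfar.le (abs_nonneg _)
      calc -(κ * t) ≤ |κ| * |t| := h4
        _ ≤ B / ε * (t ^ 2 / δ) := by gcongr
        _ = B / (ε * δ) * t ^ 2 := by field_simp
    have h4 : 0 ≤ B / (2 * ε) * t ^ 2 := by positivity
    have h5 : 0 ≤ halfDistSq x₁ (G.ex x p) := by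
      rw [halfDistSq]; positivity
    nlinarith

end Crest.Agent.R226.NS683
end

-- ▼ part R226/Kink_683
section

set_option autoImplicit false

open Set Filter MeasureTheory
open scoped Topology Interval

namespace Crest.Agent.R226.NS683

/-- an almost monotone function with a.e. nonnegative derivative does not decrease -/
theorem le_of_ae_deriv_nonneg {E : ℝ → ℝ} {K a b : ℝ} (hab : a ≤ b)
    (hm : MonotoneOn (fun s => E s + K * s) (Icc a b))
    (hd : ∀ᵐ s : ℝ, s ∈ Ioo a b → DifferentiableAt ℝ E s → 0 ≤ deriv E s) : E a ≤ E b := by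
  have hm' : MonotoneOn (fun s => E s + K * s) (uIcc a b) := by rwa [uIcc_of_le hab]
  have h1 := hm'.intervalIntegral_deriv_mem_uIcc
  have h2 := hm'.intervalIntegrable_deriv
  have hab' : E a + K * a ≤ E b + K * b :=
    hm (left_mem_Icc.2 hab) (right_mem_Icc.2 hab) hab
  rw [uIcc_of_le (by linarith)] at h1
  have h3 : ∫ x in a..b, (K : ℝ) ≤ ∫ x in a..b, deriv (fun s => E s + K * s) x := by
    refine intervalIntegral.integral_mono_ae_restrict hab (by simp) h2 ?_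
    rw [Filter.EventuallyLE, ← restrict_Ioo_eq_restrict_Icc,
      MeasureTheory.ae_restrict_iff' measurableSet_Ioo]
    have hdiff := hm.ae_differentiableWithinAt_of_mem
    filter_upwards [hd, hdiff] with s hs hs' hmem
    have hmem' : s ∈ Icc a b := Ioo_subset_Icc_self hmem
    have h4 : DifferentiableAt ℝ (fun s => E s + K * s) s :=
      (hs' hmem').differentiableAt (Icc_mem_nhds hmem.1 hmem.2)
    have h5 : DifferentiableAt ℝ E s := by
      have h6 : DifferentiableAt ℝ (fun s : ℝ => K * s) s := by fun_prop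
      have h7 := h4.sub h6
      have h8 : ((fun s => E s + K * s) - fun s : ℝ => K * s) = E := by
        funext t
        simp
      rwa [h8] at h7
    have h6 : HasDerivAt (fun s => E s + K * s) (deriv E s + K * 1) s :=
      h5.hasDerivAt.add ((hasDerivAt_id s).const_mul K)
    rw [h6.deriv]
    have := hs hmem h5
    linarith
  rw [intervalIntegral.integral_const, smul_eq_mul] at h3
  have h4 := h1.2
  nlinarith

/-- supporting parabolas on `[a,b]` make `g + K s²` convex. -/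
theorem convexOn_of_parabola {g : ℝ → ℝ} {K a b : ℝ}
    (h : ∀ s₀ ∈ Icc a b, ∃ κ : ℝ, ∀ s ∈ Icc a b, g s₀ + κ * (s - s₀) - K * (s - s₀) ^ 2 ≤ g s) :
    ConvexOn ℝ (Icc a b) (fun s => g s + K * s ^ 2) := by
  refine ⟨convex_Icc a b, ?_⟩
  intro x hx y hy α β hα hβ hαβ
  have hz : α • x + β • y ∈ Icc a b := convex_Icc a b hx hy hα hβ hαβ
  obtain ⟨κ, hκ⟩ := h _ hz
  have h1 := hκ x hx
  have h2 := hκ y hy
  simp only [smul_eq_mul] at *
  obtain ⟨z, hzdef⟩ : ∃ z, z = α * x + β * y := ⟨_, rfl⟩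
  rw [← hzdef] at h1 h2 ⊢
  have hβ' : β = 1 - α := by linarith
  have e1 := mul_le_mul_of_nonneg_left h1 hα
  have e2 := mul_le_mul_of_nonneg_left h2 hβ
  have e3 : α * (g z + κ * (x - z) - K * (x - z) ^ 2) + β * (g z + κ * (y - z) - K * (y - z) ^ 2) =
      g z + K * z ^ 2 - K * (α * x ^ 2 + β * y ^ 2) := by
    have e4 : α * (x - z) + β * (y - z) = 0 := by rw [hzdef, hβ']; ring
    have e5 : α * (x - z) ^ 2 + β * (y - z) ^ 2 = α * x ^ 2 + β * y ^ 2 - z ^ 2 := by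
      rw [hzdef, hβ']; ring
    calc _ = (α + β) * g z + κ * (α * (x - z) + β * (y - z)) -
          K * (α * (x - z) ^ 2 + β * (y - z) ^ 2) := by ring
      _ = _ := by rw [e4, e5, hαβ]; ring
  nlinarith

/-- **kink lemma**, in a form stable under pointwise limits. -/
theorem kink {g : ℝ → ℝ} {K w S : ℝ} (hK : 0 ≤ K) (hw : 0 ≤ w) (hS : S ≤ 1)
    (hsub : ∀ s₀ ∈ Icc (-1 : ℝ) 2, ∃ κ : ℝ, ∀ s ∈ Icc (-1 : ℝ) 2,
      g s₀ + κ * (s - s₀) - K * (s - s₀) ^ 2 ≤ g s)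
    (ha : ∀ᵐ s : ℝ, s ∈ Ioo 0 S → ContDiffAt ℝ 2 g s ∧ -(w * |deriv g s|) ≤ deriv (deriv g) s)
    {a a' : ℝ} (ha0 : 0 ≤ a) (haa : a < a') (haS : a' ≤ S) :
    g a' - g S ≤ (S - a') *
      (Real.exp (w * S) * max 0 (K * (a' - a) - (g a' - g a) / (a' - a))) := by
  have ha'0 : 0 ≤ a' := ha0.trans haa.le
  have hS0 : 0 ≤ S := ha'0.trans haS
  have hconv := convexOn_of_parabola hsub
  obtain ⟨G, hG⟩ : ∃ G : ℝ → ℝ, G = fun s => g s + K * s ^ 2 := ⟨_, rfl⟩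
  rw [← hG] at hconv
  have hint : ∀ s ∈ Icc (0 : ℝ) S, s ∈ interior (Icc (-1 : ℝ) 2) := by
    intro s hs
    rw [interior_Icc]
    exact ⟨by linarith [hs.1], by linarith [hs.2]⟩
  obtain ⟨m, hm⟩ : ∃ m : ℝ → ℝ, m = fun s => derivWithin G (Ioi s) s := ⟨_, rfl⟩
  have hmono : MonotoneOn m (interior (Icc (-1 : ℝ) 2)) := by
    rw [hm]; exact hconv.monotoneOn_rightDeriv
  obtain ⟨v, hv⟩ : ∃ v : ℝ → ℝ, v = fun s => m s - 2 * K * s := ⟨_, rfl⟩
  -- `v` is the right derivative of `g`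
  have hvd : ∀ s ∈ Icc (0 : ℝ) S, HasDerivWithinAt g (v s) (Ici s) s := by
    intro s hs
    have h1 := hconv.hasDerivWithinAt_rightDeriv_of_mem_interior (hint s hs)
    rw [hasDerivWithinAt_Ioi_iff_Ici] at h1
    have h2 : HasDerivWithinAt (fun s : ℝ => K * s ^ 2) (K * (2 * s)) (Ici s) s := by
      have := ((hasDerivAt_pow 2 s).const_mul K).hasDerivWithinAt (s := Ici s)
      simpa using this
    have h3 := h1.sub h2
    have h4 : (G - fun s : ℝ => K * s ^ 2) = g := by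
      funext t
      rw [hG]
      simp
    rw [h4] at h3
    have h5 : derivWithin G (Ioi s) s - K * (2 * s) = v s := by
      rw [hv, hm]
      ring
    rwa [h5] at h3
  -- at smooth points
  have hvs : ∀ s ∈ Ioo (0 : ℝ) S, ContDiffAt ℝ 2 g s → v =ᶠ[𝓝 s] deriv g := by
    intro s hs hg
    have h1 : ∀ᶠ t in 𝓝 s, ContDiffAt ℝ 2 g t := hg.eventually (by simp)
    have h2 : ∀ᶠ t in 𝓝 s, t ∈ Ioo (0 : ℝ) S := Ioo_mem_nhds hs.1 hs.2
    filter_upwards [h1, h2] with t ht ht2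
    have h3 := hvd t (Ioo_subset_Icc_self ht2)
    have h4 : HasDerivAt g (deriv g t) t := (ht.differentiableAt (by norm_num)).hasDerivAt
    exact (uniqueDiffWithinAt_Ici t).eq_deriv _ h3 h4.hasDerivWithinAt
  obtain ⟨ψ, hψ⟩ : ∃ ψ : ℝ → ℝ, ψ = fun s => min (v s) 0 := ⟨_, rfl⟩
  have hψ0 : ∀ s, ψ s ≤ 0 := fun s => by rw [hψ]; exact min_le_right _ _
  have hψv : ∀ s, ψ s ≤ v s := fun s => by rw [hψ]; exact min_le_left _ _
  obtain ⟨E, hE⟩ : ∃ E : ℝ → ℝ, E = fun s => Real.exp (-(w * s)) * ψ s := ⟨_, rfl⟩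
  have hEmono : ∀ b ≤ S, MonotoneOn (fun s => E s + (2 * K) * s) (Icc 0 b) := by
    intro b hb s hs s' hs' hss
    have e1 : m s ≤ m s' := hmono (hint s ⟨hs.1, hs.2.trans hb⟩) (hint s' ⟨hs'.1, hs'.2.trans hb⟩) hss
    have e2 : ψ s - 2 * K * (s' - s) ≤ ψ s' := by
      rw [hψ, hv]
      simp only
      refine le_min ?_ ?_
      · have := min_le_left (m s - 2 * K * s) 0
        linarith
      · have := min_le_right (m s - 2 * K * s) 0
        have : 0 ≤ 2 * K * (s' - s) := mul_nonneg (by linarith) (by linarith)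
        linarith
    have e3 : Real.exp (-(w * s')) ≤ Real.exp (-(w * s)) :=
      Real.exp_le_exp.2 (by nlinarith)
    have e4 : Real.exp (-(w * s')) ≤ 1 := by
      rw [Real.exp_le_one_iff]
      have := mul_nonneg hw hs'.1
      linarith
    have e5 : 0 < Real.exp (-(w * s')) := Real.exp_pos _
    have e6 := hψ0 s
    have e7 : 0 ≤ 2 * K * (s' - s) := mul_nonneg (by linarith) (by linarith)
    simp only [hE]
    have e8 : Real.exp (-(w * s')) * (ψ s - 2 * K * (s' - s)) ≤ Real.exp (-(w * s')) * ψ s' :=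
      mul_le_mul_of_nonneg_left e2 e5.le
    have e9 : Real.exp (-(w * s)) * ψ s ≤ Real.exp (-(w * s')) * ψ s :=
      mul_le_mul_of_nonpos_right e3 e6
    nlinarith
  have hEd : ∀ᵐ s : ℝ, s ∈ Ioo 0 S → 0 ≤ deriv E s := by
    filter_upwards [ha] with s hs hmem
    obtain ⟨hg, hg2⟩ := hs hmem
    have h1 := hvs s hmem hg
    have hv1 : v s = deriv g s := h1.eq_of_nhds
    have hdg : ContDiffAt ℝ 1 (deriv g) s := by
      have h := hg.fderiv_right (m := 1) (by norm_num)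
      exact h.clm_apply (contDiffAt_const (c := (1 : ℝ)))
    have h2 : HasDerivAt (deriv g) (deriv (deriv g) s) s :=
      (hdg.differentiableAt (by norm_num)).hasDerivAt
    have h3 : HasDerivAt v (deriv (deriv g) s) s := h2.congr_of_eventuallyEq h1
    rcases lt_trichotomy (v s) 0 with hneg | hzero | hpos
    · have h4 : E =ᶠ[𝓝 s] fun t => Real.exp (-(w * t)) * v t := by
        have h5 : ∀ᶠ t in 𝓝 s, v t < 0 := h3.continuousAt.eventually (gt_mem_nhds hneg)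
        filter_upwards [h5] with t ht
        rw [hE, hψ]
        simp only
        rw [min_eq_left ht.le]
      have h5 : HasDerivAt (fun t : ℝ => Real.exp (-(w * t))) (Real.exp (-(w * s)) * (-(w * 1))) s :=
        (((hasDerivAt_id s).const_mul w).neg).exp
      have h6 := h5.mul h3
      have h7 : HasDerivAt E _ s := h6.congr_of_eventuallyEq h4
      rw [h7.deriv]
      have h8 : |deriv g s| = -v s := by rw [← hv1, abs_of_neg hneg]
      rw [h8] at hg2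
      have h9 : 0 < Real.exp (-(w * s)) := Real.exp_pos _
      have h10 : Real.exp (-(w * s)) * -(w * 1) * v s + Real.exp (-(w * s)) * deriv (deriv g) s =
          Real.exp (-(w * s)) * (deriv (deriv g) s - w * v s) := by ring
      rw [h10]
      refine mul_nonneg h9.le ?_
      nlinarith
    · have h4 : IsLocalMax E s := by
        refine Filter.Eventually.of_forall fun t => ?_
        have : E s = 0 := by
          rw [hE, hψ]
          simp [hzero]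
        rw [this, hE]
        exact mul_nonpos_of_nonneg_of_nonpos (Real.exp_pos _).le (hψ0 t)
      rw [h4.deriv_eq_zero]
    · have h4 : E =ᶠ[𝓝 s] fun _ => 0 := by
        have h5 : ∀ᶠ t in 𝓝 s, 0 < v t := h3.continuousAt.eventually (lt_mem_nhds hpos)
        filter_upwards [h5] with t ht
        rw [hE, hψ]
        simp only
        rw [min_eq_right ht.le, mul_zero]
      rw [h4.deriv_eq]
      simp
  obtain ⟨κ, hκ⟩ : ∃ κ, κ = (g a' - g a) / (a' - a) - K * (a' - a) := ⟨_, rfl⟩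
  have hκ' : K * (a' - a) - (g a' - g a) / (a' - a) = -κ := by rw [hκ]; ring
  rw [hκ']
  have haa0 : 0 < a' - a := by linarith
  -- lower bound of the right derivative at `a'`
  have hv0 : κ ≤ v a' := by
    have h1 : slope G a a' ≤ derivWithin G (Iio a') a' :=
      hconv.slope_le_leftDeriv_of_mem_interior (interior_subset (hint a ⟨ha0, haa.le.trans haS⟩))
        (hint a' ⟨ha'0, haS⟩) haa
    have h2 := hconv.leftDeriv_le_rightDeriv_of_mem_interior (hint a' ⟨ha'0, haS⟩)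
    have h3 : slope G a a' ≤ m a' := by rw [hm]; exact h1.trans h2
    rw [slope_def_field, hG, div_le_iff₀ haa0] at h3
    simp only at h3
    rw [hκ, hv, sub_le_iff_le_add, div_le_iff₀ haa0]
    simp only
    nlinarith
  obtain ⟨c, hc⟩ : ∃ c, c = Real.exp (w * S) * max 0 (-κ) := ⟨_, rfl⟩
  have hmx : 0 ≤ max 0 (-κ) := le_max_left _ _
  have hvl : ∀ s ∈ Icc a' S, -c ≤ v s := by
    intro s hs
    have h1 : E a' ≤ E s := by
      refine le_of_ae_deriv_nonneg hs.1 ((hEmono s hs.2).mono (Icc_subset_Icc_left ha'0)) ?_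
      filter_upwards [hEd] with t ht hmem _
      exact ht ⟨ha'0.trans_lt hmem.1, hmem.2.trans_le hs.2⟩
    have h2 : E a' = Real.exp (-(w * a')) * ψ a' := by rw [hE]
    have h3 : -(max 0 (-κ)) ≤ ψ a' := by
      rw [hψ]
      refine le_min ?_ ?_
      · have := le_max_right 0 (-κ)
        linarith
      · linarith
    have h4 : ψ s = Real.exp (w * s) * E s := by
      rw [hE]
      simp only
      rw [← mul_assoc, ← Real.exp_add]
      simp
    have h5 : Real.exp (w * s) * (Real.exp (-(w * a')) * -(max 0 (-κ))) ≤ ψ s := by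
      rw [h4]
      refine mul_le_mul_of_nonneg_left ?_ (Real.exp_pos _).le
      refine le_trans ?_ h1
      rw [h2]
      exact mul_le_mul_of_nonneg_left h3 (Real.exp_pos _).le
    rw [← mul_assoc, ← Real.exp_add] at h5
    have h6 : Real.exp (w * s + -(w * a')) ≤ Real.exp (w * S) := by
      refine Real.exp_le_exp.2 ?_
      have := mul_le_mul_of_nonneg_left hs.2 hw
      have := mul_nonneg hw ha'0
      linarith
    have h7 := mul_le_mul_of_nonneg_right h6 hmx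
    have := hψv s
    rw [hc]
    linarith
  -- integrate
  have hsubIcc : Icc a' S ⊆ Icc 0 S := Icc_subset_Icc_left ha'0
  have hfin : g a' + -c * (S - a') ≤ g S := by
    have hgc : ContinuousOn g (Icc a' S) := by
      have h1 : ContinuousOn G (interior (Icc (-1 : ℝ) 2)) := hconv.continuousOn_interior
      have h2 : ContinuousOn G (Icc a' S) := h1.mono fun s hs => hint s (hsubIcc hs)
      have h3 : ContinuousOn (fun s : ℝ => K * s ^ 2) (Icc a' S) := by fun_prop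
      have h4 : (G - fun s : ℝ => K * s ^ 2) = g := by
        funext t
        rw [hG]
        simp
      have := h2.sub h3
      rw [← h4]
      exact this
    have h1 := image_le_of_deriv_right_le_deriv_boundary
      (f := fun s => g a' + -c * (s - a')) (f' := fun _ => -c) (a := a') (b := S) (B := g) (B' := v)
      (by fun_prop) ?_ (by simp) hgc (fun x hx => hvd x (hsubIcc (Ico_subset_Icc_self hx)))
      (fun x hx => hvl x (Ico_subset_Icc_self hx)) (right_mem_Icc.2 haS)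
    · exact h1
    · intro x _
      have : HasDerivAt (fun s : ℝ => g a' + -c * (s - a')) (-c * 1) x :=
        (((hasDerivAt_id x).sub_const a').const_mul (-c)).const_add (g a')
      rw [mul_one] at this
      exact this.hasDerivWithinAt
  rw [hc] at hfin
  linarith

end Crest.Agent.R226.NS683
end

-- ▼ part R226/NS1B_683
section

set_option autoImplicit false

open MeasureTheory Bundle Set Filter Manifold
open scoped Manifold ContDiff Bundle ENNReal Topology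
open Crest.GeometryTopology.MTW

namespace Crest.Agent.R226.NS683

section cut

variable {n : ℕ} {M : Type*} [MetricSpace M] [ChartedSpace (EuclideanSpace ℝ (Fin n)) M]
  [IsManifold (𝓡 n) ∞ M]
  [RiemannianBundle (fun p : M => TangentSpace (𝓡 n) p)]

/-- pairs `(x', y)` with `x'` a cut point of `y` (a velocity in `K(y) \ I(y)`). -/
def CS (G : GeoData n M) : Set (M × M) :=
  (fun p : TangentBundle (𝓡 n) M => (G.ex p.1 p.2, p.1)) '' (G.KT \ G.IT)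

theorem isCompact_CS {G : GeoData n M} (hC : CutFacts G) : IsCompact (CS G) := by
  refine (hC.isCompact_KT.diff hC.isOpen_IT).image ?_
  exact (CutTop478.continuous_ex G).prodMk
    (FiberBundle.continuous_proj (EuclideanSpace ℝ (Fin n)) (TangentSpace (𝓡 n)))

theorem slice_CS (G : GeoData n M) (y : M) :
    {x' : M | (x', y) ∈ CS G} = G.ex y '' {v | v ∈ G.K y ∧ v ∉ G.I y} := by
  ext x'
  constructor
  · rintro ⟨⟨y', v⟩, ⟨h1, h2⟩, he⟩
    simp only [Prod.mk.injEq] at he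
    obtain ⟨he1, he2⟩ := he
    subst he2
    exact ⟨v, ⟨h1, h2⟩, he1⟩
  · rintro ⟨v, ⟨h1, h2⟩, rfl⟩
    exact ⟨⟨y, v⟩, ⟨h1, h2⟩, rfl⟩

theorem exists_mem_I_of_not_CS (G : GeoData n M) {x' y : M} (h : (x', y) ∉ CS G) :
    ∃ v ∈ G.I y, G.ex y v = x' := by
  obtain ⟨v, hv, hvx⟩ := CutTop478.exists_mem_K G y x'
  refine ⟨v, ?_, hvx⟩
  by_contra hI
  exact h ⟨⟨y, v⟩, ⟨hv, hI⟩, by simp [hvx]⟩

variable [IsContMDiffRiemannianBundle (𝓡 n) ∞ (EuclideanSpace ℝ (Fin n))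
    (fun p : M => TangentSpace (𝓡 n) p)] [IsRiemannianManifold (𝓡 n) M] [CompactSpace M]

theorem null_slice [MeasurableSpace M] [BorelSpace M] {G : GeoData n M} (hC : CutFacts G) (y : M) :
    (Measure.hausdorffMeasure (n : ℝ) : Measure M) {x' : M | (x', y) ∈ CS G} = 0 := by
  obtain ⟨C, hvol⟩ := Jac344.vol_global hC
  obtain ⟨ι⟩ := Jac344.exists_iso n y
  obtain ⟨A, hA⟩ : ∃ A : Set (EE n), A = {a | ι a ∈ G.K y ∧ ι a ∉ G.I y} := ⟨_, rfl⟩
  have hA0 : (volume : Measure (EE n)) A = 0 := by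
    rw [hA]; exact Jac344.null_K_diff_I hC y ι
  have hcont : Continuous (fun a => ι a) := ι.continuous
  have hAm : MeasurableSet A := by
    rw [hA]
    have h1 : IsClosed {a : EE n | ι a ∈ G.K y} := (CutTop478.isClosed_K G y).preimage hcont
    have h2 : IsOpen {a : EE n | ι a ∈ G.I y} :=
      (CutTop478.isOpen_I_of_isOpen_IT G hC.isOpen_IT y).preimage hcont
    exact h1.measurableSet.inter h2.measurableSet.compl
  have h1 := (hvol y ι A hAm (fun a ha => by rw [hA] at ha; exact ha.1)).1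
  have h2 : (fun a => G.ex y (ι a)) '' A = {x' : M | (x', y) ∈ CS G} := by
    rw [slice_CS, hA]
    ext z
    constructor
    · rintro ⟨a, ha, rfl⟩
      exact ⟨ι a, ha, rfl⟩
    · rintro ⟨v, hv, rfl⟩
      refine ⟨ι.symm v, ?_, by simp⟩
      change ι (ι.symm v) ∈ _ ∧ ι (ι.symm v) ∉ _
      rw [ι.apply_symm_apply]
      exact hv
  rw [h2, Measure.restrict_eq_zero.2 hA0, lintegral_zero_measure, mul_zero] at h1
  exact le_antisymm h1 zero_le

/-- for almost every `z`, almost no point of the curve is a cut point of `z`. -/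
theorem ae_not_cut [MeasurableSpace M] [BorelSpace M] {G : GeoData n M} (hC : CutFacts G)
    {c : ℝ → M} (hc : Continuous c) :
    ∀ᵐ z ∂(Measure.hausdorffMeasure (n : ℝ) : Measure M), ∀ᵐ s : ℝ, (z, c s) ∉ CS G := by
  haveI : SecondCountableTopology M := EMetric.secondCountable_of_sigmaCompact M
  haveI := VolChart767.isFiniteMeasure (n := n) (M := M)
  have hm : MeasurableSet {q : M × ℝ | (q.1, c q.2) ∉ CS G} := by
    have h1 : IsOpen {q : M × ℝ | (q.1, c q.2) ∉ CS G} :=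
      (isCompact_CS hC).isClosed.isOpen_compl.preimage
        (continuous_fst.prodMk (hc.comp continuous_snd))
    exact h1.measurableSet
  rw [Measure.ae_ae_comm hm]
  refine Filter.Eventually.of_forall fun s => ?_
  rw [ae_iff]
  simpa using null_slice hC (c s)

/-- good points are dense. -/
theorem exists_good [MeasurableSpace M] [BorelSpace M] {G : GeoData n M} (hC : CutFacts G)
    {c : ℝ → M} (hc : Continuous c) {U : Set M} (hU : IsOpen U) (hne : U.Nonempty) :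
    ∃ z ∈ U, ∀ᵐ s : ℝ, (z, c s) ∉ CS G := by
  haveI := VolChart767.isOpenPosMeasure (n := n) (M := M)
  by_contra hcon
  push_neg at hcon
  have h1 : (Measure.hausdorffMeasure (n : ℝ) : Measure M) U = 0 := by
    refine measure_mono_null ?_ (ae_not_cut (n := n) hC hc)
    intro z hz
    exact hcon z hz
  exact (hU.measure_pos _ hne).ne' h1

end cut

end Crest.Agent.R226.NS683
end

-- ▼ part R226/NS1C_683
section

set_option autoImplicit false

open MeasureTheory Bundle Set Filter Manifold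
open scoped Manifold ContDiff Bundle ENNReal Topology
open Crest.GeometryTopology.MTW

namespace Crest.Agent.R226.NS683

variable {n : ℕ} {M : Type*} [MetricSpace M] [ChartedSpace (EuclideanSpace ℝ (Fin n)) M]
  [IsManifold (𝓡 n) ∞ M]
  [RiemannianBundle (fun p : M => TangentSpace (𝓡 n) p)]

theorem contDiff_line {x : M} (p₀ p₁ : TangentSpace (𝓡 n) x) :
    ContDiff ℝ ∞ (fun s : ℝ => p₀ + s • (p₁ - p₀)) :=
  contDiff_const.add (contDiff_id.smul contDiff_const)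

theorem contMDiff_chord (G : GeoData n M) {x : M} (p₀ p₁ : TangentSpace (𝓡 n) x) :
    ContMDiff 𝓘(ℝ, ℝ) (𝓡 n) ∞ (fun s : ℝ => G.ex x (p₀ + s • (p₁ - p₀))) := by
  have h1 : ContDiff ℝ ∞ (fun s : ℝ => CutTop478.idE x (p₀ + s • (p₁ - p₀))) :=
    (CutTop478.contDiff_idE x).comp (contDiff_line p₀ p₁)
  have h2 : ContMDiff 𝓘(ℝ, ℝ) 𝓘(ℝ, EuclideanSpace ℝ (Fin n)) ∞
      (fun s : ℝ => CutTop478.idE x (p₀ + s • (p₁ - p₀))) := h1.contMDiff
  exact (CutTop478.contMDiff_ex G x).comp h2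

/-- smoothness of `gg` off the cut locus -/
theorem contDiffAt_gg {G : GeoData n M} (hC : CutFacts G) {x : M} (p₀ p₁ : TangentSpace (𝓡 n) x)
    {s : ℝ} {q₁ : TangentSpace (𝓡 n) (G.ex x (p₀ + s • (p₁ - p₀)))}
    (hq : q₁ ∈ G.I (G.ex x (p₀ + s • (p₁ - p₀)))) {x₁ : M}
    (hx : G.ex (G.ex x (p₀ + s • (p₁ - p₀))) q₁ = x₁) :
    ContDiffAt ℝ ∞ (gg G x p₀ p₁ x₁) s := by
  have h1 : ContDiffAt ℝ ∞ (fun s : ℝ => ‖p₀ + s • (p₁ - p₀)‖ ^ 2 / 2) s :=
    ((contDiff_line p₀ p₁).norm_sq ℝ).contDiffAt.div_const 2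
  have h2 := hC.smooth_cost _ q₁ hq
  rw [hx] at h2
  have h3 : ContMDiffAt 𝓘(ℝ, ℝ) ((𝓡 n).prod (𝓡 n)) ∞
      (fun s : ℝ => ((G.ex x (p₀ + s • (p₁ - p₀)), x₁) : M × M)) s :=
    (contMDiff_chord G p₀ p₁).contMDiffAt.prodMk contMDiffAt_const
  have h4 : ContMDiffAt 𝓘(ℝ, ℝ) 𝓘(ℝ, ℝ) ∞
      (fun s : ℝ => halfDistSq (G.ex x (p₀ + s • (p₁ - p₀))) x₁) s :=
    ContMDiffAt.comp (g := fun q : M × M => halfDistSq q.1 q.2) s h2 h3
  have h5 : ContDiffAt ℝ ∞ (fun s : ℝ => halfDistSq (G.ex x (p₀ + s • (p₁ - p₀))) x₁) s :=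
    contMDiffAt_iff_contDiffAt.1 h4
  have h6 : gg G x p₀ p₁ x₁ = fun s : ℝ => ‖p₀ + s • (p₁ - p₀)‖ ^ 2 / 2 -
      halfDistSq (G.ex x (p₀ + s • (p₁ - p₀))) x₁ := by
    funext s
    rw [gg, halfDistSq, halfDistSq, dist_comm]
  rw [h6]
  exact h1.sub h5

/-- joint continuity of `gg` in the scaling, the far point and the time. -/
theorem continuous_gg (G : GeoData n M) {x : M} (p₀ p₁ : TangentSpace (𝓡 n) x) :
    Continuous (fun q : (ℝ × M) × ℝ => gg G x (q.1.1 • p₀) (q.1.1 • p₁) q.1.2 q.2) := by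
  have h1 : Continuous (fun q : (ℝ × M) × ℝ =>
      q.1.1 • p₀ + q.2 • (q.1.1 • p₁ - q.1.1 • p₀)) := by
    have a1 : Continuous (fun q : (ℝ × M) × ℝ => q.1.1) := continuous_fst.comp continuous_fst
    have a2 : Continuous (fun q : (ℝ × M) × ℝ => q.2) := continuous_snd
    exact (a1.smul continuous_const).add
      (a2.smul ((a1.smul continuous_const).sub (a1.smul continuous_const)))
  have h2 : Continuous (fun v : TangentSpace (𝓡 n) x => G.ex x v) :=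
    (CutTop478.contMDiff_ex G x).continuous.comp (CutTop478.idE x).continuous
  have h3 : Continuous (fun q : (ℝ × M) × ℝ => q.1.2) := continuous_snd.comp continuous_fst
  have h4 : Continuous (fun q : (ℝ × M) × ℝ => halfDistSq q.1.2
      (G.ex x (q.1.1 • p₀ + q.2 • (q.1.1 • p₁ - q.1.1 • p₀)))) := by
    unfold halfDistSq
    exact ((h3.dist (h2.comp h1)).pow 2).div_const 2
  exact ((h1.norm.pow 2).div_const 2).sub h4

/-- supporting parabolas of `gg`, uniform in the scaling and in the far point -/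
theorem exists_parabola [CompactSpace M] (G : GeoData n M) {x : M} (p₀ p₁ : TangentSpace (𝓡 n) x) :
    ∃ K : ℝ, 0 ≤ K ∧ ∀ r : ℝ, 0 ≤ r → r ≤ 1 → ∀ x₁ : M, ∀ s₀ ∈ Icc (-1 : ℝ) 2,
      ∃ κ : ℝ, ∀ s ∈ Icc (-1 : ℝ) 2,
        gg G x (r • p₀) (r • p₁) x₁ s₀ + κ * (s - s₀) - K * (s - s₀) ^ 2 ≤
          gg G x (r • p₀) (r • p₁) x₁ s := by
  obtain ⟨a0, ha0⟩ : ∃ a0 : EE n, a0 = CutTop478.idE x p₀ := ⟨_, rfl⟩
  obtain ⟨a1, ha1⟩ : ∃ a1 : EE n, a1 = CutTop478.idE x (p₁ - p₀) := ⟨_, rfl⟩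
  obtain ⟨R, hRa⟩ : ∃ R : ℝ, R = ‖a0‖ + 2 * ‖a1‖ := ⟨_, rfl⟩
  obtain ⟨K, hK0, hK⟩ := semiE G x R
  refine ⟨K, hK0, fun r hr0 hr1 x₁ s₀ hs₀ => ?_⟩
  obtain ⟨P, hP⟩ : ∃ P : TangentSpace (𝓡 n) x, P = r • p₀ + s₀ • (r • p₁ - r • p₀) := ⟨_, rfl⟩
  obtain ⟨Δ, hΔ⟩ : ∃ Δ : TangentSpace (𝓡 n) x, Δ = r • p₁ - r • p₀ := ⟨_, rfl⟩
  have hΔ' : Δ = r • (p₁ - p₀) := by rw [hΔ, smul_sub]
  have hP' : P = r • (p₀ + s₀ • (p₁ - p₀)) := by
    rw [hP, ← hΔ, hΔ', smul_add, smul_comm r s₀]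
  have hPn : ‖CutTop478.idE x P‖ ≤ R := by
    have e1 : CutTop478.idE x P = r • (a0 + s₀ • a1) := by
      rw [hP', ha0, ha1, map_smul, map_add, map_smul]
    have e2 : ‖a0 + s₀ • a1‖ ≤ ‖a0‖ + 2 * ‖a1‖ := by
      refine (norm_add_le _ _).trans ?_
      rw [norm_smul, Real.norm_eq_abs]
      have : |s₀| ≤ 2 := abs_le.2 ⟨by linarith [hs₀.1], hs₀.2⟩
      gcongr
    rw [e1, norm_smul, Real.norm_eq_abs, abs_of_nonneg hr0, hRa]
    calc r * ‖a0 + s₀ • a1‖ ≤ 1 * (‖a0‖ + 2 * ‖a1‖) := by gcongr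
      _ = _ := one_mul _
  have hΔn : ‖CutTop478.idE x Δ‖ ≤ R := by
    have e1 : CutTop478.idE x Δ = r • a1 := by rw [hΔ', ha1, map_smul]
    rw [e1, norm_smul, Real.norm_eq_abs, abs_of_nonneg hr0, hRa]
    have h1 : r * ‖a1‖ ≤ 1 * ‖a1‖ := by gcongr
    have := norm_nonneg a0
    have := norm_nonneg a1
    linarith
  obtain ⟨κ, hκ⟩ := hK (CutTop478.idE x P) (CutTop478.idE x Δ) hPn hΔn x₁
  refine ⟨inner ℝ P Δ - κ, fun s _ => ?_⟩
  have h1 := hκ (s - s₀)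
  have h2 : r • p₀ + s • (r • p₁ - r • p₀) = P + (s - s₀) • Δ := by
    rw [hP, ← hΔ, sub_smul]
    abel
  have h3 : ‖P + (s - s₀) • Δ‖ ^ 2 = ‖P‖ ^ 2 + 2 * ((s - s₀) * inner ℝ P Δ) +
      (s - s₀) ^ 2 * ‖Δ‖ ^ 2 := by
    rw [norm_add_sq_real, inner_smul_right, norm_smul, Real.norm_eq_abs, mul_pow, sq_abs]
  have h4 : gg G x (r • p₀) (r • p₁) x₁ s₀ = ‖P‖ ^ 2 / 2 - halfDistSq x₁ (G.ex x P) := by
    rw [gg, ← hP]
  have h5 : gg G x (r • p₀) (r • p₁) x₁ s = ‖P + (s - s₀) • Δ‖ ^ 2 / 2 -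
      halfDistSq x₁ (G.ex x (P + (s - s₀) • Δ)) := by
    rw [gg, h2]
  rw [h4, h5, h3]
  have h6 : 0 ≤ (s - s₀) ^ 2 * ‖Δ‖ ^ 2 := by positivity
  have h7 : halfDistSq x₁ (G.ex x (P + (s - s₀) • Δ)) ≤
    halfDistSq x₁ (G.ex x P) + κ * (s - s₀) + K * (s - s₀) ^ 2 := h1
  linarith

variable [IsContMDiffRiemannianBundle (𝓡 n) ∞ (EuclideanSpace ℝ (Fin n))
    (fun p : M => TangentSpace (𝓡 n) p)] [IsRiemannianManifold (𝓡 n) M] [CompactSpace M]

/-- the kink lemma for the perturbed chord -/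
theorem kink_pert {G : GeoData n M} (hC : CutFacts G) {C : ℝ} (hC0 : 0 ≤ C) (hT : T1iP G C)
    {x : M} {p₀ p₁ : TangentSpace (𝓡 n) x} (hp₀ : p₀ ∈ G.K x) (hp₁ : p₁ ∈ G.K x)
    {K : ℝ} (hK0 : 0 ≤ K)
    (hK : ∀ r : ℝ, 0 ≤ r → r ≤ 1 → ∀ x₁ : M, ∀ s₀ ∈ Icc (-1 : ℝ) 2,
      ∃ κ : ℝ, ∀ s ∈ Icc (-1 : ℝ) 2,
        gg G x (r • p₀) (r • p₁) x₁ s₀ + κ * (s - s₀) - K * (s - s₀) ^ 2 ≤
          gg G x (r • p₀) (r • p₁) x₁ s)
    {r : ℝ} (hr0 : 0 ≤ r) (hr1 : r < 1) {z : M}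
    (hz : ∀ᵐ s : ℝ, (z, G.ex x (r • p₀ + s • (r • p₁ - r • p₀))) ∉ CS G)
    {fs S : ℝ} (hfs : 0 < fs) (hS : S ≤ 1)
    (hg : ∀ s ∈ Icc (0 : ℝ) S, fs ≤ gg G x (r • p₀) (r • p₁) z s)
    {a : ℝ} (ha0 : 0 < a) (haS : a ≤ S) :
    gg G x (r • p₀) (r • p₁) z a - gg G x (r • p₀) (r • p₁) z S ≤ (S - a) *
      (Real.exp (C * ‖p₁ - p₀‖ * (1 + 1 / √fs)) *
        max 0 (K * a - (gg G x (r • p₀) (r • p₁) z a - gg G x (r • p₀) (r • p₁) z 0) / a)) := by
  obtain ⟨w, hw⟩ : ∃ w, w = C * ‖r • p₁ - r • p₀‖ * (1 + 1 / √fs) := ⟨_, rfl⟩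
  have hw0 : 0 ≤ w := by rw [hw]; positivity
  have hS0 : 0 ≤ S := ha0.le.trans haS
  have h1 := kink (g := gg G x (r • p₀) (r • p₁) z) (K := K) (w := w) (S := S) hK0 hw0 hS
    (hK r hr0 hr1.le z) (by
      filter_upwards [hz] with s hs hmem
      obtain ⟨q₁, hq₁, hq₁z⟩ := exists_mem_I_of_not_CS G hs
      have hsm := contDiffAt_gg hC (r • p₀) (r • p₁) hq₁ hq₁z
      refine ⟨hsm.of_le ENat.LEInfty.out, ?_⟩
      have hpos := hg s (Ioo_subset_Icc_self hmem)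
      have h2 := hT x (r • p₀) (r • p₁) (CutTop478.smul_mem_I G hp₀ hr0 hr1)
        (CutTop478.smul_mem_I G hp₁ hr0 hr1) s hmem.1 (hmem.2.trans_le hS) q₁ hq₁ z hq₁z
        (hfs.trans_le hpos)
      refine le_trans ?_ h2
      rw [neg_le_neg_iff, hw]
      have h3 : 1 / √(gg G x (r • p₀) (r • p₁) z s) ≤ 1 / √fs := by
        gcongr
      have h4 : C * |deriv (gg G x (r • p₀) (r • p₁) z) s| * ‖r • p₁ - r • p₀‖ *
          (1 + 1 / √(gg G x (r • p₀) (r • p₁) z s)) ≤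
          C * |deriv (gg G x (r • p₀) (r • p₁) z) s| * ‖r • p₁ - r • p₀‖ * (1 + 1 / √fs) := by
        gcongr
      refine h4.trans (le_of_eq ?_)
      ring)
    (a := 0) (a' := a) le_rfl ha0 haS
  rw [sub_zero] at h1
  refine h1.trans ?_
  have h2 : w * S ≤ C * ‖p₁ - p₀‖ * (1 + 1 / √fs) := by
    have h3 : ‖r • p₁ - r • p₀‖ ≤ ‖p₁ - p₀‖ := by
      rw [← smul_sub, norm_smul, Real.norm_eq_abs, abs_of_nonneg hr0]
      exact mul_le_of_le_one_left (norm_nonneg _) hr1.le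
    have h4 : w ≤ C * ‖p₁ - p₀‖ * (1 + 1 / √fs) := by
      rw [hw]
      gcongr
    calc w * S ≤ w * 1 := by gcongr
      _ = w := mul_one _
      _ ≤ _ := h4
  have h3 : 0 ≤ S - a := by linarith
  have h4 : 0 ≤ max 0 (K * a - (gg G x (r • p₀) (r • p₁) z a -
      gg G x (r • p₀) (r • p₁) z 0) / a) := le_max_left _ _
  gcongr

/-- passage to the limit -/
theorem kink_limit [MeasurableSpace M] [BorelSpace M] {G : GeoData n M} (hC : CutFacts G)
    {C : ℝ} (hC0 : 0 ≤ C) (hT : T1iP G C)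
    {x : M} {p₀ p₁ : TangentSpace (𝓡 n) x} (hp₀ : p₀ ∈ G.K x) (hp₁ : p₁ ∈ G.K x)
    {K : ℝ} (hK0 : 0 ≤ K)
    (hK : ∀ r : ℝ, 0 ≤ r → r ≤ 1 → ∀ x₁ : M, ∀ s₀ ∈ Icc (-1 : ℝ) 2,
      ∃ κ : ℝ, ∀ s ∈ Icc (-1 : ℝ) 2,
        gg G x (r • p₀) (r • p₁) x₁ s₀ + κ * (s - s₀) - K * (s - s₀) ^ 2 ≤
          gg G x (r • p₀) (r • p₁) x₁ s)
    {x₁ : M} {fs fs' S : ℝ} (hfs' : 0 < fs') (hfs : fs' < fs) (hS : S ≤ 1)
    (hg : ∀ s ∈ Icc (0 : ℝ) S, fs ≤ gg G x p₀ p₁ x₁ s)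
    {a : ℝ} (ha0 : 0 < a) (haS : a ≤ S) :
    gg G x p₀ p₁ x₁ a - gg G x p₀ p₁ x₁ S ≤ (S - a) *
      (Real.exp (C * ‖p₁ - p₀‖ * (1 + 1 / √fs')) *
        max 0 (K * a - (gg G x p₀ p₁ x₁ a - gg G x p₀ p₁ x₁ 0) / a)) := by
  have hcont := continuous_gg G p₀ p₁
  obtain ⟨Γ, hΓ⟩ : ∃ Γ : (ℝ × M) → ℝ → ℝ, Γ = fun q s => gg G x (q.1 • p₀) (q.1 • p₁) q.2 s :=
    ⟨_, rfl⟩
  have hΓc : Continuous (fun q : (ℝ × M) × ℝ => Γ q.1 q.2) := by rw [hΓ]; exact hcont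
  have hc : ∀ s : ℝ, Continuous (fun q : ℝ × M => Γ q s) := fun s =>
    hΓc.comp (continuous_id.prodMk continuous_const)
  obtain ⟨A, hA⟩ : ∃ A, A = Real.exp (C * ‖p₁ - p₀‖ * (1 + 1 / √fs')) := ⟨_, rfl⟩
  obtain ⟨Θ, hΘ⟩ : ∃ Θ : ℝ × M → ℝ, Θ = fun q => (Γ q a - Γ q S) - (S - a) *
      (A * max 0 (K * a - (Γ q a - Γ q 0) / a)) := ⟨_, rfl⟩
  have hΘc : Continuous Θ := by
    rw [hΘ]
    have h1 : Continuous (fun q : ℝ × M => (Γ q a - Γ q 0) / a) :=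
      ((hc a).sub (hc 0)).div_const a
    have h2 : Continuous (fun q : ℝ × M => K * a - (Γ q a - Γ q 0) / a) :=
      continuous_const.sub h1
    have h3 : Continuous (fun q : ℝ × M => max 0 (K * a - (Γ q a - Γ q 0) / a)) :=
      continuous_const.max h2
    have h4 : Continuous (fun q : ℝ × M => A * max 0 (K * a - (Γ q a - Γ q 0) / a)) :=
      continuous_const.mul h3
    exact ((hc a).sub (hc S)).sub (continuous_const.mul h4)
  have hcl : IsClosed {q : ℝ × M | Θ q ≤ 0} := isClosed_le hΘc continuous_const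
  have hmem : ((1 : ℝ), x₁) ∈ closure {q : ℝ × M | Θ q ≤ 0} := by
    rw [mem_closure_iff_nhds]
    intro U hU
    have hev : ∀ᶠ q in 𝓝 ((1 : ℝ), x₁), ∀ s ∈ Icc (0 : ℝ) S, fs' < Γ q s := by
      refine (isCompact_Icc (a := (0 : ℝ)) (b := S)).eventually_forall_of_forall_eventually ?_
      intro s hs
      have h1 : fs' < Γ ((1 : ℝ), x₁) s := by
        rw [hΓ]
        simp only [one_smul]
        exact hfs.trans_le (hg s hs)
      exact hΓc.continuousAt.eventually (lt_mem_nhds h1)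
    obtain ⟨V, hV, W, hW, hVW⟩ := mem_nhds_prod_iff.1 (inter_mem hU hev)
    obtain ⟨ε, hε, hball⟩ := Metric.mem_nhds_iff.1 hV
    obtain ⟨r, hr0, hr1, hrV⟩ : ∃ r : ℝ, 0 ≤ r ∧ r < 1 ∧ r ∈ V := by
      refine ⟨max (1 / 2) (1 - ε / 2), le_trans (by norm_num) (le_max_left _ _),
        max_lt (by norm_num) (by linarith), hball ?_⟩
      rw [Metric.mem_ball, Real.dist_eq, abs_of_nonpos]
      · have := le_max_right (1 / 2) (1 - ε / 2)
        linarith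
      · have : max (1 / 2) (1 - ε / 2) < 1 := max_lt (by norm_num) (by linarith)
        linarith
    have hcc : Continuous (fun s : ℝ => G.ex x (r • p₀ + s • (r • p₁ - r • p₀))) :=
      (contMDiff_chord G (r • p₀) (r • p₁)).continuous
    obtain ⟨z, hzW, hz⟩ := exists_good hC hcc (U := interior W) isOpen_interior
      ⟨x₁, mem_interior_iff_mem_nhds.2 hW⟩
    have h2 := hVW (Set.mk_mem_prod hrV (interior_subset hzW))
    refine ⟨(r, z), h2.1, ?_⟩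
    have h3 := kink_pert hC hC0 hT hp₀ hp₁ hK0 hK hr0 hr1 hz hfs' hS
      (fun s hs => by
        have h4 := h2.2 s hs
        rw [hΓ] at h4
        exact h4.le) ha0 haS
    change Θ (r, z) ≤ 0
    rw [hΘ, hΓ]
    rw [← hA] at h3
    exact sub_nonpos.2 h3
  have hfin : Θ ((1 : ℝ), x₁) ≤ 0 := by
    rw [hcl.closure_eq] at hmem
    exact hmem
  rw [hΘ, hΓ, hA] at hfin
  simp only [one_smul] at hfin
  exact sub_nonpos.1 hfin

/-- **L3**: the pointwise inequality implies the one-variable inequality. -/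
theorem ns1P_of_T1iP [MeasurableSpace M] [BorelSpace M] {G : GeoData n M} (hC : CutFacts G)
    {C : ℝ} (hC0 : 0 ≤ C) (hT : T1iP G C) : NS1P G C := by
  intro x p₀ p₁ hp₀ hp₁ x₁ fs S hfs hS0 hS hg m hm
  obtain ⟨K, hK0, hK⟩ := exists_parabola G p₀ p₁
  rcases eq_or_lt_of_le hS0 with hS00 | hSpos
  · rw [← hS00]
    simp
  obtain ⟨g, hgdef⟩ : ∃ g, g = gg G x p₀ p₁ x₁ := ⟨_, rfl⟩
  rw [← hgdef]
  rw [← hgdef] at hm hg
  have hgc : Continuous g := by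
    have h1 := (continuous_gg G p₀ p₁).comp
      (continuous_const.prodMk continuous_id : Continuous fun s : ℝ => (((1 : ℝ), x₁), s))
    rw [hgdef]
    convert h1 using 1
    funext s
    simp [Function.comp]
  -- step B
  have hB : ∀ fs' : ℝ, 0 < fs' → fs' < fs → ∀ m' > m,
      g 0 - g S ≤ S * (Real.exp (C * ‖p₁ - p₀‖ * (1 + 1 / √fs')) * max 0 m') := by
    intro fs' hfs' hfsl m' hm'
    obtain ⟨A, hA⟩ : ∃ A, A = Real.exp (C * ‖p₁ - p₀‖ * (1 + 1 / √fs')) := ⟨_, rfl⟩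
    have hA0 : 0 < A := by rw [hA]; exact Real.exp_pos _
    rw [← hA]
    have hev : ∀ᶠ a : ℝ in 𝓝[>] 0, g a - g S ≤ (S - a) * (A * max 0 (K * a + m')) := by
      have h1 : Ioc (0 : ℝ) S ∈ 𝓝[>] (0 : ℝ) := Ioc_mem_nhdsGT hSpos
      filter_upwards [h1, hm m' hm'] with a ha hma
      have h2 := kink_limit hC hC0 hT hp₀ hp₁ hK0 hK hfs' hfsl hS
        (fun s hs => by rw [← hgdef]; exact hg s hs.1 hs.2) ha.1 ha.2 (x₁ := x₁)
      rw [← hgdef, ← hA] at h2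
      refine h2.trans ?_
      have h3 : -((g a - g 0) / a) ≤ m' := by
        rw [← neg_div, div_le_iff₀ ha.1]
        linarith
      have h4 : 0 ≤ S - a := by linarith [ha.2]
      have h5 : K * a - (g a - g 0) / a ≤ K * a + m' := by linarith
      gcongr
    have hl : Tendsto (fun a : ℝ => g a - g S) (𝓝[>] 0) (𝓝 (g 0 - g S)) :=
      ((hgc.tendsto 0).sub_const (g S)).mono_left nhdsWithin_le_nhds
    have hr : Tendsto (fun a : ℝ => (S - a) * (A * max 0 (K * a + m'))) (𝓝[>] 0)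
        (𝓝 ((S - 0) * (A * max 0 (K * 0 + m')))) := by
      have : Continuous (fun a : ℝ => (S - a) * (A * max 0 (K * a + m'))) := by fun_prop
      exact (this.tendsto 0).mono_left nhdsWithin_le_nhds
    have := le_of_tendsto_of_tendsto hl hr hev
    simpa using this
  -- step C
  have hev : ∀ᶠ t : ℝ in 𝓝[>] 0, g 0 - g S ≤
      S * (Real.exp (C * ‖p₁ - p₀‖ * (1 + 1 / √(fs - t))) * max 0 (m + t)) := by
    have h1 : Ioo (0 : ℝ) fs ∈ 𝓝[>] (0 : ℝ) := Ioo_mem_nhdsGT hfs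
    filter_upwards [h1] with t ht
    exact hB (fs - t) (by linarith [ht.2]) (by linarith [ht.1]) (m + t) (by
      show m < m + t
      linarith [ht.1])
  have hr : Tendsto (fun t : ℝ =>
      S * (Real.exp (C * ‖p₁ - p₀‖ * (1 + 1 / √(fs - t))) * max 0 (m + t))) (𝓝[>] 0)
      (𝓝 (S * (Real.exp (C * ‖p₁ - p₀‖ * (1 + 1 / √(fs - 0))) * max 0 (m + 0)))) := by
    have h1 : ContinuousAt (fun t : ℝ =>
      S * (Real.exp (C * ‖p₁ - p₀‖ * (1 + 1 / √(fs - t))) * max 0 (m + t))) 0 := by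
      have h2 : √(fs - 0) ≠ 0 := by
        rw [sub_zero]
        exact (Real.sqrt_pos.2 hfs).ne'
      have h3 : ContinuousAt (fun t : ℝ => √(fs - t)) 0 := by fun_prop
      have h4 : ContinuousAt (fun t : ℝ => 1 / √(fs - t)) 0 := continuousAt_const.div h3 h2
      have h5 : ContinuousAt (fun t : ℝ => Real.exp (C * ‖p₁ - p₀‖ * (1 + 1 / √(fs - t)))) 0 :=
        (continuousAt_const.mul (continuousAt_const.add h4)).rexp
      have h6 : ContinuousAt (fun t : ℝ => max 0 (m + t)) 0 := by fun_prop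
      exact continuousAt_const.mul (h5.mul h6)
    exact h1.tendsto.mono_left nhdsWithin_le_nhds
  have := ge_of_tendsto hr hev
  simpa using this

end Crest.Agent.R226.NS683
end

-- ▼ part R226/TallSel_227
section

set_option autoImplicit false
set_option linter.unusedSectionVars false

open MeasureTheory Bundle Set Filter
open scoped Manifold ContDiff Bundle ENNReal Topology NNReal
open Crest.GeometryTopology.MTW

namespace Crest.Agent.R226.TallSel227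

open Crest.Agent.R226 Crest.Agent.R226.Kant624 Crest.Agent.R226.Reduction624
  Crest.Agent.R226.HolderEnd915 Crest.Agent.R226.E1Shape964 Crest.Agent.R226.Dasm290
  Crest.Agent.R226.Osc977 Crest.Agent.R226.Far977 Crest.Agent.R226.Jac344

/-! ### dyadic pigeonhole -/

theorem tsum_half : ∑' j : ℕ, (2⁻¹ : ℝ≥0∞) ^ (j + 1) = 1 := by
  have h := ENNReal.tsum_geometric (2⁻¹ : ℝ≥0∞)
  simp_rw [pow_succ, ENNReal.tsum_mul_right, h]
  rw [ENNReal.one_sub_inv_two, inv_inv]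
  exact ENNReal.mul_inv_cancel (by norm_num) (by norm_num)

/-- **dyadic pigeonhole**: a set of finite measure with a height `f ≥ a > 0` has a window
`2^j a ≤ f ≤ 2^(j+1) a` carrying the fraction `2^-(j+1)`. -/
theorem exists_window {α : Type*} [MeasurableSpace α] (vol : Measure α) {X : Set α}
    (hfin : vol X ≠ ⊤) {f : α → ℝ} {a : ℝ} (ha : 0 < a) (hf : ∀ x ∈ X, a ≤ f x) (h0 : vol X ≠ 0) :
    ∃ j : ℕ, vol X ≤ 2 ^ (j + 1) * vol {x | x ∈ X ∧ 2 ^ j * a ≤ f x ∧ f x ≤ 2 ^ (j + 1) * a} := by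
  by_contra hneg
  push Not at hneg
  have hcov : X ⊆ ⋃ j : ℕ, {x | x ∈ X ∧ 2 ^ j * a ≤ f x ∧ f x ≤ 2 ^ (j + 1) * a} := by
    intro x hx
    have h1 : 1 ≤ f x / a := by rw [one_le_div ha]; exact hf x hx
    obtain ⟨j, hj1, hj2⟩ := exists_nat_pow_near h1 (by norm_num : (1 : ℝ) < 2)
    refine mem_iUnion.2 ⟨j, hx, ?_, ?_⟩
    · rwa [le_div_iff₀ ha] at hj1
    · have := hj2.le
      rwa [div_le_iff₀ ha] at this
  have h1 : ∀ j : ℕ, vol {x | x ∈ X ∧ 2 ^ j * a ≤ f x ∧ f x ≤ 2 ^ (j + 1) * a} <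
      (2⁻¹ : ℝ≥0∞) ^ (j + 1) * vol X := by
    intro j
    have h2 := hneg j
    rw [← ENNReal.inv_pow]
    have e : (2 : ℝ≥0∞) ^ (j + 1) ≠ 0 := by positivity
    have e' : (2 : ℝ≥0∞) ^ (j + 1) ≠ ⊤ := ENNReal.pow_ne_top (by norm_num)
    calc vol {x | x ∈ X ∧ 2 ^ j * a ≤ f x ∧ f x ≤ 2 ^ (j + 1) * a}
        = ((2 : ℝ≥0∞) ^ (j + 1))⁻¹ * (2 ^ (j + 1) *
          vol {x | x ∈ X ∧ 2 ^ j * a ≤ f x ∧ f x ≤ 2 ^ (j + 1) * a}) := by
          rw [← mul_assoc, ENNReal.inv_mul_cancel e e', one_mul]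
      _ < ((2 : ℝ≥0∞) ^ (j + 1))⁻¹ * vol X := by
          refine (ENNReal.mul_lt_mul_iff_right ?_ ?_).2 h2
          · exact ENNReal.inv_ne_zero.2 e'
          · exact ENNReal.inv_ne_top.2 e
  have h2 : ∑' j : ℕ, (2⁻¹ : ℝ≥0∞) ^ (j + 1) * vol X = vol X := by
    rw [ENNReal.tsum_mul_right, tsum_half, one_mul]
  have h3 : ∑' j : ℕ, vol {x | x ∈ X ∧ 2 ^ j * a ≤ f x ∧ f x ≤ 2 ^ (j + 1) * a} <
      ∑' j : ℕ, (2⁻¹ : ℝ≥0∞) ^ (j + 1) * vol X := by
    refine ENNReal.tsum_lt_tsum (i := 0) ?_ (fun j => (h1 j).le) (h1 0)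
    refine ne_top_of_le_ne_top hfin (le_trans (ENNReal.tsum_le_tsum fun j => (h1 j).le) h2.le)
  have h4 : vol X ≤ ∑' j : ℕ, vol {x | x ∈ X ∧ 2 ^ j * a ≤ f x ∧ f x ≤ 2 ^ (j + 1) * a} :=
    (measure_mono hcov).trans (measure_iUnion_le _)
  rw [h2] at h3
  exact absurd h4 (not_le.2 h3)

section Geo

variable {n : ℕ} {M : Type*} [MetricSpace M] [ChartedSpace (EuclideanSpace ℝ (Fin n)) M]
  [IsManifold (𝓡 n) ∞ M]
  [RiemannianBundle (fun p : M => TangentSpace (𝓡 n) p)]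

/-- **(b1)**: chord `q₁ → z` in the section, `t < t'`, levels strictly decreasing from `t` to `t'`
by `r`, `ρ(q₁) - ρ(q_t) ≤ N r`.  Every contact `y'` of `exp q_t` satisfies `D(exp q₁, y') ≤ (N+1) H`. -/
theorem far_sees {G : GeoData n M} [CompactSpace M] (hg : GoodAll G) {u : M → ℝ} (hu : CConv u)
    {y : M} {H : ℝ} (hH : 0 < H) {q₁ z : TangentSpace (𝓡 n) y} (hq₁ : q₁ ∈ QS G u y H)
    (hz : z ∈ QS G u y H) {t t' : ℝ} (ht : 0 ≤ t) (htt : t < t') (ht' : t' ≤ 1) {r N : ℝ}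
    (hr : 0 < r) (hN : 0 ≤ N)
    (h1 : r ≤ ‖q₁ + t • (z - q₁)‖ ^ 2 / 2 - ‖q₁ + t' • (z - q₁)‖ ^ 2 / 2)
    (h2 : ‖q₁‖ ^ 2 / 2 - ‖q₁ + t • (z - q₁)‖ ^ 2 / 2 ≤ N * r) {y' : M}
    (hy' : y' ∈ cSub u (G.ex y (q₁ + t • (z - q₁)))) :
    Dd u (G.ex y q₁) y' ≤ (N + 1) * H := by
  have hQ := convex_QS hg hu y H
  have htp : 0 < t' := lt_of_le_of_lt ht htt
  have hc : q₁ + t • (z - q₁) ∈ QS G u y H :=
    hQ.add_smul_sub_mem hq₁ hz ⟨ht, (htt.le.trans ht')⟩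
  have he : q₁ + t' • (z - q₁) ∈ QS G u y H :=
    hQ.add_smul_sub_mem hq₁ hz ⟨htp.le, ht'⟩
  have huc := CConv.continuous hu
  have hy0 : Dd u (G.ex y (q₁ + t • (z - q₁))) y' = 0 := (Dd_eq_zero huc).2 hy'
  have e1 : q₁ + t • (z - q₁) = (t / t') • (q₁ + t' • (z - q₁)) + (1 - t / t') • q₁ := by
    rw [smul_add, smul_smul, div_mul_cancel₀ _ htp.ne']
    module
  have hF : Fq G y y' (q₁ + t' • (z - q₁)) ≤ Fq G y y' (q₁ + t • (z - q₁)) + H := by
    have h3 := Dd_sub (u := u) (y := y') he.1 hc.1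
    have h4 := Dd_nonneg huc (G.ex y (q₁ + t' • (z - q₁))) y'
    have h5 := Dd_nonneg huc (G.ex y (q₁ + t • (z - q₁))) y
    have h6 := he.2
    linarith
  have h3 : Fq G y y' (q₁ + t • (z - q₁)) - Fq G y y' q₁ ≤ N * H := by
    have e2 := e1
    generalize hqc : q₁ + t • (z - q₁) = qc at *
    subst e1
    refine fam_bound hg y' hH hr hN he.1 hq₁.1 (by positivity) ?_ (by ring) hF h1 h2
    have : t / t' ≤ 1 := (div_le_one htp).2 htt.le
    linarith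
  have h4 := Dd_sub (u := u) (y := y') hq₁.1 hc.1
  have h5 := Dd_nonneg huc (G.ex y (q₁ + t • (z - q₁))) y
  have h6 := hq₁.2
  linarith

variable [IsContMDiffRiemannianBundle (𝓡 n) ∞ (EuclideanSpace ℝ (Fin n))
    (fun p : M => TangentSpace (𝓡 n) p)]

/-- continuity of the Jacobian determinant on `K(x)`. -/
theorem continuousOn_jd {G : GeoData n M} (hC : CutFacts G) (x : M) :
    ContinuousOn (fun p => jd G x p) (G.K x) := by
  obtain ⟨ι⟩ := exists_iso n x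
  have h1 := continuousOn_detH hC x ι
  have h2 : ContinuousOn (fun p => detH G x ι (ι.symm p)) (G.K x) := by
    refine ContinuousOn.comp (g := fun a => detH G x ι a) (f := fun p => ι.symm p) h1
      ι.symm.continuous.continuousOn ?_
    intro p hp
    change ι (ι.symm p) ∈ G.K x
    rwa [ι.apply_symm_apply]
  have h3 : (fun p => jd G x p) = fun p => |detH G x ι (ι.symm p)| := by
    funext p
    rw [jd_eq' G x ι]
  rw [h3]
  exact h2.abs

variable [CompactSpace M]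

theorem continuous_ex (G : GeoData n M) (y : M) :
    Continuous (fun q : TangentSpace (𝓡 n) y => G.ex y q) :=
  G.smooth.continuous.comp (FiberBundle.continuous_totalSpaceMk (EuclideanSpace ℝ (Fin n))
    (fun p : M => TangentSpace (𝓡 n) p) y)

/-- **(F1)**: the dyadic window of heights and the heavy point `q₁`. -/
theorem exists_heavy {G : GeoData n M} (hC : CutFacts G) [MeasurableSpace M] [BorelSpace M]
    {vol : Measure M} [IsFiniteMeasure vol] {u : M → ℝ} {y : M}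
    [MeasurableSpace (TangentSpace (𝓡 n) y)] [BorelSpace (TangentSpace (𝓡 n) y)]
    {μ : Measure (TangentSpace (𝓡 n) y)} {J : TangentSpace (𝓡 n) y → ℝ≥0∞} {C : ℝ}
    (hJ : ∀ p ∈ G.K y, J p = ENNReal.ofReal (jd G y p))
    (harea : ∀ A ⊆ G.K y, IsCompact A → vol (G.ex y '' A) ≤ ENNReal.ofReal C * ∫⁻ p in A, J p ∂μ)
    {H a : ℝ} (ha : 0 < a) {qN : TangentSpace (𝓡 n) y} {X : Set M} (hX : IsCompact X)
    (h0 : vol X ≠ 0) (hsub : ∀ x ∈ X, Dd u x y ≤ H)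
    (hlev : ∀ x ∈ X, a ≤ halfDistSq x y - ‖qN‖ ^ 2 / 2) :
    ∃ j : ℕ, ∃ q₁ ∈ QS G u y H, G.ex y q₁ ∈ X ∧ 2 ^ j * a ≤ ‖q₁‖ ^ 2 / 2 - ‖qN‖ ^ 2 / 2 ∧
      ‖q₁‖ ^ 2 / 2 - ‖qN‖ ^ 2 / 2 ≤ 2 ^ (j + 1) * a ∧
      vol X ≤ 2 ^ (j + 1) * (ENNReal.ofReal C *
        (J q₁ * μ {q ∈ QS G u y H | ‖q‖ ^ 2 / 2 - ‖qN‖ ^ 2 / 2 ≤ 2 ^ (j + 1) * a})) := by
  obtain ⟨j, hj⟩ := exists_window vol (measure_ne_top vol X)
    (f := fun x => halfDistSq x y - ‖qN‖ ^ 2 / 2) ha hlev h0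
  refine ⟨j, ?_⟩
  set A : Set (TangentSpace (𝓡 n) y) := {q | q ∈ G.K y ∧ G.ex y q ∈ X ∧
    2 ^ j * a ≤ ‖q‖ ^ 2 / 2 - ‖qN‖ ^ 2 / 2 ∧ ‖q‖ ^ 2 / 2 - ‖qN‖ ^ 2 / 2 ≤ 2 ^ (j + 1) * a} with hA
  have hex := continuous_ex G y
  have hn : Continuous (fun q : TangentSpace (𝓡 n) y => ‖q‖ ^ 2 / 2 - ‖qN‖ ^ 2 / 2) := by fun_prop
  have hAc : IsCompact A := by
    have h1 : IsClosed {q : TangentSpace (𝓡 n) y | G.ex y q ∈ X ∧
        2 ^ j * a ≤ ‖q‖ ^ 2 / 2 - ‖qN‖ ^ 2 / 2 ∧ ‖q‖ ^ 2 / 2 - ‖qN‖ ^ 2 / 2 ≤ 2 ^ (j + 1) * a} :=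
      (hX.isClosed.preimage hex).inter
        ((isClosed_le continuous_const hn).inter (isClosed_le hn continuous_const))
    exact (EStep1700.isCompact_K hC y).inter_right h1
  have hAK : A ⊆ G.K y := fun q hq => hq.1
  have himg : {x | x ∈ X ∧ 2 ^ j * a ≤ halfDistSq x y - ‖qN‖ ^ 2 / 2 ∧
      halfDistSq x y - ‖qN‖ ^ 2 / 2 ≤ 2 ^ (j + 1) * a} ⊆ G.ex y '' A := by
    rintro x ⟨hx, h1, h2⟩
    obtain ⟨q, hq, hqx⟩ := exists_mem_K G y x
    rw [← hqx, halfDistSq_ex' hq] at h1 h2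
    exact ⟨q, ⟨hq, by rw [hqx]; exact hx, h1, h2⟩, hqx⟩
  have hAne : A.Nonempty := by
    by_contra hne
    rw [not_nonempty_iff_eq_empty] at hne
    rw [hne, image_empty, subset_empty_iff] at himg
    rw [himg] at hj
    simp only [measure_empty, mul_zero, nonpos_iff_eq_zero] at hj
    exact h0 hj
  obtain ⟨q₁, hq₁, hmax⟩ := hAc.exists_isMaxOn hAne ((continuousOn_jd hC y).mono hAK)
  have hAQ : A ⊆ {q ∈ QS G u y H | ‖q‖ ^ 2 / 2 - ‖qN‖ ^ 2 / 2 ≤ 2 ^ (j + 1) * a} :=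
    fun q hq => ⟨⟨hq.1, hsub _ hq.2.1⟩, hq.2.2.2⟩
  refine ⟨q₁, ⟨hq₁.1, hsub _ hq₁.2.1⟩, hq₁.2.1, hq₁.2.2.1, hq₁.2.2.2, ?_⟩
  refine hj.trans ?_
  gcongr
  calc vol {x | x ∈ X ∧ 2 ^ j * a ≤ halfDistSq x y - ‖qN‖ ^ 2 / 2 ∧
        halfDistSq x y - ‖qN‖ ^ 2 / 2 ≤ 2 ^ (j + 1) * a} ≤ vol (G.ex y '' A) := measure_mono himg
    _ ≤ ENNReal.ofReal C * ∫⁻ p in A, J p ∂μ := harea A hAK hAc
    _ ≤ ENNReal.ofReal C * ∫⁻ _ in A, J q₁ ∂μ := by
        refine mul_le_mul_right (setLIntegral_mono' hAc.isClosed.measurableSet fun q hq => ?_) _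
        rw [hJ q (hAK hq), hJ q₁ (hAK hq₁)]
        exact ENNReal.ofReal_le_ofReal (hmax hq)
    _ = ENNReal.ofReal C * (J q₁ * μ A) := by rw [setLIntegral_const]
    _ ≤ _ := by gcongr

end Geo

end Crest.Agent.R226.TallSel227
end

-- ▼ part R226/B2_413
section

set_option autoImplicit false
set_option linter.unusedSectionVars false

open MeasureTheory Bundle Set Filter
open scoped Manifold ContDiff Bundle ENNReal Topology
open Crest.GeometryTopology.MTW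

namespace Crest.Agent.R226.B2_413

open Crest.Agent.R226 Crest.Agent.R226.Kant624 Crest.Agent.R226.E1Shape964
  Crest.Agent.R226.Dasm290 Crest.Agent.R226.Osc977 Crest.Agent.R226.NS683
  Crest.Agent.R226.Base347 Crest.Agent.R226.SymExp413

/-- growth of a function from lower bounds of its right slopes -/
theorem growth_of_slope {f : ℝ → ℝ} {a b κ : ℝ} (hab : a ≤ b) (hf : ContinuousOn f (Icc a b))
    (h : ∀ t ∈ Ico a b, ∀ m < κ, ∀ᶠ z in 𝓝[>] t, f t + m * (z - t) < f z) :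
    f a + κ * (b - a) ≤ f b := by
  have key : ∀ k < κ, f a + k * (b - a) ≤ f b := by
    intro k hk
    have h1 := image_le_of_liminf_slope_right_lt_deriv_boundary (f := fun t => -f t)
      (f' := fun _ => -κ) (a := a) (b := b) hf.neg ?_ (B := fun t => -f a - k * (t - a))
      (B' := fun _ => -k) ?_ ?_ ?_ (x := b) ⟨hab, le_rfl⟩
    · linarith
    · intro t ht r hr
      obtain ⟨m, hm1, hm2⟩ := exists_between (show -r < κ by linarith)
      refine Eventually.frequently ?_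
      filter_upwards [h t ht m hm2, self_mem_nhdsWithin] with z hz hz0
      have hz0' : 0 < z - t := sub_pos.2 hz0
      rw [slope_def_field, div_lt_iff₀ hz0']
      nlinarith
    · simp
    · intro t
      have h1 : HasDerivAt (fun t : ℝ => t - a) 1 t := (hasDerivAt_id t).sub_const a
      have h2 := (h1.const_mul k).const_sub (-f a)
      exact h2.congr_deriv (by ring)
    · intro t _ _
      linarith
  rcases hab.eq_or_lt with rfl | hab'
  · simp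
  by_contra hcon
  push Not at hcon
  have hba : 0 < b - a := by linarith
  have h1 : (f b - f a) / (b - a) < κ := by
    rw [div_lt_iff₀ hba]; linarith
  obtain ⟨k, hk1, hk2⟩ := exists_between h1
  have h2 := key k hk2
  rw [div_lt_iff₀ hba] at hk1
  linarith

variable {n : ℕ} {M : Type*} [MetricSpace M] [ChartedSpace (EuclideanSpace ℝ (Fin n)) M]
  [IsManifold (𝓡 n) ∞ M]
  [RiemannianBundle (fun p : M => TangentSpace (𝓡 n) p)]
  [CompactSpace M] {G : GeoData n M}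

theorem continuous_gg (x : M) (p₀ p₁ : TangentSpace (𝓡 n) x) (x₁ : M) :
    Continuous (gg G x p₀ p₁ x₁) := by
  have h1 : Continuous (G.ex x) := (MTWConc117.contMDiff_ex G x).continuous
  have h2 : Continuous fun s : ℝ => G.ex x (p₀ + s • (p₁ - p₀)) := h1.comp (by fun_prop)
  unfold gg halfDistSq
  fun_prop

/-- NS1 in alternative form: the loss is at least `min(gg 0 / 2, gg 0 - gg 1)`. -/
theorem ns1_alt {C : ℝ} (hC : 0 ≤ C) (hNS : NS1P G C) {x : M} {p₀ p₁ : TangentSpace (𝓡 n) x}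
    (h0 : p₀ ∈ G.K x) (h1 : p₁ ∈ G.K x) {x₁ : M} {α m L : ℝ} (hα : 0 < α)
    (hg0 : α ≤ gg G x p₀ p₁ x₁ 0) (hL : ‖p₁ - p₀‖ ≤ L)
    (hm : ∀ m' > m, ∀ᶠ s : ℝ in 𝓝[>] 0,
      gg G x p₀ p₁ x₁ 0 - m' * s ≤ gg G x p₀ p₁ x₁ s) :
    min (α / 2) (gg G x p₀ p₁ x₁ 0 - gg G x p₀ p₁ x₁ 1) ≤
      Real.exp (C * L * (1 + √(2 / α))) * max 0 m := by
  set g := gg G x p₀ p₁ x₁ with hgdef
  have hgc : Continuous g := continuous_gg x p₀ p₁ x₁
  set fs := g 0 / 2 with hfs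
  have hfs0 : α / 2 ≤ fs := by rw [hfs]; linarith
  have hfs1 : 0 < fs := by linarith
  have hw : C * ‖p₁ - p₀‖ * (1 + 1 / √fs) ≤ C * L * (1 + √(2 / α)) := by
    have e1 : 1 / √fs ≤ √(2 / α) := by
      rw [Real.sqrt_div (by norm_num : (0 : ℝ) ≤ 2), div_le_div_iff₀ (Real.sqrt_pos.2 hfs1)
        (Real.sqrt_pos.2 hα), one_mul, ← Real.sqrt_mul (by norm_num)]
      exact Real.sqrt_le_sqrt (by linarith)
    have e2 : 0 ≤ 1 / √fs := by positivity
    have e3 : 0 ≤ ‖p₁ - p₀‖ := norm_nonneg _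
    have e4 : 0 ≤ C * L := mul_nonneg hC (e3.trans hL)
    gcongr
  have hexp : Real.exp (C * ‖p₁ - p₀‖ * (1 + 1 / √fs)) ≤ Real.exp (C * L * (1 + √(2 / α))) :=
    Real.exp_le_exp.2 hw
  have hmax : 0 ≤ max 0 m := le_max_left _ _
  -- bound for a good parameter
  have hgood : ∀ S : ℝ, 0 ≤ S → S ≤ 1 → (∀ s : ℝ, 0 ≤ s → s ≤ S → fs ≤ g s) →
      g 0 - g S ≤ Real.exp (C * L * (1 + √(2 / α))) * max 0 m := by
    intro S hS0 hS1 hS
    have e1 := hNS x p₀ p₁ h0 h1 x₁ fs S hfs1 hS0 hS1 hS m hm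
    calc g 0 - g S ≤ S * (Real.exp (C * ‖p₁ - p₀‖ * (1 + 1 / √fs)) * max 0 m) := e1
      _ ≤ 1 * (Real.exp (C * L * (1 + √(2 / α))) * max 0 m) := by gcongr
      _ = _ := one_mul _
  by_cases hA : ∀ s : ℝ, 0 ≤ s → s ≤ 1 → fs ≤ g s
  · exact (min_le_right _ _).trans (hgood 1 zero_le_one le_rfl hA)
  · push Not at hA
    obtain ⟨s₁, a1, a2, a3⟩ := hA
    -- least point of `{g ≤ fs}`
    have hcomp : IsCompact (Icc (0 : ℝ) 1 ∩ {s | g s ≤ fs}) :=
      isCompact_Icc.inter_right (isClosed_le hgc continuous_const)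
    obtain ⟨S, ⟨hS1, hS2⟩, hS3⟩ := hcomp.exists_isLeast ⟨s₁, ⟨a1, a2⟩, a3.le⟩
    have hS2' : g S ≤ fs := hS2
    have hSpos : 0 < S := by
      rcases hS1.1.eq_or_lt with h | h
      · exfalso
        rw [← h] at hS2'
        linarith
      · exact h
    have hlt : ∀ s ∈ Ico (0 : ℝ) S, fs ≤ g s := by
      intro s hs
      by_contra hcon
      push Not at hcon
      have := hS3 ⟨⟨hs.1, hs.2.le.trans hS1.2⟩, hcon.le⟩
      linarith [hs.2]
    have hcl : Icc (0 : ℝ) S ⊆ {s | fs ≤ g s} := by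
      rw [← closure_Ico hSpos.ne]
      exact closure_minimal hlt (isClosed_le continuous_const hgc)
    have h2 := hgood S hSpos.le hS1.2 (fun s hs0 hs1 => hcl ⟨hs0, hs1⟩)
    refine (min_le_left _ _).trans (le_trans ?_ h2)
    linarith

/-- **(b2), core form.**  `f τ = c(x_τ, y₀) - c(x_τ, y)` along the chord `x_τ = exp_{y₀} q_τ`;
if for `τ ∈ [3/4, 1)` the chord `p_{y₀} → p_y` in `K(x_τ)` has length `≤ L` and the level of `q_τ`
above `q₀` is `≥ α`, then `min (α/2, f(3/4) - f(0)) ≤ 4 e^W (f(1) - f(3/4))`. -/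
theorem b2_core (hB : Base G) (hg : GoodAll G) {C : ℝ} (hC : 0 ≤ C) (hNS : NS1P G C)
    {y₀ y : M} {q₀ q₁ : TangentSpace (𝓡 n) y₀} (h0 : q₀ ∈ G.K y₀) (h1 : q₁ ∈ G.K y₀)
    {L α : ℝ} (hα : 0 < α)
    (hrow : ∀ τ : ℝ, 3 / 4 ≤ τ → τ < 1 → ∀ p ∈ G.K (G.ex y₀ (q₀ + τ • (q₁ - q₀))),
      ∀ p' ∈ G.K (G.ex y₀ (q₀ + τ • (q₁ - q₀))),
      G.ex (G.ex y₀ (q₀ + τ • (q₁ - q₀))) p = y₀ → G.ex (G.ex y₀ (q₀ + τ • (q₁ - q₀))) p' = y →
      ‖p' - p‖ ≤ L)
    (hlev : ∀ τ : ℝ, 3 / 4 ≤ τ → τ < 1 →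
      α ≤ ‖q₀ + τ • (q₁ - q₀)‖ ^ 2 / 2 - ‖q₀‖ ^ 2 / 2) {f : ℝ → ℝ}
    (hfdef : ∀ τ : ℝ, f τ = ‖q₀ + τ • (q₁ - q₀)‖ ^ 2 / 2 -
      halfDistSq (G.ex y₀ (q₀ + τ • (q₁ - q₀))) y) :
    min (α / 2) (f (3 / 4) - f 0) ≤
      4 * Real.exp (C * L * (1 + √(2 / α))) * max 0 (f 1 - f (3 / 4)) := by
  have hexc : Continuous (G.ex y₀) := (MTWConc117.contMDiff_ex G y₀).continuous
  obtain ⟨qt, hqt⟩ : ∃ qt : ℝ → TangentSpace (𝓡 n) y₀, qt = fun τ => q₀ + τ • (q₁ - q₀) :=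
    ⟨_, rfl⟩
  have hqte : ∀ τ, q₀ + τ • (q₁ - q₀) = qt τ := fun τ => by rw [hqt]
  simp only [hqte] at hlev hfdef
  have hqtc : Continuous qt := by rw [hqt]; fun_prop
  have hqt0 : qt 0 = q₀ := by simp [hqt]
  have hf : f = fun τ => ‖qt τ‖ ^ 2 / 2 - halfDistSq (G.ex y₀ (qt τ)) y := funext hfdef
  have hfc : Continuous f := by
    rw [hf]; unfold halfDistSq; fun_prop
  have hKy := convex_K hg y₀
  have hQS : ∀ τ : ℝ, 0 ≤ τ → τ ≤ 1 → qt τ ∈ G.K y₀ := fun τ a b => by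
    rw [hqt]; exact hKy.add_smul_sub_mem h0 h1 ⟨a, b⟩
  set b := f (3 / 4) - f 0 with hb
  set W := C * L * (1 + √(2 / α)) with hW
  have hmax : 0 ≤ max 0 (f 1 - f (3 / 4)) := le_max_left _ _
  rcases le_or_gt b 0 with hb0 | hb0
  · refine (min_le_right _ _).trans (hb0.trans ?_)
    positivity
  set κ₀ := min (α / 2) b with hκ₀
  have hκ₀pos : 0 < κ₀ := lt_min (by linarith) hb0
  set κ := κ₀ * Real.exp (-W) with hκ
  -- quasiconvexity
  have hquasi : ∀ τ : ℝ, 3 / 4 ≤ τ → τ ≤ 1 → f (3 / 4) ≤ f τ := by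
    intro τ a1 a2
    have hτ : 0 < τ := by linarith
    have e1 := quasi hg (hQS 0 le_rfl zero_le_one) (hQS τ hτ.le a2)
      (a := 1 - (3 / 4) / τ) (b := (3 / 4) / τ)
      (by rw [sub_nonneg, div_le_one hτ]; exact a1) (by positivity) (by ring) y
    have e2 : (1 - (3 / 4) / τ) • qt 0 + ((3 / 4) / τ) • qt τ = qt (3 / 4) := by
      have e3 : (3 / 4 : ℝ) / τ * τ = 3 / 4 := by field_simp
      simp only [hqt, zero_smul, add_zero, smul_add, smul_smul, e3, sub_smul, one_smul]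
      abel
    rw [e2] at e1
    have e4 : ∀ τ' : ℝ, ‖qt τ'‖ ^ 2 / 2 - halfDistSq y (G.ex y₀ (qt τ')) = f τ' := by
      intro τ'
      rw [hf, Base347.halfDistSq_comm]
    rw [e4, e4, e4] at e1
    rcases le_max_iff.1 e1 with h | h
    · linarith
    · exact h
  -- growth
  have hgrow : ∀ t ∈ Ico (3 / 4 : ℝ) 1, ∀ m < κ, ∀ᶠ z in 𝓝[>] t, f t + m * (z - t) < f z := by
    intro t ht m hm
    by_contra hcon
    have hfr : ∃ᶠ z in 𝓝[>] t, f z ≤ f t + m * (z - t) := by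
      intro h
      exact hcon (h.mono fun z hz => not_le.1 hz)
    have ht0 : 0 < t := by linarith [ht.1]
    have htQ := hQS t ht0.le ht.2.le
    have hrt := hrow t ht.1 ht.2
    obtain ⟨x, hx⟩ : ∃ x, G.ex y₀ (qt t) = x := ⟨_, rfl⟩
    rw [hqte t, hx] at hrt
    obtain ⟨x₁, hx₁⟩ : ∃ x₁, G.ex y₀ q₀ = x₁ := ⟨_, rfl⟩
    obtain ⟨p₀, hp₀, hrev⟩ := exists_rev hB htQ hx
    obtain ⟨p₁, hp₁, hp₁y⟩ := exists_mem_K G x y
    have hp₀y : G.ex x p₀ = y₀ := by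
      have := hrev 1
      simpa [G.ex_zero] using this
    have hKx := convex_K hg x
    have hL : ‖p₁ - p₀‖ ≤ L := hrt p₀ hp₀ p₁ hp₁ hp₀y hp₁y
    -- slopes
    have hdiff : qt t - q₀ = t • (q₁ - q₀) := by simp [hqt]
    have hline : ∀ σ : ℝ, qt t + σ • (qt t - q₀) = qt (t + t * σ) := by
      intro σ
      rw [hdiff, smul_smul]
      simp only [hqt, add_smul]
      rw [mul_comm σ t]
      abel
    have hqK : ∀ᶠ σ : ℝ in 𝓝[>] 0, qt t + σ • (qt t - q₀) ∈ G.K y₀ := by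
      have e1 : Tendsto (fun σ : ℝ => t + t * σ) (𝓝 0) (𝓝 t) := by
        have : Continuous fun σ : ℝ => t + t * σ := by fun_prop
        simpa using this.tendsto 0
      have e2 : ∀ᶠ σ : ℝ in 𝓝 0, t + t * σ < 1 := e1.eventually (gt_mem_nhds ht.2)
      filter_upwards [e2.filter_mono nhdsWithin_le_nhds, self_mem_nhdsWithin] with σ b1 b2
      have b2' : 0 < σ := b2
      rw [hline]
      exact hQS _ (by positivity) b1.le
    have hpK : ∀ᶠ s : ℝ in 𝓝[>] 0, p₀ + s • (p₁ - p₀) ∈ G.K x := by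
      have e2 : ∀ᶠ s : ℝ in 𝓝 0, s < 1 := gt_mem_nhds zero_lt_one
      filter_upwards [e2.filter_mono nhdsWithin_le_nhds, self_mem_nhdsWithin] with s b1 b2
      have b2' : 0 < s := b2
      exact hKx.add_smul_sub_mem hp₀ hp₁ ⟨b2'.le, b1.le⟩
    have hfr' : ∃ᶠ σ : ℝ in 𝓝[>] 0,
        ‖qt t + σ • (qt t - q₀)‖ ^ 2 / 2 -
          halfDistSq (G.ex y₀ (qt t + σ • (qt t - q₀))) (G.ex x p₁) ≤
        ‖qt t‖ ^ 2 / 2 - halfDistSq x (G.ex x p₁) + (t * m) * σ := by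
      intro hev
      refine hfr ?_
      have e1 : Tendsto (fun z : ℝ => (z - t) / t) (𝓝[>] t) (𝓝[>] 0) := by
        refine tendsto_nhdsWithin_iff.2 ⟨?_, ?_⟩
        · have : Continuous fun z : ℝ => (z - t) / t := by fun_prop
          have h2 := this.tendsto t
          rw [sub_self, zero_div] at h2
          exact h2.mono_left nhdsWithin_le_nhds
        · filter_upwards [self_mem_nhdsWithin] with z hz
          have hz' : t < z := hz
          exact div_pos (by linarith) ht0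
      filter_upwards [e1.eventually hev] with z hz
      rw [hline] at hz
      have e2 : t + t * ((z - t) / t) = z := by field_simp; ring
      rw [e2, hp₁y, ← hx] at hz
      have e3 : t * m * ((z - t) / t) = m * (z - t) := by field_simp
      rw [e3] at hz
      rw [hf]
      exact hz
    have hsc := slope_comparison hB htQ hx h0 hx₁ hqK hp₀ hrev hp₁ hpK hfr'
    have hg0e : gg G x p₀ p₁ x₁ 0 = ‖p₀‖ ^ 2 / 2 - halfDistSq x₁ y₀ := by
      unfold gg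
      rw [zero_smul, add_zero, hp₀y]
    have hg1e : gg G x p₀ p₁ x₁ 1 = ‖p₁‖ ^ 2 / 2 - halfDistSq x₁ y := by
      unfold gg
      rw [one_smul, add_sub_cancel, hp₁y]
    have hn0 : ‖p₀‖ ^ 2 / 2 = ‖qt t‖ ^ 2 / 2 := by
      rw [← halfDistSq_of_mem_K hp₀, hp₀y, Base347.halfDistSq_comm, ← hx,
        halfDistSq_of_mem_K htQ]
    have hn1 : ‖p₁‖ ^ 2 / 2 = halfDistSq x y := by
      rw [← halfDistSq_of_mem_K hp₁, hp₁y]
    have hx1 : halfDistSq x₁ y₀ = ‖q₀‖ ^ 2 / 2 := by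
      rw [Base347.halfDistSq_comm, ← hx₁, halfDistSq_of_mem_K h0]
    have hα0 : α ≤ gg G x p₀ p₁ x₁ 0 := by
      rw [hg0e, hn0, hx1]
      exact hlev t ht.1 ht.2
    have hmain := ns1_alt hC hNS hp₀ hp₁ hα hα0 hL (m := t * m) (by
      intro m' hm'
      rw [hg0e]
      exact hsc m' hm')
    have hdiffg : b ≤ gg G x p₀ p₁ x₁ 0 - gg G x p₀ p₁ x₁ 1 := by
      rw [hg0e, hg1e, hn0, hn1, hx1]
      have e1 := hquasi t ht.1 ht.2.le
      have e2 : f t = ‖qt t‖ ^ 2 / 2 - halfDistSq x y := by rw [hf, ← hx]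
      have e3 : f 0 = ‖q₀‖ ^ 2 / 2 - halfDistSq x₁ y := by
        rw [hf]
        simp only [hqt0, hx₁]
      rw [hb]
      linarith
    have hmain2 : κ₀ ≤ Real.exp W * max 0 (t * m) := (min_le_min_left _ hdiffg).trans hmain
    rcases le_or_gt m 0 with hm0 | hm0
    · rw [max_eq_left (mul_nonpos_of_nonneg_of_nonpos ht0.le hm0), mul_zero] at hmain2
      linarith
    · have e1 : t * m ≤ m := by nlinarith [ht.2]
      have e2 : max 0 (t * m) ≤ m := max_le hm0.le e1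
      have e3 : κ₀ ≤ Real.exp W * m := hmain2.trans
        (mul_le_mul_of_nonneg_left e2 (Real.exp_pos W).le)
      have e4 : Real.exp W * m < Real.exp W * κ := mul_lt_mul_of_pos_left hm (Real.exp_pos W)
      have e5 : Real.exp W * κ = κ₀ := by
        rw [hκ, mul_comm κ₀, ← mul_assoc, ← Real.exp_add, add_neg_cancel, Real.exp_zero, one_mul]
      linarith
  have hfin := growth_of_slope (by norm_num : (3 / 4 : ℝ) ≤ 1) hfc.continuousOn hgrow
  have e1 : κ ≤ 4 * max 0 (f 1 - f (3 / 4)) := by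
    have := le_max_right 0 (f 1 - f (3 / 4))
    linarith
  have e5 : Real.exp W * κ = κ₀ := by
    rw [hκ, mul_comm κ₀, ← mul_assoc, ← Real.exp_add, add_neg_cancel, Real.exp_zero, one_mul]
  calc κ₀ = Real.exp W * κ := e5.symm
    _ ≤ Real.exp W * (4 * max 0 (f 1 - f (3 / 4))) :=
        mul_le_mul_of_nonneg_left e1 (Real.exp_pos W).le
    _ = 4 * Real.exp W * max 0 (f 1 - f (3 / 4)) := by ring


/-- **(b2)** -/
theorem b2 (hB : Base G) (hg : GoodAll G) {C : ℝ} (hC : 0 ≤ C) (hNS : NS1P G C)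
    {u : M → ℝ} (hu : CConv u) {y₀ y : M} {H : ℝ}
    {q₀ q₁ : TangentSpace (𝓡 n) y₀} (h0 : q₀ ∈ QS G u y₀ H) (h1 : q₁ ∈ QS G u y₀ H)
    (hy : Dd u (G.ex y₀ (q₀ + (9 / 16 : ℝ) • (q₁ - q₀))) y ≤ 0)
    {R α : ℝ} (hα : 0 < α)
    (hrow : ∀ τ : ℝ, 3 / 4 ≤ τ → τ ≤ 1 →
      osc (ctr u) (G.ex y₀ (q₀ + τ • (q₁ - q₀))) H ≤ R)
    (hlev : ∀ τ : ℝ, 3 / 4 ≤ τ → τ ≤ 1 →
      α ≤ ‖q₀ + τ • (q₁ - q₀)‖ ^ 2 / 2 - ‖q₀‖ ^ 2 / 2) :
    min (α / 2) (Dd u (G.ex y₀ q₀) y - H) ≤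
      4 * Real.exp (C * √(8 * R) * (1 + √(2 / α))) * H := by
  have huc := CConv.continuous hu
  have hcu : CConv (ctr u) := Kant624.CConv_ctr huc
  obtain ⟨f, hf⟩ : ∃ f : ℝ → ℝ, ∀ τ : ℝ, f τ = ‖q₀ + τ • (q₁ - q₀)‖ ^ 2 / 2 -
      halfDistSq (G.ex y₀ (q₀ + τ • (q₁ - q₀))) y := ⟨_, fun _ => rfl⟩
  have hQS : ∀ τ : ℝ, 0 ≤ τ → τ ≤ 1 → q₀ + τ • (q₁ - q₀) ∈ QS G u y₀ H := fun τ a b =>
    (convex_QS hg hu y₀ H).add_smul_sub_mem h0 h1 ⟨a, b⟩
  have hfD : ∀ τ : ℝ, 0 ≤ τ → τ ≤ 1 → f τ = Dd u (G.ex y₀ (q₀ + τ • (q₁ - q₀))) y₀ -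
      Dd u (G.ex y₀ (q₀ + τ • (q₁ - q₀))) y + (ctr u y - ctr u y₀) := by
    intro τ a b
    rw [hf, ← halfDistSq_of_mem_K (hQS τ a b).1, Base347.halfDistSq_comm y₀]
    unfold Dd; ring
  have hHn : 0 ≤ H := (Dd_nonneg huc _ _).trans h0.2
  have e0 := hfD 0 le_rfl zero_le_one
  have e7 := (hQS 0 le_rfl zero_le_one).2
  rw [zero_smul, add_zero] at e0 e7
  have e9 := hfD (9 / 16) (by norm_num) (by norm_num)
  have e10 := Dd_nonneg huc (G.ex y₀ (q₀ + (9 / 16 : ℝ) • (q₁ - q₀))) y₀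
  by_cases hb : f (9 / 16) ≤ f 0
  · refine (min_le_right _ _).trans ?_
    have : Dd u (G.ex y₀ q₀) y - H ≤ 0 := by linarith
    exact this.trans (by positivity)
  push Not at hb
  -- quasiconvexity
  have hquasi : ∀ τ : ℝ, 9 / 16 ≤ τ → τ ≤ 1 → f (9 / 16) ≤ f τ := by
    intro τ a1 a2
    have hτ : 0 < τ := by linarith
    have e1 := quasi hg (hQS 0 le_rfl zero_le_one).1 (hQS τ hτ.le a2).1
      (a := 1 - (9 / 16) / τ) (b := (9 / 16) / τ)
      (by rw [sub_nonneg, div_le_one hτ]; exact a1) (by positivity) (by ring) y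
    have e2 : (1 - (9 / 16) / τ) • (q₀ + (0 : ℝ) • (q₁ - q₀)) +
        ((9 / 16) / τ) • (q₀ + τ • (q₁ - q₀)) = q₀ + (9 / 16 : ℝ) • (q₁ - q₀) := by
      have e3 : (9 / 16 : ℝ) / τ * τ = 9 / 16 := by field_simp
      simp only [zero_smul, add_zero, smul_add, smul_smul, e3, sub_smul, one_smul]
      abel
    rw [e2] at e1
    have e4 : ∀ τ' : ℝ, ‖q₀ + τ' • (q₁ - q₀)‖ ^ 2 / 2 -
        halfDistSq y (G.ex y₀ (q₀ + τ' • (q₁ - q₀))) = f τ' := by
      intro τ'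
      rw [hf, Base347.halfDistSq_comm]
    rw [e4, e4, e4] at e1
    rcases le_max_iff.1 e1 with h | h
    · linarith
    · exact h
  have hDτ : ∀ τ : ℝ, 9 / 16 ≤ τ → τ ≤ 1 → Dd u (G.ex y₀ (q₀ + τ • (q₁ - q₀))) y ≤ H := by
    intro τ a b
    have e1 := hfD τ (by linarith) b
    have e2 := hquasi τ a b
    have e3 := (hQS τ (by linarith) b).2
    linarith
  have key := b2_core hB hg hC hNS h0.1 h1.1 (y := y) (L := √(8 * R)) hα ?_
    (fun τ a b => hlev τ a b.le) hf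
  · have e1 := hfD (3 / 4) (by norm_num) (by norm_num)
    have e2 := hfD 1 zero_le_one le_rfl
    have e5 := (hQS 1 zero_le_one le_rfl).2
    have e6 := Dd_nonneg huc (G.ex y₀ (q₀ + (1 : ℝ) • (q₁ - q₀))) y
    have e12 := hquasi (3 / 4) (by norm_num) (by norm_num)
    have h2 : max 0 (f 1 - f (3 / 4)) ≤ H := max_le hHn (by linarith)
    have h3 : min (α / 2) (Dd u (G.ex y₀ q₀) y - H) ≤ min (α / 2) (f (3 / 4) - f 0) := by
      refine min_le_min_left _ ?_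
      linarith
    refine h3.trans (key.trans ?_)
    gcongr
  · intro τ a b p hp p' hp' hpy hpy'
    have hτ0 : 0 ≤ τ := by linarith
    have hS : p ∈ QS G (ctr u) (G.ex y₀ (q₀ + τ • (q₁ - q₀))) H := by
      refine ⟨hp, ?_⟩
      rw [hpy, Dd_ctr hu]
      exact (hQS τ hτ0 b.le).2
    have hS' : p' ∈ QS G (ctr u) (G.ex y₀ (q₀ + τ • (q₁ - q₀))) H := by
      refine ⟨hp', ?_⟩
      rw [hpy', Dd_ctr hu]
      exact hDτ τ (by linarith) b.le
    refine Real.le_sqrt_of_sq_le ?_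
    exact (norm_sub_sq_le hg hcu hS' hS).trans
      (mul_le_mul_of_nonneg_left (hrow τ a b.le) (by norm_num))

end Crest.Agent.R226.B2_413
end

-- ▼ part R226/RowBd_487
section

set_option autoImplicit false
set_option linter.unusedSectionVars false

open MeasureTheory Bundle Set Filter
open scoped Manifold ContDiff Bundle ENNReal Topology
open Crest.GeometryTopology.MTW

namespace Crest.Agent.R226.Row487

open Crest.Agent.R226 Crest.Agent.R226.Kant624 Crest.Agent.R226.Reduction624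
  Crest.Agent.R226.HolderEnd915 Crest.Agent.R226.E1Shape964 Crest.Agent.R226.Dasm290
  Crest.Agent.R226.Osc977 Crest.Agent.R226.Far977 Crest.Agent.R226.NG487
  Crest.Agent.R226.SupPair413

variable {n : ℕ} {M : Type*} [MetricSpace M] [ChartedSpace (EuclideanSpace ℝ (Fin n)) M]
  [IsManifold (𝓡 n) ∞ M]
  [RiemannianBundle (fun p : M => TangentSpace (𝓡 n) p)]
  [IsContMDiffRiemannianBundle (𝓡 n) ∞ (EuclideanSpace ℝ (Fin n))
    (fun p : M => TangentSpace (𝓡 n) p)]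
  [IsRiemannianManifold (𝓡 n) M] [CompactSpace M]
  {G : GeoData n M}

/-- the Loeper half-space in a column: targets in it see `y₂` as well as `x_t` does. -/
theorem col_halfspace (hg : GoodAll G) {u : M → ℝ} {yF : M} (y2 : M)
    {qt : TangentSpace (𝓡 n) yF} (hqt : qt ∈ G.K yF) {ε : ℝ} (hε : 0 < ε) :
    ∃ f : TangentSpace (𝓡 n) yF →L[ℝ] ℝ, ∀ q ∈ G.K yF, f qt ≤ f q →
      Dd u (G.ex yF q) y2 ≤ Dd u (G.ex yF q) yF + Dd u (G.ex yF qt) y2
        - Dd u (G.ex yF qt) yF + ε := by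
  obtain ⟨f, hf⟩ := halfspace hg y2 qt hε
  refine ⟨f, fun q hq hle => ?_⟩
  have h1 := hf q hq hle
  have h2 := Dd_sub (u := u) (y := y2) hq hqt
  linarith

variable [MeasurableSpace M] [BorelSpace M]

/-- **(R1)** -/
theorem row_pair (hg : GoodAll G) {vol : Measure M} [IsFiniteMeasure vol] {u : M → ℝ}
    (hu : CConv u) {yF : M} {H m' : ℝ} {W : Set (TangentSpace (𝓡 n) yF)}
    (hW : W ⊆ QS G u yF H) {qt : TangentSpace (𝓡 n) yF} (hqt : qt ∈ G.K yF)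
    (hmass : ∀ f : TangentSpace (𝓡 n) yF →L[ℝ] ℝ,
      m' ≤ (vol (G.ex yF '' {q | q ∈ W ∧ f qt ≤ f q})).toReal)
    (y2 : M) {ε : ℝ} (hε : 0 < ε) :
    m' ≤ (vol {x | Dd u x yF ≤ H ∧ Dd u x y2 ≤ H + Dd u (G.ex yF qt) y2 + ε}).toReal := by
  obtain ⟨f, hf⟩ := col_halfspace (u := u) hg y2 hqt hε
  refine (hmass f).trans (ENNReal.toReal_mono (measure_ne_top _ _) (measure_mono ?_))
  rintro _ ⟨q, ⟨hqW, hqf⟩, rfl⟩
  have hq := hW hqW
  have h1 := hf q hq.1 hqf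
  have h2 := Dd_nonneg (CConv.continuous hu) (G.ex yF qt) yF
  have h3 := hq.2
  exact ⟨h3, by linarith⟩

/-- the same in terms of the pair volume of the dual potential. -/
theorem row_pair_Vp (hg : GoodAll G) {vol : Measure M} [IsFiniteMeasure vol] {u : M → ℝ}
    (hu : CConv u) {yF : M} {H H1 h' m' : ℝ} {W : Set (TangentSpace (𝓡 n) yF)}
    (hW : W ⊆ QS G u yF H) {qt : TangentSpace (𝓡 n) yF} (hqt : qt ∈ G.K yF)
    (hmass : ∀ f : TangentSpace (𝓡 n) yF →L[ℝ] ℝ,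
      m' ≤ (vol (G.ex yF '' {q | q ∈ W ∧ f qt ≤ f q})).toReal)
    {y2 : M} (hy2 : Dd u (G.ex yF qt) y2 ≤ H1) (hH1 : 0 ≤ H1) (hh' : H + H1 < h') :
    m' ≤ Vp vol (ctr u) yF y2 h' ∧ m' ≤ Vp vol (ctr u) y2 yF h' := by
  have h1 := row_pair (vol := vol) hg hu hW hqt hmass y2 (ε := h' - H - H1) (by linarith)
  have h2 : {x | Dd u x yF ≤ H ∧ Dd u x y2 ≤ H + Dd u (G.ex yF qt) y2 + (h' - H - H1)} ⊆
      YY (ctr u) yF y2 h' := by
    rintro x ⟨hx1, hx2⟩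
    refine ⟨?_, ?_⟩
    · rw [Dd_ctr hu]; linarith
    · rw [Dd_ctr hu]; linarith
  have h3 : YY (ctr u) yF y2 h' = YY (ctr u) y2 yF h' := by
    ext x; exact and_comm
  have h4 : m' ≤ Vp vol (ctr u) yF y2 h' :=
    h1.trans (ENNReal.toReal_mono (measure_ne_top _ _) (measure_mono h2))
  refine ⟨h4, ?_⟩
  unfold Vp at h4 ⊢
  rwa [← h3]

/-- **(R2)**, the row bound: no growth for the pairs containing `y_F` bounds the oscillation of the
row of `x_t`. -/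
theorem row_osc (hg : GoodAll G) {vol : Measure M} [IsFiniteMeasure vol] {u : M → ℝ}
    (hu : CConv u) {yF : M} {H H1 h' m' B : ℝ} {W : Set (TangentSpace (𝓡 n) yF)}
    (hW : W ⊆ QS G u yF H) {qt : TangentSpace (𝓡 n) yF} (hqt : qt ∈ G.K yF)
    (hmass : ∀ f : TangentSpace (𝓡 n) yF →L[ℝ] ℝ,
      m' ≤ (vol (G.ex yF '' {q | q ∈ W ∧ f qt ≤ f q})).toReal)
    (hH1 : 0 ≤ H1) (hh' : H + H1 < h') (hB : 0 ≤ B)
    (hNG : ∀ y2 : M, (m' ≤ Vp vol (ctr u) yF y2 h' → ctr u yF - ctr u y2 ≤ B) ∧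
      (m' ≤ Vp vol (ctr u) y2 yF h' → ctr u y2 - ctr u yF ≤ B)) :
    osc (ctr u) (G.ex yF qt) H1 ≤ 2 * B + H1 := by
  have hcl : ∀ y2 : M, Dd (ctr u) y2 (G.ex yF qt) ≤ H1 →
      |ctr u yF - ctr u y2| ≤ B := by
    intro y2 hy2
    rw [Dd_ctr hu] at hy2
    obtain ⟨h1, h2⟩ := row_pair_Vp (vol := vol) hg hu hW hqt hmass hy2 hH1 hh'
    have h3 := (hNG y2).1 h1
    have h4 := (hNG y2).2 h2
    rw [abs_le]
    constructor <;> linarith
  refine osc_le (by positivity) ?_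
  intro y2 y3 hy2 hy3
  have h2 := hcl y2 hy2
  have h3 := hcl y3 hy3
  have hcu := CConv.continuous (CConv_ctr (CConv.continuous hu))
  have h4 : 0 ≤ Dd (ctr u) y3 (G.ex yF qt) := Dd_nonneg hcu _ _
  rw [abs_le] at h2 h3
  unfold Dd at hy2 h4
  linarith [h2.1, h2.2, h3.1, h3.2]

/-- **(R3)** from the area formula (shape of `Jac344.exists_area`): mass of the weight on every
half-space gives the hypothesis `hmass`. -/
theorem hmass_of_lintegral {vol : Measure M} [IsFiniteMeasure vol] {yF : M}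
    [MeasurableSpace (TangentSpace (𝓡 n) yF)] [BorelSpace (TangentSpace (𝓡 n) yF)]
    {μ : Measure (TangentSpace (𝓡 n) yF)} {J : TangentSpace (𝓡 n) yF → ℝ≥0∞} {C : ℝ} (hC : 0 < C)
    (harea : ∀ A ⊆ G.K yF, IsCompact A →
      ∫⁻ p in A, J p ∂μ ≤ ENNReal.ofReal C * vol (G.ex yF '' A))
    {W : Set (TangentSpace (𝓡 n) yF)} (hWc : IsCompact W) (hWK : W ⊆ G.K yF)
    {qt : TangentSpace (𝓡 n) yF} {m' : ℝ}
    (hI : ∀ f : TangentSpace (𝓡 n) yF →L[ℝ] ℝ,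
      ENNReal.ofReal (C * m') ≤ ∫⁻ q in {q | q ∈ W ∧ f qt ≤ f q}, J q ∂μ) :
    ∀ f : TangentSpace (𝓡 n) yF →L[ℝ] ℝ,
      m' ≤ (vol (G.ex yF '' {q | q ∈ W ∧ f qt ≤ f q})).toReal := by
  intro f
  have h1 : IsCompact {q | q ∈ W ∧ f qt ≤ f q} :=
    hWc.inter_right (isClosed_le continuous_const f.continuous)
  have h2 := (hI f).trans (harea _ (fun q hq => hWK hq.1) h1)
  rw [ENNReal.ofReal_mul hC.le] at h2
  have h3 : ENNReal.ofReal m' ≤ vol (G.ex yF '' {q | q ∈ W ∧ f qt ≤ f q}) := by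
    refine (ENNReal.mul_le_mul_iff_right ?_ ENNReal.ofReal_ne_top).1 h2
    exact (ENNReal.ofReal_pos.2 hC).ne'
  rcases le_or_gt m' 0 with h | h
  · exact h.trans ENNReal.toReal_nonneg
  · rw [← ENNReal.toReal_ofReal h.le]
    exact ENNReal.toReal_mono (measure_ne_top _ _) h3

end Crest.Agent.R226.Row487
end

-- ▼ part R226/TallFin_114
section

set_option autoImplicit false
set_option linter.unusedSectionVars false
set_option linter.unusedVariables false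

open MeasureTheory Bundle Set Filter
open scoped Manifold ContDiff Bundle ENNReal Topology RealInnerProductSpace
open Crest.GeometryTopology.MTW

namespace Crest.Agent.R226.TallFin114

open Crest.Agent.R226 Crest.Agent.R226.Kant624 Crest.Agent.R226.Reduction624
  Crest.Agent.R226.HolderEnd915 Crest.Agent.R226.E1Shape964 Crest.Agent.R226.Dasm290
  Crest.Agent.R226.Osc977 Crest.Agent.R226.Far977 Crest.Agent.R226.Jac344
  Crest.Agent.R226.SupPair413 Crest.Agent.R226.NS683 Crest.Agent.R226.TallGeo114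
  Crest.Agent.R226.TallSel227

variable {n : ℕ} {M : Type*} [MetricSpace M] [ChartedSpace (EuclideanSpace ℝ (Fin n)) M]
  [IsManifold (𝓡 n) ∞ M]
  [RiemannianBundle (fun p : M => TangentSpace (𝓡 n) p)]

/-- pointwise non-crossing comparison of the Jacobian, margin `1/8`, times `≤ 1/2`. -/
def WJ (G : GeoData n M) (c : ℝ) : Prop :=
  ∀ (y : M) (p₀ p₁ : TangentSpace (𝓡 n) y), p₀ ∈ G.K y → p₁ ∈ G.K y →
    ∀ t : ℝ, 0 ≤ t → t ≤ 1 / 2 →
      (∀ b : ℝ, 0 ≤ b → b ≤ t →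
        (1 / 8) * ‖p₁ - p₀‖ ^ 2 ≤ |⟪p₀ + b • (p₁ - p₀), p₁ - p₀⟫|) →
      c * jd G y p₀ ≤ jd G y (p₀ + t • (p₁ - p₀))

variable [CompactSpace M] [IsRiemannianManifold (𝓡 n) M]
  [IsContMDiffRiemannianBundle (𝓡 n) ∞ (EuclideanSpace ℝ (Fin n))
    (fun p : M => TangentSpace (𝓡 n) p)] {G : GeoData n M}

/-- the truncated section -/
def QT (G : GeoData n M) (u : M → ℝ) (y : M) (H : ℝ) (qN : TangentSpace (𝓡 n) y) (T : ℝ) :
    Set (TangentSpace (𝓡 n) y) :=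
  {q ∈ QS G u y H | ‖q‖ ^ 2 / 2 - ‖qN‖ ^ 2 / 2 ≤ 2 * T}

theorem isCompact_QT (hC : CutFacts G) {u : M → ℝ} (hu : CConv u) (y : M) (H : ℝ)
    (qN : TangentSpace (𝓡 n) y) (T : ℝ) : IsCompact (QT G u y H qN T) := by
  have hn : Continuous (fun q : TangentSpace (𝓡 n) y => ‖q‖ ^ 2 / 2 - ‖qN‖ ^ 2 / 2) := by fun_prop
  have h1 : IsClosed {q : TangentSpace (𝓡 n) y | Dd u (G.ex y q) y ≤ H ∧
      ‖q‖ ^ 2 / 2 - ‖qN‖ ^ 2 / 2 ≤ 2 * T} :=
    (isClosed_le ((continuous_Dd hu y).comp (NG487.continuous_exv G y)) continuous_const).inter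
      (isClosed_le hn continuous_const)
  have h2 : QT G u y H qN T = G.K y ∩ {q : TangentSpace (𝓡 n) y | Dd u (G.ex y q) y ≤ H ∧
      ‖q‖ ^ 2 / 2 - ‖qN‖ ^ 2 / 2 ≤ 2 * T} := by
    ext q
    simp only [QT, QS, mem_ofPred_eq, mem_inter_iff, and_assoc]
  rw [h2]
  exact (EStep1700.isCompact_K hC y).inter_right h1

theorem convex_QT (hg : GoodAll G) {u : M → ℝ} (hu : CConv u) (y : M) (H : ℝ)
    (qN : TangentSpace (𝓡 n) y) (T : ℝ) : Convex ℝ (QT G u y H qN T) := by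
  rintro p ⟨hp, hp'⟩ q ⟨hq, hq'⟩ a b ha hb hab
  refine ⟨convex_QS hg hu y H hp hq ha hb hab, ?_⟩
  have h1 : ‖a • p + b • q‖ ^ 2 ≤ a * ‖p‖ ^ 2 + b * ‖q‖ ^ 2 := by
    have h2 : ‖a • p + b • q‖ ≤ a * ‖p‖ + b * ‖q‖ := by
      refine (norm_add_le _ _).trans ?_
      rw [norm_smul, norm_smul, Real.norm_of_nonneg ha, Real.norm_of_nonneg hb]
    have h3 : ‖a • p + b • q‖ ^ 2 ≤ (a * ‖p‖ + b * ‖q‖) ^ 2 := by gcongr
    have h4 : b = 1 - a := by linarith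
    subst h4
    nlinarith [mul_nonneg (mul_nonneg ha hb) (sq_nonneg (‖p‖ - ‖q‖))]
  have h4 : b = 1 - a := by linarith
  subst h4
  nlinarith

/-- levels: `u x - u x' = c(x',y) - c(x,y) + D(x,y) - D(x',y)`. -/
theorem u_sub (u : M → ℝ) (x x' y : M) :
    u x - u x' = halfDistSq x' y - halfDistSq x y + Dd u x y - Dd u x' y := by
  unfold Dd; ring


/-- numbers of the mass transfer. -/
theorem mass_real {V J1 mQ : ℝ≥0∞} {CA cW κ : ℝ} (hCA : 0 < CA) (hcW : 0 ≤ cW) (hκ : 0 ≤ κ)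
    {j : ℕ} (hVt : V ≠ ⊤) (hV : V ≤ 2 ^ (j + 1) * (ENNReal.ofReal CA * (J1 * mQ))) :
    ENNReal.ofReal (cW * κ / (CA * 2 ^ (j + 1)) * V.toReal) ≤
      ENNReal.ofReal cW * J1 * (ENNReal.ofReal κ * mQ) := by
  have h2 : (0 : ℝ) < 2 ^ (j + 1) := by positivity
  have e2 : (2 : ℝ≥0∞) ^ (j + 1) = ENNReal.ofReal (2 ^ (j + 1)) := by
    rw [ENNReal.ofReal_pow (by norm_num)]; norm_num
  have h0 : 0 ≤ cW * κ / (CA * 2 ^ (j + 1)) := by positivity
  rw [ENNReal.ofReal_mul h0, ENNReal.ofReal_toReal hVt]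
  calc ENNReal.ofReal (cW * κ / (CA * 2 ^ (j + 1))) * V
      ≤ ENNReal.ofReal (cW * κ / (CA * 2 ^ (j + 1))) *
        (2 ^ (j + 1) * (ENNReal.ofReal CA * (J1 * mQ))) := by gcongr
    _ = (ENNReal.ofReal (cW * κ / (CA * 2 ^ (j + 1))) * ENNReal.ofReal (2 ^ (j + 1)) *
        ENNReal.ofReal CA) * (J1 * mQ) := by rw [e2]; ring
    _ = ENNReal.ofReal (cW * κ) * (J1 * mQ) := by
        rw [← ENNReal.ofReal_mul h0, ← ENNReal.ofReal_mul (by positivity)]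
        congr 2
        field_simp
    _ = ENNReal.ofReal cW * J1 * (ENNReal.ofReal κ * mQ) := by
        rw [ENNReal.ofReal_mul hcW]; ring

/-- the exponent of `b2` is bounded. -/
theorem exp_bound {CN B0 T H D2 : ℝ} (hCN : 0 ≤ CN) (hB0 : 0 ≤ B0) (hT : 0 < T) (hH : 0 ≤ H)
    (hHT : H ≤ T) (hTD : T ≤ D2) :
    4 * Real.exp (CN * √(8 * (2 * (B0 * T) + H)) * (1 + √(2 / (T / 5)))) ≤
      4 * Real.exp (CN * (√(8 * (2 * B0 + 1) * D2) + √(80 * (2 * B0 + 1)))) := by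
  have h1 : √(8 * (2 * (B0 * T) + H)) ≤ √(8 * (2 * B0 + 1) * T) := by
    apply Real.sqrt_le_sqrt; nlinarith
  have h2 : √(8 * (2 * B0 + 1) * T) ≤ √(8 * (2 * B0 + 1) * D2) := by
    apply Real.sqrt_le_sqrt; gcongr
  have h3 : √(8 * (2 * B0 + 1) * T) * √(2 / (T / 5)) = √(80 * (2 * B0 + 1)) := by
    rw [← Real.sqrt_mul (by positivity)]
    congr 1
    field_simp
    ring
  have h4 : √(8 * (2 * (B0 * T) + H)) * (1 + √(2 / (T / 5))) ≤
      √(8 * (2 * B0 + 1) * D2) + √(80 * (2 * B0 + 1)) := by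
    calc √(8 * (2 * (B0 * T) + H)) * (1 + √(2 / (T / 5)))
        ≤ √(8 * (2 * B0 + 1) * T) * (1 + √(2 / (T / 5))) := by gcongr
      _ = √(8 * (2 * B0 + 1) * T) + √(80 * (2 * B0 + 1)) := by rw [mul_add, mul_one, h3]
      _ ≤ _ := by gcongr
  rw [mul_assoc]
  gcongr

variable [MeasurableSpace M] [BorelSpace M]

/-- **the tall section** (leaf (F)). -/
theorem tall_pair [IsFiniteMeasure (Measure.hausdorffMeasure (n : ℝ) : Measure M)]
    (hB : Base347.Base G) (hC : CutFacts G) (hg : GoodAll G) {CN : ℝ}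
    (hCN : 0 ≤ CN) (hNS : NS1P G CN) {cW : ℝ} (hcW : 0 < cW) (hW : WJ G cW) {m : ℝ}
    (hm : 0 < m) {B0 : ℝ} (hB0 : 0 ≤ B0) :
    ∃ c c1 C1 K : ℝ, 0 < c ∧ 0 < c1 ∧ 0 < C1 ∧ 1 < K ∧
      ∀ u : M → ℝ, CConv u → AlexPinch (Measure.hausdorffMeasure (n : ℝ) : Measure M) u m →
      ∀ (yF xN : M) (H a : ℝ) (X : Set M), 0 < H → Dd u xN yF ≤ H →
      (∀ x, Dd u x yF ≤ H → halfDistSq xN yF ≤ halfDistSq x yF) → C1 * H ≤ a →
      IsCompact X → (Measure.hausdorffMeasure (n : ℝ) : Measure M) X ≠ 0 →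
      (∀ x ∈ X, Dd u x yF ≤ H) → (∀ x ∈ X, a ≤ halfDistSq x yF - halfDistSq xN yF) →
      (∀ R : ℝ, 1 ≤ R → ∀ y2 : M,
        (c * ((Measure.hausdorffMeasure (n : ℝ) : Measure M) X).toReal ≤
          R * Vp (Measure.hausdorffMeasure (n : ℝ) : Measure M) (ctr u) yF y2 (K * H) →
            ctr u yF - ctr u y2 ≤ B0 * R * a) ∧
        (c * ((Measure.hausdorffMeasure (n : ℝ) : Measure M) X).toReal ≤
          R * Vp (Measure.hausdorffMeasure (n : ℝ) : Measure M) (ctr u) y2 yF (K * H) →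
            ctr u y2 - ctr u yF ≤ B0 * R * a)) →
      ∃ R : ℝ, 1 ≤ R ∧ ∃ x1 : M, R * a - H ≤ u xN - u x1 ∧
        c1 * ((Measure.hausdorffMeasure (n : ℝ) : Measure M) X).toReal ≤
          R * Vp (Measure.hausdorffMeasure (n : ℝ) : Measure M) u xN x1 (K * H) := by
  classical
  obtain ⟨CA, hCA, harea⟩ := exists_area (G := G) hC
  set vol : Measure M := (Measure.hausdorffMeasure (n : ℝ) : Measure M) with hvol
  set D2 : ℝ := Metric.diam (univ : Set M) ^ 2 / 2 with hD2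
  obtain ⟨E0, hE0⟩ : ∃ E0 : ℝ, E0 = 4 * Real.exp
    (CN * (√(8 * (2 * B0 + 1) * D2) + √(80 * (2 * B0 + 1)))) := ⟨_, rfl⟩
  have hE0pos : 0 < E0 := by rw [hE0]; positivity
  obtain ⟨κ, hκ⟩ : ∃ κ : ℝ, κ = (1 / 256) ^ n := ⟨_, rfl⟩
  have hκpos : 0 < κ := by rw [hκ]; positivity
  refine ⟨cW * (κ / (n + 1)) / (CA ^ 2 * 2), m * (cW * κ) / (CA ^ 2 * 2), 10 * E0 + 1, E0 + 13,
    by positivity, by positivity, by positivity, by linarith, ?_⟩
  intro u hu hP yF xN H a X hH hxN hnear ha hXc hX0 hXH hXa hNG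
  have huc := CConv.continuous hu
  obtain ⟨ms, bs, μ, hμ, J, hJm, hJK, hup, hlow⟩ := harea yF
  have hfin : FiniteDimensional ℝ (TangentSpace (𝓡 n) yF) :=
    inferInstanceAs (FiniteDimensional ℝ (EuclideanSpace ℝ (Fin n)))
  have hrank : Module.finrank ℝ (TangentSpace (𝓡 n) yF) = n := by
    have : Module.finrank ℝ (EuclideanSpace ℝ (Fin n)) = n := by simp
    exact this
  have hapos : 0 < a := lt_of_lt_of_le (by positivity) ha
  -- the nearest velocity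
  obtain ⟨qN, hqN, hqNx⟩ := exists_mem_QS G hxN
  have hqNd : ‖qN‖ ^ 2 / 2 = halfDistSq xN yF := by rw [← hqNx, halfDistSq_ex' hqN.1]
  have hmin : ∀ w ∈ QS G u yF H, ‖qN‖ ≤ ‖w‖ := by
    intro w hw
    have h1 := hnear _ hw.2
    rw [halfDistSq_ex' hw.1, ← hqNd] at h1
    have h2 : ‖qN‖ ^ 2 ≤ ‖w‖ ^ 2 := by linarith
    exact (sq_le_sq₀ (norm_nonneg _) (norm_nonneg _)).1 h2
  -- the heavy window
  obtain ⟨j, q1, hq1, hq1X, hlo, hhi, hV⟩ := exists_heavy (vol := vol) (u := u) hC hJK hup hapos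
    (qN := qN) hXc hX0 hXH (fun x hx => by rw [hqNd]; exact hXa x hx)
  obtain ⟨T, hT⟩ : ∃ T : ℝ, T = 2 ^ j * a := ⟨_, rfl⟩
  have h2T : (2 : ℝ) ^ (j + 1) * a = 2 * T := by rw [hT]; ring
  rw [← hT] at hlo
  rw [h2T] at hhi hV
  have h2j : (1 : ℝ) ≤ 2 ^ j := one_le_pow₀ (by norm_num)
  have haT : a ≤ T := by rw [hT]; nlinarith
  have hTpos : 0 < T := by linarith
  have hHT : H ≤ T := by nlinarith
  obtain ⟨Q, hQ⟩ : ∃ Q, Q = QT G u yF H qN T := ⟨_, rfl⟩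
  have hV' : vol X ≤ 2 ^ (j + 1) * (ENNReal.ofReal CA * (J q1 * μ Q)) := by rw [hQ]; exact hV
  have hQc : IsCompact Q := by rw [hQ]; exact isCompact_QT hC hu yF H qN T
  have hQS : Q ⊆ QS G u yF H := by rw [hQ]; exact fun q hq => hq.1
  have hQK : Q ⊆ G.K yF := fun q hq => (hQS hq).1
  have htall : Tall Q qN q1 T := by
    refine ⟨by rw [hQ]; exact convex_QT hg hu yF H qN T, ?_, fun w hw => hmin w (hQS hw), ?_,
      hTpos, hlo, ?_⟩
    · rw [hQ]; exact ⟨hqN, by linarith⟩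
    · rw [hQ]; exact ⟨hq1, hhi⟩
    · intro w hw; rw [hQ] at hw; exact hw.2
  have hJW : ∀ z ∈ Q, ∀ t : ℝ, 0 ≤ t → t ≤ 1 / 2 →
      (∀ b : ℝ, 0 ≤ b → b ≤ t → (1 / 8) * ‖z - q1‖ ^ 2 ≤ |⟪q1 + b • (z - q1), z - q1⟫|) →
      ENNReal.ofReal cW * J q1 ≤ J (q1 + t • (z - q1)) := by
    intro z hz t ht ht' hb
    have h1 : q1 + t • (z - q1) ∈ Q :=
      htall.conv.add_smul_sub_mem htall.mem1 hz ⟨ht, by linarith⟩
    rw [hJK q1 (hQK htall.mem1), hJK _ (hQK h1), ← ENNReal.ofReal_mul hcW.le]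
    exact ENNReal.ofReal_le_ofReal (hW yF q1 z (hQK htall.mem1) (hQK hz) t ht ht' hb)
  obtain ⟨g, hgQ, hga⟩ := htall.exists_centre μ hQc
  have hVt : vol X ≠ ⊤ := measure_ne_top _ _
  have hTD : T ≤ D2 := by
    have h1 : ‖q1‖ ^ 2 / 2 ≤ D2 := by
      rw [← halfDistSq_ex' (G := G) hq1.1]; exact halfDistSq_le_diam _ _
    have h2 : 0 ≤ ‖qN‖ ^ 2 / 2 := by positivity
    linarith
  -- rows
  have hrow : ∀ mm ∈ Q, ∀ τ : ℝ, 3 / 4 ≤ τ → τ ≤ 1 →
      osc (ctr u) (G.ex yF (row qN q1 ((1 / 2 : ℝ) • g + (1 / 2 : ℝ) • mm) τ)) H ≤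
        2 * (B0 * T) + H := by
    intro mm hmm τ hτ hτ'
    have hrQ : row qN q1 ((1 / 2 : ℝ) • g + (1 / 2 : ℝ) • mm) τ ∈ Q :=
      htall.row_mem (htall.half_mem hgQ hmm) (by linarith) hτ'
    refine Row487.row_osc (vol := vol) hg hu (W := Q) hQS (hQK hrQ)
      (m' := cW * (κ / (n + 1)) / (CA ^ 2 * 2 ^ (j + 1)) * (vol X).toReal)
      (h' := (E0 + 13) * H) ?_ hH.le (by nlinarith) (by positivity) ?_
    · refine Row487.hmass_of_lintegral (μ := μ) (J := J) hCA hlow hQc hQK ?_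
      intro f
      have h1 := htall.mass_half μ hQc hJW hga hmm (τ := τ) (by linarith) hτ' f
      rw [hrank, ← hκ] at h1
      refine le_trans ?_ h1
      refine le_trans (le_of_eq ?_) (mass_real hCA hcW.le (κ := κ / (n + 1)) (by positivity)
        hVt hV')
      congr 1
      field_simp
    · intro y2
      have h1 := hNG (2 ^ j) h2j y2
      have e1 : cW * (κ / (n + 1)) / (CA ^ 2 * 2) * (vol X).toReal =
          2 ^ j * (cW * (κ / (n + 1)) / (CA ^ 2 * 2 ^ (j + 1)) * (vol X).toReal) := by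
        rw [pow_succ]; field_simp; ring
      rw [e1] at h1
      have e2 : B0 * 2 ^ j * a = B0 * T := by rw [hT]; ring
      rw [e2] at h1
      have h2j0 : (0 : ℝ) ≤ 2 ^ j := by positivity
      exact ⟨fun h => h1.1 (mul_le_mul_of_nonneg_left h h2j0),
        fun h => h1.2 (mul_le_mul_of_nonneg_left h h2j0)⟩
  -- the contacts of the core see both ends
  have hsee : ∀ x ∈ G.ex yF '' Tall.core Q qN q1 g, ∀ y' ∈ cSub u x,
      Dd u xN y' ≤ (E0 + 13) * H ∧ Dd u (G.ex yF q1) y' ≤ (E0 + 13) * H := by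
    rintro x ⟨q, ⟨mm, hmm, rfl⟩, rfl⟩ y' hy'
    have hmQ := htall.half_mem hgQ hmm
    constructor
    · have hb := B2_413.b2 hB hg hCN hNS hu (y₀ := yF) (y := y') (H := H) (q₀ := qN)
        (q₁ := qend qN q1 ((1 / 2 : ℝ) • g + (1 / 2 : ℝ) • mm)) hqN
        (hQS (htall.qend_mem hmQ)) (by
          rw [(Dd_eq_zero huc).2]
          exact hy') (R := 2 * (B0 * T) + H) (α := T / 5) (by positivity)
        (fun τ h1 h2 => hrow mm hmm τ h1 h2)
        (fun τ h1 h2 => htall.ht_row hmQ (by linarith))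
      have h1 := exp_bound (H := H) hCN hB0 hTpos hH.le hHT hTD
      rw [← hE0] at h1
      have h2 : min (T / 5 / 2) (Dd u (G.ex yF qN) y' - H) ≤ E0 * H :=
        hb.trans (mul_le_mul_of_nonneg_right h1 hH.le)
      rw [hqNx] at h2
      rcases min_le_iff.1 h2 with h | h
      · nlinarith
      · linarith
    · have h1 := htall.drops hmQ
      have hc := row_core qN q1 ((1 / 2 : ℝ) • g + (1 / 2 : ℝ) • mm)
      have hz : (1 - 1 / 64 : ℝ) • qN + (1 / 64 : ℝ) • ((1 / 2 : ℝ) • g + (1 / 2 : ℝ) • mm) ∈ Q :=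
        htall.comb_mem hmQ (by norm_num) (by norm_num)
      have h2 := far_sees hg hu hH hq1 (hQS hz) (t := 1 / 2) (t' := 1) (by norm_num)
        (by norm_num) le_rfl (r := T / 6) (N := 11) (by positivity) (by norm_num)
        (by rw [← hc, one_smul, add_sub_cancel]; exact h1.1) (by rw [← hc]; exact h1.2)
        (y' := y') (by rw [← hc]; exact hy')
      nlinarith
  refine ⟨2 ^ j, h2j, G.ex yF q1, ?_, ?_⟩
  · rw [u_sub u xN (G.ex yF q1) yF, halfDistSq_ex' hq1.1, ← hqNd, ← hT]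
    have h1 := Dd_nonneg huc xN yF
    have h2 := hq1.2
    linarith
  · have hcc : IsCompact (Tall.core Q qN q1 g) := Tall.isCompact_core hQc g
    have hcQ : Tall.core Q qN q1 g ⊆ G.K yF := (htall.core_subset hgQ).trans hQK
    have hcm : MeasurableSet (G.ex yF '' Tall.core Q qN q1 g) :=
      (hcc.image (continuous_ex G yF)).isClosed.measurableSet
    have h1 := (hP _ hcm).1
    have h2 : vol (⋃ x ∈ G.ex yF '' Tall.core Q qN q1 g, cSub u x) ≤
        vol (YY u xN (G.ex yF q1) ((E0 + 13) * H)) := by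
      refine measure_mono ?_
      intro y' hy'
      simp only [mem_iUnion] at hy'
      obtain ⟨x, hx, hy'⟩ := hy'
      exact hsee x hx y' hy'
    have h3 := htall.mass_core μ hQc.isClosed.measurableSet hJW hgQ
    rw [hrank, ← hκ] at h3
    have h4 := hlow _ hcQ hcc
    have h5 := mass_real hCA hcW.le hκpos.le hVt hV'
    have h6 : ENNReal.ofReal (m * (cW * κ) / (CA ^ 2 * 2 ^ (j + 1)) * (vol X).toReal) ≤
        vol (YY u xN (G.ex yF q1) ((E0 + 13) * H)) := by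
      have e1 : m * (cW * κ) / (CA ^ 2 * 2 ^ (j + 1)) * (vol X).toReal =
          (m / CA) * (cW * κ / (CA * 2 ^ (j + 1)) * (vol X).toReal) := by field_simp
      rw [e1, ENNReal.ofReal_mul (by positivity)]
      calc ENNReal.ofReal (m / CA) *
            ENNReal.ofReal (cW * κ / (CA * 2 ^ (j + 1)) * (vol X).toReal)
          ≤ ENNReal.ofReal (m / CA) * (ENNReal.ofReal CA *
            vol (G.ex yF '' Tall.core Q qN q1 g)) := by
            gcongr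
            exact h5.trans (h3.trans h4)
        _ = ENNReal.ofReal m * vol (G.ex yF '' Tall.core Q qN q1 g) := by
            rw [← mul_assoc, ← ENNReal.ofReal_mul (by positivity), div_mul_cancel₀ _ hCA.ne']
        _ ≤ _ := h1.trans h2
    have h7 : m * (cW * κ) / (CA ^ 2 * 2 ^ (j + 1)) * (vol X).toReal ≤
        Vp vol u xN (G.ex yF q1) ((E0 + 13) * H) := by
      unfold Vp
      rw [← ENNReal.toReal_ofReal (r := m * (cW * κ) / (CA ^ 2 * 2 ^ (j + 1)) * (vol X).toReal)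
        (by positivity)]
      exact ENNReal.toReal_mono (measure_ne_top _ _) h6
    have e1 : m * (cW * κ) / (CA ^ 2 * 2) * (vol X).toReal =
        2 ^ j * (m * (cW * κ) / (CA ^ 2 * 2 ^ (j + 1)) * (vol X).toReal) := by
      rw [pow_succ]; field_simp; ring
    rw [e1]
    exact mul_le_mul_of_nonneg_left h7 (by positivity)

end Crest.Agent.R226.TallFin114
end

-- ▼ part R226/Half2_114

set_option autoImplicit false
set_option linter.unusedSectionVars false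
set_option linter.unusedVariables false

open MeasureTheory Bundle Set Filter
open scoped Manifold ContDiff Bundle ENNReal Topology RealInnerProductSpace
open Crest.GeometryTopology.MTW

namespace Crest.Agent.R226.Half2_114

open Crest.Agent.R226 Crest.Agent.R226.Kant624 Crest.Agent.R226.Reduction624
  Crest.Agent.R226.HolderEnd915 Crest.Agent.R226.E1Shape964 Crest.Agent.R226.Dasm290
  Crest.Agent.R226.Osc977 Crest.Agent.R226.Far977 Crest.Agent.R226.Jac344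
  Crest.Agent.R226.SupPair413 Crest.Agent.R226.NS683 Crest.Agent.R226.TallFin114
  Crest.Agent.R226.WNc344

variable {n : ℕ} {M : Type*} [MetricSpace M] [ChartedSpace (EuclideanSpace ℝ (Fin n)) M]
  [IsManifold (𝓡 n) ∞ M]
  [RiemannianBundle (fun p : M => TangentSpace (𝓡 n) p)]
  [CompactSpace M] [IsRiemannianManifold (𝓡 n) M]
  [IsContMDiffRiemannianBundle (𝓡 n) ∞ (EuclideanSpace ℝ (Fin n))
    (fun p : M => TangentSpace (𝓡 n) p)] {G : GeoData n M}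

/-- 344's W-nc with margin `1/8` and times `≤ 1/2`. -/
theorem exists_WJ (hC : CutFacts G) (hM : MTWFacts G) (hg : GoodAll G) {c : ℝ} (hc : 0 < c)
    (hdep : DepthP G c) : ∃ cW : ℝ, 0 < cW ∧ WJ G cW := by
  obtain ⟨C, hC1, h⟩ := jd_wnc hC hM hg hc hdep (κ := 1 / 8) (τ := 1 / 2) (by norm_num)
    (by norm_num)
  refine ⟨1 / C, by positivity, ?_⟩
  intro y p₀ p₁ hp₀ hp₁ t ht ht' hb
  have h1 := h y p₀ hp₀ p₁ hp₁ t ht (by linarith) hb
  rw [one_div, inv_mul_le_iff₀ (by linarith)]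
  exact h1

variable [MeasurableSpace M] [BorelSpace M]

/-- **Half 2** of Plan_619. -/
theorem half2P [IsFiniteMeasure (Measure.hausdorffMeasure (n : ℝ) : Measure M)]
    (hB : Base347.Base G) (hC : CutFacts G) (hg : GoodAll G) {CN : ℝ}
    (hCN : 0 ≤ CN) (hNS : NS1P G CN) {cW : ℝ} (hcW : 0 < cW) (hW : WJ G cW) {m : ℝ}
    (hm : 0 < m) : Plan619.Half2P (Measure.hausdorffMeasure (n : ℝ) : Measure M) m := by
  obtain ⟨c, c1, C1, K, hc, hc1, hC1, hK, H⟩ :=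
    tall_pair hB hC hg hCN hNS hcW hW hm (B0 := 2) (by norm_num)
  set vol : Measure M := (Measure.hausdorffMeasure (n : ℝ) : Measure M) with hvol
  refine ⟨K, min c c1, C1 + 2, by linarith, lt_min hc hc1, by linarith, ?_⟩
  intro u hu y x₀ h a X hh ha hXc hX0 hx₀ hX
  have huC : CConv u := hu.1
  have huc := CConv.continuous huC
  have hcls : ctr u ∈ Cls vol m := Cls_ctr hu
  -- the nearest point of the column
  obtain ⟨xN, hxN, hnear⟩ := exists_nearest huC y hh.le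
  have hlev : ∀ x ∈ X, a - h ≤ halfDistSq x y - halfDistSq xN y := by
    intro x hx
    obtain ⟨h1, h2⟩ := hX x hx
    have h3 := u_sub u x₀ x y
    have h4 := Dd_nonneg huc x y
    have h5 := hnear x₀ hx₀
    linarith
  have ha' : C1 * h ≤ a - h := by nlinarith
  have hvX : vol X ≠ 0 := by
    intro h0
    rw [h0] at hX0
    simp at hX0
  have hXr : 0 ≤ (vol X).toReal := ENNReal.toReal_nonneg
  by_cases hcase : ∀ R : ℝ, 1 ≤ R → ∀ y2 : M,
        (c * (vol X).toReal ≤ R * Vp vol (ctr u) y y2 (K * h) →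
            ctr u y - ctr u y2 ≤ 2 * R * (a - h)) ∧
        (c * (vol X).toReal ≤ R * Vp vol (ctr u) y2 y (K * h) →
            ctr u y2 - ctr u y ≤ 2 * R * (a - h))
  · obtain ⟨R, hR, x1, hx1, hV⟩ := H u huC hu.2.1 y xN h (a - h) X hh hxN hnear ha' hXc hvX
      (fun x hx => (hX x hx).1) hlev hcase
    refine ⟨u, hu, xN, x1, R, hR, ?_, ?_⟩
    · have h1 : 0 ≤ (R - 1) * h := mul_nonneg (by linarith) hh.le
      have h2 : 0 ≤ R * (C1 * h) := by positivity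
      linarith [(by ring : R * (a - (C1 + 2) * h) = R * (a - h) - h - (R - 1) * h -
        R * (C1 * h))]
    · exact (mul_le_mul_of_nonneg_right (min_le_right _ _) hXr).trans hV
  · push Not at hcase
    obtain ⟨R, hR, y2, hy2⟩ := hcase
    have hapos : 0 ≤ a - h := le_trans (by positivity) ha'
    have key : R * (a - (C1 + 2) * h) ≤ 2 * R * (a - h) := by
      have h1 : 0 ≤ R * (a - h) := mul_nonneg (by linarith) hapos
      have h2 : 0 ≤ R * ((C1 + 1) * h) := by positivity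
      linarith [(by ring : R * (a - (C1 + 2) * h) = R * (a - h) - R * ((C1 + 1) * h))]
    by_cases h1 : c * (vol X).toReal ≤ R * Vp vol (ctr u) y y2 (K * h) →
        ctr u y - ctr u y2 ≤ 2 * R * (a - h)
    · obtain ⟨h2, h3⟩ := hy2 h1
      refine ⟨ctr u, hcls, y2, y, R, hR, key.trans h3.le, ?_⟩
      exact (mul_le_mul_of_nonneg_right (min_le_left _ _) hXr).trans h2
    · push Not at h1
      refine ⟨ctr u, hcls, y, y2, R, hR, key.trans h1.2.le, ?_⟩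
      exact (mul_le_mul_of_nonneg_right (min_le_left _ _) hXr).trans h1.1

/-- `Half2P` from the geometric facts and 115's `T1iP`. -/
theorem half2P_of_T1iP [IsFiniteMeasure (Measure.hausdorffMeasure (n : ℝ) : Measure M)]
    (hB : Base347.Base G) (hC : CutFacts G) (hM : MTWFacts G) (hg : GoodAll G) {CN : ℝ}
    (hCN : 0 ≤ CN) (hT : T1iP G CN) {m : ℝ} (hm : 0 < m) :
    Plan619.Half2P (Measure.hausdorffMeasure (n : ℝ) : Measure M) m := by
  obtain ⟨c, hc, hdep⟩ := Depth946.depth_D1 hB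
  obtain ⟨cW, hcW, hW⟩ := exists_WJ hC hM hg hc (fun x p hp s hs hs' v => hdep x p hp s hs hs' v)
  exact half2P hB hC hg hCN (ns1P_of_T1iP hC hCN hT) hcW hW hm

end Crest.Agent.R226.Half2_114
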