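import Crest.Agent.R226.T1iFin_683_Mg
import Crest.Agent.R226.Half2_114_Mg
import Crest.Agent.R226.Plan_619_Mg
import Crest.Agent.R226.EMain_915
import Crest.Agent.R226.NGcol_487
import Crest.Agent.R226.SupPair_413
import Crest.Agent.R226.YStar_544
import Crest.Agent.R226.Far_977
import Crest.Agent.R226.NS1Def_683
import Crest.Agent.R226.WOff_915
import Crest.Agent.R226.Base_347
import Crest.Agent.R226.Copies_301
import Crest.Agent.R226.WNc_344
import Crest.Agent.R226.PairLem_433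
import Crest.Agent.R226.OscEnd_977
import Crest.Agent.R226.MTWConc_117

-- ▼ part R226/NS1Top_115
section

set_option autoImplicit false

open MeasureTheory Bundle Set Filter
open scoped Manifold ContDiff Bundle ENNReal Topology
open Crest.GeometryTopology.MTW

namespace Crest.Agent.R226.NS1Top115

open Crest.Agent.R226.NS683 Crest.Agent.R226.T1i115 Crest.Agent.R226.Dasm290

variable {n : ℕ} {M : Type*} [MetricSpace M] [ChartedSpace (EuclideanSpace ℝ (Fin n)) M]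
  [IsManifold (𝓡 n) ∞ M]
  [RiemannianBundle (fun p : M => TangentSpace (𝓡 n) p)]
  [IsContMDiffRiemannianBundle (𝓡 n) ∞ (EuclideanSpace ℝ (Fin n))
    (fun p : M => TangentSpace (𝓡 n) p)] [CompactSpace M] [IsRiemannianManifold (𝓡 n) M]
  {G : GeoData n M}

/-- `RadP` (946) -/
theorem exists_radP (hC : CutFacts G) : ∃ c C : ℝ, 0 < c ∧ 0 ≤ C ∧ RadP G c C := by
  obtain ⟨c, hc, C, hC0, h⟩ := Depth946.depth_D2 hC.base347
  exact ⟨c, C, hc, hC0, h⟩

/-- **(T1)(i)** -/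
theorem exists_t1iP (hC : CutFacts G) (hM : MTWFacts G) (hg : GoodAll G) :
    ∃ C : ℝ, 0 ≤ C ∧ T1iP G C := by
  obtain ⟨c, C, hc, -, hR⟩ := exists_radP hC
  obtain ⟨C₁, hC1, hS⟩ := t1iStat hC.base347 hM (fun y => Final267.convex_I hC hg y) hc hR
  obtain ⟨C₂, hC2, hZ⟩ := Zeta186.zetaP hC
  exact T1iFin683.t1iP_of_stat' hC.base347 hC hg hC1 hC2 hS hZ


/-- **Half 2** of the pair dichotomy, unconditionally (114's `half2P_of_T1iP`). -/
theorem half2P [MeasurableSpace M] [BorelSpace M]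
    [IsFiniteMeasure (Measure.hausdorffMeasure (n : ℝ) : Measure M)]
    (hC : CutFacts G) (hM : MTWFacts G) (hg : GoodAll G) {m : ℝ} (hm : 0 < m) :
    Plan619.Half2P (Measure.hausdorffMeasure (n : ℝ) : Measure M) m := by
  obtain ⟨C, hC0, hT⟩ := exists_t1iP hC hM hg
  exact Half2_114.half2P_of_T1iP hC.base347 hC hM hg hC0 hT hm

end Crest.Agent.R226.NS1Top115
end

-- ▼ part R226/S350Glue_484
section

set_option autoImplicit false
set_option linter.unusedSectionVars false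

open MeasureTheory Bundle Set Filter
open scoped Manifold ContDiff Bundle ENNReal Topology
open Crest.GeometryTopology.MTW

namespace Crest.Agent.R226.S350Glue484

open Crest.Agent.R226 Crest.Agent.R226.Kant624 Crest.Agent.R226.Reduction624
  Crest.Agent.R226.E1Shape964 Crest.Agent.R226.Dasm290 Crest.Agent.R226.SupPair413
  Crest.Agent.R226.Plan619 Crest.Agent.R226.EMain915

variable {n : ℕ} {M : Type*} [MetricSpace M] [ChartedSpace (EuclideanSpace ℝ (Fin n)) M]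
  [IsManifold (𝓡 n) ∞ M]
  [RiemannianBundle (fun p : M => TangentSpace (𝓡 n) p)]
  [IsContMDiffRiemannianBundle (𝓡 n) ∞ (EuclideanSpace ℝ (Fin n))
    (fun p : M => TangentSpace (𝓡 n) p)] [IsRiemannianManifold (𝓡 n) M]
  [CompactSpace M] [ConnectedSpace M]
  [MeasurableSpace M] [BorelSpace M]

/-- **S0350 from the pair dichotomy** `PairDichR`. -/
theorem s0350_of_pairDichR (hMTW : SatisfiesWeakMTW M n)
    (hPD : ∀ G : GeoData n M, CutFacts G → MTWFacts G → DFacts G → GoodAll G →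
      ∀ m : ℝ, 0 < m → PairDichR (Measure.hausdorffMeasure (n : ℝ) : Measure M) m)
    (lam Lam : ℝ) (hlam : 0 < lam) (hle : lam ≤ Lam) :
    ∃ α : ℝ, 0 < α ∧ α ≤ 1 ∧ ∃ C : ℝ, ∀ ρ₀ ρ₁ : M → ℝ, Measurable ρ₀ → Measurable ρ₁ →
      (∀ᵐ x ∂(Measure.hausdorffMeasure (n : ℝ) : Measure M),
        lam ≤ ρ₀ x ∧ ρ₀ x ≤ Lam ∧ lam ≤ ρ₁ x ∧ ρ₁ x ≤ Lam) →
      (∫⁻ x, ENNReal.ofReal (ρ₀ x) ∂(Measure.hausdorffMeasure (n : ℝ) : Measure M)) = 1 →
      (∫⁻ x, ENNReal.ofReal (ρ₁ x) ∂(Measure.hausdorffMeasure (n : ℝ) : Measure M)) = 1 →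
      ∀ T : M → M,
        IsMongeOptimal ((Measure.hausdorffMeasure (n : ℝ)).withDensity fun x =>
            ENNReal.ofReal (ρ₀ x))
          ((Measure.hausdorffMeasure (n : ℝ)).withDensity fun x => ENNReal.ofReal (ρ₁ x)) T →
        ∃ Th : M ≃ₜ M,
          (∀ᵐ x ∂((Measure.hausdorffMeasure (n : ℝ)).withDensity fun x =>
            ENNReal.ofReal (ρ₀ x)), T x = Th x) ∧
          (∀ x x' : M, dist (Th x) (Th x') ≤ C * dist x x' ^ α) ∧
          (∀ y y' : M, dist (Th.symm y) (Th.symm y') ≤ C * dist y y' ^ α) := by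
  have hne : Nonempty M := ConnectedSpace.toNonempty
  obtain ⟨G⟩ := CutAsm823.nonempty_geoData n M
  have hC := CutAsm823.cutFacts G
  have hD := CutAsm823.dFacts G
  have hg : GoodAll G := fun u hu => CutAsm823.good_one G hMTW u hu
  have hm : 0 < lam / Lam := div_pos hlam (hlam.trans_le hle)
  exact uniform_biHolder (Measure.hausdorffMeasure (n : ℝ) : Measure M) hlam hle (aeUnique G)
    (estatement_of_pairsR G hg _
      (hPD G hC (CutAsm823.mtwFacts G hMTW) hD hg _ hm))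

/-- **S0350 from `Half1P`**. -/
theorem s0350_of_half1 (hMTW : SatisfiesWeakMTW M n)
    (hH1 : ∀ G : GeoData n M, CutFacts G → MTWFacts G → DFacts G → GoodAll G →
      ∀ m : ℝ, 0 < m → Half1P (Measure.hausdorffMeasure (n : ℝ) : Measure M) m)
    (lam Lam : ℝ) (hlam : 0 < lam) (hle : lam ≤ Lam) :
    ∃ α : ℝ, 0 < α ∧ α ≤ 1 ∧ ∃ C : ℝ, ∀ ρ₀ ρ₁ : M → ℝ, Measurable ρ₀ → Measurable ρ₁ →
      (∀ᵐ x ∂(Measure.hausdorffMeasure (n : ℝ) : Measure M),
        lam ≤ ρ₀ x ∧ ρ₀ x ≤ Lam ∧ lam ≤ ρ₁ x ∧ ρ₁ x ≤ Lam) →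
      (∫⁻ x, ENNReal.ofReal (ρ₀ x) ∂(Measure.hausdorffMeasure (n : ℝ) : Measure M)) = 1 →
      (∫⁻ x, ENNReal.ofReal (ρ₁ x) ∂(Measure.hausdorffMeasure (n : ℝ) : Measure M)) = 1 →
      ∀ T : M → M,
        IsMongeOptimal ((Measure.hausdorffMeasure (n : ℝ)).withDensity fun x =>
            ENNReal.ofReal (ρ₀ x))
          ((Measure.hausdorffMeasure (n : ℝ)).withDensity fun x => ENNReal.ofReal (ρ₁ x)) T →
        ∃ Th : M ≃ₜ M,
          (∀ᵐ x ∂((Measure.hausdorffMeasure (n : ℝ)).withDensity fun x =>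
            ENNReal.ofReal (ρ₀ x)), T x = Th x) ∧
          (∀ x x' : M, dist (Th x) (Th x') ≤ C * dist x x' ^ α) ∧
          (∀ y y' : M, dist (Th.symm y) (Th.symm y') ≤ C * dist y y' ^ α) := by
  have := VolChart767.isFiniteMeasure (n := n) (M := M)
  refine s0350_of_pairDichR hMTW ?_ lam Lam hlam hle
  intro G hC hM hD hg m hm
  exact pairDichR_of_halves _ m (hH1 G hC hM hD hg m hm) (NS1Top115.half2P hC hM hg hm)

end Crest.Agent.R226.S350Glue484
end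

-- ▼ part R226/TukeyMass_544
section

set_option autoImplicit false
set_option linter.unusedSectionVars false

open MeasureTheory Bundle Set Filter
open scoped Manifold ContDiff Bundle ENNReal Topology
open Crest.GeometryTopology.MTW

namespace Crest.Agent.R226.TukeyMass544

open Crest.Agent.R226 Crest.Agent.R226.Kant624 Crest.Agent.R226.E1Shape964
  Crest.Agent.R226.Dasm290 Crest.Agent.R226.Osc977 Crest.Agent.R226.Far977
  Crest.Agent.R226.NG487 Crest.Agent.R226.SupPair413 Crest.Agent.R226.YStar544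

variable {n : ℕ} {M : Type*} [MetricSpace M] [ChartedSpace (EuclideanSpace ℝ (Fin n)) M]
  [IsManifold (𝓡 n) ∞ M]
  [RiemannianBundle (fun p : M => TangentSpace (𝓡 n) p)]

/-- the outer half (with respect to `p₀`) of `log S`, `S = Y_h(x₀) ∩ Y_h(x₁)`. -/
def AA (G : GeoData n M) (u : M → ℝ) (x0 x1 : M) (p0 : TangentSpace (𝓡 n) x1) (h : ℝ) :
    Set (TangentSpace (𝓡 n) x1) :=
  {p | p ∈ G.K x1 ∧ Dd u x1 (G.ex x1 p) ≤ h ∧ Dd u x0 (G.ex x1 p) ≤ h ∧
    0 ≤ (inner ℝ (p - p0) p0 : ℝ)}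

section

variable [IsContMDiffRiemannianBundle (𝓡 n) ∞ (EuclideanSpace ℝ (Fin n))
    (fun p : M => TangentSpace (𝓡 n) p)]
  [IsRiemannianManifold (𝓡 n) M] [CompactSpace M] {G : GeoData n M}

theorem AA_subset {u : M → ℝ} {x0 x1 : M} {p0 : TangentSpace (𝓡 n) x1} {h : ℝ} :
    AA G u x0 x1 p0 h ⊆ G.K x1 := fun _ hp => hp.1

theorem isCompact_AA {u : M → ℝ} (hu : CConv u) (x0 x1 : M) (p0 : TangentSpace (𝓡 n) x1)
    (h : ℝ) : IsCompact (AA G u x0 x1 p0 h) := by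
  have huc := CConv.continuous hu
  have hctr : CConv (ctr u) := CConv_ctr huc
  have h1 : ∀ x : M, Continuous (fun p : TangentSpace (𝓡 n) x1 => Dd u x (G.ex x1 p)) := by
    intro x
    have h2 := (continuous_Dd hctr x).comp (continuous_exv G x1)
    have h3 : ((fun y => Dd (ctr u) y x) ∘ G.ex x1) =
        fun p : TangentSpace (𝓡 n) x1 => Dd u x (G.ex x1 p) := by
      funext p
      simp only [Function.comp_apply, Dd_ctr hu]
    rwa [h3] at h2
  have h4 : AA G u x0 x1 p0 h = G.K x1 ∩ ({p | Dd u x1 (G.ex x1 p) ≤ h} ∩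
      ({p | Dd u x0 (G.ex x1 p) ≤ h} ∩ {p | 0 ≤ (inner ℝ (p - p0) p0 : ℝ)})) := rfl
  rw [h4]
  refine (CutTop478.isCompact_K G x1).inter_right ?_
  refine (isClosed_le (h1 x1) continuous_const).inter
    ((isClosed_le (h1 x0) continuous_const).inter (isClosed_le continuous_const ?_))
  fun_prop

variable [MeasurableSpace M] [BorelSpace M]

/-- **Tukey column with mass**: 487's `tukey_column` with the mass of the outer half of `log S`. -/
theorem tukey_mass (hg : GoodAll G) {vol : Measure M} [IsFiniteMeasure vol]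
    (hvol : vol ≪ (Measure.hausdorffMeasure (n : ℝ) : Measure M)) {u : M → ℝ} (hu : CConv u)
    (x0 x1 : M) {h : ℝ} (hh : 0 ≤ h) :
    ∃ p0 ∈ G.K x1, Dd u x1 (G.ex x1 p0) ≤ h ∧ (∀ (x : M) (ε : ℝ), 0 < ε →
      (vol (SS u x0 x1 h)).toReal ≤ (n + 1) *
        (vol {y | Dd u x0 y ≤ h ∧ Dd u x y ≤ h + Dd u x (G.ex x1 p0) + ε}).toReal) ∧
      (vol (SS u x0 x1 h)).toReal ≤
        (n + 1) * (vol (G.ex x1 '' AA G u x0 x1 p0 h)).toReal := by
  classical
  let ms : MeasurableSpace (TangentSpace (𝓡 n) x1) := borel _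
  have bs : BorelSpace (TangentSpace (𝓡 n) x1) := ⟨rfl⟩
  have hfin : FiniteDimensional ℝ (TangentSpace (𝓡 n) x1) :=
    inferInstanceAs (FiniteDimensional ℝ (EuclideanSpace ℝ (Fin n)))
  have hrank : Module.finrank ℝ (TangentSpace (𝓡 n) x1) = n := by
    have : Module.finrank ℝ (EuclideanSpace ℝ (Fin n)) = n := by simp
    exact this
  have huc := CConv.continuous hu
  obtain ⟨L, hLm, hLK, hL⟩ := exists_log G hvol x1
  set S : Set M := SS u x0 x1 h with hS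
  have hSm : MeasurableSet S := (isClosed_SS hu x0 x1 h).measurableSet
  set μ : Measure (TangentSpace (𝓡 n) x1) := (vol.restrict S).map L with hμ
  set K0 : Set (TangentSpace (𝓡 n) x1) := QS G (ctr u) x1 h with hK0
  have hctr : CConv (ctr u) := CConv_ctr huc
  have hK0c : Convex ℝ K0 := convex_QS hg hctr x1 h
  have hK0cl : IsClosed K0 := by
    have h1 : K0 = G.K x1 ∩ {p | Dd (ctr u) (G.ex x1 p) x1 ≤ h} := rfl
    rw [h1]
    exact (CutTop478.isClosed_K G x1).inter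
      (isClosed_le ((continuous_Dd hctr x1).comp (continuous_exv G x1)) continuous_const)
  have hK0ne : K0.Nonempty := by
    obtain ⟨y, hy⟩ := hu x1
    obtain ⟨p, hp, hpy⟩ := exists_mem_K G x1 y
    refine ⟨p, hp, ?_⟩
    rw [Dd_ctr hu, hpy, (Dd_eq_zero huc).2 hy]
    exact hh
  have hK0n : μ K0ᶜ = 0 := by
    rw [hμ, Measure.map_apply hLm hK0cl.measurableSet.compl,
      Measure.restrict_apply (hLm hK0cl.measurableSet.compl)]
    refine measure_mono_null ?_ (show vol {y | ¬ (G.ex x1 (L y) = y ∧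
      ∀ p ∈ G.K x1, G.ex x1 p = y → p = L y)} = 0 from hL)
    rintro y ⟨hy1, hy2⟩ ⟨hy3, -⟩
    apply hy1
    refine ⟨hLK y, ?_⟩
    rw [Dd_ctr hu, hy3]
    exact hy2.2
  obtain ⟨z, hzK, hz⟩ := Tukey229.tukey μ hK0cl hK0c hK0ne hK0n
  have hz1 : Dd u x1 (G.ex x1 z) ≤ h := by
    have := hzK.2
    rwa [Dd_ctr hu] at this
  have h2 : μ.real univ = (vol S).toReal := by
    rw [Measure.real, hμ, Measure.map_apply hLm MeasurableSet.univ, preimage_univ,
      Measure.restrict_apply_univ]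
  refine ⟨z, hzK.1, hz1, fun x ε hε => ?_, ?_⟩
  · obtain ⟨f, hf⟩ := Dd_halfspace (u := u) hg x hzK.1 hε
    have h1 := hz f
    rw [hrank] at h1
    have h3 : μ.real (Tukey229.up f z) ≤
        (vol {y | Dd u x0 y ≤ h ∧ Dd u x y ≤ h + Dd u x (G.ex x1 z) + ε}).toReal := by
      rw [Measure.real, hμ, Measure.map_apply hLm (Tukey229.measurableSet_up f z),
        Measure.restrict_apply (hLm (Tukey229.measurableSet_up f z))]
      refine ENNReal.toReal_mono (measure_ne_top _ _) ?_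
      refine measure_mono_ae ?_
      filter_upwards [hL] with y hy hyS
      obtain ⟨hy1, hy2⟩ := hyS
      have h4 := hf (L y) (hLK y) hy1
      rw [hy.1] at h4
      have h5 := hy2.1
      have h6 := hy2.2
      have h7 := Dd_nonneg huc x1 (G.ex x1 z)
      exact ⟨h5, by linarith⟩
    rw [h2] at h1
    calc (vol S).toReal ≤ (n + 1) * μ.real (Tukey229.up f z) := h1
      _ ≤ _ := by gcongr
  · have h1 := hz (innerSL ℝ z)
    rw [hrank, h2] at h1
    have h3 : μ.real (Tukey229.up (innerSL ℝ z) z) ≤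
        (vol (G.ex x1 '' AA G u x0 x1 z h)).toReal := by
      rw [Measure.real, hμ, Measure.map_apply hLm (Tukey229.measurableSet_up _ z),
        Measure.restrict_apply (hLm (Tukey229.measurableSet_up _ z))]
      refine ENNReal.toReal_mono (measure_ne_top _ _) ?_
      refine measure_mono_ae ?_
      filter_upwards [hL] with y hy hyS
      obtain ⟨hy1, hy2⟩ := hyS
      refine ⟨L y, ⟨hLK y, ?_, ?_, ?_⟩, hy.1⟩
      · rw [hy.1]; exact hy2.2
      · rw [hy.1]; exact hy2.1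
      · have h4 : (innerSL ℝ z) z ≤ (innerSL ℝ z) (L y) := hy1
        rw [innerSL_apply_apply, innerSL_apply_apply] at h4
        rw [real_inner_comm, inner_sub_right]
        linarith
    calc (vol S).toReal ≤ (n + 1) * μ.real (Tukey229.up (innerSL ℝ z) z) := h1
      _ ≤ _ := by gcongr

/-- `∫`-form of the mass: `J` any density with the area inequality at `x₁` (second clause of
`Jac344.exists_area`). -/
theorem mass_of_area {vol : Measure M} [IsFiniteMeasure vol] {u : M → ℝ} (hu : CConv u)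
    {x0 x1 : M} {p0 : TangentSpace (𝓡 n) x1} {h C : ℝ}
    [MeasurableSpace (TangentSpace (𝓡 n) x1)] {μ : Measure (TangentSpace (𝓡 n) x1)}
    {J : TangentSpace (𝓡 n) x1 → ℝ≥0∞}
    (harea : ∀ A ⊆ G.K x1, IsCompact A → vol (G.ex x1 '' A) ≤
      ENNReal.ofReal C * ∫⁻ p in A, J p ∂μ)
    (hmass : (vol (SS u x0 x1 h)).toReal ≤
        (n + 1) * (vol (G.ex x1 '' AA G u x0 x1 p0 h)).toReal) :
    vol (SS u x0 x1 h) ≤
      ENNReal.ofReal ((n + 1) * C) * ∫⁻ p in AA G u x0 x1 p0 h, J p ∂μ := by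
  have h1 := harea _ (AA_subset (G := G) (u := u) (x0 := x0) (x1 := x1) (p0 := p0) (h := h))
    (isCompact_AA hu x0 x1 p0 h)
  have h2 : vol (SS u x0 x1 h) ≤ ENNReal.ofReal (n + 1) * vol (G.ex x1 '' AA G u x0 x1 p0 h) := by
    rw [← ENNReal.ofReal_toReal (measure_ne_top vol (SS u x0 x1 h)),
      ← ENNReal.ofReal_toReal (measure_ne_top vol (G.ex x1 '' AA G u x0 x1 p0 h)),
      ← ENNReal.ofReal_mul (by positivity)]
    exact ENNReal.ofReal_le_ofReal hmass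
  calc vol (SS u x0 x1 h) ≤ ENNReal.ofReal (n + 1) * vol (G.ex x1 '' AA G u x0 x1 p0 h) := h2
    _ ≤ ENNReal.ofReal (n + 1) * (ENNReal.ofReal C * ∫⁻ p in AA G u x0 x1 p0 h, J p ∂μ) := by
        gcongr
    _ = _ := by rw [← mul_assoc, ← ENNReal.ofReal_mul (by positivity)]

/-- **(A')**: no growth of the pair functional (`R = 1`) gives one point `p₀` with
* `D(x₁, exp p₀) ≤ h`, `u(x₀) - u(x) ≤ a'` for all `x` with `D(x, exp p₀) ≤ L`;
* `vol S ≤ (n+1) vol (exp AA)`. -/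
theorem ng_mass (hg : GoodAll G) {vol : Measure M} [IsFiniteMeasure vol]
    (hvol : vol ≪ (Measure.hausdorffMeasure (n : ℝ) : Measure M)) {u : M → ℝ} (hu : CConv u)
    {x0 x1 : M} {h h' L a' : ℝ} (hh : 0 ≤ h) (hhh : h < h') (hL : h + L < h')
    (hNG : ∀ x : M, (vol (SS u x0 x1 h)).toReal ≤ (n + 1) * (vol (SS u x0 x h')).toReal →
      u x0 - u x ≤ a') :
    ∃ p0 ∈ G.K x1, Dd u x1 (G.ex x1 p0) ≤ h ∧
      (∀ x : M, Dd u x (G.ex x1 p0) ≤ L → u x0 - u x ≤ a') ∧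
      (vol (SS u x0 x1 h)).toReal ≤
        (n + 1) * (vol (G.ex x1 '' AA G u x0 x1 p0 h)).toReal := by
  obtain ⟨p0, hp0, h1, h2, h3⟩ := tukey_mass hg hvol hu x0 x1 hh
  refine ⟨p0, hp0, h1, fun x hx => hNG x ?_, h3⟩
  have h3 := h2 x (h' - h - L) (by linarith)
  refine h3.trans ?_
  have h4 : (vol {y | Dd u x0 y ≤ h ∧ Dd u x y ≤ h + Dd u x (G.ex x1 p0) + (h' - h - L)}).toReal ≤
      (vol (SS u x0 x h')).toReal := by
    refine ENNReal.toReal_mono (measure_ne_top _ _) (measure_mono ?_)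
    rintro y ⟨hy1, hy2⟩
    exact ⟨by linarith, by linarith⟩
  gcongr

/-- **(A') + (B)**: the start of the first half.  No growth of the pair functional at `(x₀, x₁)`
(fraction `1/(n+1)`, level `6h`) gives `p₀ ∈ K(x₁)` with the mass of the outer half of `log S`, and
the pole `p* = (1-s) p₀`, `s = h/(δ a)`, `a = u(x₀) - u(x₁)`. -/
theorem start_pair (hC : CutFacts G) (hD : DFacts G) (hg : GoodAll G) {vol : Measure M}
    [IsFiniteMeasure vol] (hvol : vol ≪ (Measure.hausdorffMeasure (n : ℝ) : Measure M))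
    {u : M → ℝ} (hu : CConv u) {x0 x1 : M} {h δ a s : ℝ} (hh : 0 < h) (hδ : 0 < δ)
    (ha : a = u x0 - u x1) (hs : s = h / (δ * a)) (hha : 2 * h ≤ δ * a)
    (hNG : ∀ x : M, 1 / (n + 1) * Vp vol u x0 x1 h ≤ Vp vol u x0 x (6 * h) →
      u x0 - u x ≤ (1 + δ) * a) :
    0 < s ∧ s ≤ 1 / 2 ∧ ∃ p0 ∈ G.K x1, (1 - s) • p0 ∈ G.K x1 ∧ Dd u x1 (G.ex x1 p0) ≤ h ∧
      Dd u x1 (G.ex x1 ((1 - s) • p0)) ≤ 2 * h ∧
      (∀ x, Dd u x1 (G.ex x1 ((1 - s) • p0)) + s * (u x - u x1) - h ≤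
        Dd u x (G.ex x1 ((1 - s) • p0))) ∧
      Vp vol u x0 x1 h ≤ (n + 1) * (vol (G.ex x1 '' AA G u x0 x1 p0 h)).toReal := by
  have huc := CConv.continuous hu
  have hda : 0 < δ * a := by linarith
  have hs0 : 0 < s := by rw [hs]; positivity
  have hs1 : s ≤ 1 / 2 := by
    rw [hs, div_le_iff₀ hda]; linarith
  have hsa : s * (δ * a) = h := by rw [hs, div_mul_cancel₀ _ hda.ne']
  refine ⟨hs0, hs1, ?_⟩
  have hn : (0 : ℝ) < n + 1 := by positivity
  obtain ⟨p0, hp0, h1, h2, h3⟩ := ng_mass (G := G) hg hvol hu (x0 := x0) (x1 := x1) (h := h)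
    (h' := 6 * h) (L := 4 * h) (a' := (1 + δ) * a) hh.le (by linarith) (by linarith) (by
      intro x hx
      refine hNG x ?_
      have e1 : (vol (SS u x0 x1 h)).toReal = Vp vol u x0 x1 h := rfl
      have e2 : (vol (SS u x0 x (6 * h))).toReal = Vp vol u x0 x (6 * h) := rfl
      rw [e1, e2] at hx
      rw [one_div, inv_mul_le_iff₀ hn]
      exact hx)
  have hps : (1 - s) • p0 ∈ G.K x1 := smul_mem_K hg hp0 hs0.le (by linarith)
  obtain ⟨h4, h5⟩ := ystar (L := 4 * h) hC hD hg hu hp0 hh.le hs0.le hs1 h1 (by linarith) (by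
    intro x hx
    have e1 := h2 x hx
    have e2 : u x1 - u x ≤ δ * a := by linarith [e1, ha]
    calc s * (u x1 - u x) ≤ s * (δ * a) := mul_le_mul_of_nonneg_left e2 hs0.le
      _ = h := hsa)
  refine ⟨p0, hp0, hps, h1, ?_, fun x => ?_, h3⟩
  · have : (1 - s) * h ≤ h := by nlinarith
    linarith
  · have e1 := h5 x
    have e2 : 0 ≤ (1 - s) * Dd u x (G.ex x1 p0) :=
      mul_nonneg (by linarith) (Dd_nonneg huc _ _)
    have e3 : (1 - s) * Dd u x1 (G.ex x1 p0) ≤ h := by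
      have e4 : (1 - s) * Dd u x1 (G.ex x1 p0) ≤ (1 - s) * h :=
        mul_le_mul_of_nonneg_left h1 (by linarith)
      nlinarith
    nlinarith

end

end Crest.Agent.R226.TukeyMass544
end

-- ▼ part R226/Copy_977
section

set_option autoImplicit false
set_option linter.unusedSectionVars false

open MeasureTheory Bundle Set Filter Asymptotics
open scoped Manifold ContDiff Bundle ENNReal Topology
open Crest.GeometryTopology.MTW

namespace Crest.Agent.R226.Copy977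

open Crest.Agent.R226 Crest.Agent.R226.Kant624 Crest.Agent.R226.Reduction624
  Crest.Agent.R226.HolderEnd915 Crest.Agent.R226.E1Shape964 Crest.Agent.R226.Dasm290
  Crest.Agent.R226.Osc977 Crest.Agent.R226.Far977 Crest.Agent.R226.NS683

/-! ### real analysis -/

section Real

/-- backward Gronwall: if `φ(s) - φ(σ) ≤ (4 (φ₁ - φ(s))₊/(1-s) + ε)(s-σ)` for `σ < s` close to `s`,
then `(1-t)⁴ (φ₁ - φ(a)) ≤ (1-a)⁴ (φ₁ - φ(t))₊`. -/
theorem gronwall_pow {φ : ℝ → ℝ} {φ1 a t : ℝ} (hat : a ≤ t) (ht : t < 1)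
    (hcont : ContinuousOn φ (Icc a t))
    (hd : ∀ s, a < s → s ≤ t → ∀ r, 4 * max 0 (φ1 - φ s) / (1 - s) < r →
      ∀ᶠ σ in 𝓝[<] s, φ s - φ σ ≤ r * (s - σ)) :
    (1 - t) ^ 4 * (φ1 - φ a) ≤ (1 - a) ^ 4 * max 0 (φ1 - φ t) := by
  set m : ℝ := max 0 (φ1 - φ t) with hm
  have hm0 : 0 ≤ m := le_max_left _ _
  have h1t : 0 < 1 - t := by linarith
  set T : ℝ := t - a with hT
  have hT0 : 0 ≤ T := by rw [hT]; linarith
  -- the key bound for every `ε > 0`
  have key : ∀ ε : ℝ, 0 < ε → φ1 - φ a ≤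
      (m + ε) * ((1 - t)⁻¹ ^ 4 * (1 - t + T) ^ 4) * (1 + ε * T) := by
    intro ε hε
    have hv : ContinuousOn (fun r : ℝ => φ1 - φ (t - r)) (Icc 0 T) := by
      refine continuousOn_const.sub (hcont.comp (by fun_prop) ?_)
      intro r hr
      constructor
      · have := hr.2; rw [hT] at this; linarith
      · have := hr.1; linarith
    have hBd : ∀ r : ℝ, HasDerivAt
        (fun r : ℝ => (m + ε) * ((1 - t)⁻¹ ^ 4 * (1 - t + r) ^ 4) * (1 + ε * r))
        ((m + ε) * ((1 - t)⁻¹ ^ 4 * (4 * (1 - t + r) ^ 3)) * (1 + ε * r) +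
          (m + ε) * ((1 - t)⁻¹ ^ 4 * (1 - t + r) ^ 4) * ε) r := by
      intro r
      have h1 : HasDerivAt (fun r : ℝ => 1 - t + r) 1 r := (hasDerivAt_id r).const_add _
      have h2 : HasDerivAt (fun r : ℝ => (1 - t + r) ^ 4) (4 * (1 - t + r) ^ 3 * 1) r := by
        have := h1.fun_pow 4
        simpa using this
      have h3 := (h2.const_mul ((1 - t)⁻¹ ^ 4)).const_mul (m + ε)
      have h4 : HasDerivAt (fun r : ℝ => 1 + ε * r) (ε * 1) r :=
        ((hasDerivAt_id r).const_mul ε).const_add _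
      have h5 := h3.mul h4
      refine h5.congr_deriv ?_
      ring
    have := image_le_of_liminf_slope_right_lt_deriv_boundary' (f := fun r : ℝ => φ1 - φ (t - r))
      (f' := fun r => 4 * max 0 (φ1 - φ (t - r)) / (1 - (t - r)))
      (a := 0) (b := T) hv ?_
      (B := fun r : ℝ => (m + ε) * ((1 - t)⁻¹ ^ 4 * (1 - t + r) ^ 4) * (1 + ε * r))
      (B' := fun r : ℝ => (m + ε) * ((1 - t)⁻¹ ^ 4 * (4 * (1 - t + r) ^ 3)) * (1 + ε * r) +
          (m + ε) * ((1 - t)⁻¹ ^ 4 * (1 - t + r) ^ 4) * ε)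
      ?_ (fun r _ => (hBd r).continuousAt.continuousWithinAt)
      (fun r _ => (hBd r).hasDerivWithinAt) ?_ (right_mem_Icc.2 hT0)
    · have e : t - T = a := by rw [hT]; ring
      simp only [e] at this
      exact this
    · -- the Dini derivative
      intro x hx r hr
      have hs1 : a < t - x := by have := hx.2; rw [hT] at this; linarith
      have hs2 : t - x ≤ t := by have := hx.1; linarith
      obtain ⟨r', hr'1, hr'2⟩ := exists_between hr
      have h1 := hd (t - x) hs1 hs2 r' hr'1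
      have h2 : Tendsto (fun z : ℝ => t - z) (𝓝[>] x) (𝓝[<] (t - x)) := by
        refine tendsto_nhdsWithin_iff.2 ⟨?_, ?_⟩
        · exact ((continuous_const.sub continuous_id).tendsto x).mono_left nhdsWithin_le_nhds
        · filter_upwards [self_mem_nhdsWithin] with z hz
          have : x < z := hz
          show t - z < t - x
          linarith
      have h3 := h2.eventually h1
      have h4 : ∀ᶠ z in 𝓝[>] x, slope (fun r : ℝ => φ1 - φ (t - r)) x z < r := by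
        filter_upwards [h3, self_mem_nhdsWithin] with z hz hz2
        have hxz : 0 < z - x := sub_pos.2 hz2
        rw [slope_def_field, div_lt_iff₀ hxz]
        have : φ (t - x) - φ (t - z) ≤ r' * (z - x) := by
          have e : t - x - (t - z) = z - x := by ring
          rw [e] at hz; exact hz
        have : r' * (z - x) < r * (z - x) := by gcongr
        linarith
      exact h4.frequently
    · -- initial
      have e : (1 - t)⁻¹ ^ 4 * (1 - t + 0) ^ 4 = 1 := by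
        rw [add_zero, ← mul_pow, inv_mul_cancel₀ h1t.ne', one_pow]
      simp only [sub_zero]
      rw [e]
      have := le_max_right 0 (φ1 - φ t)
      rw [← hm] at this
      linarith
    · -- strict inequality at touching points
      intro x hx hxe
      have hx0 := hx.1
      have hP : 0 < (m + ε) * ((1 - t)⁻¹ ^ 4 * (1 - t + x) ^ 4) := by
        have : 0 < 1 - t + x := by linarith
        have : 0 < (1 - t)⁻¹ := inv_pos.2 h1t
        positivity
      have hB0 : 0 < (m + ε) * ((1 - t)⁻¹ ^ 4 * (1 - t + x) ^ 4) * (1 + ε * x) := by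
        have : 0 < 1 + ε * x := by positivity
        positivity
      have h1 : φ1 - φ (t - x) = (m + ε) * ((1 - t)⁻¹ ^ 4 * (1 - t + x) ^ 4) * (1 + ε * x) := hxe
      have hx1 : 0 < 1 - t + x := by linarith
      have e1 : 1 - (t - x) = 1 - t + x := by ring
      show 4 * max 0 (φ1 - φ (t - x)) / (1 - (t - x)) < _
      rw [h1, max_eq_right hB0.le, e1]
      have e2 : 4 * ((m + ε) * ((1 - t)⁻¹ ^ 4 * (1 - t + x) ^ 4) * (1 + ε * x)) / (1 - t + x) =
          (m + ε) * ((1 - t)⁻¹ ^ 4 * (4 * (1 - t + x) ^ 3)) * (1 + ε * x) := by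
        field_simp
      rw [e2]
      have : 0 < (m + ε) * ((1 - t)⁻¹ ^ 4 * (1 - t + x) ^ 4) * ε := mul_pos hP hε
      linarith
  have hlim : Tendsto (fun ε : ℝ => (m + ε) * ((1 - t)⁻¹ ^ 4 * (1 - t + T) ^ 4) * (1 + ε * T))
      (𝓝[>] 0) (𝓝 ((m + 0) * ((1 - t)⁻¹ ^ 4 * (1 - t + T) ^ 4) * (1 + 0 * T))) := by
    have hc : Continuous (fun ε : ℝ =>
      (m + ε) * ((1 - t)⁻¹ ^ 4 * (1 - t + T) ^ 4) * (1 + ε * T)) := by fun_prop
    exact (hc.tendsto 0).mono_left nhdsWithin_le_nhds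
  have h2 : φ1 - φ a ≤ (m + 0) * ((1 - t)⁻¹ ^ 4 * (1 - t + T) ^ 4) * (1 + 0 * T) := by
    refine ge_of_tendsto hlim ?_
    filter_upwards [self_mem_nhdsWithin] with ε hε
    exact key ε hε
  have e3 : 1 - t + T = 1 - a := by rw [hT]; ring
  rw [e3] at h2
  have h3 : (1 - t) ^ 4 * (φ1 - φ a) ≤
      (1 - t) ^ 4 * ((m + 0) * ((1 - t)⁻¹ ^ 4 * (1 - a) ^ 4) * (1 + 0 * T)) :=
    mul_le_mul_of_nonneg_left h2 (by positivity)
  refine h3.trans (le_of_eq ?_)
  have : (1 - t) ^ 4 * (1 - t)⁻¹ ^ 4 = 1 := by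
    rw [← mul_pow, mul_inv_cancel₀ h1t.ne', one_pow]
  calc (1 - t) ^ 4 * ((m + 0) * ((1 - t)⁻¹ ^ 4 * (1 - a) ^ 4) * (1 + 0 * T))
      = ((1 - t) ^ 4 * (1 - t)⁻¹ ^ 4) * ((1 - a) ^ 4 * m) := by ring
    _ = _ := by rw [this, one_mul]

end Real

/-! ### (QQin) -/

section QQ

variable {n : ℕ} {M : Type*} [MetricSpace M] [ChartedSpace (EuclideanSpace ℝ (Fin n)) M]
  [IsManifold (𝓡 n) ∞ M]
  [RiemannianBundle (fun p : M => TangentSpace (𝓡 n) p)] [CompactSpace M]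

/-- `|q0 + τ v|²`. -/
theorem norm_sq_line {E : Type*} [NormedAddCommGroup E] [InnerProductSpace ℝ E] (q v : E) (τ : ℝ) :
    ‖q + τ • v‖ ^ 2 = ‖q‖ ^ 2 + 2 * τ * inner ℝ q v + τ ^ 2 * ‖v‖ ^ 2 := by
  rw [norm_add_sq_real, inner_smul_right, norm_smul, mul_pow, Real.norm_eq_abs, sq_abs]
  ring

/-- `fam` with an explicit slope: if `ρ(q₀) > ρ(q₁)` then
`g(τ) - g(0) ≤ (ρ₀ - ρ_τ)/(ρ₀ - ρ₁) (g(1) - g(0))₊`. -/
theorem fam_slope {G : GeoData n M} (hg : GoodAll G) {y : M} (y' : M)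
    {q0 q1 : TangentSpace (𝓡 n) y} (h0 : q0 ∈ G.K y) (h1 : q1 ∈ G.K y) {D : ℝ} (hD : 0 ≤ D)
    (hgD : Fq G y y' q1 - Fq G y y' q0 ≤ D) (hlt : 0 < ‖q0‖ ^ 2 / 2 - ‖q1‖ ^ 2 / 2)
    {τ : ℝ} (ht0 : 0 ≤ τ) (ht1 : τ ≤ 1) :
    (‖q0‖ ^ 2 / 2 - ‖q1‖ ^ 2 / 2) * (Fq G y y' (q0 + τ • (q1 - q0)) - Fq G y y' q0) ≤
      (‖q0‖ ^ 2 / 2 - ‖q0 + τ • (q1 - q0)‖ ^ 2 / 2) * D := by
  set d : ℝ := ‖q0‖ ^ 2 / 2 - ‖q1‖ ^ 2 / 2 with hd
  have hμ : 0 ≤ D / d := by positivity
  have h2 := fam hg y' hμ h0 h1 (a := 1 - τ) (b := τ) (by linarith) ht0 (by ring)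
  have e : (1 - τ) • q0 + τ • q1 = q0 + τ • (q1 - q0) := by module
  rw [e] at h2
  have h3 : max (Fq G y y' q0 + D / d * (‖q0‖ ^ 2 / 2)) (Fq G y y' q1 + D / d * (‖q1‖ ^ 2 / 2)) ≤
      Fq G y y' q0 + D / d * (‖q0‖ ^ 2 / 2) := by
    refine max_le le_rfl ?_
    have h4 : D / d * d = D := by field_simp
    have h5 : D / d * (‖q0‖ ^ 2 / 2) - D / d * (‖q1‖ ^ 2 / 2) = D := by
      rw [← mul_sub, ← hd, h4]
    linarith
  have h6 : Fq G y y' (q0 + τ • (q1 - q0)) - Fq G y y' q0 ≤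
      D / d * (‖q0‖ ^ 2 / 2 - ‖q0 + τ • (q1 - q0)‖ ^ 2 / 2) := by
    have := h2.trans h3
    linarith
  calc d * (Fq G y y' (q0 + τ • (q1 - q0)) - Fq G y y' q0)
      ≤ d * (D / d * (‖q0‖ ^ 2 / 2 - ‖q0 + τ • (q1 - q0)‖ ^ 2 / 2)) :=
        mul_le_mul_of_nonneg_left h6 hlt.le
    _ = _ := by field_simp

/-- **(QQin)** (doc 883): inward chords, all targets. -/
theorem qqin {G : GeoData n M} (hg : GoodAll G) {y : M} (y' : M) {q0 q1 : TangentSpace (𝓡 n) y}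
    (h0 : q0 ∈ G.K y) (h1 : q1 ∈ G.K y) (hle : ‖q1‖ ≤ ‖q0‖) {D : ℝ} (hD : 0 ≤ D)
    (hgD : Fq G y y' q1 - Fq G y y' q0 ≤ D) {τ : ℝ} (ht0 : 0 ≤ τ) (ht1 : τ ≤ 1) :
    Fq G y y' (q0 + τ • (q1 - q0)) - Fq G y y' q0 ≤ 4 * τ * D := by
  set v := q1 - q0 with hv
  set i : ℝ := inner ℝ q0 v with hi
  set b : ℝ := ‖v‖ ^ 2 with hb
  have hb0 : 0 ≤ b := by positivity
  have hline : ∀ s : ℝ, ‖q0 + s • v‖ ^ 2 = ‖q0‖ ^ 2 + 2 * s * i + s ^ 2 * b :=
    fun s => norm_sq_line q0 v s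
  have e1 : q0 + (1 : ℝ) • v = q1 := by rw [hv]; module
  have hq1 : ‖q1‖ ^ 2 = ‖q0‖ ^ 2 + 2 * i + b := by
    have := hline 1
    rw [e1] at this
    linarith
  have hle2 : ‖q1‖ ^ 2 ≤ ‖q0‖ ^ 2 := by gcongr
  -- `a₀ = -i ≥ b/2`
  have ha : b / 2 ≤ -i := by linarith
  have hcK : ∀ s : ℝ, 0 ≤ s → s ≤ 1 → q0 + s • v ∈ G.K y := by
    intro s hs0 hs1
    have := convex_K hg y h0 h1 (a := 1 - s) (b := s) (by linarith) hs0 (by ring)
    convert this using 1
    rw [hv]; module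
  rcases hb0.eq_or_lt with hb' | hbpos
  · -- `v = 0`
    have hv0 : v = 0 := by
      have : ‖v‖ = 0 := by
        have : ‖v‖ ^ 2 = 0 := by rw [← hb]; exact hb'.symm
        exact pow_eq_zero_iff (two_ne_zero) |>.1 this
      exact norm_eq_zero.1 this
    rw [hv0, smul_zero, add_zero, sub_self]
    positivity
  rcases le_or_gt b (-i) with hcase | hcase
  · -- no foot
    have hdpos : 0 < ‖q0‖ ^ 2 / 2 - ‖q1‖ ^ 2 / 2 := by rw [hq1]; linarith
    have h2 := fam_slope hg y' h0 h1 hD hgD hdpos ht0 ht1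
    rw [← hv, hline τ, hq1] at h2
    set X : ℝ := Fq G y y' (q0 + τ • v) - Fq G y y' q0 with hX
    have h3 : (-i - b / 2) * X ≤ (-i * τ - τ ^ 2 * b / 2) * D := by
      refine le_trans (le_of_eq ?_) (h2.trans (le_of_eq ?_)) <;> ring
    by_contra hneg
    push Not at hneg
    have hd2 : 0 < -i - b / 2 := by linarith
    have h4 : (-i - b / 2) * (4 * τ * D) < (-i - b / 2) * X := by gcongr
    have h5 : (-i * τ - τ ^ 2 * b / 2) * D ≤ (-i - b / 2) * (4 * τ * D) := by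
      have : 0 ≤ τ * D := by positivity
      have h6 : (-i - b / 2) * (4 * τ * D) - (-i * τ - τ ^ 2 * b / 2) * D =
          (τ * D) * (4 * (-i - b / 2) - (-i) + τ * b / 2) := by ring
      have h7 : 0 ≤ 4 * (-i - b / 2) - (-i) + τ * b / 2 := by
        have : 0 ≤ τ * b / 2 := by positivity
        linarith
      have := mul_nonneg this h7
      linarith
    linarith
  · -- the foot `s₁ = -i/b ∈ [1/2, 1)`
    set s1 : ℝ := -i / b with hs1
    have hs1b : s1 * b = -i := by rw [hs1]; field_simp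
    have hs1h : 1 / 2 ≤ s1 := by
      rw [hs1, le_div_iff₀ hbpos]; linarith
    have hs1l : s1 < 1 := by
      rw [hs1, div_lt_one hbpos]; exact hcase
    have hs1p : 0 < s1 := by linarith
    have hK1 := hcK s1 hs1p.le hs1l.le
    -- quasiconvexity on the whole segment
    have hquasi : ∀ s : ℝ, 0 ≤ s → s ≤ 1 → Fq G y y' (q0 + s • v) - Fq G y y' q0 ≤ D := by
      intro s hs0 hs1
      have := fam hg y' (μ := 0) le_rfl h0 h1 (a := 1 - s) (b := s) (by linarith) hs0 (by ring)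
      have e : (1 - s) • q0 + s • q1 = q0 + s • v := by rw [hv]; module
      rw [e] at this
      simp only [zero_mul, add_zero] at this
      have h2 : max (Fq G y y' q0) (Fq G y y' q1) ≤ Fq G y y' q0 + D :=
        max_le (by linarith) (by linarith)
      linarith
    rcases le_or_gt τ s1 with hτ | hτ
    · have hdpos : 0 < ‖q0‖ ^ 2 / 2 - ‖q0 + s1 • v‖ ^ 2 / 2 := by
        rw [hline s1]
        have : s1 ^ 2 * b = s1 * (-i) := by rw [← hs1b]; ring
        rw [this]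
        have h8 : 0 < s1 * (-i) := by
          have : 0 < -i := by linarith
          positivity
        linarith
      have h2 := fam_slope hg y' h0 hK1 hD (hquasi s1 hs1p.le hs1l.le) hdpos (τ := τ / s1)
        (by positivity) ((div_le_one hs1p).2 hτ)
      have e2 : q0 + (τ / s1) • (q0 + s1 • v - q0) = q0 + τ • v := by
        rw [add_sub_cancel_left, smul_smul, div_mul_cancel₀ _ hs1p.ne']
      rw [e2, hline τ, hline s1] at h2
      set X : ℝ := Fq G y y' (q0 + τ • v) - Fq G y y' q0 with hX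
      have e3 : s1 ^ 2 * b = s1 * (-i) := by rw [← hs1b]; ring
      have h3 : (s1 * (-i) / 2) * X ≤ (-i * τ - τ ^ 2 * b / 2) * D := by
        rw [e3] at h2
        refine le_trans (le_of_eq ?_) (h2.trans (le_of_eq ?_)) <;> ring
      have hipos : 0 < -i := by linarith
      by_contra hneg
      push Not at hneg
      have hd2 : 0 < s1 * (-i) / 2 := by positivity
      have h4 : (s1 * (-i) / 2) * (4 * τ * D) < (s1 * (-i) / 2) * X := by gcongr
      have h5 : (-i * τ - τ ^ 2 * b / 2) * D ≤ (s1 * (-i) / 2) * (4 * τ * D) := by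
        have h6 : (s1 * (-i) / 2) * (4 * τ * D) - (-i * τ - τ ^ 2 * b / 2) * D =
            (-i) * (2 * s1 - 1) * (τ * D) + τ ^ 2 * b / 2 * D := by ring
        have h7 : 0 ≤ (-i) * (2 * s1 - 1) * (τ * D) := by
          have : 0 ≤ 2 * s1 - 1 := by linarith
          positivity
        have h8 : 0 ≤ τ ^ 2 * b / 2 * D := by positivity
        linarith
      linarith
    · have h2 := hquasi τ ht0 ht1
      have h3 : 1 * D ≤ 4 * τ * D := by
        have : 1 ≤ 4 * τ := by linarith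
        gcongr
      linarith

end QQ

/-! ### the mixed second derivative -/

section Mixed

theorem mixed {h : ℝ × ℝ → ℝ} (hh : ContDiffAt ℝ 2 h (0, 0)) : ∃ κ : ℝ,
    HasDerivAt (fun σ : ℝ => deriv (fun τ : ℝ => h (τ, σ)) 0) κ 0 ∧
    HasDerivAt (fun τ : ℝ => deriv (fun σ : ℝ => h (τ, σ)) 0) κ 0 ∧
    (∀ᶠ σ : ℝ in 𝓝 0, DifferentiableAt ℝ (fun τ : ℝ => h (τ, σ)) 0) ∧
    (∀ᶠ τ : ℝ in 𝓝 0, DifferentiableAt ℝ (fun σ : ℝ => h (τ, σ)) 0) := by
  have hev : ∀ᶠ z in 𝓝 ((0 : ℝ), (0 : ℝ)), DifferentiableAt ℝ h z := by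
    filter_upwards [hh.eventually (by norm_num)] with z hz
    exact hz.differentiableAt (by norm_num)
  have c1 : Tendsto (fun σ : ℝ => ((0 : ℝ), σ)) (𝓝 0) (𝓝 (0, 0)) :=
    Continuous.tendsto (by fun_prop) _
  have c2 : Tendsto (fun τ : ℝ => (τ, (0 : ℝ))) (𝓝 0) (𝓝 (0, 0)) :=
    Continuous.tendsto (by fun_prop) _
  have l1 : ∀ τ σ : ℝ, HasDerivAt (fun τ : ℝ => (τ, σ)) ((1 : ℝ), (0 : ℝ)) τ := fun τ σ =>
    (hasDerivAt_id τ).prodMk (hasDerivAt_const τ σ)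
  have l2 : ∀ τ σ : ℝ, HasDerivAt (fun σ : ℝ => (τ, σ)) ((0 : ℝ), (1 : ℝ)) σ := fun τ σ =>
    (hasDerivAt_const σ τ).prodMk (hasDerivAt_id σ)
  have d1 : ∀ᶠ σ : ℝ in 𝓝 0, HasDerivAt (fun τ : ℝ => h (τ, σ)) (fderiv ℝ h (0, σ) (1, 0)) 0 := by
    filter_upwards [c1.eventually hev] with σ hσ
    exact HasFDerivAt.comp_hasDerivAt (l := h) (f := fun τ : ℝ => (τ, σ)) 0 hσ.hasFDerivAt
      (l1 0 σ)
  have d2 : ∀ᶠ τ : ℝ in 𝓝 0, HasDerivAt (fun σ : ℝ => h (τ, σ)) (fderiv ℝ h (τ, 0) (0, 1)) 0 := by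
    filter_upwards [c2.eventually hev] with τ hτ
    exact HasFDerivAt.comp_hasDerivAt (l := h) (f := fun σ : ℝ => (τ, σ)) 0 hτ.hasFDerivAt
      (l2 τ 0)
  have hf' : HasFDerivAt (fderiv ℝ h) (fderiv ℝ (fderiv ℝ h) (0, 0)) (0, 0) :=
    ((hh.fderiv_right (m := 1) (by norm_num)).differentiableAt (by norm_num)).hasFDerivAt
  have g1 : HasDerivAt (fun σ : ℝ => fderiv ℝ h (0, σ)) (fderiv ℝ (fderiv ℝ h) (0, 0) (0, 1)) 0 :=
    HasFDerivAt.comp_hasDerivAt (l := fderiv ℝ h) (f := fun σ : ℝ => ((0 : ℝ), σ)) 0 hf' (l2 0 0)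
  have g2 : HasDerivAt (fun τ : ℝ => fderiv ℝ h (τ, 0)) (fderiv ℝ (fderiv ℝ h) (0, 0) (1, 0)) 0 :=
    HasFDerivAt.comp_hasDerivAt (l := fderiv ℝ h) (f := fun τ : ℝ => (τ, (0 : ℝ))) 0 hf' (l1 0 0)
  have g1' := g1.clm_apply (hasDerivAt_const (0 : ℝ) ((1 : ℝ), (0 : ℝ)))
  have g2' := g2.clm_apply (hasDerivAt_const (0 : ℝ) ((0 : ℝ), (1 : ℝ)))
  simp only [map_zero, add_zero] at g1' g2'
  have hsymm : fderiv ℝ (fderiv ℝ h) (0, 0) (0, 1) (1, 0) =
      fderiv ℝ (fderiv ℝ h) (0, 0) (1, 0) (0, 1) := by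
    have := hh.isSymmSndFDerivAt (by simp)
    exact this (0, 1) (1, 0)
  refine ⟨fderiv ℝ (fderiv ℝ h) (0, 0) (0, 1) (1, 0), ?_, ?_, ?_, ?_⟩
  · refine g1'.congr_of_eventuallyEq ?_
    filter_upwards [d1] with σ hσ
    exact hσ.deriv
  · rw [hsymm]
    refine g2'.congr_of_eventuallyEq ?_
    filter_upwards [d2] with τ hτ
    exact hτ.deriv
  · filter_upwards [d1] with σ hσ using hσ.differentiableAt
  · filter_upwards [d2] with τ hτ using hτ.differentiableAt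

end Mixed

/-! ### first variations -/

section Var

variable {n : ℕ} {M : Type*} [MetricSpace M] [ChartedSpace (EuclideanSpace ℝ (Fin n)) M]
  [IsManifold (𝓡 n) ∞ M]
  [RiemannianBundle (fun p : M => TangentSpace (𝓡 n) p)]

/-- first order expansion of the cost at a smooth pair. -/
theorem nc_expand {G : GeoData n M} (hC : CutFacts G) {x : M} {p : TangentSpace (𝓡 n) x}
    (hp : p ∈ G.I x) {ζ : ℝ → TangentSpace (𝓡 n) x} (hζ : ζ =O[𝓝 0] (fun τ : ℝ => τ)) :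
    (fun τ : ℝ => halfDistSq (G.ex x (ζ τ)) (G.ex x p) - halfDistSq x (G.ex x p) +
      inner ℝ p (ζ τ)) =o[𝓝 0] (fun τ : ℝ => τ) := by
  have hd : DifferentiableAt ℝ (G.nc x p) 0 :=
    (hC.nc_smooth x p hp).differentiableAt (by simp)
  have h1 := hd.hasFDerivAt.isLittleO
  have hζ0 : Tendsto ζ (𝓝 0) (𝓝 0) := hζ.trans_tendsto tendsto_id
  have h2 := h1.comp_tendsto hζ0
  have h3 : ((fun τ : ℝ => halfDistSq (G.ex x (ζ τ)) (G.ex x p) - halfDistSq x (G.ex x p) +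
      inner ℝ p (ζ τ))) =o[𝓝 0] ζ := by
    refine (h2.congr_left ?_).congr_right ?_
    · intro τ
      simp only [Function.comp_apply, sub_zero]
      rw [hC.nc_fderiv x p hp (ζ τ)]
      unfold GeoData.nc
      rw [G.ex_zero]
      ring
    · intro τ
      simp
  exact h3.trans_isBigO hζ

/-- the limit of `⟪w, ζ τ⟫/τ` is minus the mixed second derivative of the cost. -/
theorem tendsto_inner {G : GeoData n M} (hC : CutFacts G) {x : M} {p w : TangentSpace (𝓡 n) x}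
    (hp : p ∈ G.I x) {ζ : ℝ → TangentSpace (𝓡 n) x} (hζ : ζ =O[𝓝 0] (fun τ : ℝ => τ))
    {h : ℝ → ℝ → ℝ} (hdef : ∀ τ σ, h τ σ = halfDistSq (G.ex x (ζ τ)) (G.ex x (p + σ • w))) {κ : ℝ}
    (hκ : HasDerivAt (fun σ : ℝ => deriv (fun τ : ℝ => h τ σ) 0) κ 0)
    (hdiff : ∀ᶠ σ : ℝ in 𝓝 0, DifferentiableAt ℝ (fun τ : ℝ => h τ σ) 0) :
    Tendsto (fun τ : ℝ => τ⁻¹ * inner ℝ w (ζ τ)) (𝓝[≠] 0) (𝓝 (-κ)) := by
  have hζz : ζ 0 = 0 := by
    have := hζ.eq_zero_imp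
    exact this.self_of_nhds rfl
  have hI : ∀ᶠ σ : ℝ in 𝓝 0, p + σ • w ∈ G.I x := by
    have h1 : Tendsto (fun σ : ℝ => p + σ • w) (𝓝 0) (𝓝 p) := by
      have h2 : Continuous (fun σ : ℝ => p + σ • w) := by fun_prop
      have h3 := h2.tendsto 0
      simpa using h3
    exact h1.eventually ((hC.base347.isOpen_I x).mem_nhds hp)
  set A : ℝ → ℝ := fun σ => deriv (fun τ : ℝ => h τ σ) 0 with hA
  have hlim : ∀ᶠ σ : ℝ in 𝓝 0,
      Tendsto (fun τ : ℝ => τ⁻¹ * inner ℝ (p + σ • w) (ζ τ)) (𝓝[≠] 0) (𝓝 (-A σ)) := by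
    filter_upwards [hI, hdiff] with σ hσ hσd
    have h1 := hσd.hasDerivAt
    rw [hasDerivAt_iff_tendsto_slope_zero] at h1
    have h2 := (nc_expand hC hσ hζ).mono (nhdsWithin_le_nhds (s := {0}ᶜ))
    rw [isLittleO_iff_tendsto' (by
      filter_upwards [self_mem_nhdsWithin] with τ hτ h0
      exact absurd h0 hτ)] at h2
    have h3 := h2.sub h1
    rw [zero_sub] at h3
    refine h3.congr' ?_
    filter_upwards [self_mem_nhdsWithin] with τ hτ
    have hτ' : τ ≠ 0 := hτ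
    simp only [zero_add, smul_eq_mul]
    rw [hdef, hdef, hζz, G.ex_zero]
    field_simp
    ring
  -- pick one small `σ₁ > 0`
  have hlim0 := hlim.self_of_nhds
  obtain ⟨σ1, hσ1, hσ1lim⟩ : ∃ σ1 : ℝ, σ1 ≠ 0 ∧
      Tendsto (fun τ : ℝ => τ⁻¹ * inner ℝ (p + σ1 • w) (ζ τ)) (𝓝[≠] 0) (𝓝 (-A σ1)) := by
    obtain ⟨σ, hσ, hσ2⟩ := ((hlim.filter_mono (nhdsWithin_le_nhds (s := {(0:ℝ)}ᶜ))).and
      (self_mem_nhdsWithin : ∀ᶠ σ : ℝ in 𝓝[≠] 0, σ ∈ ({0}ᶜ : Set ℝ))).exists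
    exact ⟨σ, hσ2, hσ⟩
  have hdiffw : ∀ σ : ℝ,
      Tendsto (fun τ : ℝ => τ⁻¹ * inner ℝ (p + σ • w) (ζ τ)) (𝓝[≠] 0) (𝓝 (-A σ)) →
      Tendsto (fun τ : ℝ => σ * (τ⁻¹ * inner ℝ w (ζ τ))) (𝓝[≠] 0) (𝓝 (A 0 - A σ)) := by
    intro σ hσ
    have h1 := hσ.sub hlim0
    have e : -A σ - -A 0 = A 0 - A σ := by ring
    rw [e] at h1
    refine h1.congr ?_
    intro τ
    simp only [zero_smul, add_zero]
    rw [inner_add_left, inner_smul_left]
    simp only [conj_trivial]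
    ring
  set L : ℝ := σ1⁻¹ * (A 0 - A σ1) with hL
  have hw : Tendsto (fun τ : ℝ => τ⁻¹ * inner ℝ w (ζ τ)) (𝓝[≠] 0) (𝓝 L) := by
    have h1 := (hdiffw σ1 hσ1lim).const_mul σ1⁻¹
    refine h1.congr ?_
    intro τ
    rw [← mul_assoc, inv_mul_cancel₀ hσ1, one_mul]
  have hAL : ∀ᶠ σ : ℝ in 𝓝 0, A σ = A 0 - σ * L := by
    filter_upwards [hlim] with σ hσ
    have h1 := hdiffw σ hσ
    have h2 := hw.const_mul σ
    have h3 := tendsto_nhds_unique h1 h2
    linarith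
  have hder : HasDerivAt A (-L) 0 := by
    have h1 : HasDerivAt (fun σ : ℝ => A 0 - σ * L) (-(1 * L)) 0 :=
      ((hasDerivAt_id (0:ℝ)).mul_const L).const_sub (A 0)
    rw [one_mul] at h1
    exact h1.congr_of_eventuallyEq hAL
  have : κ = -L := hκ.unique hder
  rw [this, neg_neg]
  exact hw

/-- smoothness of `(τ,σ) ↦ c(exp_y(q₀+τv), exp_x(p+σw))` at a smooth pair. -/
theorem contDiffAt_two {G : GeoData n M} (hC : CutFacts G) {x y : M} {p w : TangentSpace (𝓡 n) x}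
    (hp : p ∈ G.I x) {q0 v : TangentSpace (𝓡 n) y} (hq : G.ex y q0 = x) :
    ContDiffAt ℝ ∞ (fun z : ℝ × ℝ => halfDistSq (G.ex y (q0 + z.1 • v)) (G.ex x (p + z.2 • w)))
      (0, 0) := by
  rw [← contMDiffAt_iff_contDiffAt]
  have h1 : ContMDiffAt 𝓘(ℝ, ℝ × ℝ) 𝓘(ℝ, TangentSpace (𝓡 n) y) ∞
      (fun z : ℝ × ℝ => q0 + z.1 • v) (0, 0) := by
    rw [contMDiffAt_iff_contDiffAt]
    exact contDiffAt_const.add (contDiffAt_fst.smul contDiffAt_const)
  have h2 : ContMDiffAt 𝓘(ℝ, ℝ × ℝ) 𝓘(ℝ, TangentSpace (𝓡 n) x) ∞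
      (fun z : ℝ × ℝ => p + z.2 • w) (0, 0) := by
    rw [contMDiffAt_iff_contDiffAt]
    exact contDiffAt_const.add (contDiffAt_snd.smul contDiffAt_const)
  have h3 := ((MTWConc117.contMDiff_ex G y).contMDiffAt (x := q0 + (0:ℝ) • v)).comp
    ((0:ℝ), (0:ℝ)) h1
  have h4 := ((MTWConc117.contMDiff_ex G x).contMDiffAt (x := p + (0:ℝ) • w)).comp
    ((0:ℝ), (0:ℝ)) h2
  have h5 := hC.smooth_cost x p hp
  refine ContMDiffAt.comp ((0:ℝ), (0:ℝ)) (g := fun q : M × M => halfDistSq q.1 q.2) ?_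
    (h3.prodMk h4)
  simp only [Function.comp_apply, zero_smul, add_zero]
  have e : G.ex y q0 = x := hq
  rw [e]
  exact h5

end Var

/-! ### the slope inequality -/

section Slope

variable {n : ℕ} {M : Type*} [MetricSpace M] [ChartedSpace (EuclideanSpace ℝ (Fin n)) M]
  [IsManifold (𝓡 n) ∞ M]
  [RiemannianBundle (fun p : M => TangentSpace (𝓡 n) p)] [CompactSpace M]

/-- the reversed velocity. -/
theorem exists_rev {G : GeoData n M} (hC : CutFacts G) {x : M} {p : TangentSpace (𝓡 n) x}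
    (hp : p ∈ G.I x) : ∃ q ∈ G.I (G.ex x p), G.ex (G.ex x p) q = x := by
  have h1 := hC.rev_I x p hp
  have h2 := hC.rev_ex x p 1
  rw [one_smul ℝ (-(G.vel x p 1)), sub_self, zero_smul, G.ex_zero] at h2
  have h3 : ∃ q ∈ G.I (G.ex x ((1:ℝ) • p)), G.ex (G.ex x ((1:ℝ) • p)) q = x := ⟨_, h1, h2⟩
  rwa [one_smul] at h3

variable [IsContMDiffRiemannianBundle (𝓡 n) ∞ (EuclideanSpace ℝ (Fin n))
    (fun p : M => TangentSpace (𝓡 n) p)]
  [IsRiemannianManifold (𝓡 n) M]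

/-- logarithms of a curve `τ ↦ exp_y(q + τ v)` at `x = exp_y q`. -/
theorem exists_log (G : GeoData n M) {x y : M} {q v : TangentSpace (𝓡 n) y}
    (hq : G.ex y q = x) : ∃ ζ : ℝ → TangentSpace (𝓡 n) x, ∃ L : ℝ, 0 ≤ L ∧
      (∀ τ, G.ex x (ζ τ) = G.ex y (q + τ • v)) ∧ ∀ τ, ‖ζ τ‖ ≤ L * |τ| := by
  obtain ⟨L, hL, H⟩ := ExLip659.ex_lip G ‖q‖
  choose ζ h1 h2 using fun τ : ℝ => G.surj x (G.ex y (q + τ • v))
  refine ⟨ζ, L * ‖v‖, by positivity, h1, fun τ => ?_⟩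
  rw [h2 τ]
  have h3 := H y q (q + τ • v) le_rfl
  rw [hq] at h3
  refine h3.trans (le_of_eq ?_)
  have e : q - (q + τ • v) = -(τ • v) := by abel
  rw [e, norm_neg, norm_smul, Real.norm_eq_abs]
  ring

theorem isBigO_of_le {E : Type*} [NormedAddCommGroup E] {ζ : ℝ → E} {L : ℝ}
    (h : ∀ τ, ‖ζ τ‖ ≤ L * |τ|) : ζ =O[𝓝 0] (fun τ : ℝ => τ) :=
  IsBigO.of_bound L (Eventually.of_forall fun τ => by
    rw [Real.norm_eq_abs]; exact h τ)

/-- **the slope of `f` at a point where `f ≥ 0`.** -/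
theorem slope_left {G : GeoData n M} (hC : CutFacts G) (hg : GoodAll G) {x xp : M}
    {p0 p1 : TangentSpace (𝓡 n) x} {s : ℝ} (hI : p0 + s • (p1 - p0) ∈ G.I x) (hs1 : s < 1)
    (hp1 : p1 ∈ G.K x) (hpos : 0 ≤ gg G x p0 p1 xp s) {r : ℝ}
    (hr : 4 * max 0 (gg G x p0 p1 xp 1 - gg G x p0 p1 xp s) / (1 - s) < r) :
    ∀ᶠ σ in 𝓝[<] s, gg G x p0 p1 xp s - gg G x p0 p1 xp σ ≤ r * (s - σ) := by
  set w := p1 - p0 with hw
  set p := p0 + s • w with hp
  set y := G.ex x p with hy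
  obtain ⟨q0, hq0, hq0x⟩ := exists_rev hC hI
  rw [← hy] at hq0 hq0x
  obtain ⟨q1, hq1, hq1x⟩ := exists_mem_K G y xp
  set v := q1 - q0 with hv
  have hpK : p ∈ G.K x := hC.I_subset x hI
  have hq0K : q0 ∈ G.K y := hC.I_subset y hq0
  obtain ⟨C1, hC1, hsc⟩ := hC.semiconcave
  obtain ⟨ζ, L1, hL1, hζ, hζL⟩ := exists_log G (v := v) hq0x
  obtain ⟨η, L2, hL2, hη, hηL⟩ := exists_log G (q := p) (v := w) hy.symm
  have hζO := isBigO_of_le hζL
  have hηO := isBigO_of_le hηL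
  -- costs
  have c0 : halfDistSq x y = ‖p‖ ^ 2 / 2 := Base347.halfDistSq_of_mem_K hpK
  have c0' : halfDistSq y x = ‖q0‖ ^ 2 / 2 := by
    have := Base347.halfDistSq_of_mem_K hq0K
    rwa [hq0x] at this
  have c1 : halfDistSq y xp = ‖q1‖ ^ 2 / 2 := by
    have := Base347.halfDistSq_of_mem_K hq1
    rwa [hq1x] at this
  have hnorm : ‖q0‖ ^ 2 / 2 = ‖p‖ ^ 2 / 2 := by
    rw [← c0', ← c0, halfDistSq_comm]
  have ggs : gg G x p0 p1 xp s = ‖q0‖ ^ 2 / 2 - ‖q1‖ ^ 2 / 2 := by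
    unfold gg
    rw [← hw, ← hp, ← hy, halfDistSq_comm xp y, c1, hnorm]
  have e1 : p0 + (1 : ℝ) • w = p1 := by rw [hw]; module
  have gg1 : gg G x p0 p1 xp 1 = ‖p1‖ ^ 2 / 2 - halfDistSq xp (G.ex x p1) := by
    unfold gg
    rw [← hw, e1]
  have hle : ‖q1‖ ≤ ‖q0‖ := by
    have : ‖q1‖ ^ 2 ≤ ‖q0‖ ^ 2 := by rw [ggs] at hpos; linarith
    exact (sq_le_sq₀ (norm_nonneg _) (norm_nonneg _)).1 this
  -- the mixed derivative
  obtain ⟨κ0, hκ1, hκ2, hd1, hd2⟩ := mixed ((contDiffAt_two hC hI (w := w) (v := v)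
    hq0x).of_le (by norm_cast) : ContDiffAt ℝ 2 _ _)
  have T1 : Tendsto (fun τ : ℝ => τ⁻¹ * inner ℝ w (ζ τ)) (𝓝[≠] 0) (𝓝 (-κ0)) := by
    refine tendsto_inner hC hI hζO
      (h := fun τ σ => halfDistSq (G.ex y (q0 + τ • v)) (G.ex x (p + σ • w))) ?_ hκ1 hd1
    intro τ σ
    rw [hζ]
  have T2 : Tendsto (fun τ : ℝ => τ⁻¹ * inner ℝ v (η τ)) (𝓝[≠] 0) (𝓝 (-κ0)) := by
    refine tendsto_inner hC hq0 hηO
      (h := fun σ τ => halfDistSq (G.ex y (q0 + τ • v)) (G.ex x (p + σ • w))) ?_ hκ2 hd2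
    intro σ τ
    rw [hη, halfDistSq_comm]
  set κ : ℝ := -κ0 with hκ
  set D : ℝ := max 0 (gg G x p0 p1 xp 1 - gg G x p0 p1 xp s) with hD
  have hD0 : 0 ≤ D := le_max_left _ _
  have h1s : 0 < 1 - s := by linarith
  -- (a)
  have hA : (1 - s) * κ ≤ 4 * D := by
    have E1 := nc_expand hC hI hζO
    have E1' := E1.mono (nhdsWithin_le_nhds (s := Ioi (0:ℝ)))
    have l1 : Tendsto (fun τ : ℝ => (halfDistSq (G.ex x (ζ τ)) (G.ex x p) -
        halfDistSq x (G.ex x p) + inner ℝ p (ζ τ)) / τ) (𝓝[>] 0) (𝓝 0) :=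
      E1'.tendsto_div_nhds_zero
    have l2 : Tendsto (fun τ : ℝ => τ⁻¹ * inner ℝ w (ζ τ)) (𝓝[>] 0) (𝓝 κ) :=
      T1.mono_left (nhdsWithin_mono _ (fun z hz => ne_of_gt hz))
    have l3 : Tendsto (fun τ : ℝ => C1 * L1 ^ 2 * τ) (𝓝[>] 0) (𝓝 0) := by
      have : Continuous (fun τ : ℝ => C1 * L1 ^ 2 * τ) := by fun_prop
      have h2 := this.tendsto 0
      rw [mul_zero] at h2
      exact h2.mono_left nhdsWithin_le_nhds
    have l4 := ((l2.const_mul (1 - s)).add l1).sub l3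
    rw [add_zero, sub_zero] at l4
    refine le_of_tendsto l4 ?_
    have hev : Ioo (0:ℝ) 1 ∈ 𝓝[>] (0:ℝ) := Ioo_mem_nhdsGT (by norm_num)
    filter_upwards [hev] with τ hτ
    have hτ0 : 0 < τ := hτ.1
    have hKτ : q0 + τ • v ∈ G.K y := by
      have := convex_K hg y hq0K hq1 (a := 1 - τ) (b := τ) (by linarith [hτ.2]) hτ0.le (by ring)
      convert this using 1
      rw [hv]; module
    have f1 := qqin hg (G.ex x p1) hq0K hq1 hle hD0 (by
      unfold Fq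
      rw [hq1x, hq0x]
      have h2 := Base347.halfDistSq_of_mem_K hp1
      rw [h2]
      have h3 := le_max_right 0 (gg G x p0 p1 xp 1 - gg G x p0 p1 xp s)
      rw [← hD, ggs, gg1] at h3
      linarith) hτ0.le hτ.2.le
    rw [← hv] at f1
    unfold Fq at f1
    rw [hq0x] at f1
    have f2 : ‖q0 + τ • v‖ ^ 2 / 2 = halfDistSq (G.ex x (ζ τ)) y := by
      rw [hζ, halfDistSq_comm]
      exact (Base347.halfDistSq_of_mem_K hKτ).symm
    have f3 := hsc x p1 hp1 (ζ τ)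
    rw [← hζ] at f1
    have f4 : ‖ζ τ‖ ^ 2 ≤ (L1 * τ) ^ 2 := by
      have := hζL τ
      rw [abs_of_pos hτ0] at this
      gcongr
    have f5 : (1 - s) * inner ℝ w (ζ τ) = inner ℝ p1 (ζ τ) - inner ℝ p (ζ τ) := by
      have : (1 - s) • w = p1 - p := by rw [hp, hw]; module
      rw [← inner_sub_left, ← this, inner_smul_left]
      simp
    have f6 : C1 * ‖ζ τ‖ ^ 2 ≤ C1 * (L1 * τ) ^ 2 := by gcongr
    have f7 : (1 - s) * inner ℝ w (ζ τ) + (halfDistSq (G.ex x (ζ τ)) (G.ex x p) -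
        halfDistSq x (G.ex x p) + inner ℝ p (ζ τ)) - C1 * L1 ^ 2 * τ * τ ≤ 4 * τ * D := by
      rw [f5, ← hy, c0, ← hnorm]
      rw [f2] at f1
      have : C1 * (L1 * τ) ^ 2 = C1 * L1 ^ 2 * τ * τ := by ring
      linarith
    have f8 : (1 - s) * (τ⁻¹ * inner ℝ w (ζ τ)) + (halfDistSq (G.ex x (ζ τ)) (G.ex x p) -
        halfDistSq x (G.ex x p) + inner ℝ p (ζ τ)) / τ - C1 * L1 ^ 2 * τ =
        τ⁻¹ * ((1 - s) * inner ℝ w (ζ τ) + (halfDistSq (G.ex x (ζ τ)) (G.ex x p) -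
        halfDistSq x (G.ex x p) + inner ℝ p (ζ τ)) - C1 * L1 ^ 2 * τ * τ) := by
      field_simp
    rw [f8]
    calc _ ≤ τ⁻¹ * (4 * τ * D) := mul_le_mul_of_nonneg_left f7 (inv_nonneg.2 hτ0.le)
      _ = 4 * D := by field_simp
  have hκr : κ < r := by
    refine lt_of_le_of_lt ?_ hr
    rw [le_div_iff₀ h1s]
    linarith
  -- (b)
  set c : ℝ := (r - κ) / 4 with hc
  have hc0 : 0 < c := by rw [hc]; linarith
  have E2 := nc_expand hC hq0 hηO
  have B1 : ∀ᶠ σ in 𝓝 (0:ℝ), ‖halfDistSq (G.ex y (η σ)) (G.ex y q0) -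
      halfDistSq y (G.ex y q0) + inner ℝ q0 (η σ)‖ ≤ c * ‖σ‖ := E2.def hc0
  have B2 : ∀ᶠ σ in 𝓝[<] (0:ℝ), σ⁻¹ * inner ℝ v (η σ) < κ + c :=
    (T2.mono_left (nhdsWithin_mono _ (fun z hz => ne_of_lt hz))).eventually
      (eventually_lt_nhds (by linarith))
  have B3 : ∀ᶠ σ in 𝓝 (0:ℝ), C1 * L2 ^ 2 * |σ| < c := by
    have : Continuous (fun σ : ℝ => C1 * L2 ^ 2 * |σ|) := by fun_prop
    have h2 := this.tendsto 0
    rw [abs_zero, mul_zero] at h2
    exact h2.eventually (eventually_lt_nhds hc0)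
  have B4 : ∀ᶠ σ in 𝓝 (0:ℝ), p + σ • w ∈ G.K x := by
    have h1 : Tendsto (fun σ : ℝ => p + σ • w) (𝓝 0) (𝓝 p) := by
      have h2 : Continuous (fun σ : ℝ => p + σ • w) := by fun_prop
      have h3 := h2.tendsto 0
      simpa using h3
    filter_upwards [h1.eventually ((hC.base347.isOpen_I x).mem_nhds hI)] with σ hσ
    exact hC.I_subset x hσ
  have B : ∀ᶠ σ in 𝓝[<] (0:ℝ), gg G x p0 p1 xp s - gg G x p0 p1 xp (s + σ) ≤ r * (-σ) := by
    filter_upwards [nhdsWithin_le_nhds B1, B2, nhdsWithin_le_nhds B3, nhdsWithin_le_nhds B4,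
      self_mem_nhdsWithin] with σ b1 b2 b3 b4 b5
    have hσ : σ < 0 := b5
    have e2 : p0 + (s + σ) • w = p + σ • w := by rw [hp]; module
    have g1 : gg G x p0 p1 xp (s + σ) =
        halfDistSq (G.ex y (η σ)) (G.ex y q0) - halfDistSq (G.ex y (η σ)) (G.ex y q1) := by
      unfold gg
      rw [← hw, e2, hη, hq0x, hq1x, halfDistSq_comm _ x, Base347.halfDistSq_of_mem_K b4, halfDistSq_comm xp]
    have g2 := hsc y q1 hq1 (η σ)
    rw [hq1x, c1] at g2
    rw [hq0x, c0'] at b1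
    rw [Real.norm_eq_abs, Real.norm_eq_abs, abs_of_neg hσ] at b1
    have g3 := (abs_le.1 b1).1
    have g4 : ‖η σ‖ ^ 2 ≤ (L2 * |σ|) ^ 2 := by
      have := hηL σ
      gcongr
    have g5 : C1 * ‖η σ‖ ^ 2 ≤ c * (-σ) := by
      calc C1 * ‖η σ‖ ^ 2 ≤ C1 * (L2 * |σ|) ^ 2 := by gcongr
        _ = (C1 * L2 ^ 2 * |σ|) * |σ| := by ring
        _ ≤ c * |σ| := by gcongr
        _ = c * (-σ) := by rw [abs_of_neg hσ]
    have g6 : -inner ℝ v (η σ) ≤ (κ + c) * (-σ) := by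
      have h7 : σ * (κ + c) < σ * (σ⁻¹ * inner ℝ v (η σ)) := mul_lt_mul_of_neg_left b2 hσ
      rw [← mul_assoc, mul_inv_cancel₀ hσ.ne, one_mul] at h7
      linarith
    have g7 : inner ℝ v (η σ) = inner ℝ q1 (η σ) - inner ℝ q0 (η σ) := by
      rw [hv, inner_sub_left]
    rw [ggs, g1]
    rw [hq1x] at *
    rw [hq0x]
    have hrc : r = κ + 4 * c := by rw [hc]; ring
    rw [hrc]
    nlinarith
  have h2 : Tendsto (fun σ : ℝ => σ - s) (𝓝[<] s) (𝓝[<] 0) := by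
    refine tendsto_nhdsWithin_iff.2 ⟨?_, ?_⟩
    · have h3 : Continuous (fun σ : ℝ => σ - s) := by fun_prop
      have h4 := h3.tendsto s
      rw [sub_self] at h4
      exact h4.mono_left nhdsWithin_le_nhds
    · filter_upwards [self_mem_nhdsWithin] with z hz
      have : z < s := hz
      show z - s < 0
      linarith
  filter_upwards [h2.eventually B] with σ hσ
  have e3 : s + (σ - s) = σ := by ring
  rw [e3] at hσ
  linarith

end Slope

/-! ### contractions -/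

section Con

variable {E : Type*} [NormedAddCommGroup E] [InnerProductSpace ℝ E]




end Con

/-! ### the slope inequality on chords of `K(x)` -/

section Chord

variable {n : ℕ} {M : Type*} [MetricSpace M] [ChartedSpace (EuclideanSpace ℝ (Fin n)) M]
  [IsManifold (𝓡 n) ∞ M]
  [RiemannianBundle (fun p : M => TangentSpace (𝓡 n) p)]

theorem continuous_gg (G : GeoData n M) (x : M) (p0 p1 : TangentSpace (𝓡 n) x) (xp : M) :
    Continuous (fun z : ℝ × ℝ => gg G x (z.1 • p0) (z.1 • p1) xp z.2) := by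
  have h1 : Continuous (G.ex x) := (MTWConc117.contMDiff_ex G x).continuous
  have h2 := continuous_halfDistSq (M := M)
  have h3 : Continuous (fun z : ℝ × ℝ => z.1 • p0 + z.2 • (z.1 • p1 - z.1 • p0)) := by fun_prop
  unfold gg
  exact ((h3.norm.pow 2).div_const 2).sub (h2.comp (continuous_const.prodMk (h1.comp h3)))

theorem continuous_gg' (G : GeoData n M) (x : M) (p0 p1 : TangentSpace (𝓡 n) x) (xp : M) :
    Continuous (gg G x p0 p1 xp) := by
  have h1 := (continuous_gg G x p0 p1 xp).comp (f := fun s : ℝ => ((1:ℝ), s)) (by fun_prop)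
  have e : (fun z : ℝ × ℝ => gg G x (z.1 • p0) (z.1 • p1) xp z.2) ∘ (fun s : ℝ => ((1:ℝ), s)) =
      gg G x p0 p1 xp := by
    funext s
    simp
  rwa [e] at h1

variable [CompactSpace M] [IsContMDiffRiemannianBundle (𝓡 n) ∞ (EuclideanSpace ℝ (Fin n))
    (fun p : M => TangentSpace (𝓡 n) p)]
  [IsRiemannianManifold (𝓡 n) M]

/-- **the slope inequality** (1752 (c)): on a chord of `K(x)` on which `f > 0`. -/
theorem slope_ineq {G : GeoData n M} (hC : CutFacts G) (hg : GoodAll G) {x xp : M}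
    {p0 p1 : TangentSpace (𝓡 n) x} (hp0 : p0 ∈ G.K x) (hp1 : p1 ∈ G.K x) {a t : ℝ} (ha : 0 ≤ a)
    (hat : a ≤ t) (ht : t < 1) (hpos : ∀ s, a ≤ s → s ≤ t → 0 < gg G x p0 p1 xp s) :
    (1 - t) ^ 4 * (gg G x p0 p1 xp 1 - gg G x p0 p1 xp a) ≤
      (1 - a) ^ 4 * max 0 (gg G x p0 p1 xp 1 - gg G x p0 p1 xp t) := by
  have hcont := continuous_gg G x p0 p1 xp
  have hseg : ∀ s : ℝ, 0 ≤ s → s ≤ 1 → p0 + s • (p1 - p0) ∈ G.K x := by
    intro s hs0 hs1
    have := convex_K hg x hp0 hp1 (a := 1 - s) (b := s) (by linarith) hs0 (by ring)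
    convert this using 1
    module
  have hpos1 : ∀ᶠ r : ℝ in 𝓝 1, ∀ s ∈ Icc a t, 0 < gg G x (r • p0) (r • p1) xp s := by
    refine isCompact_Icc.eventually_forall_of_forall_eventually (fun s hs => ?_)
    have h1 := hcont.tendsto ((1:ℝ), s)
    have h2 : 0 < gg G x ((1:ℝ) • p0) ((1:ℝ) • p1) xp s := by
      rw [one_smul, one_smul]
      exact hpos s hs.1 hs.2
    exact h1.eventually (eventually_gt_nhds h2)
  have hmain : ∀ᶠ r : ℝ in 𝓝[<] 1,
      (1 - t) ^ 4 * (gg G x (r • p0) (r • p1) xp 1 - gg G x (r • p0) (r • p1) xp a) ≤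
      (1 - a) ^ 4 * max 0 (gg G x (r • p0) (r • p1) xp 1 - gg G x (r • p0) (r • p1) xp t) := by
    have hev : Ioo (0:ℝ) 1 ∈ 𝓝[<] (1:ℝ) := Ioo_mem_nhdsLT (by norm_num)
    filter_upwards [hev, nhdsWithin_le_nhds hpos1] with r hr hrpos
    refine gronwall_pow hat ht (continuous_gg' G x _ _ xp).continuousOn ?_
    intro s hs1 hs2 r' hr'
    refine slope_left hC hg ?_ (by linarith) ?_ (hrpos s ⟨hs1.le, hs2⟩).le hr'
    · have h1 := hC.base347.smul_mem_I (hseg s (by linarith) (by linarith)) hr.1.le hr.2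
      have e : r • p0 + s • (r • p1 - r • p0) = r • (p0 + s • (p1 - p0)) := by module
      rw [e]; exact h1
    · exact hC.star x p1 hp1 r hr.1.le hr.2.le
  have l1 : Tendsto (fun r : ℝ =>
      (1 - t) ^ 4 * (gg G x (r • p0) (r • p1) xp 1 - gg G x (r • p0) (r • p1) xp a)) (𝓝[<] 1)
      (𝓝 ((1 - t) ^ 4 * (gg G x ((1:ℝ) • p0) ((1:ℝ) • p1) xp 1 -
        gg G x ((1:ℝ) • p0) ((1:ℝ) • p1) xp a))) := by
    have c1 : Continuous (fun r : ℝ => gg G x (r • p0) (r • p1) xp 1) :=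
      hcont.comp (f := fun r : ℝ => (r, (1:ℝ))) (by fun_prop)
    have c2 : Continuous (fun r : ℝ => gg G x (r • p0) (r • p1) xp a) :=
      hcont.comp (f := fun r : ℝ => (r, a)) (by fun_prop)
    exact ((continuous_const.mul (c1.sub c2)).tendsto 1).mono_left nhdsWithin_le_nhds
  have l2 : Tendsto (fun r : ℝ =>
      (1 - a) ^ 4 * max 0 (gg G x (r • p0) (r • p1) xp 1 - gg G x (r • p0) (r • p1) xp t)) (𝓝[<] 1)
      (𝓝 ((1 - a) ^ 4 * max 0 (gg G x ((1:ℝ) • p0) ((1:ℝ) • p1) xp 1 -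
        gg G x ((1:ℝ) • p0) ((1:ℝ) • p1) xp t))) := by
    have c1 : Continuous (fun r : ℝ => gg G x (r • p0) (r • p1) xp 1) :=
      hcont.comp (f := fun r : ℝ => (r, (1:ℝ))) (by fun_prop)
    have c2 : Continuous (fun r : ℝ => gg G x (r • p0) (r • p1) xp t) :=
      hcont.comp (f := fun r : ℝ => (r, t)) (by fun_prop)
    exact ((continuous_const.mul (continuous_const.max (c1.sub c2))).tendsto 1).mono_left
      nhdsWithin_le_nhds
  have h := le_of_tendsto_of_tendsto l1 l2 hmain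
  simpa using h

/-- consequence of the slope inequality (with the last zero of `f`): if `f(1) - f(0) ≥ N`,
`f(1) ≥ N`, `f(t) > 0` and `f(1) - f(t) ≤ B` then `(1-t)⁴ N ≤ B`. -/
theorem escape {G : GeoData n M} (hC : CutFacts G) (hg : GoodAll G) {x xp : M}
    {p0 p1 : TangentSpace (𝓡 n) x} (hp0 : p0 ∈ G.K x) (hp1 : p1 ∈ G.K x) {t N B : ℝ} (ht0 : 0 ≤ t)
    (ht : t < 1) (hB : 0 ≤ B) (hN0 : N ≤ gg G x p0 p1 xp 1 - gg G x p0 p1 xp 0)
    (hN1 : N ≤ gg G x p0 p1 xp 1) (hpos : 0 < gg G x p0 p1 xp t)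
    (hB1 : gg G x p0 p1 xp 1 - gg G x p0 p1 xp t ≤ B) : (1 - t) ^ 4 * N ≤ B := by
  set φ : ℝ → ℝ := gg G x p0 p1 xp with hφ
  have hcont : Continuous φ := continuous_gg' G x p0 p1 xp
  have hmax : max 0 (φ 1 - φ t) ≤ B := max_le hB hB1
  have h1t : 0 < 1 - t := by linarith
  have hP : 0 ≤ (1 - t) ^ 4 := by positivity
  by_cases hS : ∃ s, (0 ≤ s ∧ s ≤ t) ∧ φ s ≤ 0
  · have hcomp : IsCompact {s : ℝ | s ∈ Icc 0 t ∧ φ s ≤ 0} :=
      isCompact_Icc.inter_right (isClosed_le hcont continuous_const)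
    obtain ⟨s0, hs0, hmaxs⟩ := hcomp.exists_isGreatest (by
      obtain ⟨s, hs1, hs2⟩ := hS
      exact ⟨s, hs1, hs2⟩)
    have hs0t : s0 < t := by
      rcases hs0.1.2.lt_or_eq with h | h
      · exact h
      · exfalso
        have := hs0.2
        rw [h] at this
        linarith
    have hlim : Tendsto (fun a : ℝ => (1 - t) ^ 4 * (φ 1 - φ a)) (𝓝[>] s0)
        (𝓝 ((1 - t) ^ 4 * (φ 1 - φ s0))) :=
      ((continuous_const.mul (continuous_const.sub hcont)).tendsto s0).mono_left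
        nhdsWithin_le_nhds
    have h1 : (1 - t) ^ 4 * (φ 1 - φ s0) ≤ B := by
      refine le_of_tendsto hlim ?_
      filter_upwards [Ioo_mem_nhdsGT hs0t] with a ha
      have ha0 : 0 ≤ a := hs0.1.1.trans ha.1.le
      have h2 := slope_ineq hC hg hp0 hp1 (xp := xp) ha0 ha.2.le ht (fun s hs1 hs2 => by
        by_contra hneg
        push Not at hneg
        have h3 : s ≤ s0 := hmaxs ⟨⟨by linarith, hs2⟩, hneg⟩
        have := ha.1
        linarith)
      have h4 : (1 - a) ^ 4 * max 0 (φ 1 - φ t) ≤ 1 * B := by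
        have h5 : (1 - a) ^ 4 ≤ 1 := pow_le_one₀ (by linarith [ha.2]) (by linarith)
        have h6 : (0:ℝ) ≤ max 0 (φ 1 - φ t) := le_max_left _ _
        gcongr
      rw [one_mul] at h4
      exact h2.trans h4
    have h3 : (1 - t) ^ 4 * N ≤ (1 - t) ^ 4 * (φ 1 - φ s0) := by
      refine mul_le_mul_of_nonneg_left ?_ hP
      have := hs0.2
      linarith
    exact h3.trans h1
  · push Not at hS
    have h2 := slope_ineq hC hg hp0 hp1 (xp := xp) le_rfl ht0 ht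
      (fun s hs1 hs2 => hS s ⟨hs1, hs2⟩)
    have h3 : (1 - t) ^ 4 * N ≤ (1 - t) ^ 4 * (φ 1 - φ 0) := mul_le_mul_of_nonneg_left hN0 hP
    refine h3.trans (h2.trans ?_)
    rw [sub_zero, one_pow, one_mul]
    exact hmax




end Chord

/-! ### (d): contacts of the points close to the farthest point -/

section Dpart

variable {n : ℕ} {M : Type*} [MetricSpace M] [ChartedSpace (EuclideanSpace ℝ (Fin n)) M]
  [IsManifold (𝓡 n) ∞ M]
  [RiemannianBundle (fun p : M => TangentSpace (𝓡 n) p)] [CompactSpace M]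




end Dpart

end Crest.Agent.R226.Copy977
end

-- ▼ part R226/CopiesGeo_301
section

set_option autoImplicit false
set_option linter.unusedSectionVars false
set_option linter.unusedVariables false

open MeasureTheory Bundle Set Filter
open scoped Manifold ContDiff Bundle ENNReal Topology RealInnerProductSpace
open Crest.GeometryTopology.MTW

namespace Crest.Agent.R226.CopiesGeo301

open Crest.Agent.R226 Crest.Agent.R226.Kant624 Crest.Agent.R226.Reduction624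
  Crest.Agent.R226.HolderEnd915 Crest.Agent.R226.E1Shape964 Crest.Agent.R226.Dasm290
  Crest.Agent.R226.Osc977 Crest.Agent.R226.Far977 Crest.Agent.R226.NG487
  Crest.Agent.R226.YStar544 Crest.Agent.R226.Copies301 Crest.Agent.R226.WOff915
  Crest.Agent.R226.NS683

/-- monotonicity of `J` along segments that stay away from their foot (class `κ`). -/
def WNcJ {E : Type*} [NormedAddCommGroup E] [InnerProductSpace ℝ E] (K : Set E) (J : E → ℝ≥0∞)
    (κ c : ℝ) : Prop :=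
  ∀ p ∈ K, ∀ q ∈ K, ∀ t : ℝ, 0 ≤ t → t ≤ 1 / 2 →
    (∀ a : ℝ, 0 ≤ a → a ≤ t → κ * ‖q - p‖ ^ 2 ≤ |⟪p + a • (q - p), q - p⟫|) →
    ENNReal.ofReal c * J p ≤ J (p + t • (q - p))

/-- from helper344's `WNcP`. -/
theorem WNcJ.of_WNcP {E : Type*} [NormedAddCommGroup E] [InnerProductSpace ℝ E] {K : Set E}
    {J : E → ℝ≥0∞} {κ τ c : ℝ} (hW : WNc344.WNcP K J κ τ c) (hτ : τ ≤ 1 / 2) : WNcJ K J κ c :=
  fun p hp q hq t ht ht1 h => hW p hp q hq t ht (by linarith) h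

/-- inward contraction towards the nearest point of the chord. -/
theorem WNcJ.con_le {E : Type*} [NormedAddCommGroup E] [InnerProductSpace ℝ E] {K : Set E}
    {J : E → ℝ≥0∞} {κ c : ℝ} (hW : WNcJ K J κ c) (hκ : κ ≤ 1 / 2) {p₀ p : E} (h0 : p₀ ∈ K)
    (hp : p ∈ K) (hin : 0 ≤ ⟪p₀, p - p₀⟫) {t : ℝ} (ht : 1 / 2 ≤ t) (ht1 : t ≤ 1) :
    ENNReal.ofReal c * J p ≤ J (con p₀ t p) := by
  have h1 := hW p hp p₀ h0 (1 - t) (by linarith) (by linarith) (fun a ha hat => by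
    have e1 : p + a • (p₀ - p) = p₀ + (1 - a) • (p - p₀) := by module
    have e2 : p₀ - p = -(p - p₀) := by module
    have e3 : ‖p₀ - p‖ = ‖p - p₀‖ := norm_sub_rev _ _
    rw [e1, e3, e2, inner_neg_right, abs_neg, inner_add_left, inner_smul_left,
      real_inner_self_eq_norm_sq]
    simp only [conj_trivial]
    refine le_trans ?_ (le_abs_self _)
    have h2 : 0 ≤ ‖p - p₀‖ ^ 2 := by positivity
    have h3 : κ * ‖p - p₀‖ ^ 2 ≤ (1 - a) * ‖p - p₀‖ ^ 2 :=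
      mul_le_mul_of_nonneg_right (by linarith) h2
    linarith)
  have e4 : p + (1 - t) • (p₀ - p) = con p₀ t p := by unfold con; module
  rwa [e4] at h1

variable {n : ℕ} {M : Type*} [MetricSpace M] [ChartedSpace (EuclideanSpace ℝ (Fin n)) M]
  [IsManifold (𝓡 n) ∞ M]
  [RiemannianBundle (fun p : M => TangentSpace (𝓡 n) p)]

/-- velocities at `x₁` of `S = Y_h(x₀) ∩ Y_h(x₁)` in the half-space through `p₀` orthogonal
to `p₀`. -/
def AA (G : GeoData n M) (u : M → ℝ) (x0 x1 : M) (h : ℝ) (p0 : TangentSpace (𝓡 n) x1) :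
    Set (TangentSpace (𝓡 n) x1) :=
  {p | p ∈ G.K x1 ∧ Dd u x0 (G.ex x1 p) ≤ h ∧ Dd u x1 (G.ex x1 p) ≤ h ∧ ⟪p0, p0⟫ ≤ ⟪p0, p⟫}

theorem gg_eq_Fq (G : GeoData n M) (x1 x : M) (p0 p : TangentSpace (𝓡 n) x1) (t : ℝ) :
    gg G x1 p0 p x t = Fq G x1 x (con p0 t p) := by
  unfold gg Fq con
  rw [halfDistSq_comm]

section Closed

variable [IsContMDiffRiemannianBundle (𝓡 n) ∞ (EuclideanSpace ℝ (Fin n))
    (fun p : M => TangentSpace (𝓡 n) p)]
  [IsRiemannianManifold (𝓡 n) M] [CompactSpace M] [MeasurableSpace M] [BorelSpace M]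
  {G : GeoData n M}

theorem isCompact_AA {u : M → ℝ} (hu : CConv u) (x0 x1 : M) (h : ℝ)
    (p0 : TangentSpace (𝓡 n) x1) : IsCompact (AA G u x0 x1 h p0) := by
  have h1 : AA G u x0 x1 h p0 = G.K x1 ∩ ((G.ex x1 ⁻¹' (SS u x0 x1 h)) ∩
      {p | (⟪p0, p0⟫ : ℝ) ≤ ⟪p0, p⟫}) := by
    ext p
    simp only [AA, SS, mem_ofPred_eq, mem_inter_iff, mem_preimage]
    tauto
  rw [h1]
  refine (CutTop478.isCompact_K G x1).inter_right ?_
  refine ((isClosed_SS hu x0 x1 h).preimage (continuous_exv G x1)).inter ?_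
  exact isClosed_le continuous_const (by fun_prop)

theorem pole_mem_K (hg : GoodAll G) {x : M} {p : TangentSpace (𝓡 n) x} (hp : p ∈ G.K x) {s : ℝ}
    (hs : 0 ≤ s) (hs1 : s ≤ 1) : (1 - s) • p ∈ G.K x := smul_mem_K hg hp hs hs1

/-- the pole `p_* = (1-s) p₀` is the nearest point of every chord to `AA`. -/
theorem inward_AA {u : M → ℝ} {x0 x1 : M} {h : ℝ} {p0 p : TangentSpace (𝓡 n) x1}
    (hp : p ∈ AA G u x0 x1 h p0) {s : ℝ} (hs : 0 ≤ s) (hs1 : s ≤ 1) :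
    0 ≤ (⟪(1 - s) • p0, p - (1 - s) • p0⟫ : ℝ) := by
  have h1 := hp.2.2.2
  rw [inner_smul_left, inner_sub_right, inner_smul_right]
  simp only [conj_trivial]
  have h2 : 0 ≤ (⟪p0, p0⟫ : ℝ) := real_inner_self_nonneg
  have h3 : (1 - s) * (⟪p0, p0⟫ : ℝ) ≤ ⟪p0, p0⟫ := by nlinarith
  exact mul_nonneg (by linarith) (by linarith)

/-- **escape**: `p` and `con p_* t p` can both be in `AA` only for `t` close to `1`. -/
theorem escape_AA (hC : CutFacts G) (hg : GoodAll G) {u : M → ℝ} (hu : CConv u) {x0 x1 : M}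
    {h s : ℝ} (hh : 0 ≤ h) (ha : h < u x0 - u x1) (hs : 0 ≤ s) (hs1 : s ≤ 1)
    {p0 p : TangentSpace (𝓡 n) x1} (hp0 : p0 ∈ G.K x1) (h1 : Dd u x1 (G.ex x1 p0) ≤ h)
    (hp : p ∈ AA G u x0 x1 h p0) {t : ℝ} (ht : 0 ≤ t) (ht1 : t < 1)
    (hpt : con ((1 - s) • p0) t p ∈ AA G u x0 x1 h p0) :
    (1 - t) ^ 4 * (s * (u x0 - u x1) - 2 * h) ≤ 2 * h := by
  have huc := CConv.continuous hu
  have hps : (1 - s) • p0 ∈ G.K x1 := pole_mem_K hg hp0 hs hs1
  have k := gap_pull (u := u) hp0 hs hs1 x0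
  have e0 := Fq_eq (G := G) (u := u) (x := x0) hps
  have e1 := Fq_eq (G := G) (u := u) (x := x0) hp.1
  have et := Fq_eq (G := G) (u := u) (x := x0) hpt.1
  have g0 : gg G x1 ((1 - s) • p0) p x0 0 = Fq G x1 x0 ((1 - s) • p0) := by
    rw [gg_eq_Fq]
    congr 1
    unfold con; module
  have g1 : gg G x1 ((1 - s) • p0) p x0 1 = Fq G x1 x0 p := by
    rw [gg_eq_Fq]
    congr 1
    unfold con; module
  have n1 := Dd_nonneg huc x1 (G.ex x1 p)
  have n2 := Dd_nonneg huc x0 (G.ex x1 p)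
  have n3 := Dd_nonneg huc x0 (G.ex x1 p0)
  have n5 := Dd_nonneg huc x1 (G.ex x1 (con ((1 - s) • p0) t p))
  have n6 := Dd_nonneg huc x0 (G.ex x1 (con ((1 - s) • p0) t p))
  have m1 := hp.2.1
  have m2 := hp.2.2.1
  have m3 := hpt.2.1
  have m4 := hpt.2.2.1
  have k1 : 0 ≤ (1 - s) * Dd u x0 (G.ex x1 p0) := mul_nonneg (by linarith) n3
  have k2 : (1 - s) * Dd u x1 (G.ex x1 p0) ≤ h := by
    have : (1 - s) * Dd u x1 (G.ex x1 p0) ≤ (1 - s) * h :=
      mul_le_mul_of_nonneg_left h1 (by linarith)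
    nlinarith
  have k3 : s * (u x0 - u x1) ≤ u x0 - u x1 := by nlinarith
  refine Copy977.escape hC hg hps hp.1 ht ht1 (xp := x0) (by positivity) ?_ ?_ ?_ ?_
  · rw [g0, g1, e0, e1]; nlinarith
  · rw [g1, e1]; linarith
  · rw [gg_eq_Fq, et]; linarith
  · rw [g1, gg_eq_Fq, e1, et]; linarith

/-- **(C), geometric form**: `N` disjoint copies of `AA` towards `p_* = (1-s) p₀`. -/
theorem mass_copies_AA (hC : CutFacts G) (hg : GoodAll G) {u : M → ℝ} (hu : CConv u) {x0 x1 : M}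
    {h s κ c : ℝ} (hh : 0 ≤ h) (ha : h < u x0 - u x1) (hs : 0 ≤ s) (hs1 : s ≤ 1)
    {p0 : TangentSpace (𝓡 n) x1} (hp0 : p0 ∈ G.K x1) (h1 : Dd u x1 (G.ex x1 p0) ≤ h)
    {N : ℕ} (hN : 0 < N) (hgap : 2 * h < (1 / (2 * (N : ℝ))) ^ 4 * (s * (u x0 - u x1) - 2 * h))
    [MeasurableSpace (TangentSpace (𝓡 n) x1)] [BorelSpace (TangentSpace (𝓡 n) x1)]
    {μ : Measure (TangentSpace (𝓡 n) x1)} [μ.IsAddHaarMeasure]
    {J : TangentSpace (𝓡 n) x1 → ℝ≥0∞} (hc : 0 ≤ c) (hκ : κ ≤ 1 / 2)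
    (hW : WNcJ (G.K x1) J κ c) :
    (N : ℝ≥0∞) * (ENNReal.ofReal (c * (1 / 2) ^ n) * ∫⁻ p in AA G u x0 x1 h p0, J p ∂μ) ≤
      ∫⁻ p in copies ((1 - s) • p0) N (AA G u x0 x1 h p0), J p ∂μ := by
  have hfin : FiniteDimensional ℝ (TangentSpace (𝓡 n) x1) :=
    inferInstanceAs (FiniteDimensional ℝ (EuclideanSpace ℝ (Fin n)))
  have hrank : Module.finrank ℝ (TangentSpace (𝓡 n) x1) = n := by
    have : Module.finrank ℝ (EuclideanSpace ℝ (Fin n)) = n := by simp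
    exact this
  have hps : (1 - s) • p0 ∈ G.K x1 := pole_mem_K hg hp0 hs hs1
  have key := mass_copies (μ := μ) (J := J) (isCompact_AA (G := G) hu x0 x1 h p0).measurableSet
    (p₀ := (1 - s) • p0) (B := 2 * h) (Γ := s * (u x0 - u x1) - 2 * h) (c := c) hN hc
    (by positivity)
    (fun p hp t ht ht1 => hW.con_le hκ hps hp.1 (inward_AA hp hs hs1) ht ht1)
    (fun p hp t ht ht1 hpt => escape_AA hC hg hu hh ha hs hs1 hp0 h1 hp ht ht1 hpt) hgap
  rwa [hrank] at key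


end Closed

section Tukey

variable [IsContMDiffRiemannianBundle (𝓡 n) ∞ (EuclideanSpace ℝ (Fin n))
    (fun p : M => TangentSpace (𝓡 n) p)]
  [IsRiemannianManifold (𝓡 n) M] [CompactSpace M] [MeasurableSpace M] [BorelSpace M]
  {G : GeoData n M}



end Tukey

end Crest.Agent.R226.CopiesGeo301
end

-- ▼ part R226/Parent_433
section

set_option autoImplicit false
set_option linter.unusedSectionVars false
set_option linter.unusedVariables false

open MeasureTheory Set Filter Topology Module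
open scoped ENNReal RealInnerProductSpace

namespace Crest.Agent.R226.Parent433

open Crest.Agent.R226.WOff915 Crest.Agent.R226.WNc344 Crest.Agent.R226.PairLem433

variable {E : Type*} [NormedAddCommGroup E] [InnerProductSpace ℝ E]


variable [FiniteDimensional ℝ E] [MeasurableSpace E] [BorelSpace E]

/-- one homothety with a pointwise comparison of the density. -/
theorem lintegral_con_ge (μ : Measure E) [μ.IsAddHaarMeasure] {J : E → ℝ≥0∞} (z : E) {a : ℝ}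
    (ha : 0 < a) {A : Set E} (hA : MeasurableSet A) {c : ℝ}
    (h : ∀ p ∈ A, ENNReal.ofReal c * J p ≤ J (con z a p)) :
    ENNReal.ofReal (a ^ finrank ℝ E) * (ENNReal.ofReal c * ∫⁻ p in A, J p ∂μ) ≤
      ∫⁻ p in con z a '' A, J p ∂μ := by
  rw [lintegral_con μ z ha hA]
  gcongr
  calc ENNReal.ofReal c * ∫⁻ p in A, J p ∂μ ≤ ∫⁻ p in A, ENNReal.ofReal c * J p ∂μ :=
        lintegral_const_mul_le _ _
    _ ≤ ∫⁻ p in A, J (con z a p) ∂μ := setLIntegral_mono_ae' hA (Eventually.of_forall h)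


end Crest.Agent.R226.Parent433
end

-- ▼ part R226/ParentSeg_464
section

set_option autoImplicit false
set_option linter.unusedSectionVars false
set_option linter.unusedVariables false

open MeasureTheory Set Filter Topology Module
open scoped ENNReal RealInnerProductSpace

namespace Crest.Agent.R226.ParentSeg464

open Crest.Agent.R226.WOff915 Crest.Agent.R226.WNc344 Crest.Agent.R226.PairLem433
open Crest.Agent.R226.Parent433

section alg

variable {E : Type*} [NormedAddCommGroup E] [InnerProductSpace ℝ E]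

theorem cone_smul {u v : E} (hv : v ∈ cone u) {k : ℝ} (hk : 0 ≤ k) : k • v ∈ cone u := by
  unfold cone at hv ⊢
  rw [mem_ofPred_eq] at hv ⊢
  have e : k • v - ‖k • v‖ • u = k • (v - ‖v‖ • u) := by
    rw [norm_smul, Real.norm_of_nonneg hk, smul_sub, smul_smul]
  rw [e, norm_smul, norm_smul, Real.norm_of_nonneg hk]
  calc k * ‖v - ‖v‖ • u‖ ≤ k * (‖v‖ / 2) := by gcongr
    _ = k * ‖v‖ / 2 := by ring

theorem cone_of_smul {u v : E} {k : ℝ} (hk : 0 < k) (hv : k • v ∈ cone u) : v ∈ cone u := by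
  have h := cone_smul hv (k := k⁻¹) (by positivity)
  rwa [smul_smul, inv_mul_cancel₀ hk.ne', one_smul] at h

theorem inner_expand (ps w ρ : E) :
    ⟪ps + (1 / 4 : ℝ) • w, ρ - (1 / 4 : ℝ) • w⟫ =
      ⟪ps, ρ⟫ - 1 / 4 * ⟪ps, w⟫ + 1 / 4 * ⟪w, ρ⟫ - 1 / 16 * ‖w‖ ^ 2 := by
  rw [inner_add_left, inner_sub_right, inner_sub_right, real_inner_smul_left, real_inner_smul_left,
    real_inner_smul_right, real_inner_smul_right, real_inner_self_eq_norm_sq]
  ring

theorem norm_expand (w ρ : E) :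
    ‖ρ - (1 / 4 : ℝ) • w‖ ^ 2 = ‖ρ‖ ^ 2 - 1 / 2 * ⟪w, ρ⟫ + 1 / 16 * ‖w‖ ^ 2 := by
  rw [norm_sub_sq_real, real_inner_smul_right, norm_smul, mul_pow, Real.norm_eq_abs, sq_abs,
    real_inner_comm w ρ]
  ring

/-- lateral margin -/
theorem margin_lat {ps w ρ : E} (hg : 0 ≤ ⟪ps, ρ⟫) (hw : 8 * ⟪ps, w⟫ ≤ ‖w‖ ^ 2)
    (hc : ‖w‖ * ‖ρ‖ ≤ 2 * ⟪w, ρ⟫) (h1 : ‖w‖ ≤ ‖ρ‖) (h2 : ‖ρ‖ ≤ 2 * ‖w‖) :
    (1 / 1024 : ℝ) * ‖ρ - (1 / 4 : ℝ) • w‖ ^ 2 ≤ ⟪ps + (1 / 4 : ℝ) • w, ρ - (1 / 4 : ℝ) • w⟫ := by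
  rw [inner_expand, norm_expand]
  have hw0 := norm_nonneg w
  have h3 : ‖w‖ ^ 2 ≤ ‖w‖ * ‖ρ‖ := by nlinarith
  have h4 : ‖ρ‖ ^ 2 ≤ 4 * ‖w‖ ^ 2 := by nlinarith [norm_nonneg ρ]
  have h5 : 0 ≤ ‖w‖ ^ 2 := by positivity
  linarith

/-- radial margin -/
theorem margin_rad {ps w z : E} (gw : 0 ≤ ⟪ps, w⟫) (hle : ⟪ps, w⟫ ≤ ⟪ps, z⟫)
    (hw : ‖w‖ ^ 2 ≤ 8 * ⟪ps, w⟫) (hz : ‖z‖ ^ 2 ≤ 16 * ⟪ps, z⟫) (hc : 0 ≤ ⟪w, z⟫) :
    (1 / 1024 : ℝ) * ‖z - (1 / 4 : ℝ) • w‖ ^ 2 ≤ ⟪ps + (1 / 4 : ℝ) • w, z - (1 / 4 : ℝ) • w⟫ := by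
  rw [inner_expand, norm_expand]
  linarith

theorem seg_cone {u w zN zF ρ : E} (hw : w ∈ cone u) (hN : zN ∈ cone u) (hF : zF ∈ cone u)
    (hρ : ρ ∈ segment ℝ zN zF) : ‖w‖ * ‖ρ‖ ≤ 2 * ⟪w, ρ⟫ := by
  obtain ⟨a, b, ha, hb, hab, rfl⟩ := hρ
  have h1 := cone_angle hw hN
  have h2 := cone_angle hw hF
  rw [inner_add_right, real_inner_smul_right, real_inner_smul_right]
  have h3 : ‖a • zN + b • zF‖ ≤ a * ‖zN‖ + b * ‖zF‖ := by
    refine (norm_add_le _ _).trans (le_of_eq ?_)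
    rw [norm_smul, norm_smul, Real.norm_of_nonneg ha, Real.norm_of_nonneg hb]
  calc ‖w‖ * ‖a • zN + b • zF‖ ≤ ‖w‖ * (a * ‖zN‖ + b * ‖zF‖) := by gcongr
    _ = a * (‖w‖ * ‖zN‖) + b * (‖w‖ * ‖zF‖) := by ring
    _ ≤ a * (2 * ⟪w, zN⟫) + b * (2 * ⟪w, zF⟫) := by gcongr
    _ = _ := by ring

theorem seg_sub {ps zN zF r : E} (hr : r ∈ segment ℝ zN zF) :
    r - ps ∈ segment ℝ (zN - ps) (zF - ps) := by
  obtain ⟨a, b, ha, hb, hab, rfl⟩ := hr
  refine ⟨a, b, ha, hb, hab, ?_⟩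
  have : ps = (a + b) • ps := by rw [hab, one_smul]
  conv_rhs => rw [this]
  module

theorem seg_nonneg {ps zN zF ρ : E} (hN : 0 ≤ ⟪ps, zN⟫) (hF : 0 ≤ ⟪ps, zF⟫)
    (hρ : ρ ∈ segment ℝ zN zF) : 0 ≤ ⟪ps, ρ⟫ := by
  obtain ⟨a, b, ha, hb, hab, rfl⟩ := hρ
  rw [inner_add_right, real_inner_smul_right, real_inner_smul_right]
  positivity

/-- a point of the segment at a comparable distance of `ps`. -/
theorem exists_seg {ps zN zF : E} {b c : ℝ} (h1 : ‖zN - ps‖ ≤ c) (h2 : b ≤ ‖zF - ps‖)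
    (h3 : b ≤ c) : ∃ r ∈ segment ℝ zN zF, b ≤ ‖r - ps‖ ∧ ‖r - ps‖ ≤ c := by
  rcases le_or_gt b ‖zN - ps‖ with h | h
  · exact ⟨zN, left_mem_segment ℝ _ _, h, h1⟩
  · have hc : ContinuousOn (fun t : ℝ => ‖zN + t • (zF - zN) - ps‖) (Icc 0 1) := by fun_prop
    have hiv := intermediate_value_Icc (zero_le_one' ℝ) hc
    have hb : b ∈ Icc (‖zN + (0 : ℝ) • (zF - zN) - ps‖) (‖zN + (1 : ℝ) • (zF - zN) - ps‖) := by
      constructor
      · simpa using h.le
      · simpa using h2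
    obtain ⟨t, ht, hbt⟩ := hiv hb
    have hbt' : ‖zN + t • (zF - zN) - ps‖ = b := hbt
    refine ⟨zN + t • (zF - zN), ⟨1 - t, t, by linarith [ht.2], ht.1, by ring, by module⟩, ?_, ?_⟩
    · rw [hbt']
    · rw [hbt']; exact h3

end alg

section meas

variable {E : Type*} [NormedAddCommGroup E] [InnerProductSpace ℝ E] [FiniteDimensional ℝ E]
  [MeasurableSpace E] [BorelSpace E]

/-- one move: contraction by `1/4` to `ps`, then by `1/2` to `r`. -/
theorem move (μ : Measure E) [μ.IsAddHaarMeasure] {K : Set E} {J : E → ℝ≥0∞} {c₁ : ℝ}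
    (hc₁ : 0 < c₁) (hK : Convex ℝ K) (hW : WNcP K J (1 / 1024) (1 / 4) c₁) {ps : E} (hps : ps ∈ K)
    {S : Set E} (hSK : S ⊆ K) (hSc : IsCompact S) (hg : ∀ q ∈ S, 0 ≤ ⟪ps, q - ps⟫) {r : E}
    (hr : r ∈ K)
    (hm : ∀ q ∈ S, (1 / 1024 : ℝ) * ‖r - con ps (1 / 4) q‖ ^ 2 ≤
      ⟪con ps (1 / 4) q, r - con ps (1 / 4) q⟫) :
    ENNReal.ofReal ((1 / 2 : ℝ) ^ finrank ℝ E * c₁ * ((1 / 4 : ℝ) ^ finrank ℝ E * c₁)) *
      ∫⁻ p in S, J p ∂μ ≤ ∫⁻ p in con r (1 / 2) '' (con ps (1 / 4) '' S), J p ∂μ := by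
  have hb : ∀ q ∈ S, con ps (1 / 4) q ∈ K := fun q hq =>
    con_mem hK hps (hSK hq) (by norm_num) (by norm_num)
  have hstep1 : ∀ q ∈ S, ENNReal.ofReal c₁ * J q ≤ J (con ps (1 / 4) q) := by
    intro q hq
    have h1 := hW q (hSK hq) ps hps (3 / 4) (by norm_num) (by norm_num)
      (Off.inward (by
        have hg' := hg q hq
        have e1 : q + (3 / 4 : ℝ) • (ps - q) = ps + (1 / 4 : ℝ) • (q - ps) := by module
        have e2 : ps - q = -(q - ps) := by abel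
        rw [e1, e2, inner_neg_right, inner_add_left, real_inner_smul_left,
          real_inner_self_eq_norm_sq, norm_neg]
        have : 0 ≤ ‖q - ps‖ ^ 2 := by positivity
        linarith))
    have e1 : q + (3 / 4 : ℝ) • (ps - q) = con ps (1 / 4) q := by unfold con; module
    rw [e1] at h1
    exact h1
  have hVb : MeasurableSet (con ps (1 / 4) '' S) :=
    (hSc.image (continuous_con _ _)).measurableSet
  have hstep2 : ∀ p ∈ con ps (1 / 4) '' S, ENNReal.ofReal c₁ * J p ≤ J (con r (1 / 2) p) := by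
    rintro _ ⟨q, hq, rfl⟩
    have h1 := hW _ (hb q hq) r hr (1 / 2) (by norm_num) (by norm_num) (Off.outward (hm q hq))
    have e1 : con ps (1 / 4) q + (1 / 2 : ℝ) • (r - con ps (1 / 4) q) =
        con r (1 / 2) (con ps (1 / 4) q) := by unfold con; module
    rw [e1] at h1
    exact h1
  have h1 := lintegral_con_ge μ ps (a := 1 / 4) (by norm_num) hSc.measurableSet hstep1
  have h2 := lintegral_con_ge μ r (a := 1 / 2) (by norm_num) hVb hstep2
  refine le_trans (le_of_eq ?_) (le_trans (mul_le_mul_right (mul_le_mul_right h1 _) _) h2)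
  rw [ENNReal.ofReal_mul (by positivity), ENNReal.ofReal_mul (by positivity),
    ENNReal.ofReal_mul (by positivity)]
  ring

/-- bounded overlap -/
theorem sum_measure_le {α : Type*} [MeasurableSpace α] (ν : Measure α) (N : ℕ) (W : ℕ → Set α)
    (hW : ∀ j, MeasurableSet (W j)) (f : α → ℝ) {δ : ℝ} (hδ : 0 < δ)
    (h1 : ∀ j, ∀ x ∈ W j, 3 / 8 * (δ * 2 ^ j) ≤ f x)
    (h2 : ∀ j, ∀ x ∈ W j, f x ≤ 5 / 2 * (δ * 2 ^ j)) :
    ∑ j ∈ Finset.range N, ν (W j) ≤ 3 * ν (⋃ j ∈ Finset.range N, W j) := by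
  classical
  have hmU : MeasurableSet (⋃ j ∈ Finset.range N, W j) :=
    Finset.measurableSet_biUnion _ fun j _ => hW j
  have hpt : ∀ x, ∑ j ∈ Finset.range N, (W j).indicator (1 : α → ℝ≥0∞) x ≤
      3 * (⋃ j ∈ Finset.range N, W j).indicator (1 : α → ℝ≥0∞) x := by
    intro x
    set F := (Finset.range N).filter (fun j => x ∈ W j) with hF
    have e1 : ∑ j ∈ Finset.range N, (W j).indicator (1 : α → ℝ≥0∞) x = (F.card : ℝ≥0∞) := by
      rw [hF, Finset.card_filter, Nat.cast_sum]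
      refine Finset.sum_congr rfl fun j _ => ?_
      by_cases hx : x ∈ W j <;> simp [hx]
    rw [e1]
    rcases F.eq_empty_or_nonempty with h0 | hne
    · rw [h0]; simp
    · set j0 := F.min' hne with hj0
      have hj0F : j0 ∈ F := F.min'_mem hne
      have hx0 : x ∈ W j0 := (Finset.mem_filter.1 hj0F).2
      have hxU : x ∈ ⋃ j ∈ Finset.range N, W j :=
        mem_iUnion₂.2 ⟨j0, (Finset.mem_filter.1 hj0F).1, hx0⟩
      rw [indicator_of_mem hxU, Pi.one_apply, mul_one]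
      have hsub : F ⊆ Finset.Icc j0 (j0 + 2) := by
        intro j hj
        have hle : j0 ≤ j := F.min'_le j hj
        rw [Finset.mem_Icc]
        refine ⟨hle, ?_⟩
        by_contra hlt
        push Not at hlt
        have a1 := h1 j x (Finset.mem_filter.1 hj).2
        have a2 := h2 j0 x hx0
        have a3 : (2 : ℝ) ^ (j0 + 3) ≤ 2 ^ j := pow_le_pow_right₀ (by norm_num) (by omega)
        rw [pow_add] at a3
        have a4 : 0 < δ * 2 ^ j0 := by positivity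
        have a5 : δ * ((2 : ℝ) ^ j0 * 2 ^ 3) ≤ δ * 2 ^ j := by gcongr
        nlinarith
      have hcard : F.card ≤ 3 := by
        refine (Finset.card_le_card hsub).trans ?_
        rw [Nat.card_Icc]; omega
      exact_mod_cast hcard
  calc ∑ j ∈ Finset.range N, ν (W j)
      = ∑ j ∈ Finset.range N, ∫⁻ x, (W j).indicator (1 : α → ℝ≥0∞) x ∂ν := by
        refine Finset.sum_congr rfl fun j _ => ?_
        rw [lintegral_indicator_one (hW j)]
    _ = ∫⁻ x, ∑ j ∈ Finset.range N, (W j).indicator (1 : α → ℝ≥0∞) x ∂ν := by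
        rw [lintegral_finsetSum]
        exact fun j _ => measurable_one.indicator (hW j)
    _ ≤ ∫⁻ x, 3 * (⋃ j ∈ Finset.range N, W j).indicator (1 : α → ℝ≥0∞) x ∂ν := lintegral_mono hpt
    _ = 3 * ν (⋃ j ∈ Finset.range N, W j) := by
        rw [lintegral_const_mul _ (measurable_one.indicator hmU), lintegral_indicator_one hmU]

/-- the classes (radial or lateral, in a cone), in compact form. -/
theorem exists_class (t : Finset E) (ht : ∀ v : E, ∃ u ∈ t, v ∈ cone u) (ν : Measure E) (ps : E)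
    (𝒢 : Set E) (hc : IsCompact 𝒢) (h0 : ν 𝒢 ≠ 0) (hf : ν 𝒢 ≠ ∞) :
    ∃ (u : E) (S : Set E), S ⊆ 𝒢 ∧ IsCompact S ∧
      ν 𝒢 ≤ (2 * t.card + 1) * ν S ∧ (∀ q ∈ S, q - ps ∈ cone u) ∧
      ((∀ q ∈ S, ‖q - ps‖ ^ 2 ≤ 8 * ⟪ps, q - ps⟫) ∨
        ∃ δ : ℝ, 0 < δ ∧ ∀ q ∈ S, 8 * ⟪ps, q - ps⟫ ≤ ‖q - ps‖ ^ 2 ∧ δ ≤ ‖q - ps‖) := by
  classical
  set C0 : ℝ≥0∞ := 2 * t.card + 1 with hC0
  by_contra hcon
  have hcc : ∀ u : E, IsClosed {q : E | q - ps ∈ cone u} := fun u =>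
    (isClosed_cone u).preimage (continuous_id.sub continuous_const)
  -- the radial class
  set R : E → Set E := fun u => {q | q ∈ 𝒢 ∧ q - ps ∈ cone u ∧ ‖q - ps‖ ^ 2 ≤ 8 * ⟪ps, q - ps⟫}
    with hR
  set L : E → ℝ → Set E := fun u δ => {q | q ∈ 𝒢 ∧ q - ps ∈ cone u ∧
    8 * ⟪ps, q - ps⟫ ≤ ‖q - ps‖ ^ 2 ∧ δ ≤ ‖q - ps‖} with hL
  have hRc : ∀ u, IsCompact (R u) := by
    intro u
    have h1 : IsClosed {q : E | ‖q - ps‖ ^ 2 ≤ 8 * ⟪ps, q - ps⟫} :=
      isClosed_le (by fun_prop) (by fun_prop)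
    exact hc.inter_right ((hcc u).inter h1)
  have hLc : ∀ u δ, IsCompact (L u δ) := by
    intro u δ
    have h1 : IsClosed {q : E | 8 * ⟪ps, q - ps⟫ ≤ ‖q - ps‖ ^ 2} :=
      isClosed_le (by fun_prop) (by fun_prop)
    have h2 : IsClosed {q : E | δ ≤ ‖q - ps‖} := isClosed_le (by fun_prop) (by fun_prop)
    exact hc.inter_right ((hcc u).inter (h1.inter h2))
  have hR1 : ∀ u, C0 * ν (R u) ≤ ν 𝒢 := by
    intro u
    by_contra h
    push Not at h
    exact hcon ⟨u, R u, fun q hq => hq.1, hRc u, h.le, fun q hq => hq.2.1,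
      Or.inl fun q hq => hq.2.2⟩
  have hL1 : ∀ u δ, 0 < δ → C0 * ν (L u δ) ≤ ν 𝒢 := by
    intro u δ hδ
    by_contra h
    push Not at h
    exact hcon ⟨u, L u δ, fun q hq => hq.1, hLc u δ, h.le, fun q hq => hq.2.1,
      Or.inr ⟨δ, hδ, fun q hq => hq.2.2⟩⟩
  have hL2 : ∀ u, C0 * ν (⋃ m : ℕ, L u (1 / ((m : ℝ) + 1))) ≤ ν 𝒢 := by
    intro u
    have hmono : Monotone fun m : ℕ => L u (1 / ((m : ℝ) + 1)) := by
      intro m m' hm q hq
      refine ⟨hq.1, hq.2.1, hq.2.2.1, le_trans ?_ hq.2.2.2⟩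
      have : (m : ℝ) ≤ m' := by exact_mod_cast hm
      exact one_div_le_one_div_of_le (by positivity) (by linarith)
    rw [hmono.measure_iUnion, ENNReal.mul_iSup]
    exact iSup_le fun m => hL1 u _ (by positivity)
  have hcov : 𝒢 ⊆ ⋃ u ∈ t, (R u ∪ ⋃ m : ℕ, L u (1 / ((m : ℝ) + 1))) := by
    intro q hq
    obtain ⟨u, hu, hqu⟩ := ht (q - ps)
    refine mem_iUnion₂.2 ⟨u, hu, ?_⟩
    rcases le_total (‖q - ps‖ ^ 2) (8 * ⟪ps, q - ps⟫) with h | h
    · exact Or.inl ⟨hq, hqu, h⟩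
    · by_cases hz : q - ps = 0
      · left
        refine ⟨hq, hqu, ?_⟩
        rw [hz]; simp
      · right
        have hn : 0 < ‖q - ps‖ := norm_pos_iff.2 hz
        obtain ⟨m, hm⟩ := exists_nat_one_div_lt hn
        exact mem_iUnion.2 ⟨m, hq, hqu, h, hm.le⟩
  have h1 : ν 𝒢 ≤ ∑ u ∈ t, (ν (R u) + ν (⋃ m : ℕ, L u (1 / ((m : ℝ) + 1)))) := by
    refine (measure_mono hcov).trans ((measure_biUnion_finset_le _ _).trans ?_)
    exact Finset.sum_le_sum fun u _ => measure_union_le _ _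
  have h2 : C0 * ν 𝒢 ≤ 2 * t.card * ν 𝒢 := by
    calc C0 * ν 𝒢 ≤ C0 * ∑ u ∈ t, (ν (R u) + ν (⋃ m : ℕ, L u (1 / ((m : ℝ) + 1)))) := by gcongr
      _ = ∑ u ∈ t, (C0 * ν (R u) + C0 * ν (⋃ m : ℕ, L u (1 / ((m : ℝ) + 1)))) := by
          rw [Finset.mul_sum]
          exact Finset.sum_congr rfl fun u _ => mul_add _ _ _
      _ ≤ ∑ _u ∈ t, (ν 𝒢 + ν 𝒢) := Finset.sum_le_sum fun u _ => add_le_add (hR1 u) (hL2 u)
      _ = 2 * t.card * ν 𝒢 := by
          rw [Finset.sum_const, nsmul_eq_mul]; ring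
  have h3 : C0 * ν 𝒢 = 2 * t.card * ν 𝒢 + ν 𝒢 := by rw [hC0]; ring
  rw [h3] at h2
  have hfin : 2 * (t.card : ℝ≥0∞) * ν 𝒢 ≠ ∞ :=
    ENNReal.mul_ne_top (ENNReal.mul_ne_top (by norm_num) (ENNReal.natCast_ne_top _)) hf
  have h4 : 2 * (t.card : ℝ≥0∞) * ν 𝒢 < 2 * t.card * ν 𝒢 + ν 𝒢 :=
    ENNReal.lt_add_right hfin h0
  exact absurd h2 (not_le.2 h4)

variable (E) in
/-- the body of the statement `parent_seg`. -/
def SegC (c₁ C : ℝ) : Prop :=
    ∀ (μ : Measure E) [μ.IsAddHaarMeasure] (K : Set E) (J : E → ℝ≥0∞), Convex ℝ K →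
    WNcP K J (1 / 1024) (1 / 4) c₁ →
    ∀ ps ∈ K, ∀ A ⊆ K, (∀ p ∈ A, 0 ≤ ⟪ps, p - ps⟫) →
    ∀ 𝒢 ⊆ K, IsCompact 𝒢 → (∀ q ∈ 𝒢, ∃ p ∈ A, ∃ k : ℝ, 1 / 2 ≤ k ∧ k ≤ 1 ∧ q = con ps k p) →
    ∫⁻ p in 𝒢, J p ∂μ ≠ 0 → ∫⁻ p in 𝒢, J p ∂μ ≠ ∞ →
    ∃ zN ∈ A, ∃ zF ∈ A, ∃ W ⊆ K, IsCompact W ∧
      ∫⁻ p in 𝒢, J p ∂μ ≤ ENNReal.ofReal C * ∫⁻ p in W, J p ∂μ ∧
      ∀ p' ∈ W, ∃ p ∈ A, ∃ k : ℝ, 0 < k ∧ k ≤ 1 ∧ ∃ r ∈ segment ℝ zN zF,
        con ps (k / 4) p ∈ K ∧ 0 ≤ ⟪con ps (k / 4) p, r - con ps (k / 4) p⟫ ∧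
        p' = con ps (k / 4) p + (1 / 2 : ℝ) • (r - con ps (k / 4) p) ∧
        p' = ps + (1 / 2 : ℝ) • (r - ps) + (k / 8) • (p - ps)

set_option maxHeartbeats 1600000 in
/-- **Common parent on a segment**, explicit constant in terms of a family of cones. -/
theorem segC_of_cones {c₁ : ℝ} (hc₁ : 0 < c₁) (t : Finset E) (ht : ∀ v : E, ∃ u ∈ t, v ∈ cone u)
    {N : ℕ} (hN : t.card ≤ N) {L : ℝ}
    (hL : L = (1 / 2 : ℝ) ^ finrank ℝ E * c₁ * ((1 / 4 : ℝ) ^ finrank ℝ E * c₁)) :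
    SegC E c₁ ((3 * (2 * (N : ℝ) + 1) + 1) / L) := by
  set d := finrank ℝ E with hd
  have hL0 : 0 < L := by rw [hL]; positivity
  obtain ⟨C0, hC0e⟩ : ∃ C0 : ℝ≥0∞, C0 = 2 * N + 1 := ⟨_, rfl⟩
  have hC0t : C0 ≠ ∞ := by
    rw [hC0e]
    exact ENNReal.add_ne_top.2 ⟨ENNReal.mul_ne_top (by norm_num) (ENNReal.natCast_ne_top _),
      ENNReal.one_ne_top⟩
  have hC0r : C0.toReal = 2 * (N : ℝ) + 1 := by
    rw [hC0e, ENNReal.toReal_add (ENNReal.mul_ne_top (by norm_num) (ENNReal.natCast_ne_top _))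
      ENNReal.one_ne_top, ENNReal.toReal_mul]
    simp
  have hC0 : ∀ (ν : Measure E) (ps : E) (𝒢 : Set E), IsCompact 𝒢 → ν 𝒢 ≠ 0 → ν 𝒢 ≠ ∞ →
      ∃ (u : E) (S : Set E), S ⊆ 𝒢 ∧ IsCompact S ∧
      ν 𝒢 ≤ C0 * ν S ∧ (∀ q ∈ S, q - ps ∈ cone u) ∧
      ((∀ q ∈ S, ‖q - ps‖ ^ 2 ≤ 8 * ⟪ps, q - ps⟫) ∨
        ∃ δ : ℝ, 0 < δ ∧ ∀ q ∈ S, 8 * ⟪ps, q - ps⟫ ≤ ‖q - ps‖ ^ 2 ∧ δ ≤ ‖q - ps‖) := by
    intro ν ps 𝒢 hc h0 hf
    obtain ⟨u, S, a1, a2, a3, a4, a5⟩ := exists_class t ht ν ps 𝒢 hc h0 hf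
    refine ⟨u, S, a1, a2, a3.trans ?_, a4, a5⟩
    rw [hC0e]
    gcongr
  rw [← hC0r]
  intro μ _ K J hK hW ps hps A hAK hA 𝒢 h𝒢K h𝒢c h𝒢 hne0 hnet
  set ν : Measure E := μ.withDensity J with hν
  have hνS : ∀ S : Set E, MeasurableSet S → ν S = ∫⁻ p in S, J p ∂μ := fun S hS => by
    rw [hν, withDensity_apply _ hS]
  rw [← hνS 𝒢 h𝒢c.measurableSet] at hne0 hnet ⊢
  obtain ⟨u, S, hSG, hSc, hSm, hSu, hcase⟩ := hC0 ν ps 𝒢 h𝒢c hne0 hnet
  have hSK : S ⊆ K := hSG.trans h𝒢K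
  have hgS : ∀ q ∈ S, 0 ≤ ⟪ps, q - ps⟫ := by
    intro q hq
    obtain ⟨p, hp, k, hk0, hk1, hqk⟩ := h𝒢 q (hSG hq)
    have e : q - ps = k • (p - ps) := by rw [hqk]; unfold con; abel
    rw [e, real_inner_smul_right]
    exact mul_nonneg (by linarith) (hA p hp)
  have hSne : S.Nonempty := by
    rw [nonempty_iff_ne_empty]
    intro h
    rw [h, measure_empty, mul_zero] at hSm
    exact hne0 (le_antisymm hSm zero_le)
  -- the output
  have hout : ∀ q ∈ S, ∀ r ∈ K,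
      (1 / 1024 : ℝ) * ‖r - con ps (1 / 4) q‖ ^ 2 ≤ ⟪con ps (1 / 4) q, r - con ps (1 / 4) q⟫ →
      ∃ p ∈ A, ∃ k : ℝ, 0 < k ∧ k ≤ 1 ∧
        con ps (k / 4) p ∈ K ∧ 0 ≤ ⟪con ps (k / 4) p, r - con ps (k / 4) p⟫ ∧
        con r (1 / 2) (con ps (1 / 4) q) =
          con ps (k / 4) p + (1 / 2 : ℝ) • (r - con ps (k / 4) p) ∧
        con r (1 / 2) (con ps (1 / 4) q) =
          ps + (1 / 2 : ℝ) • (r - ps) + (k / 8) • (p - ps) := by
    intro q hq r hr hm
    obtain ⟨p, hp, k, hk0, hk1, hqk⟩ := h𝒢 q (hSG hq)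
    have e0 : con ps (1 / 4) q = con ps (k / 4) p := by
      rw [hqk, con_con]; congr 1; ring
    refine ⟨p, hp, k, by linarith, hk1, ?_, ?_, ?_, ?_⟩
    · rw [← e0]; exact con_mem hK hps (hSK hq) (by norm_num) (by norm_num)
    · rw [← e0]
      exact le_trans (by positivity) hm
    · rw [← e0]; unfold con; module
    · rw [e0]; unfold con; module
  -- the constants
  have hfin : ∀ W : Set E, ENNReal.ofReal L * ν S ≤ 3 * ν W →
      ν 𝒢 ≤ ENNReal.ofReal ((3 * C0.toReal + 1) / L) * ν W := by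
    intro W hW
    have h1 : ENNReal.ofReal L * ν 𝒢 ≤ C0 * (3 * ν W) := by
      calc ENNReal.ofReal L * ν 𝒢 ≤ ENNReal.ofReal L * (C0 * ν S) := by gcongr
        _ = C0 * (ENNReal.ofReal L * ν S) := by ring
        _ ≤ C0 * (3 * ν W) := by gcongr
    have h2 : ENNReal.ofReal (1 / L) * ENNReal.ofReal L = 1 := by
      rw [← ENNReal.ofReal_mul (by positivity), one_div_mul_cancel hL0.ne', ENNReal.ofReal_one]
    have h3 : 3 * C0 ≤ ENNReal.ofReal (3 * C0.toReal + 1) := by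
      rw [ENNReal.ofReal_add (by positivity) zero_le_one, ENNReal.ofReal_mul (by norm_num),
        ENNReal.ofReal_toReal hC0t]
      refine le_trans (le_of_eq ?_) le_self_add
      norm_num
    calc ν 𝒢 = ENNReal.ofReal (1 / L) * (ENNReal.ofReal L * ν 𝒢) := by
          rw [← mul_assoc, h2, one_mul]
      _ ≤ ENNReal.ofReal (1 / L) * (C0 * (3 * ν W)) := by gcongr
      _ = ENNReal.ofReal (1 / L) * (3 * C0) * ν W := by ring
      _ ≤ ENNReal.ofReal (1 / L) * ENNReal.ofReal (3 * C0.toReal + 1) * ν W := by gcongr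
      _ = ENNReal.ofReal ((3 * C0.toReal + 1) / L) * ν W := by
          rw [← ENNReal.ofReal_mul (by positivity)]
          congr 2
          ring
  rcases hcase with hrad | ⟨δ, hδ, hlat⟩
  · -- radial class
    obtain ⟨qz, hqz, hmax⟩ := hSc.exists_isMaxOn hSne
      (f := fun q => ⟪ps, q - ps⟫) (by fun_prop)
    obtain ⟨pz, hpz, kz, hk0, hk1, hqk⟩ := h𝒢 qz (hSG hqz)
    have ez : qz - ps = kz • (pz - ps) := by rw [hqk]; unfold con; abel
    have hgz : 0 ≤ ⟪ps, pz - ps⟫ := hA pz hpz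
    have hzu : pz - ps ∈ cone u := by
      have := hSu qz hqz
      rw [ez] at this
      exact cone_of_smul (by linarith) this
    have hz16 : ‖pz - ps‖ ^ 2 ≤ 16 * ⟪ps, pz - ps⟫ := by
      have h1 := hrad qz hqz
      rw [ez, real_inner_smul_right, norm_smul, mul_pow, Real.norm_eq_abs, sq_abs] at h1
      have h2 : kz * (kz * ‖pz - ps‖ ^ 2) ≤ kz * (8 * ⟪ps, pz - ps⟫) := by nlinarith
      have h3 := le_of_mul_le_mul_left h2 (by linarith)
      have h4 : 1 / 2 * ‖pz - ps‖ ^ 2 ≤ kz * ‖pz - ps‖ ^ 2 := by gcongr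
      linarith
    have hmarg : ∀ q ∈ S, (1 / 1024 : ℝ) * ‖pz - con ps (1 / 4) q‖ ^ 2 ≤
        ⟪con ps (1 / 4) q, pz - con ps (1 / 4) q⟫ := by
      intro q hq
      have h1 : ⟪ps, q - ps⟫ ≤ ⟪ps, pz - ps⟫ := by
        have h2 : ⟪ps, q - ps⟫ ≤ ⟪ps, qz - ps⟫ := hmax hq
        rw [ez, real_inner_smul_right] at h2
        have h3 : kz * ⟪ps, pz - ps⟫ ≤ 1 * ⟪ps, pz - ps⟫ := by gcongr
        linarith
      have h4 : 0 ≤ ⟪q - ps, pz - ps⟫ := by
        have := cone_angle (hSu q hq) hzu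
        have h5 : 0 ≤ ‖q - ps‖ * ‖pz - ps‖ := by positivity
        linarith
      have h5 := margin_rad (hgS q hq) h1 (hrad q hq) hz16 h4
      have e1 : pz - ps - (1 / 4 : ℝ) • (q - ps) = pz - con ps (1 / 4) q := by unfold con; abel
      rw [e1] at h5
      exact h5
    refine ⟨pz, hpz, pz, hpz, con pz (1 / 2) '' (con ps (1 / 4) '' S), ?_,
      (hSc.image (continuous_con _ _)).image (continuous_con _ _), ?_, ?_⟩
    · rintro _ ⟨_, ⟨q, hq, rfl⟩, rfl⟩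
      exact con_mem hK (hAK hpz) (con_mem hK hps (hSK hq) (by norm_num) (by norm_num))
        (by norm_num) (by norm_num)
    · have h1 := move μ hc₁ hK hW hps hSK hSc hgS (hAK hpz) hmarg
      have hWm : MeasurableSet (con pz (1 / 2) '' (con ps (1 / 4) '' S)) :=
        ((hSc.image (continuous_con _ _)).image (continuous_con _ _)).measurableSet
      rw [← hd, ← hL, ← hνS S hSc.measurableSet, ← hνS _ hWm] at h1
      rw [← hνS _ hWm]
      refine hfin _ (h1.trans ?_)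
      calc ν (con pz (1 / 2) '' (con ps (1 / 4) '' S)) =
            1 * ν (con pz (1 / 2) '' (con ps (1 / 4) '' S)) := (one_mul _).symm
        _ ≤ 3 * ν (con pz (1 / 2) '' (con ps (1 / 4) '' S)) := by gcongr; norm_num
    · rintro _ ⟨_, ⟨q, hq, rfl⟩, rfl⟩
      obtain ⟨p, hp, k, hk0, hk1, a1, a2, a3, a4⟩ := hout q hq pz (hAK hpz) (hmarg q hq)
      exact ⟨p, hp, k, hk0, hk1, pz, left_mem_segment ℝ _ _, a1, a2, a3, a4⟩
  · -- lateral class
    obtain ⟨qN, hqN, hmin⟩ := hSc.exists_isMinOn hSne (f := fun q => ‖q - ps‖) (by fun_prop)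
    obtain ⟨qF, hqF, hmax⟩ := hSc.exists_isMaxOn hSne (f := fun q => ‖q - ps‖) (by fun_prop)
    obtain ⟨pN, hpN, kN, hkN0, hkN1, hqkN⟩ := h𝒢 qN (hSG hqN)
    obtain ⟨pF, hpF, kF, hkF0, hkF1, hqkF⟩ := h𝒢 qF (hSG hqF)
    have eN : qN - ps = kN • (pN - ps) := by rw [hqkN]; unfold con; abel
    have eF : qF - ps = kF • (pF - ps) := by rw [hqkF]; unfold con; abel
    have hNu : pN - ps ∈ cone u := by
      have := hSu qN hqN
      rw [eN] at this
      exact cone_of_smul (by linarith) this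
    have hFu : pF - ps ∈ cone u := by
      have := hSu qF hqF
      rw [eF] at this
      exact cone_of_smul (by linarith) this
    have hNn : ‖pN - ps‖ ≤ 2 * ‖qN - ps‖ := by
      rw [eN, norm_smul, Real.norm_of_nonneg (by linarith)]
      nlinarith [norm_nonneg (pN - ps)]
    have hFn : ‖qF - ps‖ ≤ ‖pF - ps‖ := by
      rw [eF, norm_smul, Real.norm_of_nonneg (by linarith)]
      nlinarith [norm_nonneg (pF - ps)]
    -- the targets
    have hr : ∀ j : ℕ, ∃ r ∈ segment ℝ pN pF, min (δ * 2 ^ (j + 1)) ‖qF - ps‖ ≤ ‖r - ps‖ ∧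
        ‖r - ps‖ ≤ 2 * max (δ * 2 ^ j) ‖qN - ps‖ := by
      intro j
      refine exists_seg (hNn.trans ?_) ((min_le_right _ _).trans hFn) ?_
      · gcongr; exact le_max_right _ _
      · calc min (δ * 2 ^ (j + 1)) ‖qF - ps‖ ≤ δ * 2 ^ (j + 1) := min_le_left _ _
          _ = 2 * (δ * 2 ^ j) := by ring
          _ ≤ 2 * max (δ * 2 ^ j) ‖qN - ps‖ := by gcongr; exact le_max_left _ _
    choose r hrseg hrb hrc using hr
    have hrK : ∀ j, r j ∈ K := fun j => hK.segment_subset (hAK hpN) (hAK hpF) (hrseg j)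
    -- the shells
    set G : ℕ → Set E := fun j => {q | q ∈ S ∧ δ * 2 ^ j ≤ ‖q - ps‖ ∧ ‖q - ps‖ ≤ δ * 2 ^ (j + 1)}
      with hG
    have hGc : ∀ j, IsCompact (G j) := by
      intro j
      have h1 : IsClosed {q : E | δ * 2 ^ j ≤ ‖q - ps‖} :=
        isClosed_le (by fun_prop) (by fun_prop)
      have h2 : IsClosed {q : E | ‖q - ps‖ ≤ δ * 2 ^ (j + 1)} :=
        isClosed_le (by fun_prop) (by fun_prop)
      exact hSc.inter_right (h1.inter h2)
    have hGS : ∀ j, G j ⊆ S := fun j q hq => hq.1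
    have hcmp : ∀ j, ∀ q ∈ G j, ‖q - ps‖ ≤ ‖r j - ps‖ ∧ ‖r j - ps‖ ≤ 2 * ‖q - ps‖ := by
      rintro j q ⟨hq, h1, h2⟩
      have h3 : ‖q - ps‖ ≤ ‖qF - ps‖ := hmax hq
      have h4 : ‖qN - ps‖ ≤ ‖q - ps‖ := hmin hq
      refine ⟨(le_min h2 h3).trans (hrb j), (hrc j).trans ?_⟩
      gcongr
      exact max_le h1 h4
    have hmarg : ∀ j, ∀ q ∈ G j, (1 / 1024 : ℝ) * ‖r j - con ps (1 / 4) q‖ ^ 2 ≤
        ⟪con ps (1 / 4) q, r j - con ps (1 / 4) q⟫ := by
      intro j q hq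
      obtain ⟨h1, h2⟩ := hcmp j q hq
      have hs := seg_sub (ps := ps) (hrseg j)
      have h3 := seg_cone (hSu q hq.1) hNu hFu hs
      have h4 := seg_nonneg (hA pN hpN) (hA pF hpF) hs
      have h5 := margin_lat h4 (hlat q hq.1).1 h3 h1 h2
      have e1 : r j - ps - (1 / 4 : ℝ) • (q - ps) = r j - con ps (1 / 4) q := by unfold con; abel
      rw [e1] at h5
      exact h5
    obtain ⟨N, hN⟩ := pow_unbounded_of_one_lt (‖qF - ps‖ / δ) (one_lt_two (α := ℝ))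
    rw [div_lt_iff₀ hδ] at hN
    set W : ℕ → Set E := fun j => con (r j) (1 / 2) '' (con ps (1 / 4) '' G j) with hWd
    have hWc : ∀ j, IsCompact (W j) := fun j =>
      ((hGc j).image (continuous_con _ _)).image (continuous_con _ _)
    have hUc : IsCompact (⋃ j ∈ Finset.range N, W j) :=
      (Finset.range N).isCompact_biUnion fun j _ => hWc j
    refine ⟨pN, hpN, pF, hpF, ⋃ j ∈ Finset.range N, W j, ?_, hUc, ?_, ?_⟩
    · intro p' hp'
      obtain ⟨j, -, hp'⟩ := mem_iUnion₂.1 hp'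
      obtain ⟨_, ⟨q, hq, rfl⟩, rfl⟩ := hp'
      exact con_mem hK (hrK j) (con_mem hK hps (hSK hq.1) (by norm_num) (by norm_num))
        (by norm_num) (by norm_num)
    · have hmv : ∀ j, ENNReal.ofReal L * ν (G j) ≤ ν (W j) := by
        intro j
        have h1 := move μ hc₁ hK hW hps ((hGS j).trans hSK) (hGc j)
          (fun q hq => hgS q hq.1) (hrK j) (hmarg j)
        rw [← hd, ← hL, ← hνS _ (hGc j).measurableSet, ← hνS _ (hWc j).measurableSet] at h1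
        exact h1
      have hcov : S ⊆ ⋃ j ∈ Finset.range N, G j := by
        intro q hq
        obtain ⟨h1, h2⟩ := hlat q hq
        have h3 : ‖q - ps‖ ≤ ‖qF - ps‖ := hmax hq
        have h4 : 1 ≤ ‖q - ps‖ / δ := by rwa [one_le_div hδ]
        obtain ⟨j, hj1, hj2⟩ := exists_nat_pow_near h4 (one_lt_two (α := ℝ))
        rw [le_div_iff₀ hδ] at hj1
        rw [div_lt_iff₀ hδ] at hj2
        refine mem_iUnion₂.2 ⟨j, ?_, hq, by linarith, by linarith⟩
        rw [Finset.mem_range]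
        have h5 : (2 : ℝ) ^ j * δ < 2 ^ N * δ := by linarith
        have h6 := lt_of_mul_lt_mul_right h5 hδ.le
        exact (pow_lt_pow_iff_right₀ (one_lt_two (α := ℝ))).1 h6
      have h1 : ENNReal.ofReal L * ν S ≤ ∑ j ∈ Finset.range N, ν (W j) := by
        calc ENNReal.ofReal L * ν S ≤ ENNReal.ofReal L * ∑ j ∈ Finset.range N, ν (G j) := by
              gcongr
              exact (measure_mono hcov).trans (measure_biUnion_finset_le _ _)
          _ = ∑ j ∈ Finset.range N, ENNReal.ofReal L * ν (G j) := Finset.mul_sum _ _ _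
          _ ≤ _ := Finset.sum_le_sum fun j _ => hmv j
      have hnorm : ∀ j, ∀ x ∈ W j, 3 / 8 * (δ * 2 ^ j) ≤ ‖x - ps‖ ∧
          ‖x - ps‖ ≤ 5 / 2 * (δ * 2 ^ j) := by
        rintro j _ ⟨_, ⟨q, hq, rfl⟩, rfl⟩
        obtain ⟨h1, h2⟩ := hcmp j q hq
        obtain ⟨-, h3, h4⟩ := hq
        have e1 : con (r j) (1 / 2) (con ps (1 / 4) q) - ps =
            (1 / 2 : ℝ) • (r j - ps) + (1 / 8 : ℝ) • (q - ps) := by unfold con; module
        have n1 : ‖(1 / 2 : ℝ) • (r j - ps)‖ = 1 / 2 * ‖r j - ps‖ := by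
          rw [norm_smul, Real.norm_of_nonneg (by norm_num)]
        have n2 : ‖(1 / 8 : ℝ) • (q - ps)‖ = 1 / 8 * ‖q - ps‖ := by
          rw [norm_smul, Real.norm_of_nonneg (by norm_num)]
        rw [e1]
        have h5 : δ * 2 ^ (j + 1) = 2 * (δ * 2 ^ j) := by ring
        rw [h5] at h4
        constructor
        · have h6 := norm_sub_norm_le ((1 / 2 : ℝ) • (r j - ps)) (-((1 / 8 : ℝ) • (q - ps)))
          rw [norm_neg, sub_neg_eq_add, n1, n2] at h6
          linarith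
        · have h6 := norm_add_le ((1 / 2 : ℝ) • (r j - ps)) ((1 / 8 : ℝ) • (q - ps))
          rw [n1, n2] at h6
          linarith
      have h2 := sum_measure_le ν N W (fun j => (hWc j).measurableSet) (fun x => ‖x - ps‖) hδ
        (fun j x hx => (hnorm j x hx).1) (fun j x hx => (hnorm j x hx).2)
      rw [← hνS _ hUc.measurableSet]
      exact hfin _ (h1.trans h2)
    · intro p' hp'
      obtain ⟨j, -, hp'⟩ := mem_iUnion₂.1 hp'
      obtain ⟨_, ⟨q, hq, rfl⟩, rfl⟩ := hp'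
      obtain ⟨p, hp, k, hk0, hk1, a1, a2, a3, a4⟩ := hout q hq.1 (r j) (hrK j) (hmarg j q hq)
      exact ⟨p, hp, k, hk0, hk1, r j, hrseg j, a1, a2, a3, a4⟩


/-- **Common parent on a segment**, with a constant which depends only on the dimension. -/
theorem parent_seg_unif (n : ℕ) {c₁ : ℝ} (hc₁ : 0 < c₁) : ∃ C : ℝ, 0 < C ∧
    ∀ (F : Type*) [NormedAddCommGroup F] [InnerProductSpace ℝ F] [FiniteDimensional ℝ F]
      [MeasurableSpace F] [BorelSpace F], finrank ℝ F = n → SegC F c₁ C := by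
  classical
  obtain ⟨t, ht⟩ := exists_cones (E := EuclideanSpace ℝ (Fin n))
  refine ⟨(3 * (2 * (t.card : ℝ) + 1) + 1) /
    ((1 / 2 : ℝ) ^ n * c₁ * ((1 / 4 : ℝ) ^ n * c₁)), by positivity, ?_⟩
  intro F _ _ _ _ _ hF
  let ι : F ≃ₗᵢ[ℝ] EuclideanSpace ℝ (Fin n) :=
    (stdOrthonormalBasis ℝ F).repr.trans
      (LinearIsometryEquiv.piLpCongrLeft 2 ℝ ℝ (finCongr hF))
  refine segC_of_cones hc₁ (t.image ι.symm) ?_ Finset.card_image_le (by rw [hF])
  intro v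
  obtain ⟨u, hu, hv⟩ := ht (ι v)
  refine ⟨ι.symm u, Finset.mem_image_of_mem _ hu, ?_⟩
  unfold cone at hv ⊢
  rw [mem_ofPred_eq] at hv ⊢
  have e : v - ‖v‖ • ι.symm u = ι.symm (ι v - ‖ι v‖ • u) := by
    rw [map_sub, map_smul, ι.symm_apply_apply, ι.norm_map]
  rw [e, ι.symm.norm_map]
  rwa [ι.norm_map] at hv ⊢

end meas

end Crest.Agent.R226.ParentSeg464
end

-- ▼ part R226/EContact_486
section

set_option autoImplicit false
set_option linter.unusedSectionVars false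

open MeasureTheory Bundle Set Filter
open scoped Manifold ContDiff Bundle ENNReal Topology
open Crest.GeometryTopology.MTW

namespace Crest.Agent.R226.EContact486

open Crest.Agent.R226 Crest.Agent.R226.Kant624 Crest.Agent.R226.E1Shape964
  Crest.Agent.R226.Dasm290 Crest.Agent.R226.Osc977 Crest.Agent.R226.Far977
  Crest.Agent.R226.YStar544

variable {n : ℕ} {M : Type*} [MetricSpace M] [ChartedSpace (EuclideanSpace ℝ (Fin n)) M]
  [IsManifold (𝓡 n) ∞ M]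
  [RiemannianBundle (fun p : M => TangentSpace (𝓡 n) p)]
  [CompactSpace M] {G : GeoData n M}

/-- membership of `K(x₁)`-velocities in the `y`-section of `x₁`, in terms of the gap of `u`. -/
theorem mem_QS_ctr {u : M → ℝ} (hu : CConv u) {x1 : M} {p : TangentSpace (𝓡 n) x1} {H : ℝ} :
    p ∈ QS G (ctr u) x1 H ↔ p ∈ G.K x1 ∧ Dd u x1 (G.ex x1 p) ≤ H := by
  unfold QS
  show p ∈ G.K x1 ∧ Dd (ctr u) (G.ex x1 p) x1 ≤ H ↔ _
  rw [Dd_ctr hu]

/-- the row sections of `x₁`, read in `K(x₁)`, are convex. -/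
theorem convex_row (hg : GoodAll G) {u : M → ℝ} (hu : CConv u) (x1 : M) (H : ℝ) :
    Convex ℝ {p : TangentSpace (𝓡 n) x1 | p ∈ G.K x1 ∧ Dd u x1 (G.ex x1 p) ≤ H} := by
  have h1 := convex_QS hg (CConv_ctr (CConv.continuous hu)) x1 H
  have h2 : {p : TangentSpace (𝓡 n) x1 | p ∈ G.K x1 ∧ Dd u x1 (G.ex x1 p) ≤ H} =
      QS G (ctr u) x1 H := by
    ext p
    exact (mem_QS_ctr hu).symm
  rw [h2]
  exact h1

/-- **(E1)** near-contacts `x'` of a point of an outward chord `p_b → p_F` see `y_F = exp p_F`. -/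
theorem contact_sees (hg : GoodAll G) {u : M → ℝ} (hu : CConv u) {x1 x' : M}
    {pb pF : TangentSpace (𝓡 n) x1} (hpb : pb ∈ G.K x1) (hpF : pF ∈ G.K x1) {H ε τ : ℝ}
    (hH : 0 < H) (hε : 0 ≤ ε)
    (hDb : Dd u x1 (G.ex x1 pb) ≤ H) (hDF : Dd u x1 (G.ex x1 pF) ≤ H)
    (hout : 0 ≤ inner ℝ pb (pF - pb)) (hτ0 : 0 < τ) (hτ1 : τ ≤ 1)
    (hx : Dd u x' (G.ex x1 (pb + τ • (pF - pb))) ≤ ε) :
    τ ^ 2 * Dd u x' (G.ex x1 pF) ≤ H + ε := by
  have huc := CConv.continuous hu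
  have hτ2 : τ ^ 2 ≤ 1 := by nlinarith
  have hτ2' : 0 < τ ^ 2 := by positivity
  have hmem : pb + τ • (pF - pb) ∈ G.K x1 :=
    (convex_K hg x1).add_smul_sub_mem hpb hpF ⟨hτ0.le, hτ1⟩
  rcases eq_or_ne pF pb with hEq | hne
  · have h1 : pb + τ • (pF - pb) = pF := by rw [hEq]; simp
    rw [h1] at hx
    have h2 := Dd_nonneg huc x' (G.ex x1 pF)
    have h3 : τ ^ 2 * Dd u x' (G.ex x1 pF) ≤ 1 * Dd u x' (G.ex x1 pF) :=
      mul_le_mul_of_nonneg_right hτ2 h2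
    linarith
  have hcomb : (1 - τ) • pb + τ • pF = pb + τ • (pF - pb) := by
    rw [sub_smul, one_smul, smul_sub]; abel
  set D : TangentSpace (𝓡 n) x1 := pF - pb with hD
  set g : ℝ := inner ℝ pb D with hg'
  have hDpos : 0 < ‖D‖ ^ 2 := by
    have : 0 < ‖D‖ := norm_pos_iff.2 (sub_ne_zero.2 hne)
    positivity
  have hnorm : ∀ t : ℝ, ‖pb + t • D‖ ^ 2 / 2 = ‖pb‖ ^ 2 / 2 + t * g + t ^ 2 * ‖D‖ ^ 2 / 2 := by
    intro t
    rw [norm_add_sq_real, inner_smul_right, norm_smul, mul_pow, Real.norm_eq_abs, sq_abs]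
    ring
  have hpF' : pF = pb + (1 : ℝ) • D := by rw [one_smul, hD]; abel
  have e0 := Fq_eq (u := u) (x := x') hpb
  have e1 := Fq_eq (u := u) (x := x') hpF
  have et := Fq_eq (u := u) (x := x') hmem
  have n0 := Dd_nonneg huc x' (G.ex x1 pb)
  have n1 := Dd_nonneg huc x1 (G.ex x1 (pb + τ • D))
  have key := fam_bound hg (y0 := x1) x' (H := H + ε) (r := τ * g + τ ^ 2 * ‖D‖ ^ 2 / 2)
    (N := (1 - τ ^ 2) / τ ^ 2) (by linarith)
    (by
      have : 0 ≤ τ * g := mul_nonneg hτ0.le hout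
      have : 0 < τ ^ 2 * ‖D‖ ^ 2 / 2 := by positivity
      linarith)
    (div_nonneg (by linarith) hτ2'.le) hpb hpF (a := 1 - τ) (b := τ) (by linarith) hτ0.le
    (by ring) (by rw [hcomb]; linarith)
    (by rw [hcomb, hnorm]; linarith)
    (by
      rw [hcomb, hnorm]
      have h1 : ‖pF‖ ^ 2 / 2 = ‖pb‖ ^ 2 / 2 + g + ‖D‖ ^ 2 / 2 := by
        have h2 := hnorm 1
        rw [← hpF'] at h2
        rw [h2]; ring
      rw [h1]
      have h3 : (1 - τ ^ 2) / τ ^ 2 * (τ * g + τ ^ 2 * ‖D‖ ^ 2 / 2) =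
          (1 - τ ^ 2) / τ * g + (1 - τ ^ 2) * ‖D‖ ^ 2 / 2 := by
        field_simp
      rw [h3]
      have h4 : (1 - τ) * g ≤ (1 - τ ^ 2) / τ * g := by
        refine mul_le_mul_of_nonneg_right ?_ hout
        rw [le_div_iff₀ hτ0]
        nlinarith
      nlinarith)
  rw [hcomb] at key
  have h5 : Dd u x' (G.ex x1 pF) ≤ (1 - τ ^ 2) / τ ^ 2 * (H + ε) + (H + ε) := by linarith
  calc τ ^ 2 * Dd u x' (G.ex x1 pF)
      ≤ τ ^ 2 * ((1 - τ ^ 2) / τ ^ 2 * (H + ε) + (H + ε)) :=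
        mul_le_mul_of_nonneg_left h5 hτ2'.le
    _ = H + ε := by field_simp; ring

/-- **(E1)** for contacts. -/
theorem contact_sees' (hg : GoodAll G) {u : M → ℝ} (hu : CConv u) {x1 x' : M}
    {pb pF : TangentSpace (𝓡 n) x1} (hpb : pb ∈ G.K x1) (hpF : pF ∈ G.K x1) {H τ : ℝ}
    (hH : 0 < H)
    (hDb : Dd u x1 (G.ex x1 pb) ≤ H) (hDF : Dd u x1 (G.ex x1 pF) ≤ H)
    (hout : 0 ≤ inner ℝ pb (pF - pb)) (hτ0 : 0 < τ) (hτ1 : τ ≤ 1)
    (hx : G.ex x1 (pb + τ • (pF - pb)) ∈ cSub u x') :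
    Dd u x' (G.ex x1 pF) ≤ H / τ ^ 2 := by
  have h1 := contact_sees hg hu hpb hpF hH le_rfl hDb hDF hout hτ0 hτ1
    ((Dd_eq_zero (CConv.continuous hu)).2 hx).le
  rw [add_zero] at h1
  rw [le_div_iff₀ (by positivity)]
  linarith

/-- **(E2)** near-contacts `x'` of the point `p' = p* + α (p_F - p*) + β (p - p*)`, `α + β ≤ t`, are
at top level. -/
theorem contact_top (hg : GoodAll G) (hS : SlopeLaw G) {u : M → ℝ} (hu : CConv u) {x1 x' : M}
    {ps p pF : TangentSpace (𝓡 n) x1} (hps : ps ∈ G.K x1) (hp : p ∈ G.K x1) (hpF : pF ∈ G.K x1)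
    {α β t s h H1 ε : ℝ} (hα : 0 ≤ α) (hβ : 0 ≤ β) (hαβ : α + β ≤ t) (ht1 : t ≤ 1)
    (hs0 : 0 ≤ s) (hs1 : s ≤ 1) (hh : 0 ≤ h) (hε : 0 ≤ ε)
    (hstar : Dd u x1 (G.ex x1 ps) + s * (u x' - u x1) - h ≤ Dd u x' (G.ex x1 ps))
    (hDs : Dd u x1 (G.ex x1 ps) ≤ H1) (hDp : Dd u x1 (G.ex x1 p) ≤ H1)
    (hDF : Dd u x1 (G.ex x1 pF) ≤ H1)
    (hx : Dd u x' (G.ex x1 (ps + α • (pF - ps) + β • (p - ps))) ≤ ε) :
    (1 - t) ^ 4 * (s * (u x' - u x1) - h - ε) ≤ H1 + ε := by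
  have ht0 : 0 ≤ t := by linarith
  rcases ht0.eq_or_lt with h0 | h0
  · have hα0 : α = 0 := by linarith
    have hβ0 : β = 0 := by linarith
    rw [hα0, hβ0, zero_smul, zero_smul, add_zero, add_zero] at hx
    refine toplevel hg hS hu hps hp ht0 ht1 hs0 hs1 hh hε hstar hDp ?_
    rw [← h0, zero_smul, add_zero]
    exact hx
  · set pe : TangentSpace (𝓡 n) x1 :=
      (1 - (α + β) / t) • ps + (α / t) • pF + (β / t) • p with hpe
    have hd : (α + β) / t ≤ 1 := by rw [div_le_one h0]; exact hαβ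
    have hmem : pe ∈ {p : TangentSpace (𝓡 n) x1 | p ∈ G.K x1 ∧ Dd u x1 (G.ex x1 p) ≤ H1} := by
      have hcv := convex_row hg hu x1 H1 (G := G)
      have hsum := hcv.sum_mem (t := Finset.univ) (w := ![1 - (α + β) / t, α / t, β / t])
        (z := ![ps, pF, p]) ?_ ?_ ?_
      · simpa [Fin.sum_univ_three, hpe] using hsum
      · intro i _
        fin_cases i
        · simpa using hd
        · exact div_nonneg hα h0.le
        · exact div_nonneg hβ h0.le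
      · simp [Fin.sum_univ_three]
        field_simp
        ring
      · intro i _
        fin_cases i
        · exact ⟨hps, hDs⟩
        · exact ⟨hpF, hDF⟩
        · exact ⟨hp, hDp⟩
    refine toplevel hg hS hu hps hmem.1 ht0 ht1 hs0 hs1 hh hε hstar hmem.2 ?_
    have hpt : ps + t • (pe - ps) = ps + α • (pF - ps) + β • (p - ps) := by
      have h1 : t * ((α + β) / t) = α + β := by field_simp
      have h2 : t * (α / t) = α := by field_simp
      have h3 : t * (β / t) = β := by field_simp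
      have h4 : t • (pe - ps) = (-(t * ((α + β) / t))) • ps + (t * (α / t)) • pF +
          (t * (β / t)) • p := by
        rw [hpe]; module
      rw [h4, h1, h2, h3]
      module
    rw [hpt]
    exact hx




end Crest.Agent.R226.EContact486
end

-- ▼ part R226/SlopeLaw_977
section

set_option autoImplicit false
set_option linter.unusedSectionVars false

open MeasureTheory Bundle Set Filter Asymptotics
open scoped Manifold ContDiff Bundle ENNReal Topology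
open Crest.GeometryTopology.MTW

namespace Crest.Agent.R226.SlopeLaw977

open Crest.Agent.R226 Crest.Agent.R226.Kant624 Crest.Agent.R226.Reduction624
  Crest.Agent.R226.HolderEnd915 Crest.Agent.R226.E1Shape964 Crest.Agent.R226.Dasm290
  Crest.Agent.R226.Osc977 Crest.Agent.R226.Far977 Crest.Agent.R226.NS683
  Crest.Agent.R226.Copy977

variable {n : ℕ} {M : Type*} [MetricSpace M] [ChartedSpace (EuclideanSpace ℝ (Fin n)) M]
  [IsManifold (𝓡 n) ∞ M]
  [RiemannianBundle (fun p : M => TangentSpace (𝓡 n) p)]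

/-- `gg` is `Fq` along the chord. -/
theorem gg_eq_Fq (G : GeoData n M) (x : M) (p q : TangentSpace (𝓡 n) x) (x₁ : M) (s : ℝ) :
    gg G x p q x₁ s = Fq G x x₁ (p + s • (q - p)) := by
  unfold gg Fq
  rw [halfDistSq_comm]

/-- Loeper quasiconvexity along a chord. -/
theorem Fq_le_max [CompactSpace M] {G : GeoData n M} (hg : GoodAll G) {x : M} (x₁ : M)
    {p q : TangentSpace (𝓡 n) x} (hp : p ∈ G.K x) (hq : q ∈ G.K x) {t : ℝ} (h0 : 0 ≤ t)
    (h1 : t ≤ 1) : Fq G x x₁ (p + t • (q - p)) ≤ max (Fq G x x₁ p) (Fq G x x₁ q) := by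
  have := fam hg x₁ (μ := 0) le_rfl hp hq (a := 1 - t) (b := t) (by linarith) h0 (by ring)
  have e : (1 - t) • p + t • q = p + t • (q - p) := by module
  rw [e] at this
  simpa using this

variable [CompactSpace M] [IsContMDiffRiemannianBundle (𝓡 n) ∞ (EuclideanSpace ℝ (Fin n))
    (fun p : M => TangentSpace (𝓡 n) p)]
  [IsRiemannianManifold (𝓡 n) M]

/-- **the slope law**: `(1-t)⁴ (F(1) - F(0)) ≤ F(1) - F(t)` on a chord of `K(x₁)` if `F ≥ 0` on
`[0,t]` and `F(0) ≤ F(1)`. -/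
theorem slope_law {G : GeoData n M} (hC : CutFacts G) (hg : GoodAll G) :
    ∀ (x₁ x : M) (p q : TangentSpace (𝓡 n) x₁), p ∈ G.K x₁ → q ∈ G.K x₁ →
      ∀ t : ℝ, 0 ≤ t → t ≤ 1 → (∀ r : ℝ, 0 ≤ r → r ≤ t → 0 ≤ Fq G x₁ x (p + r • (q - p))) →
      Fq G x₁ x p ≤ Fq G x₁ x q →
      (1 - t) ^ 4 * (Fq G x₁ x q - Fq G x₁ x p) ≤
        Fq G x₁ x q - Fq G x₁ x (p + t • (q - p)) := by
  intro x₁ x p q hp hq t ht0 ht1 hpos hle
  have hgg : ∀ s, gg G x₁ p q x s = Fq G x₁ x (p + s • (q - p)) := gg_eq_Fq G x₁ p q x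
  have g0 : gg G x₁ p q x 0 = Fq G x₁ x p := by rw [hgg]; simp
  have g1 : gg G x₁ p q x 1 = Fq G x₁ x q := by
    rw [hgg]; congr 1; module
  have hqc := Fq_le_max hg x hp hq ht0 ht1
  rw [max_eq_right hle] at hqc
  set φ : ℝ → ℝ := gg G x₁ p q x with hφ
  have hφt : φ t = Fq G x₁ x (p + t • (q - p)) := hgg t
  have hcont : Continuous φ := continuous_gg' G x₁ p q x
  rw [← g0, ← g1, ← hφt]
  rw [← g0, ← g1] at hle
  rw [← g1, ← hφt] at hqc
  have hpos' : ∀ r : ℝ, 0 ≤ r → r ≤ t → 0 ≤ φ r := fun r h1 h2 => by rw [hgg]; exact hpos r h1 h2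
  rcases ht1.eq_or_lt with h1 | ht
  · rw [h1]; simp
  have h1t : 0 < 1 - t := by linarith
  have hP : 0 ≤ (1 - t) ^ 4 := by positivity
  have hP1 : (1 - t) ^ 4 ≤ 1 := pow_le_one₀ h1t.le (by linarith)
  have hmax : max 0 (φ 1 - φ t) = φ 1 - φ t := max_eq_right (by linarith)
  have hφ0 := hpos' 0 le_rfl ht0
  by_cases hS : ∃ s, (0 ≤ s ∧ s ≤ t) ∧ φ s ≤ 0
  · have hcomp : IsCompact {s : ℝ | s ∈ Icc 0 t ∧ φ s ≤ 0} :=
      isCompact_Icc.inter_right (isClosed_le hcont continuous_const)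
    obtain ⟨s0, hs0, hmaxs⟩ := hcomp.exists_isGreatest (by
      obtain ⟨s, hs1, hs2⟩ := hS
      exact ⟨s, hs1, hs2⟩)
    have hφ1 : 0 ≤ φ 1 := by linarith
    rcases hs0.1.2.lt_or_eq with hs0t | h
    · have hlim : Tendsto (fun a : ℝ => (1 - t) ^ 4 * (φ 1 - φ a)) (𝓝[>] s0)
          (𝓝 ((1 - t) ^ 4 * (φ 1 - φ s0))) :=
        ((continuous_const.mul (continuous_const.sub hcont)).tendsto s0).mono_left
          nhdsWithin_le_nhds
      have h1 : (1 - t) ^ 4 * (φ 1 - φ s0) ≤ φ 1 - φ t := by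
        refine le_of_tendsto hlim ?_
        filter_upwards [Ioo_mem_nhdsGT hs0t] with a ha
        have ha0 : 0 ≤ a := hs0.1.1.trans ha.1.le
        have h2 := slope_ineq hC hg hp hq (xp := x) ha0 ha.2.le ht (fun s hs1 hs2 => by
          by_contra hneg
          push Not at hneg
          have h3 : s ≤ s0 := hmaxs ⟨⟨by linarith, hs2⟩, hneg⟩
          have := ha.1
          linarith)
        have h4 : (1 - a) ^ 4 * max 0 (φ 1 - φ t) ≤ 1 * (φ 1 - φ t) := by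
          rw [hmax]
          have h5 : (1 - a) ^ 4 ≤ 1 := pow_le_one₀ (by linarith [ha.2]) (by linarith)
          have h6 : 0 ≤ φ 1 - φ t := by linarith
          gcongr
        rw [one_mul] at h4
        exact h2.trans h4
      have h3 : (1 - t) ^ 4 * (φ 1 - φ 0) ≤ (1 - t) ^ 4 * (φ 1 - φ s0) := by
        refine mul_le_mul_of_nonneg_left ?_ hP
        have := hs0.2
        linarith
      exact h3.trans h1
    · have h2 : φ t ≤ 0 := by
        have := hs0.2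
        rwa [h] at this
      have h3 : (1 - t) ^ 4 * (φ 1 - φ 0) ≤ 1 * (φ 1 - φ 0) :=
        mul_le_mul_of_nonneg_right hP1 (by linarith)
      linarith
  · push Not at hS
    have h2 := slope_ineq hC hg hp hq (xp := x) le_rfl ht0 ht
      (fun s hs1 hs2 => hS s ⟨hs1, hs2⟩)
    rw [sub_zero, one_pow, one_mul] at h2
    have h3 : max 0 (gg G x₁ p q x 1 - gg G x₁ p q x t) = φ 1 - φ t := hmax
    rw [h3] at h2
    exact h2


end Crest.Agent.R226.SlopeLaw977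
end

-- ▼ part R226/SegSplit_879
section

set_option autoImplicit false
set_option linter.unusedSectionVars false

open MeasureTheory Bundle Set Filter
open scoped Manifold ContDiff Bundle ENNReal Topology
open Crest.GeometryTopology.MTW

namespace Crest.Agent.R226.SegSplit879

open Crest.Agent.R226 Crest.Agent.R226.Kant624 Crest.Agent.R226.E1Shape964
  Crest.Agent.R226.Dasm290 Crest.Agent.R226.Osc977 Crest.Agent.R226.Far977
  Crest.Agent.R226.YStar544 Crest.Agent.R226.SlopeLaw977 Crest.Agent.R226.EContact486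

variable {n : ℕ} {M : Type*} [MetricSpace M] [ChartedSpace (EuclideanSpace ℝ (Fin n)) M]
  [IsManifold (𝓡 n) ∞ M]
  [RiemannianBundle (fun p : M => TangentSpace (𝓡 n) p)]
  [CompactSpace M] {G : GeoData n M}

/-- a velocity of the segment `[z_N, z_F]` is in the row section. -/
theorem seg_row (hg : GoodAll G) {u : M → ℝ} (hu : CConv u) {x1 : M}
    {zN zF r : TangentSpace (𝓡 n) x1} (hN : zN ∈ G.K x1) (hF : zF ∈ G.K x1)
    (hr : r ∈ segment ℝ zN zF) {h : ℝ} (hDN : Dd u x1 (G.ex x1 zN) ≤ h)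
    (hDF : Dd u x1 (G.ex x1 zF) ≤ h) : r ∈ G.K x1 ∧ Dd u x1 (G.ex x1 r) ≤ h :=
  (convex_row hg hu x1 h).segment_subset ⟨hN, hDN⟩ ⟨hF, hDF⟩ hr

/-- **Loeper on the segment**: `min_i (D(x',y_i) - D(x₁,y_i)) ≤ D(x',exp r) - D(x₁,exp r)`. -/
theorem seg_loeper (hg : GoodAll G) {u : M → ℝ} (hu : CConv u) {x1 x' : M}
    {zN zF r : TangentSpace (𝓡 n) x1} (hN : zN ∈ G.K x1) (hF : zF ∈ G.K x1)
    (hr : r ∈ segment ℝ zN zF) :
    Dd u x' (G.ex x1 zN) - Dd u x1 (G.ex x1 zN) ≤ Dd u x' (G.ex x1 r) - Dd u x1 (G.ex x1 r) ∨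
    Dd u x' (G.ex x1 zF) - Dd u x1 (G.ex x1 zF) ≤ Dd u x' (G.ex x1 r) - Dd u x1 (G.ex x1 r) := by
  obtain ⟨a, b, ha, hb, hab, rfl⟩ := hr
  have hrK : a • zN + b • zF ∈ G.K x1 := convex_K hg x1 hN hF ha hb hab
  have h1 := Fq_le_max hg (x := x1) x' hN hF (t := b) hb (by linarith)
  have e : zN + b • (zF - zN) = a • zN + b • zF := by
    have : a = 1 - b := by linarith
    rw [this]; module
  rw [e] at h1
  have eN := Fq_eq (G := G) (u := u) (x := x') hN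
  have eF := Fq_eq (G := G) (u := u) (x := x') hF
  have er := Fq_eq (G := G) (u := u) (x := x') hrK
  rcases le_max_iff.1 h1 with h | h
  · left; linarith
  · right; linarith

/-- **the split**: `x'` sees `y_N` or `y_F`, at height `H' + h`. -/
theorem seg_split (hg : GoodAll G) {u : M → ℝ} (hu : CConv u) {x1 x' : M}
    {zN zF r : TangentSpace (𝓡 n) x1} (hN : zN ∈ G.K x1) (hF : zF ∈ G.K x1)
    (hr : r ∈ segment ℝ zN zF) {h H' : ℝ} (hDN : Dd u x1 (G.ex x1 zN) ≤ h)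
    (hDF : Dd u x1 (G.ex x1 zF) ≤ h) (hx : Dd u x' (G.ex x1 r) ≤ H') :
    Dd u x' (G.ex x1 zN) ≤ H' + h ∨ Dd u x' (G.ex x1 zF) ≤ H' + h := by
  have h0 := Dd_nonneg (CConv.continuous hu) x1 (G.ex x1 r)
  rcases seg_loeper hg hu (x' := x') hN hF hr with h1 | h1
  · left; linarith
  · right; linarith

/-- **the contacts of `p' = (1-τ) p_b + τ r`, `r ∈ [z_N, z_F]`, see `y_N` or `y_F`**, at height
`h/τ² + h`. -/
theorem contact_split (hg : GoodAll G) {u : M → ℝ} (hu : CConv u) {x1 x' : M}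
    {pb zN zF r : TangentSpace (𝓡 n) x1} (hpb : pb ∈ G.K x1) (hN : zN ∈ G.K x1) (hF : zF ∈ G.K x1)
    (hr : r ∈ segment ℝ zN zF) {h τ : ℝ} (hh : 0 < h) (hDb : Dd u x1 (G.ex x1 pb) ≤ h)
    (hDN : Dd u x1 (G.ex x1 zN) ≤ h) (hDF : Dd u x1 (G.ex x1 zF) ≤ h)
    (hout : 0 ≤ inner ℝ pb (r - pb)) (hτ0 : 0 < τ) (hτ1 : τ ≤ 1)
    (hx : G.ex x1 (pb + τ • (r - pb)) ∈ cSub u x') :
    Dd u x' (G.ex x1 zN) ≤ h / τ ^ 2 + h ∨ Dd u x' (G.ex x1 zF) ≤ h / τ ^ 2 + h := by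
  obtain ⟨hrK, hDr⟩ := seg_row hg hu hN hF hr hDN hDF
  exact seg_split hg hu hN hF hr hDN hDF
    (contact_sees' hg hu hpb hrK hh hDb hDr hout hτ0 hτ1 hx)


/-- **the volume split**: of the points of a compact set that see `y_N` or `y_F`, at least half (in
volume) see the same one. -/
theorem vol_split [MeasurableSpace M] [BorelSpace M] (vol : Measure M) [IsFiniteMeasure vol]
    {u : M → ℝ} (huc : Continuous u) {X : Set M} (hX : IsCompact X) {yN yF : M} {H : ℝ}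
    (h : ∀ x ∈ X, Dd u x yN ≤ H ∨ Dd u x yF ≤ H) :
    ∃ y, (y = yN ∨ y = yF) ∧ ∃ X' ⊆ X, IsCompact X' ∧ (∀ x ∈ X', Dd u x y ≤ H) ∧
      (vol X).toReal ≤ 2 * (vol X').toReal := by
  have hcl : ∀ y : M, IsClosed {x : M | Dd u x y ≤ H} := by
    intro y
    refine isClosed_le ?_ continuous_const
    unfold Dd halfDistSq
    fun_prop
  set XN : Set M := X ∩ {x | Dd u x yN ≤ H} with hXN
  set XF : Set M := X ∩ {x | Dd u x yF ≤ H} with hXF
  have hsub : X ⊆ XN ∪ XF := by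
    intro x hx
    rcases h x hx with h1 | h1
    · exact Or.inl ⟨hx, h1⟩
    · exact Or.inr ⟨hx, h1⟩
  have h1 : (vol X).toReal ≤ (vol XN).toReal + (vol XF).toReal := by
    rw [← ENNReal.toReal_add (measure_ne_top _ _) (measure_ne_top _ _)]
    refine ENNReal.toReal_mono ?_ ((measure_mono hsub).trans (measure_union_le _ _))
    exact ENNReal.add_ne_top.2 ⟨measure_ne_top _ _, measure_ne_top _ _⟩
  rcases le_total (vol XN).toReal (vol XF).toReal with h2 | h2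
  · exact ⟨yF, Or.inr rfl, XF, inter_subset_left, hX.inter_right (hcl yF), fun x hx => hx.2,
      by linarith⟩
  · exact ⟨yN, Or.inl rfl, XN, inter_subset_left, hX.inter_right (hcl yN), fun x hx => hx.2,
      by linarith⟩

end Crest.Agent.R226.SegSplit879
end

-- ▼ part R226/Alex_977
section

set_option autoImplicit false
set_option linter.unusedSectionVars false

open MeasureTheory Bundle Set Filter
open scoped Manifold ContDiff Bundle ENNReal Topology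
open Crest.GeometryTopology.MTW

namespace Crest.Agent.R226.Alex977

open Crest.Agent.R226 Crest.Agent.R226.Kant624 Crest.Agent.R226.Reduction624
  Crest.Agent.R226.HolderEnd915 Crest.Agent.R226.E1Shape964 Crest.Agent.R226.Dasm290
  Crest.Agent.R226.Osc977

section Metric

variable {M : Type*} [MetricSpace M]

/-- the set of contacts `x` of a set `P` of second variables. -/
def contX (u : M → ℝ) (P : Set M) : Set M := {x | ∃ y ∈ P, Dd u x y = 0}



variable [CompactSpace M]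


lemma contX_eq {u : M → ℝ} (hu : CConv u) (P : Set M) :
    contX u P = ⋃ y ∈ P, cSub (ctr u) y := by
  have huc := CConv.continuous hu
  ext x
  simp only [contX, mem_ofPred_eq, mem_iUnion, exists_prop]
  refine exists_congr fun y => and_congr_right fun _ => ?_
  rw [mem_cSub_ctr_iff hu]
  exact Dd_eq_zero huc


lemma continuous_Dd2 {u : M → ℝ} (hu : CConv u) : Continuous (fun z : M × M => Dd u z.1 z.2) := by
  have h1 := CConv.continuous hu
  have h2 := CConv.continuous (CConv_ctr h1)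
  have h3 := continuous_halfDistSq (M := M)
  unfold Dd
  exact ((h1.comp continuous_fst).add (h2.comp continuous_snd)).add h3

theorem isCompact_contX {u : M → ℝ} (hu : CConv u) {P : Set M} (hP : IsCompact P) :
    IsCompact (contX u P) := by
  have h1 : IsClosed {z : M × M | z.2 ∈ P ∧ Dd u z.1 z.2 = 0} :=
    (hP.isClosed.preimage continuous_snd).inter (isClosed_eq (continuous_Dd2 hu) continuous_const)
  have h2 : contX u P = Prod.fst '' {z : M × M | z.2 ∈ P ∧ Dd u z.1 z.2 = 0} := by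
    ext x
    constructor
    · rintro ⟨y, hy, h⟩
      exact ⟨(x, y), ⟨hy, h⟩, rfl⟩
    · rintro ⟨⟨x', y⟩, ⟨hy, h⟩, rfl⟩
      exact ⟨y, hy, h⟩
  rw [h2]
  exact h1.isCompact.image continuous_fst


variable [MeasurableSpace M] {vol : Measure M} {m : ℝ}

/-- **volume of the contact set**: from below. -/
theorem vol_le_contX {u : M → ℝ} (hu : CConv u) (hA : AlexPinch vol (ctr u) m) {P : Set M}
    (hP : MeasurableSet P) : ENNReal.ofReal m * vol P ≤ vol (contX u P) := by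
  rw [contX_eq hu]
  exact (hA P hP).1






end Metric

section Chart

variable {n : ℕ} {M : Type*} [MetricSpace M] [ChartedSpace (EuclideanSpace ℝ (Fin n)) M]
  [IsManifold (𝓡 n) ∞ M]
  [RiemannianBundle (fun p : M => TangentSpace (𝓡 n) p)]
  [CompactSpace M] [MeasurableSpace M] [BorelSpace M]

/-- membership in the contact set of the image of a set of velocities. -/
lemma mem_contX_image (G : GeoData n M) (u : M → ℝ) (x₁ : M) (W : Set (TangentSpace (𝓡 n) x₁))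
    (x : M) : x ∈ contX u (G.ex x₁ '' W) ↔ ∃ p ∈ W, Dd u x (G.ex x₁ p) = 0 := by
  constructor
  · rintro ⟨_, ⟨p, hp, rfl⟩, h⟩
    exact ⟨p, hp, h⟩
  · rintro ⟨p, hp, h⟩
    exact ⟨_, ⟨p, hp, rfl⟩, h⟩


lemma isCompact_ex_image (G : GeoData n M) {x₁ : M} {W : Set (TangentSpace (𝓡 n) x₁)}
    (hW : IsCompact W) : IsCompact (G.ex x₁ '' W) :=
  hW.image (MTWConc117.contMDiff_ex G x₁).continuous

theorem isCompact_contX_image (G : GeoData n M) {u : M → ℝ} (hu : CConv u) {x₁ : M}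
    {W : Set (TangentSpace (𝓡 n) x₁)} (hW : IsCompact W) :
    IsCompact (contX u (G.ex x₁ '' W)) :=
  isCompact_contX hu (isCompact_ex_image G hW)

/-- **new mass**: the contact set of `exp W` has volume `≥ (m/C) ∫_W J`. -/
theorem lintegral_le_contX {G : GeoData n M} {vol : Measure M} {m C : ℝ} (hC : 0 < C) {u : M → ℝ}
    (hu : CConv u) (hA : AlexPinch vol (ctr u) m) {x₁ : M}
    [MeasurableSpace (TangentSpace (𝓡 n) x₁)] {μ : Measure (TangentSpace (𝓡 n) x₁)}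
    {J : TangentSpace (𝓡 n) x₁ → ℝ≥0∞}
    (harea : ∀ A ⊆ G.K x₁, IsCompact A →
      ∫⁻ p in A, J p ∂μ ≤ ENNReal.ofReal C * vol (G.ex x₁ '' A))
    {W : Set (TangentSpace (𝓡 n) x₁)} (hWK : W ⊆ G.K x₁) (hW : IsCompact W) :
    ENNReal.ofReal (m / C) * ∫⁻ p in W, J p ∂μ ≤ vol (contX u (G.ex x₁ '' W)) := by
  have hP : MeasurableSet (G.ex x₁ '' W) := (isCompact_ex_image G hW).measurableSet
  have h1 := vol_le_contX hu hA hP
  have h2 := harea W hWK hW
  calc ENNReal.ofReal (m / C) * ∫⁻ p in W, J p ∂μ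
      ≤ ENNReal.ofReal (m / C) * (ENNReal.ofReal C * vol (G.ex x₁ '' W)) := by gcongr
    _ = ENNReal.ofReal m * vol (G.ex x₁ '' W) := by
        rw [← mul_assoc, ← ENNReal.ofReal_mul' hC.le, div_mul_cancel₀ _ hC.ne']
    _ ≤ _ := h1




end Chart

end Crest.Agent.R226.Alex977
end

-- ▼ part R226/Half1_464

set_option autoImplicit false
set_option linter.unusedSectionVars false
set_option linter.unusedVariables false

open MeasureTheory Bundle Set Filter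
open scoped Manifold ContDiff Bundle ENNReal Topology RealInnerProductSpace
open Crest.GeometryTopology.MTW

namespace Crest.Agent.R226.Half1_464

open Crest.Agent.R226 Crest.Agent.R226.Kant624 Crest.Agent.R226.Reduction624
  Crest.Agent.R226.HolderEnd915 Crest.Agent.R226.E1Shape964 Crest.Agent.R226.Dasm290
  Crest.Agent.R226.Osc977 Crest.Agent.R226.Far977 Crest.Agent.R226.NG487
  Crest.Agent.R226.YStar544 Crest.Agent.R226.Copies301 Crest.Agent.R226.WOff915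
  Crest.Agent.R226.SupPair413 Crest.Agent.R226.EContact486 Crest.Agent.R226.SegSplit879
  Crest.Agent.R226.Alex977 Crest.Agent.R226.CopiesGeo301

variable {n : ℕ} {M : Type*} [MetricSpace M] [ChartedSpace (EuclideanSpace ℝ (Fin n)) M]
  [IsManifold (𝓡 n) ∞ M]
  [RiemannianBundle (fun p : M => TangentSpace (𝓡 n) p)]
  [CompactSpace M] [IsRiemannianManifold (𝓡 n) M]
  [IsContMDiffRiemannianBundle (𝓡 n) ∞ (EuclideanSpace ℝ (Fin n))
    (fun p : M => TangentSpace (𝓡 n) p)] {G : GeoData n M}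

theorem isCompact_copies {E : Type*} [NormedAddCommGroup E] [InnerProductSpace ℝ E]
    [FiniteDimensional ℝ E] [MeasurableSpace E] [BorelSpace E] (p₀ : E) (N : ℕ) {A : Set E}
    (hA : IsCompact A) : IsCompact (copies p₀ N A) := by
  unfold copies
  exact (Finset.range N).isCompact_biUnion fun k _ => hA.image (continuous_con _ _)

/-- the two definitions of the outer half agree. -/
theorem AA_eq (G : GeoData n M) (u : M → ℝ) (x0 x1 : M) (p0 : TangentSpace (𝓡 n) x1) (h : ℝ) :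
    TukeyMass544.AA G u x0 x1 p0 h = CopiesGeo301.AA G u x0 x1 h p0 := by
  ext p
  simp only [TukeyMass544.AA, CopiesGeo301.AA, mem_ofPred_eq]
  rw [real_inner_comm p0 (p - p0), inner_sub_right]
  constructor
  · rintro ⟨a1, a2, a3, a4⟩
    exact ⟨a1, a3, a2, by linarith⟩
  · rintro ⟨a1, a2, a3, a4⟩
    exact ⟨a1, a3, a2, by linarith⟩

variable [MeasurableSpace M] [BorelSpace M]

set_option maxHeartbeats 3200000 in
/-- **Half 1**: new mass at top level. -/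
theorem half1P [IsFiniteMeasure (Measure.hausdorffMeasure (n : ℝ) : Measure M)]
    (hC : CutFacts G) (hD : DFacts G) (hM : MTWFacts G) (hg : GoodAll G) {m : ℝ} (hm : 0 < m) :
    Plan619.Half1P (Measure.hausdorffMeasure (n : ℝ) : Measure M) m := by
  have hB := hC.base347
  obtain ⟨cd, hcd, hdep⟩ := Depth946.depth_D1 hB
  obtain ⟨c₁, hc₁, hc₁1, hW⟩ := WNc344.wncP hC hM hg hcd hdep (κ := 1 / 1024) (τ := 1 / 4)
    (by norm_num) (by norm_num)
  obtain ⟨Ca, hCa, harea⟩ := Jac344.exists_area hC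
  obtain ⟨Cp, hCp, hpar⟩ := ParentSeg464.parent_seg_unif n hc₁
  have hS : SlopeLaw G := SlopeLaw977.slope_law hC hg
  set vol : Measure M := (Measure.hausdorffMeasure (n : ℝ) : Measure M) with hvol
  have hn1 : (0 : ℝ) < n + 1 := by positivity
  refine ⟨6, 1 / (n + 1), 103, 10, by positivity, by norm_num, by norm_num, ?_⟩
  intro B hB0
  -- the number of copies
  obtain ⟨c', hc'⟩ : ∃ c' : ℝ, c' = c₁ * (1 / 2) ^ n := ⟨_, rfl⟩
  have hc'0 : 0 < c' := by rw [hc']; positivity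
  obtain ⟨N0, hN0⟩ := exists_nat_ge (B * (2 * ((n + 1) * Ca * Cp)) / (m / Ca * c'))
  obtain ⟨N, hN⟩ : ∃ N : ℕ, N = N0 + 1 := ⟨_, rfl⟩
  have hNpos : 0 < N := by omega
  have hNR : (0 : ℝ) < N := by exact_mod_cast hNpos
  have hNB : B * (2 * ((n + 1) * Ca * Cp)) ≤ m / Ca * (N * c') := by
    have h1 : B * (2 * ((n + 1) * Ca * Cp)) / (m / Ca * c') ≤ N := by
      refine hN0.trans ?_
      rw [hN]; push_cast; linarith
    rw [div_le_iff₀ (by positivity)] at h1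
    calc B * (2 * ((n + 1) * Ca * Cp)) ≤ N * (m / Ca * c') := h1
      _ = m / Ca * (N * c') := by ring
  refine ⟨1 / (3 + 2 * (2 * (N : ℝ)) ^ 4), by positivity, ?_⟩
  intro δ hδ hδ0
  refine ⟨2 / δ + 2, by positivity, ?_⟩
  intro u hu x₀ x₁ h hh hCh hV hNG
  obtain ⟨huC, huA, huA'⟩ := hu
  have huc := CConv.continuous huC
  set a := u x₀ - u x₁ with ha
  have hδh : 0 < 2 / δ * h := by positivity
  have h2h : 2 * h ≤ a := by
    have : (2 / δ + 2) * h = 2 / δ * h + 2 * h := by ring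
    linarith
  have hda : 2 * h ≤ δ * a := by
    have h1 : 2 / δ * h ≤ a := by
      have : (2 / δ + 2) * h = 2 / δ * h + 2 * h := by ring
      linarith
    calc 2 * h = δ * (2 / δ * h) := by field_simp
      _ ≤ δ * a := by gcongr
  have ha0 : 0 < a := by linarith
  obtain ⟨s, hs⟩ : ∃ s : ℝ, s = h / (δ * a) := ⟨_, rfl⟩
  have hda0 : 0 < δ * a := by positivity
  have hsa : s * (δ * a) = h := by rw [hs, div_mul_cancel₀ _ hda0.ne']
  obtain ⟨hs0, hs1, p0, hp0, hpsK, hD0, hDs, hstar, hVA⟩ :=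
    TukeyMass544.start_pair hC hD hg (vol := vol) Measure.AbsolutelyContinuous.rfl huC hh hδ ha hs
      hda hNG
  -- the measure data at `x₁`
  obtain ⟨ms, bs, μ, hμ, J, hJm, hJ, hA1, hA2⟩ := harea x₁
  have hfd : FiniteDimensional ℝ (TangentSpace (𝓡 n) x₁) :=
    inferInstanceAs (FiniteDimensional ℝ (EuclideanSpace ℝ (Fin n)))
  have hrank : Module.finrank ℝ (TangentSpace (𝓡 n) x₁) = n := by
    have : Module.finrank ℝ (EuclideanSpace ℝ (Fin n)) = n := by simp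
    exact this
  have hWJ := hW x₁ J hJ
  set ps : TangentSpace (𝓡 n) x₁ := (1 - s) • p0 with hps
  set A : Set (TangentSpace (𝓡 n) x₁) := CopiesGeo301.AA G u x₀ x₁ h p0 with hAdef
  have hAc : IsCompact A := CopiesGeo301.isCompact_AA huC x₀ x₁ h p0
  have hAK : A ⊆ G.K x₁ := fun p hp => hp.1
  have hKc : Convex ℝ (G.K x₁) := convex_K hg x₁
  -- masses
  have hVA' : (vol (SS u x₀ x₁ h)).toReal ≤ (n + 1) * (vol (G.ex x₁ ''
      TukeyMass544.AA G u x₀ x₁ p0 h)).toReal := hVA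
  have e1 : vol (SS u x₀ x₁ h) ≤ ENNReal.ofReal ((n + 1) * Ca) * ∫⁻ p in A, J p ∂μ := by
    have h1 := TukeyMass544.mass_of_area (G := G) (vol := vol) huC (C := Ca) hA1 hVA'
    rw [AA_eq] at h1
    exact h1
  have hN4 : 0 < (1 / (2 * (N : ℝ))) ^ 4 := by positivity
  have hgap : 2 * h < (1 / (2 * (N : ℝ))) ^ 4 * (s * (u x₀ - u x₁) - 2 * h) := by
    rw [← ha]
    have h1 : s * a = h * (1 / δ) := by
      have : s * a * δ = h := by linarith
      field_simp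
      linarith
    have h2 : 3 + 2 * (2 * (N : ℝ)) ^ 4 ≤ 1 / δ := by
      rw [le_one_div (by positivity) hδ]; exact hδ0
    have h3 : h * (1 + 2 * (2 * (N : ℝ)) ^ 4) ≤ s * a - 2 * h := by
      rw [h1]; nlinarith
    have h4 : (1 / (2 * (N : ℝ))) ^ 4 * (2 * (N : ℝ)) ^ 4 = 1 := by
      rw [← mul_pow, one_div, inv_mul_cancel₀ (by positivity), one_pow]
    calc 2 * h < (1 / (2 * (N : ℝ))) ^ 4 * h + 2 * h := by
          have : 0 < (1 / (2 * (N : ℝ))) ^ 4 * h := by positivity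
          linarith
      _ = (1 / (2 * (N : ℝ))) ^ 4 * h + 2 * h * ((1 / (2 * (N : ℝ))) ^ 4 * (2 * (N : ℝ)) ^ 4) := by
          rw [h4, mul_one]
      _ = (1 / (2 * (N : ℝ))) ^ 4 * (h * (1 + 2 * (2 * (N : ℝ)) ^ 4)) := by ring
      _ ≤ (1 / (2 * (N : ℝ))) ^ 4 * (s * a - 2 * h) := by gcongr
  have e2 : (N : ℝ≥0∞) * (ENNReal.ofReal c' * ∫⁻ p in A, J p ∂μ) ≤
      ∫⁻ p in copies ps N A, J p ∂μ := by
    rw [hc']
    exact CopiesGeo301.mass_copies_AA hC hg huC hh.le (by linarith) hs0.le (by linarith) hp0 hD0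
      hNpos hgap hc₁.le (by norm_num) (CopiesGeo301.WNcJ.of_WNcP hWJ (by norm_num))
  set 𝒢 : Set (TangentSpace (𝓡 n) x₁) := copies ps N A with h𝒢def
  have h𝒢c : IsCompact 𝒢 := isCompact_copies ps N hAc
  have h𝒢 : ∀ q ∈ 𝒢, ∃ p ∈ A, ∃ k : ℝ, 1 / 2 ≤ k ∧ k ≤ 1 ∧ q = con ps k p := by
    intro q hq
    obtain ⟨k, hk0, hk1, p, hp, hqk⟩ := exists_of_mem_copies hNpos hq
    exact ⟨p, hp, k, hk0, hk1, hqk.symm⟩
  have h𝒢K : 𝒢 ⊆ G.K x₁ := by
    intro q hq
    obtain ⟨p, hp, k, hk0, hk1, rfl⟩ := h𝒢 q hq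
    exact con_mem hKc hpsK (hAK hp) (by linarith) hk1
  have hSS0 : vol (SS u x₀ x₁ h) ≠ 0 := by
    intro h0
    have : Vp vol u x₀ x₁ h = (vol (SS u x₀ x₁ h)).toReal := rfl
    rw [this, h0] at hV
    simp at hV
  have hIA0 : ∫⁻ p in A, J p ∂μ ≠ 0 := by
    intro h0
    rw [h0, mul_zero] at e1
    exact hSS0 (le_antisymm e1 zero_le)
  have hne0 : ∫⁻ p in 𝒢, J p ∂μ ≠ 0 := by
    intro h0
    rw [h0] at e2
    have h1 : (N : ℝ≥0∞) * (ENNReal.ofReal c' * ∫⁻ p in A, J p ∂μ) ≠ 0 := by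
      refine mul_ne_zero (by exact_mod_cast hNpos.ne') (mul_ne_zero ?_ hIA0)
      rw [Ne, ENNReal.ofReal_eq_zero, not_le]
      exact hc'0
    exact h1 (le_antisymm e2 zero_le)
  have hnet : ∫⁻ p in 𝒢, J p ∂μ ≠ ⊤ := by
    refine ne_top_of_le_ne_top ?_ (hA2 𝒢 h𝒢K h𝒢c)
    exact ENNReal.mul_ne_top ENNReal.ofReal_ne_top (measure_ne_top _ _)
  -- the parent
  obtain ⟨zN, hzN, zF, hzF, W, hWK, hWc, e3, hWp⟩ :=
    hpar (TangentSpace (𝓡 n) x₁) hrank μ (G.K x₁) J hKc hWJ ps hpsK A hAK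
      (fun p hp => CopiesGeo301.inward_AA hp hs0.le (by linarith)) 𝒢 h𝒢K h𝒢c h𝒢 hne0 hnet
  -- the contacts
  set X0 : Set M := contX u (G.ex x₁ '' W) with hX0
  have hX0c : IsCompact X0 := isCompact_contX_image G huC hWc
  have e4 := lintegral_le_contX (G := G) hCa huC huA' hA2 hWK hWc
  rw [← hX0] at e4
  have hrow := convex_row (G := G) hg huC x₁ (2 * h)
  have hkey : ∀ x ∈ X0, (Dd u x (G.ex x₁ zN) ≤ 10 * h ∨ Dd u x (G.ex x₁ zF) ≤ 10 * h) ∧
      u x ≤ u x₁ + 103 * δ * a := by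
    intro x hx
    obtain ⟨p', hp', hxp⟩ := (mem_contX_image G u x₁ W x).1 hx
    obtain ⟨p, hp, k, hk0, hk1, r, hr, hpbK, hout, hp1, hp2⟩ := hWp p' hp'
    have hDN : Dd u x₁ (G.ex x₁ zN) ≤ 2 * h := by
      have := hzN.2.2.1; linarith
    have hDF : Dd u x₁ (G.ex x₁ zF) ≤ 2 * h := by
      have := hzF.2.2.1; linarith
    have hDp : Dd u x₁ (G.ex x₁ p) ≤ 2 * h := by
      have := hp.2.2.1; linarith
    have hDb : Dd u x₁ (G.ex x₁ (con ps (k / 4) p)) ≤ 2 * h := by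
      have h1 : con ps (k / 4) p ∈ {p : TangentSpace (𝓡 n) x₁ | p ∈ G.K x₁ ∧
          Dd u x₁ (G.ex x₁ p) ≤ 2 * h} := by
        have h2 := hrow (show ps ∈ {p : TangentSpace (𝓡 n) x₁ | p ∈ G.K x₁ ∧
          Dd u x₁ (G.ex x₁ p) ≤ 2 * h} from ⟨hpsK, hDs⟩) (show p ∈ _ from ⟨hAK hp, hDp⟩)
          (a := 1 - k / 4) (b := k / 4) (by linarith) (by linarith) (by ring)
        convert h2 using 1
        unfold con; module
      exact h1.2
    obtain ⟨hrK, hDr⟩ := seg_row hg huC (hAK hzN) (hAK hzF) hr hDN hDF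
    constructor
    · have h1 := contact_split (x' := x) hg huC hpbK (hAK hzN) (hAK hzF) hr (τ := 1 / 2)
        (by linarith : 0 < 2 * h) hDb hDN hDF hout (by norm_num) (by norm_num) (by
          rw [← hp1]
          exact (Dd_eq_zero huc).1 hxp)
      have e : 2 * h / (1 / 2 : ℝ) ^ 2 + 2 * h = 10 * h := by ring
      rw [e] at h1
      exact h1
    · have h1 := contact_top (x' := x) hg hS huC hpsK (hAK hp) hrK (α := 1 / 2) (β := k / 8)
        (t := 5 / 8) (s := s) (h := h) (H1 := 2 * h) (ε := 0) (by norm_num) (by linarith)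
        (by linarith) (by norm_num) hs0.le (by linarith) hh.le le_rfl (hstar x) hDs hDp hDr (by
          rw [← hp2]
          exact hxp.le)
      have h2 : s * (u x - u x₁) ≤ 103 * h := by nlinarith
      have h3 : s * (u x - u x₁) ≤ s * (103 * δ * a) := by
        calc s * (u x - u x₁) ≤ 103 * h := h2
          _ = s * (103 * δ * a) := by rw [← hsa]; ring
      have h4 := le_of_mul_le_mul_left h3 hs0
      linarith
  obtain ⟨y, hy, X, hXX, hXc, hXy, hXv⟩ := vol_split vol huc hX0c (fun x hx => (hkey x hx).1)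
  refine ⟨y, X, hXc, ?_, fun x hx => ⟨hXy x hx, (hkey x (hXX hx)).2⟩, ?_⟩
  · rcases hy with rfl | rfl
    · have := hzN.2.1; linarith
    · have := hzF.2.1; linarith
  · -- the volume
    have h1 : ENNReal.ofReal (m / Ca * (N * c')) * vol (SS u x₀ x₁ h) ≤
        ENNReal.ofReal ((n + 1) * Ca * Cp) * vol X0 := by
      calc ENNReal.ofReal (m / Ca * (N * c')) * vol (SS u x₀ x₁ h)
          ≤ ENNReal.ofReal (m / Ca * (N * c')) *
            (ENNReal.ofReal ((n + 1) * Ca) * ∫⁻ p in A, J p ∂μ) := by gcongr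
        _ = ENNReal.ofReal (m / Ca) * ENNReal.ofReal ((n + 1) * Ca) *
            ((N : ℝ≥0∞) * (ENNReal.ofReal c' * ∫⁻ p in A, J p ∂μ)) := by
            rw [ENNReal.ofReal_mul (by positivity), ENNReal.ofReal_mul (by positivity),
              ENNReal.ofReal_natCast]
            ring
        _ ≤ ENNReal.ofReal (m / Ca) * ENNReal.ofReal ((n + 1) * Ca) *
            (ENNReal.ofReal Cp * ∫⁻ p in W, J p ∂μ) := mul_le_mul' le_rfl (e2.trans e3)
        _ = ENNReal.ofReal ((n + 1) * Ca * Cp) *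
            (ENNReal.ofReal (m / Ca) * ∫⁻ p in W, J p ∂μ) := by
            rw [ENNReal.ofReal_mul (p := (n + 1) * Ca) (by positivity)]
            ring
        _ ≤ ENNReal.ofReal ((n + 1) * Ca * Cp) * vol X0 := by gcongr
    have h2 := ENNReal.toReal_mono
      (ENNReal.mul_ne_top ENNReal.ofReal_ne_top (measure_ne_top _ _)) h1
    rw [ENNReal.toReal_mul, ENNReal.toReal_mul, ENNReal.toReal_ofReal (by positivity),
      ENNReal.toReal_ofReal (by positivity)] at h2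
    have hVe : Vp vol u x₀ x₁ h = (vol (SS u x₀ x₁ h)).toReal := rfl
    rw [hVe]
    have h3 : (0 : ℝ) < (n + 1) * Ca * Cp := by positivity
    have h4 : (n + 1) * Ca * Cp * (2 * (B * (vol (SS u x₀ x₁ h)).toReal)) ≤
        (n + 1) * Ca * Cp * (2 * (vol X).toReal) := by
      calc (n + 1) * Ca * Cp * (2 * (B * (vol (SS u x₀ x₁ h)).toReal))
          = B * (2 * ((n + 1) * Ca * Cp)) * (vol (SS u x₀ x₁ h)).toReal := by ring
        _ ≤ m / Ca * (N * c') * (vol (SS u x₀ x₁ h)).toReal := by gcongr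
        _ ≤ (n + 1) * Ca * Cp * (vol X0).toReal := h2
        _ ≤ (n + 1) * Ca * Cp * (2 * (vol X).toReal) := by gcongr
    have h5 := le_of_mul_le_mul_left h4 h3
    linarith

end Crest.Agent.R226.Half1_464
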