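import Mathlib

/-!
The PAIR lemma (crossing-free selection of the base point).

`Sees n0 th v z` : the chord `n0 + th v → n0 + z` is outward from its start.
* `three`   : of three vectors (pairwise angles `≤ 60°`, `⟪n0, ·⟫ ≥ 0`) one ordered pair sees;
* `exists_base` : for a finite measure on `{⟪n0, ·⟫ ≥ 0}` there is a base point `z` of the carrier
  seen by a fixed proportion of the mass.
-/

set_option autoImplicit false
open MeasureTheory Set Module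
open scoped ENNReal InnerProductSpace Topology

namespace Crest.Agent.R226.PairLem433

section alg

variable {E : Type*} [NormedAddCommGroup E] [InnerProductSpace ℝ E]









/-- A closed cone of opening `≤ 60°` around `u`. -/
def cone (u : E) : Set E := {v | ‖v - ‖v‖ • u‖ ≤ ‖v‖ / 2}

theorem isClosed_cone (u : E) : IsClosed (cone u) := by
  unfold cone
  exact isClosed_le (by fun_prop) (by fun_prop)

theorem cone_angle {u v w : E} (hv : v ∈ cone u) (hw : w ∈ cone u) :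
    ‖v‖ * ‖w‖ ≤ 2 * ⟪v, w⟫_ℝ := by
  unfold cone at hv hw
  rw [mem_ofPred_eq] at hv hw
  have h1 : ‖‖w‖ • v - ‖v‖ • w‖ ≤ ‖v‖ * ‖w‖ := by
    have e : ‖w‖ • v - ‖v‖ • w = ‖w‖ • (v - ‖v‖ • u) - ‖v‖ • (w - ‖w‖ • u) := by
      rw [smul_sub, smul_sub, smul_smul, smul_smul, mul_comm ‖w‖ ‖v‖]; abel
    rw [e]
    calc _ ≤ ‖‖w‖ • (v - ‖v‖ • u)‖ + ‖‖v‖ • (w - ‖w‖ • u)‖ := norm_sub_le _ _
      _ = ‖w‖ * ‖v - ‖v‖ • u‖ + ‖v‖ * ‖w - ‖w‖ • u‖ := by
          rw [norm_smul, norm_smul, norm_norm, norm_norm]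
      _ ≤ ‖w‖ * (‖v‖ / 2) + ‖v‖ * (‖w‖ / 2) := by gcongr
      _ = ‖v‖ * ‖w‖ := by ring
  have h2 : ‖‖w‖ • v - ‖v‖ • w‖ ^ 2 ≤ (‖v‖ * ‖w‖) ^ 2 := by gcongr
  have h3 : ‖‖w‖ • v - ‖v‖ • w‖ ^ 2 = 2 * (‖v‖ * ‖w‖) ^ 2 - 2 * (‖v‖ * ‖w‖) * ⟪v, w⟫_ℝ := by
    rw [norm_sub_sq_real, norm_smul, norm_smul, inner_smul_left, inner_smul_right, norm_norm,
      norm_norm]
    simp only [conj_trivial]
    ring
  rw [h3] at h2
  have h4 : (‖v‖ * ‖w‖) * (‖v‖ * ‖w‖) ≤ (‖v‖ * ‖w‖) * (2 * ⟪v, w⟫_ℝ) := by nlinarith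
  rcases (mul_nonneg (norm_nonneg v) (norm_nonneg w)).lt_or_eq with h | h
  · exact le_of_mul_le_mul_left h4 h
  · rw [← h]
    have := abs_real_inner_le_norm v w
    rw [← h] at this
    have := abs_nonpos_iff.1 this
    rw [this]; simp

theorem exists_cones [FiniteDimensional ℝ E] : ∃ t : Finset E, ∀ v : E, ∃ u ∈ t, v ∈ cone u := by
  classical
  have hs : IsCompact (Metric.sphere (0 : E) 1) := isCompact_sphere _ _
  obtain ⟨t, -, ht⟩ := hs.elim_nhds_subcover (fun u => Metric.ball u (1 / 2))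
    (fun u _ => Metric.ball_mem_nhds u (by norm_num))
  refine ⟨insert 0 t, fun v => ?_⟩
  by_cases hv : v = 0
  · exact ⟨0, Finset.mem_insert_self _ _, by simp [cone, hv]⟩
  · have hn : 0 < ‖v‖ := norm_pos_iff.2 hv
    have hu : ‖v‖⁻¹ • v ∈ Metric.sphere (0 : E) 1 := by
      rw [mem_sphere_zero_iff_norm, norm_smul, norm_inv, norm_norm, inv_mul_cancel₀ hn.ne']
    obtain ⟨u, hu1, hu2⟩ := mem_iUnion₂.1 (ht hu)
    refine ⟨u, Finset.mem_insert_of_mem hu1, ?_⟩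
    rw [Metric.mem_ball, dist_eq_norm] at hu2
    unfold cone
    rw [mem_ofPred_eq]
    have e : v - ‖v‖ • u = ‖v‖ • (‖v‖⁻¹ • v - u) := by
      rw [smul_sub, smul_smul, mul_inv_cancel₀ hn.ne', one_smul]
    rw [e, norm_smul, norm_norm]
    calc ‖v‖ * ‖‖v‖⁻¹ • v - u‖ ≤ ‖v‖ * (1 / 2) := by gcongr
      _ = ‖v‖ / 2 := by ring

end alg

section meas


variable {E : Type*} [NormedAddCommGroup E] [InnerProductSpace ℝ E] [FiniteDimensional ℝ E]
  [MeasurableSpace E] [BorelSpace E]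



end meas

end Crest.Agent.R226.PairLem433
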