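import Mathlib
import Crest.Agent.R226.T1iDef_115
import Crest.Agent.R226.NF6_946
import Crest.Agent.R226.NS1Def_683
import Crest.Agent.R226.Loeper_128
import Crest.Agent.R226.Dasm_290
import Crest.Agent.R226.Semiconcave_345

-- ▼ part R226/T1iRem_115
section

set_option autoImplicit false
set_option maxSynthPendingDepth 3

open Set Filter
open scoped ContDiff Topology

namespace Crest.Agent.R226.T1i115

variable {E : Type*} [NormedAddCommGroup E] [NormedSpace ℝ E]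
variable {V : Type*} [NormedAddCommGroup V] [NormedSpace ℝ V]

/-- `C³` with derivatives bounded by `B` at `q` -/
def C3B (Φ : E → V) (B : ℝ) (q : E) : Prop :=
  ContDiffAt ℝ 3 Φ q ∧ ∀ j ≤ 3, ‖iteratedFDeriv ℝ j Φ q‖ ≤ B

theorem C3B.n0 {Φ : E → V} {B : ℝ} {q : E} (h : C3B Φ B q) : ‖Φ q‖ ≤ B := by
  have := h.2 0 (by norm_num)
  rwa [norm_iteratedFDeriv_zero] at this

theorem C3B.n1 {Φ : E → V} {B : ℝ} {q : E} (h : C3B Φ B q) : ‖fderiv ℝ Φ q‖ ≤ B := by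
  have := h.2 1 (by norm_num)
  rwa [norm_iteratedFDeriv_one] at this

theorem C3B.n2 {Φ : E → V} {B : ℝ} {q : E} (h : C3B Φ B q) : ‖fderiv ℝ (fderiv ℝ Φ) q‖ ≤ B := by
  have := h.2 2 (by norm_num)
  rwa [← norm_iteratedFDeriv_fderiv, norm_iteratedFDeriv_one] at this

theorem C3B.n3 {Φ : E → V} {B : ℝ} {q : E} (h : C3B Φ B q) :
    ‖fderiv ℝ (fderiv ℝ (fderiv ℝ Φ)) q‖ ≤ B := by
  have := h.2 3 (by norm_num)
  rwa [← norm_iteratedFDeriv_fderiv, ← norm_iteratedFDeriv_fderiv, norm_iteratedFDeriv_one] at this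

theorem C3B.c1 {Φ : E → V} {B : ℝ} {q : E} (h : C3B Φ B q) : ContDiffAt ℝ 2 (fderiv ℝ Φ) q :=
  h.1.fderiv_right (by norm_num)

theorem C3B.c2 {Φ : E → V} {B : ℝ} {q : E} (h : C3B Φ B q) :
    ContDiffAt ℝ 1 (fderiv ℝ (fderiv ℝ Φ)) q := h.c1.fderiv_right (by norm_num)

theorem C3B.d0 {Φ : E → V} {B : ℝ} {q : E} (h : C3B Φ B q) : HasFDerivAt Φ (fderiv ℝ Φ q) q :=
  (h.1.differentiableAt (by norm_num)).hasFDerivAt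

theorem C3B.d1 {Φ : E → V} {B : ℝ} {q : E} (h : C3B Φ B q) :
    HasFDerivAt (fderiv ℝ Φ) (fderiv ℝ (fderiv ℝ Φ) q) q :=
  (h.c1.differentiableAt (by norm_num)).hasFDerivAt

theorem C3B.d2 {Φ : E → V} {B : ℝ} {q : E} (h : C3B Φ B q) :
    HasFDerivAt (fderiv ℝ (fderiv ℝ Φ)) (fderiv ℝ (fderiv ℝ (fderiv ℝ Φ)) q) q :=
  (h.c2.differentiableAt (by norm_num)).hasFDerivAt

theorem C3B.symm {Φ : E → V} {B : ℝ} {q : E} (h : C3B Φ B q) (u v : E) :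
    fderiv ℝ (fderiv ℝ Φ) q u v = fderiv ℝ (fderiv ℝ Φ) q v u := by
  have h1 : ContDiffAt ℝ 2 Φ q := h.1.of_le (by norm_num)
  exact (h1.isSymmSndFDerivAt (by simp)) u v

/-- Lipschitz bound on a segment -/
theorem lip_seg {W : Type*} [NormedAddCommGroup W] [NormedSpace ℝ W] {f : E → W} {f' : E → E →L[ℝ] W}
    {a b : E} {B : ℝ}
    (hd : ∀ q ∈ segment ℝ a b, HasFDerivAt f (f' q) q) (hb : ∀ q ∈ segment ℝ a b, ‖f' q‖ ≤ B) :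
    ‖f b - f a‖ ≤ B * ‖b - a‖ :=
  (convex_segment a b).norm_image_sub_le_of_norm_hasFDerivWithin_le
    (fun q hq => (hd q hq).hasFDerivWithinAt) hb (left_mem_segment ℝ a b) (right_mem_segment ℝ a b)

/-- first order Taylor remainder on a segment -/
theorem rem_seg {W : Type*} [NormedAddCommGroup W] [NormedSpace ℝ W] {f : E → W} {f' : E → E →L[ℝ] W}
    {f'' : E → E →L[ℝ] E →L[ℝ] W} {a b : E} {B : ℝ} (hB : 0 ≤ B)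
    (hd : ∀ q ∈ segment ℝ a b, HasFDerivAt f (f' q) q)
    (hd' : ∀ q ∈ segment ℝ a b, HasFDerivAt f' (f'' q) q)
    (hb : ∀ q ∈ segment ℝ a b, ‖f'' q‖ ≤ B) :
    ‖f b - f a - f' a (b - a)‖ ≤ B * ‖b - a‖ ^ 2 := by
  have h1 : ∀ q ∈ segment ℝ a b, ‖f' q - f' a‖ ≤ B * ‖b - a‖ := by
    intro q hq
    have hs : segment ℝ a q ⊆ segment ℝ a b :=
      (convex_segment a b).segment_subset (left_mem_segment ℝ a b) hq
    have h2 := lip_seg (f := f') (f' := f'') (a := a) (b := q) (B := B)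
      (fun r hr => hd' r (hs hr)) (fun r hr => hb r (hs hr))
    refine h2.trans (mul_le_mul_of_nonneg_left ?_ hB)
    obtain ⟨θ, hθ, rfl⟩ := (segment_eq_image' ℝ a b) ▸ hq
    rw [add_sub_cancel_left, norm_smul, Real.norm_eq_abs, abs_of_nonneg hθ.1]
    exact mul_le_of_le_one_left (norm_nonneg _) hθ.2
  have h3 := (convex_segment a b).norm_image_sub_le_of_norm_hasFDerivWithin_le' (φ := f' a)
    (fun q hq => (hd q hq).hasFDerivWithinAt) h1 (left_mem_segment ℝ a b)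
    (right_mem_segment ℝ a b)
  calc _ ≤ B * ‖b - a‖ * ‖b - a‖ := h3
    _ = _ := by ring

/-- the remainder -/
noncomputable def rem (Φ : E → V) (a b : E) : V := Φ b - Φ a - fderiv ℝ Φ a (b - a)

theorem rem_le {Φ : E → V} {B : ℝ} {a b : E} (hB : 0 ≤ B)
    (h : ∀ q ∈ segment ℝ a b, C3B Φ B q) : ‖rem Φ a b‖ ≤ B * ‖b - a‖ ^ 2 :=
  rem_seg hB (fun q hq => (h q hq).d0) (fun q hq => (h q hq).d1) (fun q hq => (h q hq).n2)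

theorem rem1_le {Φ : E → V} {B : ℝ} {a b : E} (hB : 0 ≤ B)
    (h : ∀ q ∈ segment ℝ a b, C3B Φ B q) :
    ‖fderiv ℝ Φ b - fderiv ℝ Φ a - fderiv ℝ (fderiv ℝ Φ) a (b - a)‖ ≤ B * ‖b - a‖ ^ 2 :=
  rem_seg hB (fun q hq => (h q hq).d1) (fun q hq => (h q hq).d2) (fun q hq => (h q hq).n3)


theorem lip1 {Φ : E → V} {B : ℝ} {a b : E}
    (h : ∀ q ∈ segment ℝ a b, C3B Φ B q) : ‖fderiv ℝ Φ b - fderiv ℝ Φ a‖ ≤ B * ‖b - a‖ :=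
  lip_seg (fun q hq => (h q hq).d1) (fun q hq => (h q hq).n2)

theorem hasDerivAt_ray (q : E) (r : ℝ) : HasDerivAt (fun r : ℝ => r • q) q r := by
  simpa using (hasDerivAt_id r).smul_const q

theorem norm_smul_le_of {r : ℝ} (h0 : 0 ≤ r) (h1 : r ≤ 1) (q : E) : ‖r • q‖ ≤ ‖q‖ := by
  rw [norm_smul, Real.norm_eq_abs, abs_of_nonneg h0]
  exact mul_le_of_le_one_left (norm_nonneg _) h1

/-- mean value inequality on `[r₀, 1]` -/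
theorem mv_ray {f f' : ℝ → V} {r₀ C : ℝ} (h0 : r₀ ≤ 1)
    (hf : ∀ r ∈ Icc r₀ 1, HasDerivAt f (f' r) r) (hb : ∀ r ∈ Icc r₀ 1, ‖f' r‖ ≤ C) :
    ‖f 1 - f r₀‖ ≤ C * (1 - r₀) :=
  norm_image_sub_le_of_norm_deriv_le_segment' (f' := f')
    (fun r hr => (hf r hr).hasDerivWithinAt) (fun r hr => hb r (Ico_subset_Icc_self hr)) 1
    (right_mem_Icc.2 h0)

variable {Φ : E → V} {B r₀ : ℝ} {a b : E}

theorem seg_mem {r : ℝ} (hS : ∀ r ∈ Icc r₀ 1, ∀ q ∈ segment ℝ a b, C3B Φ B (r • q))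
    (hr : r ∈ Icc r₀ 1) : ∀ q ∈ segment ℝ (r • a) (r • b), C3B Φ B q := by
  intro q hq
  obtain ⟨s, t, hs, ht, hst, rfl⟩ := hq
  have e : s • r • a + t • r • b = r • (s • a + t • b) := by
    rw [smul_add, smul_comm s, smul_comm t]
  rw [e]
  exact hS r hr _ ⟨s, t, hs, ht, hst, rfl⟩

/-- variation of the value under dilation -/
theorem scale_le (hB : 0 ≤ B) (h0 : 0 ≤ r₀) (h1 : r₀ ≤ 1)
    (hS : ∀ r ∈ Icc r₀ 1, C3B Φ B (r • a)) : ‖Φ a - Φ (r₀ • a)‖ ≤ B * ‖a‖ * (1 - r₀) := by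
  have h := mv_ray (f := fun r => Φ (r • a)) (f' := fun r => fderiv ℝ Φ (r • a) a) (C := B * ‖a‖) h1
    (fun r hr => (hS r hr).d0.comp_hasDerivAt r (hasDerivAt_ray a r))
    (fun r hr => (ContinuousLinearMap.le_opNorm _ _).trans
      (mul_le_mul_of_nonneg_right (hS r hr).n1 (norm_nonneg _)))
  simpa using h

/-- variation of a difference under dilation -/
theorem diff_scale_le (hB : 0 ≤ B) (h0 : 0 ≤ r₀) (h1 : r₀ ≤ 1)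
    (hS : ∀ r ∈ Icc r₀ 1, ∀ q ∈ segment ℝ a b, C3B Φ B (r • q)) :
    ‖(Φ b - Φ a) - (Φ (r₀ • b) - Φ (r₀ • a))‖ ≤ B * (‖b‖ + 1) * ‖b - a‖ * (1 - r₀) := by
  have ha := left_mem_segment ℝ a b
  have hb := right_mem_segment ℝ a b
  have h := mv_ray (f := fun r => Φ (r • b) - Φ (r • a))
    (f' := fun r => fderiv ℝ Φ (r • b) b - fderiv ℝ Φ (r • a) a)
    (C := B * (‖b‖ + 1) * ‖b - a‖) h1
    (fun r hr => ((hS r hr b hb).d0.comp_hasDerivAt r (hasDerivAt_ray b r)).sub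
      ((hS r hr a ha).d0.comp_hasDerivAt r (hasDerivAt_ray a r)))
    (fun r hr => by
      have e : fderiv ℝ Φ (r • b) b - fderiv ℝ Φ (r • a) a =
          (fderiv ℝ Φ (r • b) - fderiv ℝ Φ (r • a)) b + fderiv ℝ Φ (r • a) (b - a) := by
        simp only [sub_apply, map_sub]; abel
      have hr0 : 0 ≤ r := h0.trans hr.1
      have e1 := lip1 (seg_mem hS hr)
      have e2 : ‖r • b - r • a‖ ≤ ‖b - a‖ := by
        rw [← smul_sub]; exact norm_smul_le_of hr0 hr.2 _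
      have e3 : ‖(fderiv ℝ Φ (r • b) - fderiv ℝ Φ (r • a)) b‖ ≤ B * ‖b - a‖ * ‖b‖ :=
        (ContinuousLinearMap.le_opNorm _ _).trans (mul_le_mul_of_nonneg_right
          (e1.trans (mul_le_mul_of_nonneg_left e2 hB)) (norm_nonneg _))
      have e4 : ‖fderiv ℝ Φ (r • a) (b - a)‖ ≤ B * ‖b - a‖ :=
        (ContinuousLinearMap.le_opNorm _ _).trans
          (mul_le_mul_of_nonneg_right (hS r hr a ha).n1 (norm_nonneg _))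
      rw [e]
      calc _ ≤ _ := norm_add_le _ _
        _ ≤ B * ‖b - a‖ * ‖b‖ + B * ‖b - a‖ := add_le_add e3 e4
        _ = _ := by ring)
  simpa using h

/-- variation of the remainder under dilation -/
theorem rem_scale_le (hB : 0 ≤ B) (h0 : 0 ≤ r₀) (h1 : r₀ ≤ 1)
    (hS : ∀ r ∈ Icc r₀ 1, ∀ q ∈ segment ℝ a b, C3B Φ B (r • q)) :
    ‖rem Φ a b - rem Φ (r₀ • a) (r₀ • b)‖ ≤ B * (‖b‖ + 1) * ‖b - a‖ ^ 2 * (1 - r₀) := by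
  have ha := left_mem_segment ℝ a b
  have hb := right_mem_segment ℝ a b
  have h := mv_ray (f := fun r => Φ (r • b) - Φ (r • a) - fderiv ℝ Φ (r • a) (r • (b - a)))
    (f' := fun r => fderiv ℝ Φ (r • b) b - fderiv ℝ Φ (r • a) a -
      (fderiv ℝ (fderiv ℝ Φ) (r • a) a (r • (b - a)) + fderiv ℝ Φ (r • a) (b - a)))
    (C := B * (‖b‖ + 1) * ‖b - a‖ ^ 2) h1
    (fun r hr => by
      have d1 := (hS r hr b hb).d0.comp_hasDerivAt r (hasDerivAt_ray b r)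
      have d2 := (hS r hr a ha).d0.comp_hasDerivAt r (hasDerivAt_ray a r)
      have d3 := (hS r hr a ha).d1.comp_hasDerivAt r (hasDerivAt_ray a r)
      exact (d1.sub d2).sub (d3.clm_apply (hasDerivAt_ray (b - a) r)))
    (fun r hr => by
      have hr0 : 0 ≤ r := h0.trans hr.1
      have e : fderiv ℝ Φ (r • b) b - fderiv ℝ Φ (r • a) a -
          (fderiv ℝ (fderiv ℝ Φ) (r • a) a (r • (b - a)) + fderiv ℝ Φ (r • a) (b - a)) =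
          (fderiv ℝ Φ (r • b) - fderiv ℝ Φ (r • a) -
            fderiv ℝ (fderiv ℝ Φ) (r • a) (r • b - r • a)) b +
          fderiv ℝ (fderiv ℝ Φ) (r • a) (r • (b - a)) (b - a) := by
        rw [(hS r hr a ha).symm a (r • (b - a)), ← smul_sub]
        simp only [sub_apply, map_sub, map_smul, smul_apply]
        abel
      have e1 := rem1_le hB (seg_mem hS hr)
      have e2 : ‖r • b - r • a‖ ≤ ‖b - a‖ := by
        rw [← smul_sub]; exact norm_smul_le_of hr0 hr.2 _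
      have e2' : ‖r • b - r • a‖ ^ 2 ≤ ‖b - a‖ ^ 2 := pow_le_pow_left₀ (norm_nonneg _) e2 2
      have e3 : ‖(fderiv ℝ Φ (r • b) - fderiv ℝ Φ (r • a) -
            fderiv ℝ (fderiv ℝ Φ) (r • a) (r • b - r • a)) b‖ ≤ B * ‖b - a‖ ^ 2 * ‖b‖ :=
        (ContinuousLinearMap.le_opNorm _ _).trans (mul_le_mul_of_nonneg_right
          (e1.trans (mul_le_mul_of_nonneg_left e2' hB)) (norm_nonneg _))
      have e4 : ‖fderiv ℝ (fderiv ℝ Φ) (r • a) (r • (b - a)) (b - a)‖ ≤ B * ‖b - a‖ ^ 2 := by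
        refine (ContinuousLinearMap.le_opNorm₂ _ _ _).trans ?_
        have e5 : ‖r • (b - a)‖ ≤ ‖b - a‖ := norm_smul_le_of hr0 hr.2 _
        calc _ ≤ B * ‖b - a‖ * ‖b - a‖ := by
              gcongr
              exact (hS r hr a ha).n2
          _ = _ := by ring
      rw [e]
      calc _ ≤ _ := norm_add_le _ _
        _ ≤ B * ‖b - a‖ ^ 2 * ‖b‖ + B * ‖b - a‖ ^ 2 := add_le_add e3 e4
        _ = _ := by ring)
  have e : rem Φ a b - rem Φ (r₀ • a) (r₀ • b) =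
      (Φ ((1 : ℝ) • b) - Φ ((1 : ℝ) • a) - fderiv ℝ Φ ((1 : ℝ) • a) ((1 : ℝ) • (b - a))) -
      (Φ (r₀ • b) - Φ (r₀ • a) - fderiv ℝ Φ (r₀ • a) (r₀ • (b - a))) := by
    unfold rem
    simp only [one_smul, smul_sub]
  rw [e]
  exact h

end Crest.Agent.R226.T1i115
end

-- ▼ part R226/T1iReal_115
section

set_option autoImplicit false

namespace Crest.Agent.R226.T1i115

/-- arithmetic-geometric mean with a weight -/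
theorem amgm {p x y : ℝ} (hp : 0 < p) : 2 * x * y ≤ p * x ^ 2 + y ^ 2 / p := by
  have h : 0 ≤ (p * x - y) ^ 2 / p := by positivity
  have e : (p * x - y) ^ 2 / p = p * x ^ 2 - 2 * x * y + y ^ 2 / p := by
    field_simp
    ring
  linarith

theorem real_T' {B c T' a L Λ ρ lam μ w p1 p2 : ℝ}
    (h6 : 2 * lam * μ - lam ^ 2 * w + 2 * lam * p1 + lam ^ 2 * p2 ≤ T')
    (hμ : |μ| ≤ L * a) (hw : w ≤ L ^ 2 / (c * ρ)) (hp1 : |p1| ≤ B ^ 3 * L ^ 2 * Λ)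
    (hp2 : |p2| ≤ B ^ 3 * L ^ 2) :
    -(2 * |lam| * (L * a) + lam ^ 2 * (L ^ 2 / (c * ρ)) + 2 * |lam| * (B ^ 3 * L ^ 2 * Λ) +
    lam ^ 2 * (B ^ 3 * L ^ 2)) ≤ T' := by
  have hla : 0 ≤ |lam| := abs_nonneg _
  have e1 : -(2 * |lam| * (L * a)) ≤ 2 * lam * μ := by
    have f1 : |2 * lam * μ| ≤ 2 * |lam| * (L * a) := by
      rw [abs_mul, abs_mul, abs_two]
      exact mul_le_mul_of_nonneg_left hμ (by positivity)
    exact (abs_le.1 f1).1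
  have e2 : lam ^ 2 * w ≤ lam ^ 2 * (L ^ 2 / (c * ρ)) := mul_le_mul_of_nonneg_left hw (sq_nonneg _)
  have e3 : -(2 * |lam| * (B ^ 3 * L ^ 2 * Λ)) ≤ 2 * lam * p1 := by
    have f1 : |2 * lam * p1| ≤ 2 * |lam| * (B ^ 3 * L ^ 2 * Λ) := by
      rw [abs_mul, abs_mul, abs_two]
      exact mul_le_mul_of_nonneg_left hp1 (by positivity)
    exact (abs_le.1 f1).1
  have e4 : -(lam ^ 2 * (B ^ 3 * L ^ 2)) ≤ lam ^ 2 * p2 := by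
    have f1 : |lam ^ 2 * p2| ≤ lam ^ 2 * (B ^ 3 * L ^ 2) := by
      rw [abs_mul, abs_of_nonneg (sq_nonneg lam)]
      exact mul_le_mul_of_nonneg_left hp2 (sq_nonneg _)
    exact (abs_le.1 f1).1
  linarith

theorem real_T1 {B c C4 C5 T T' h a L Λ ρ x1 x2 x3 x4 : ℝ}
    (hB : 1 ≤ B) (hρ : 0 < ρ)
    (hT : T' - x1 - 2 * x2 + x3 - x4 ≤ T)
    (h1 : |x1| ≤ B * ρ * L ^ 2 * Λ ^ 2) (h2 : |x2| ≤ B * ρ * L * Λ * a)
    (h3 : ρ * (c * a ^ 2 - B * h) ≤ x3) (h4 : |x4| ≤ C4 * ρ * L ^ 2 * Λ ^ 2)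
    (h5 : h ≤ T' + C5 * L ^ 2 * Λ ^ 2) :
    (1 - ρ * B) * T' + ρ * c * a ^ 2 - 2 * (B * ρ * L * Λ * a) -
      (B + C4 + B * C5) * (ρ * L ^ 2 * Λ ^ 2) ≤ T := by
  have e1 := (abs_le.1 h1).2
  have e2 := (abs_le.1 h2).2
  have e4 := (abs_le.1 h4).2
  have e5 : ρ * B * h ≤ ρ * B * (T' + C5 * L ^ 2 * Λ ^ 2) :=
    mul_le_mul_of_nonneg_left h5 (by positivity)
  have e6 : ρ * (c * a ^ 2 - B * h) = ρ * c * a ^ 2 - ρ * B * h := by ring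
  have e7 : ρ * B * (T' + C5 * L ^ 2 * Λ ^ 2) = ρ * B * T' + B * C5 * (ρ * L ^ 2 * Λ ^ 2) := by ring
  have e8 : (1 - ρ * B) * T' = T' - ρ * B * T' := by ring
  have e9 : B * ρ * L ^ 2 * Λ ^ 2 = B * (ρ * L ^ 2 * Λ ^ 2) := by ring
  have e10 : C4 * ρ * L ^ 2 * Λ ^ 2 = C4 * (ρ * L ^ 2 * Λ ^ 2) := by ring
  have e11 : (B + C4 + B * C5) * (ρ * L ^ 2 * Λ ^ 2) = B * (ρ * L ^ 2 * Λ ^ 2) +
    C4 * (ρ * L ^ 2 * Λ ^ 2) + B * C5 * (ρ * L ^ 2 * Λ ^ 2) := by ring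
  rw [e6] at h3
  rw [e7] at e5
  rw [e9] at e1
  rw [e10] at e4
  rw [e8, e11]
  linarith

theorem real_lam {B c K L Λ ρ lam X Q : ℝ} (hB : 0 ≤ B) (hc : 0 < c) (hK : 0 ≤ K)
    (hL : 0 ≤ L) (hΛ : 0 ≤ Λ) (hρ : 0 < ρ) (hρ2 : ρ ≤ 1) (hX : 0 < X)
    (hlam : |lam| ≤ K * ρ * Λ / X) (hQ : Q = ρ * L ^ 2 * Λ ^ 2) :
    3 / (c * ρ) * (lam ^ 2 * L ^ 2) + 2 * |lam| * (B ^ 3 * L ^ 2 * Λ) + lam ^ 2 * (B ^ 3 * L ^ 2)
      ≤ (3 / c * K ^ 2 + 2 * B ^ 3 * K + B ^ 3 * K ^ 2) * ((1 + 1 / X ^ 2) * Q) := by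
  have hla : 0 ≤ |lam| := abs_nonneg _
  have hlam2 : lam ^ 2 ≤ K ^ 2 * ρ ^ 2 * Λ ^ 2 / X ^ 2 := by
    have e1 : lam ^ 2 = |lam| ^ 2 := (sq_abs _).symm
    have e2 : |lam| ^ 2 ≤ (K * ρ * Λ / X) ^ 2 := pow_le_pow_left₀ hla hlam 2
    rw [e1]
    refine e2.trans (le_of_eq ?_)
    rw [div_pow]; ring
  have hQ0 : 0 ≤ Q := by rw [hQ]; positivity
  have hb1 : 3 / (c * ρ) * (lam ^ 2 * L ^ 2) ≤ 3 / c * K ^ 2 * (1 / X ^ 2 * Q) := by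
    have e1 : 3 / (c * ρ) * (lam ^ 2 * L ^ 2) ≤
        3 / (c * ρ) * (K ^ 2 * ρ ^ 2 * Λ ^ 2 / X ^ 2 * L ^ 2) := by gcongr
    refine e1.trans (le_of_eq ?_)
    rw [hQ]; field_simp
  have hb2 : 2 * |lam| * (B ^ 3 * L ^ 2 * Λ) ≤ 2 * B ^ 3 * K * (1 / X * Q) := by
    have e1 : 2 * |lam| * (B ^ 3 * L ^ 2 * Λ) ≤ 2 * (K * ρ * Λ / X) * (B ^ 3 * L ^ 2 * Λ) := by
      gcongr
    refine e1.trans (le_of_eq ?_)
    rw [hQ]; field_simp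
  have hb3 : lam ^ 2 * (B ^ 3 * L ^ 2) ≤ B ^ 3 * K ^ 2 * (1 / X ^ 2 * Q) := by
    have e1 : lam ^ 2 * (B ^ 3 * L ^ 2) ≤ K ^ 2 * ρ ^ 2 * Λ ^ 2 / X ^ 2 * (B ^ 3 * L ^ 2) := by
      gcongr
    have e2 : K ^ 2 * ρ ^ 2 * Λ ^ 2 / X ^ 2 * (B ^ 3 * L ^ 2) =
        ρ * (B ^ 3 * K ^ 2 * (1 / X ^ 2 * Q)) := by
      rw [hQ]; field_simp
    have e3 : 0 ≤ B ^ 3 * K ^ 2 * (1 / X ^ 2 * Q) := by positivity
    have e4 : ρ * (B ^ 3 * K ^ 2 * (1 / X ^ 2 * Q)) ≤ 1 * (B ^ 3 * K ^ 2 * (1 / X ^ 2 * Q)) :=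
      mul_le_mul_of_nonneg_right hρ2 e3
    linarith
  have hX1 : 1 / X ≤ 1 + 1 / X ^ 2 := by
    have e1 : 1 / X ^ 2 = (1 / X) ^ 2 := by rw [div_pow, one_pow]
    rw [e1]
    nlinarith [sq_nonneg (1 / X - 1), sq_nonneg (1 / X)]
  have hX3 : 1 / X ^ 2 ≤ 1 + 1 / X ^ 2 := by linarith
  generalize 1 + 1 / X ^ 2 = Y at *
  have hc1 : 3 / c * K ^ 2 * (1 / X ^ 2 * Q) ≤ 3 / c * K ^ 2 * (Y * Q) := by gcongr
  have hc2 : 2 * B ^ 3 * K * (1 / X * Q) ≤ 2 * B ^ 3 * K * (Y * Q) := by gcongr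
  have hc3 : B ^ 3 * K ^ 2 * (1 / X ^ 2 * Q) ≤ B ^ 3 * K ^ 2 * (Y * Q) := by gcongr
  calc _ ≤ 3 / c * K ^ 2 * (Y * Q) + 2 * B ^ 3 * K * (Y * Q) + B ^ 3 * K ^ 2 * (Y * Q) := by
        linarith
    _ = _ := by ring

theorem real_final {B c K C4 C5 T T' h a L Λ ρ lam x1 x2 x3 x4 μ w p1 p2 X : ℝ}
    (hB : 1 ≤ B) (hc : 0 < c) (hK : 0 ≤ K) (hC4 : 0 ≤ C4) (hC5 : 0 ≤ C5)
    (hL : 0 ≤ L) (hΛ : 0 ≤ Λ) (hρ : 0 < ρ) (hρ1 : ρ * B ≤ 1)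
    (hX : 0 < X)
    (hT : T' - x1 - 2 * x2 + x3 - x4 ≤ T)
    (h1 : |x1| ≤ B * ρ * L ^ 2 * Λ ^ 2) (h2 : |x2| ≤ B * ρ * L * Λ * a)
    (h3 : ρ * (c * a ^ 2 - B * h) ≤ x3) (h4 : |x4| ≤ C4 * ρ * L ^ 2 * Λ ^ 2)
    (h5 : h ≤ T' + C5 * L ^ 2 * Λ ^ 2)
    (h6 : 2 * lam * μ - lam ^ 2 * w + 2 * lam * p1 + lam ^ 2 * p2 ≤ T')
    (hμ : |μ| ≤ L * a) (hw : w ≤ L ^ 2 / (c * ρ)) (hp1 : |p1| ≤ B ^ 3 * L ^ 2 * Λ)
    (hp2 : |p2| ≤ B ^ 3 * L ^ 2) (hlam : |lam| ≤ K * ρ * Λ / X) :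
    -((3 / c * K ^ 2 + 2 * B ^ 3 * K + B ^ 3 * K ^ 2 + (B + C4 + B * C5 + 2 * B ^ 2 / c)) *
      ((1 + 1 / X ^ 2) * (ρ * L ^ 2 * Λ ^ 2))) ≤ T := by
  have hρ2 : ρ ≤ 1 := by nlinarith
  have hT' := real_T' (c := c) (ρ := ρ) h6 hμ hw hp1 hp2
  have hT1 := real_T1 (c := c) hB hρ hT h1 h2 h3 h4 h5
  obtain ⟨Q, hQ⟩ : ∃ Q, Q = ρ * L ^ 2 * Λ ^ 2 := ⟨_, rfl⟩
  have hl := real_lam (B := B) (by linarith) hc hK hL hΛ hρ hρ2 hX hlam hQ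
  have hla : 0 ≤ |lam| := abs_nonneg _
  have hLa : 0 ≤ L * a := (abs_nonneg _).trans hμ
  have hA : 2 * (B * ρ * L * Λ * a) ≤ c / 2 * ρ * a ^ 2 + 2 * B ^ 2 / c * Q := by
    have e := amgm (p := c / 2 * ρ) (x := a) (y := B * ρ * L * Λ) (by positivity)
    have e' : (B * ρ * L * Λ) ^ 2 / (c / 2 * ρ) = 2 * B ^ 2 / c * Q := by
      rw [hQ]; field_simp
    rw [e'] at e
    linarith
  have hS1 : 2 * |lam| * (L * a) ≤ c / 2 * ρ * a ^ 2 + 2 / (c * ρ) * (lam ^ 2 * L ^ 2) := by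
    have e := amgm (p := c / 2 * ρ) (x := a) (y := |lam| * L) (by positivity)
    have e' : (|lam| * L) ^ 2 / (c / 2 * ρ) = 2 / (c * ρ) * (lam ^ 2 * L ^ 2) := by
      rw [mul_pow, sq_abs]
      field_simp
    rw [e'] at e
    linarith
  have hdiv : lam ^ 2 * (L ^ 2 / (c * ρ)) + 2 / (c * ρ) * (lam ^ 2 * L ^ 2) =
      3 / (c * ρ) * (lam ^ 2 * L ^ 2) := by
    field_simp
    ring
  have hQ0 : 0 ≤ Q := by rw [hQ]; positivity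
  have hX4 : (1 : ℝ) ≤ 1 + 1 / X ^ 2 := by
    have : 0 ≤ 1 / X ^ 2 := by positivity
    linarith
  rw [← hQ] at hT1 ⊢
  generalize 1 + 1 / X ^ 2 = Y at *
  have hYQ : Q ≤ Y * Q := le_mul_of_one_le_left hQ0 hX4
  have hD : (B + C4 + B * C5 + 2 * B ^ 2 / c) * Q ≤ (B + C4 + B * C5 + 2 * B ^ 2 / c) * (Y * Q) :=
    mul_le_mul_of_nonneg_left hYQ (by positivity)
  have hS0 : 0 ≤ 2 * |lam| * (L * a) + lam ^ 2 * (L ^ 2 / (c * ρ)) + 2 * |lam| * (B ^ 3 * L ^ 2 * Λ) +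
    lam ^ 2 * (B ^ 3 * L ^ 2) := by positivity
  have hT'' : -(2 * |lam| * (L * a) + lam ^ 2 * (L ^ 2 / (c * ρ)) + 2 * |lam| * (B ^ 3 * L ^ 2 * Λ) +
    lam ^ 2 * (B ^ 3 * L ^ 2)) ≤ (1 - ρ * B) * T' := by
    generalize 2 * |lam| * (L * a) + lam ^ 2 * (L ^ 2 / (c * ρ)) + 2 * |lam| * (B ^ 3 * L ^ 2 * Λ) +
      lam ^ 2 * (B ^ 3 * L ^ 2) = S at *
    have e1 : 0 ≤ 1 - ρ * B := by linarith
    have e2 : 0 ≤ ρ * B := by positivity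
    have e3 : (1 - ρ * B) * (-S) ≤ (1 - ρ * B) * T' := mul_le_mul_of_nonneg_left hT' e1
    have e4 : 0 ≤ ρ * B * S := mul_nonneg e2 hS0
    linarith
  have e : (3 / c * K ^ 2 + 2 * B ^ 3 * K + B ^ 3 * K ^ 2 + (B + C4 + B * C5 + 2 * B ^ 2 / c)) *
      (Y * Q) = (3 / c * K ^ 2 + 2 * B ^ 3 * K + B ^ 3 * K ^ 2) * (Y * Q) +
      (B + C4 + B * C5 + 2 * B ^ 2 / c) * (Y * Q) := by ring
  rw [e]
  have e' : (B + C4 + B * C5 + 2 * B ^ 2 / c) * Q = (B + C4 + B * C5) * Q + 2 * B ^ 2 / c * Q := by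
    ring
  rw [e'] at hD
  linarith

end Crest.Agent.R226.T1i115
end

-- ▼ part R226/T1iAlg_115
section

set_option autoImplicit false

open Set Filter
open scoped ContDiff Topology

namespace Crest.Agent.R226.T1i115

section alg
variable {E : Type*} [NormedAddCommGroup E] [InnerProductSpace ℝ E]

local notation "⟪" x ", " y "⟫" => inner ℝ x y

variable {H0 H1 G0 P H0' H1' G0' P' : E →L[ℝ] E →L[ℝ] ℝ} {a0 d ζ ξ ξ' m z : E}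

/-- `H1' m m = T' + e' ζ ζ + P' ξ' ξ'` -/
theorem alg_o2 (hs1' : ∀ u v, H1' u v = H1' v u)
    (hm : ∀ u, H1' m u = H0' ζ u - H1' ζ u) :
    H1' m m = (-(P' ξ' ξ') + H1' (ζ + m) (ζ + m) - H0' ζ ζ + G0' ζ ζ) +
      (H1' ζ ζ - H0' ζ ζ - G0' ζ ζ) + P' ξ' ξ' := by
  simp only [map_add, add_apply]
  have e1 := hm ζ
  have e2 := hs1' ζ m
  linarith

theorem alg_o1 (hs1' : ∀ u v, H1' u v = H1' v u) (hs1 : ∀ u v, H1 u v = H1 v u)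
    (hm : ∀ u, H1' m u = H0' ζ u - H1' ζ u) :
    (-(P' ξ' ξ') + H1' (ζ + m) (ζ + m) - H0' ζ ζ + G0' ζ ζ) -
      ((H1 ζ ζ - H0 ζ ζ - G0 ζ ζ) - (H1' ζ ζ - H0' ζ ζ - G0' ζ ζ)) -
      2 * ((H1 ζ m - H0 ζ m) - (H1' ζ m - H0' ζ m)) + (H1' m m - H1 m m) -
      (P ξ ξ - P' ξ' ξ') =
    -(P ξ ξ) + (2 * H0 ζ (ζ + m) - H1 (ζ + m) (ζ + m)) - H0 ζ ζ + G0 ζ ζ := by
  simp only [map_add, add_apply]
  have e1 := hm ζ
  have e2 := hs1' ζ m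
  have e3 := hm m
  have e4 := hs1 ζ m
  linarith

/-- the quadratic polynomial of the radial moves -/
theorem alg_o3 {lam : ℝ} (hs0' : ∀ u v, H0' u v = H0' v u) (hs1' : ∀ u v, H1' u v = H1' v u)
    (hsG : ∀ u v, G0' u v = G0' v u) (hsP : ∀ u v, P' u v = P' v u)
    (hm : ∀ u, H1' m u = H0' ζ u - H1' ζ u)
    (hξ' : ∀ u, H0' ζ u = ⟪ξ', u⟫)
    (hz : ∀ u, H1' z u = ⟪d, u⟫) (hg0 : ∀ u, H0' a0 u = ⟪a0, u⟫)
    (hg1 : ∀ u, H1' (a0 + d) u = ⟪a0 + d, u⟫) (hgG : ∀ u, G0' a0 u = ⟪d, u⟫ - H0' d u) :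
    -(P' (ξ' + lam • a0) (ξ' + lam • a0)) +
      H1' ((ζ + m) + lam • ((a0 + d) - z)) ((ζ + m) + lam • ((a0 + d) - z)) -
      H0' (ζ + lam • a0) (ζ + lam • a0) + G0' (ζ + lam • a0) (ζ + lam • a0) =
    (-(P' ξ' ξ') + H1' (ζ + m) (ζ + m) - H0' ζ ζ + G0' ζ ζ) - 2 * lam * ⟪m, d⟫ +
      lam ^ 2 * (⟪d, z⟫ - ‖d‖ ^ 2) - 2 * lam * P' ξ' a0 - lam ^ 2 * P' a0 a0 := by
  -- `u = a0 + d - z` satisfies `H1' u = ⟪a0, .⟫`
  obtain ⟨u, hu⟩ : ∃ u, u = (a0 + d) - z := ⟨_, rfl⟩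
  have hu1 : ∀ w, H1' u w = ⟪a0, w⟫ := by
    intro w
    have e1 := hg1 w
    rw [hu, map_sub, sub_apply, e1, hz, inner_add_left]
    ring
  rw [← hu]
  have k1 : H1' u u = ‖a0‖ ^ 2 - ‖d‖ ^ 2 + ⟪d, z⟫ := by
    have e1 : ⟪a0, z⟫ = ⟪a0, d⟫ + ‖d‖ ^ 2 - ⟪d, z⟫ := by
      have f1 : H1' z (a0 + d) = ⟪a0 + d, z⟫ := by rw [hs1', hg1]
      rw [hz] at f1
      rw [inner_add_right, inner_add_left, real_inner_self_eq_norm_sq] at f1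
      have f2 := real_inner_comm a0 d
      linarith
    rw [hu1, hu, inner_sub_right, inner_add_right, real_inner_self_eq_norm_sq, e1]
    ring
  have k2 : ⟪a0, m⟫ = -⟪ζ, d⟫ + ⟪ξ', d⟫ - ⟪m, d⟫ := by
    have f1 : H1' m (a0 + d) = ⟪a0 + d, m⟫ := by rw [hs1', hg1]
    rw [hm] at f1
    have f2 : H1' ζ (a0 + d) = ⟪a0 + d, ζ⟫ := by rw [hs1', hg1]
    have f3 : H0' ζ a0 = ⟪a0, ζ⟫ := by rw [hs0', hg0]
    rw [f2, map_add, f3, hξ', inner_add_left, inner_add_left] at f1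
    have f4 := real_inner_comm d ζ
    have f5 := real_inner_comm d m
    linarith
  have k3 : G0' a0 ζ = ⟪ζ, d⟫ - ⟪ξ', d⟫ := by
    rw [hgG, hs0' d ζ, hξ']
    have f4 := real_inner_comm d ζ
    linarith
  have k4 : G0' a0 a0 = 0 := by
    rw [hgG, hs0' d a0, hg0]
    have f4 := real_inner_comm d a0
    linarith
  have k5 : H0' a0 ζ = ⟪a0, ζ⟫ := hg0 ζ
  have k6 : H0' a0 a0 = ‖a0‖ ^ 2 := by rw [hg0, real_inner_self_eq_norm_sq]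
  have k7 : H1' u ζ = ⟪a0, ζ⟫ := hu1 ζ
  have k8 : H1' u m = ⟪a0, m⟫ := hu1 m
  have s1 := hs1' ζ u
  have s2 := hs1' m u
  have s3 := hs0' ζ a0
  have s4 := hsG ζ a0
  have s5 := hsP a0 ξ'
  simp only [map_add, map_smul, add_apply, smul_apply, smul_eq_mul]
  rw [s1, s2, s3, s4, s5, k1, k3, k4, k5, k6, k7, k8, k2]
  ring

theorem form_le {H : E →L[ℝ] E →L[ℝ] ℝ} {b : ℝ} (hb : ‖H‖ ≤ b) (u v : E) :
    |H u v| ≤ b * ‖u‖ * ‖v‖ := by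
  rw [← Real.norm_eq_abs]
  refine (ContinuousLinearMap.le_opNorm₂ _ _ _).trans ?_
  gcongr

/-- **the static inequality, from the bounds of the two stages.** -/
theorem alg_final {B c r ρ T κ X : ℝ} (hB : 1 ≤ B) (hc : 0 < c)
    (hρ : 0 < ρ) (hρB : ρ * B ≤ 1) (hρ2 : ρ ≤ 1 / 2) {q0 D v : E} (hr : r = 1 - ρ)
    (hv : v = ζ + m) (ha0 : a0 = r • q0) (hd : d = r • D)
    (hs0' : ∀ u v, H0' u v = H0' v u) (hs1' : ∀ u v, H1' u v = H1' v u)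
    (hs1 : ∀ u v, H1 u v = H1 v u)
    (hsG : ∀ u v, G0' u v = G0' v u) (hsP : ∀ u v, P' u v = P' v u)
    (hm : ∀ u, H1' m u = H0' ζ u - H1' ζ u)
    (hξ : ∀ u, H0 ζ u = ⟪ξ, u⟫) (hξ' : ∀ u, H0' ζ u = ⟪ξ', u⟫)
    (hz : ∀ u, H1' z u = ⟪d, u⟫) (hg0 : ∀ u, H0' a0 u = ⟪a0, u⟫)
    (hg1 : ∀ u, H1' (a0 + d) u = ⟪a0 + d, u⟫) (hgG : ∀ u, G0' a0 u = ⟪d, u⟫ - H0' d u)
    (hT : -(P ξ ξ) + (2 * ⟪v, ξ⟫ - H1 v v) - H0 ζ ζ + G0 ζ ζ ≤ T)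
    (hM : ∀ lam : ℝ, ⟪d, ξ' + lam • a0⟫ = 0 →
      0 ≤ -(P' (ξ' + lam • a0) (ξ' + lam • a0)) +
      H1' ((ζ + m) + lam • ((a0 + d) - z)) ((ζ + m) + lam • ((a0 + d) - z)) -
      H0' (ζ + lam • a0) (ζ + lam • a0) + G0' (ζ + lam • a0) (ζ + lam • a0))
    (hX : X ≠ 0) (hXD : ⟪q0, D⟫ = X * ‖D‖) (hκ : κ = ⟪D, ξ⟫) (hρκ : ρ * (‖D‖ * ‖ζ‖) = |κ|)
    (hD0 : 0 < ‖D‖)
    (hnq : ‖q0‖ ≤ B)
    (bH0' : ‖H0'‖ ≤ B) (bH0 : ‖H0‖ ≤ B) (bP' : ‖P'‖ ≤ B * ‖D‖ ^ 2)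
    (bPP : ‖P - P'‖ ≤ B * ρ * ‖D‖ ^ 2)
    (be' : ‖H1' - H0' - G0'‖ ≤ B * ‖D‖ ^ 2)
    (bee : ‖(H1 - H0 - G0) - (H1' - H0' - G0')‖ ≤ B * ρ * ‖D‖ ^ 2)
    (bjj : ‖(H1 - H0) - (H1' - H0')‖ ≤ B * ρ * ‖D‖)
    (b00 : ‖H0 - H0'‖ ≤ B * ρ)
    (hpos : ρ * (c * ‖m‖ ^ 2 - B * H1' m m) ≤ H1' m m - H1 m m)
    (hcoer : c * ρ * ‖z‖ ^ 2 ≤ H1' z z) :
    -((3 / c * (4 * (1 + B)) ^ 2 + 2 * B ^ 3 * (4 * (1 + B)) + B ^ 3 * (4 * (1 + B)) ^ 2 +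
        (B + 3 * B ^ 3 + B * (B + B ^ 3) + 2 * B ^ 2 / c)) *
      ((1 + 1 / X ^ 2) * (|κ| * ‖D‖ * ‖ζ‖))) ≤ T := by
  have hB0 : 0 < B := by linarith
  have hr0 : 1 / 2 ≤ r := by rw [hr]; linarith
  have hr1 : r ≤ 1 := by rw [hr]; linarith
  obtain ⟨T', hT'⟩ : ∃ T', T' = -(P' ξ' ξ') + H1' (ζ + m) (ζ + m) - H0' ζ ζ + G0' ζ ζ := ⟨_, rfl⟩
  -- norms
  have nD : ‖d‖ ≤ ‖D‖ := by
    rw [hd, norm_smul, Real.norm_eq_abs, abs_of_nonneg (by linarith)]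
    exact mul_le_of_le_one_left (norm_nonneg _) hr1
  have na : ‖a0‖ ≤ B := by
    rw [ha0, norm_smul, Real.norm_eq_abs, abs_of_nonneg (by linarith)]
    exact (mul_le_of_le_one_left (norm_nonneg _) hr1).trans hnq
  have nξ : ‖ξ‖ ≤ B * ‖ζ‖ := by
    have e1 : ‖ξ‖ ^ 2 ≤ B * ‖ζ‖ * ‖ξ‖ := by
      rw [← real_inner_self_eq_norm_sq, ← hξ]
      exact (le_abs_self _).trans (form_le bH0 ζ ξ)
    by_contra h
    push Not at h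
    have h0 : 0 < ‖ξ‖ := lt_of_le_of_lt (by positivity) h
    nlinarith
  have nξ' : ‖ξ'‖ ≤ B * ‖ζ‖ := by
    have e1 : ‖ξ'‖ ^ 2 ≤ B * ‖ζ‖ * ‖ξ'‖ := by
      rw [← real_inner_self_eq_norm_sq, ← hξ']
      exact (le_abs_self _).trans (form_le bH0' ζ ξ')
    by_contra h
    push Not at h
    have h0 : 0 < ‖ξ'‖ := lt_of_le_of_lt (by positivity) h
    nlinarith
  have nξξ' : ‖ξ - ξ'‖ ≤ B * ρ * ‖ζ‖ := by
    have e1 : ‖ξ - ξ'‖ ^ 2 ≤ B * ρ * ‖ζ‖ * ‖ξ - ξ'‖ := by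
      have e2 : ⟪ξ - ξ', ξ - ξ'⟫ = (H0 - H0') ζ (ξ - ξ') := by
        rw [sub_apply, sub_apply, hξ, hξ', ← inner_sub_left]
      rw [← real_inner_self_eq_norm_sq, e2]
      exact (le_abs_self _).trans (form_le b00 ζ (ξ - ξ'))
    by_contra h
    push Not at h
    have h0 : 0 < ‖ξ - ξ'‖ := lt_of_le_of_lt (by positivity) h
    nlinarith
  -- the value of `lam`
  have hda : ⟪d, a0⟫ = r ^ 2 * (X * ‖D‖) := by
    rw [hd, ha0, real_inner_smul_left, real_inner_smul_right, real_inner_comm, hXD]; ring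
  have hda0 : ⟪d, a0⟫ ≠ 0 := by
    rw [hda]
    have : r ≠ 0 := by linarith
    positivity
  obtain ⟨lam, hlam⟩ : ∃ lam, lam = -⟪d, ξ'⟫ / ⟪d, a0⟫ := ⟨_, rfl⟩
  have hlam0 : ⟪d, ξ' + lam • a0⟫ = 0 := by
    rw [inner_add_right, real_inner_smul_right, hlam, div_mul_cancel₀ _ hda0]; ring
  have hM' := hM lam hlam0
  rw [alg_o3 hs0' hs1' hsG hsP hm hξ' hz hg0 hg1 hgG, ← hT'] at hM'
  -- the bound of `lam`
  have hκ' : |⟪d, ξ'⟫| ≤ (1 + B) * |κ| := by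
    have e1 : ⟪d, ξ'⟫ = r * (κ - (H0 - H0') ζ D) := by
      rw [hd, real_inner_smul_left, sub_apply, sub_apply, hξ, hξ', hκ, real_inner_comm D ξ,
        real_inner_comm D ξ']
      ring
    have e2 : |(H0 - H0') ζ D| ≤ B * |κ| := by
      refine (form_le b00 ζ D).trans (le_of_eq ?_)
      rw [← hρκ]; ring
    rw [e1, abs_mul, abs_of_nonneg (by linarith : (0:ℝ) ≤ r)]
    have e3 : |κ - (H0 - H0') ζ D| ≤ (1 + B) * |κ| := by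
      refine (abs_sub _ _).trans ?_
      linarith
    have e4 : 0 ≤ |κ - (H0 - H0') ζ D| := abs_nonneg _
    nlinarith
  have hlamb : |lam| ≤ 4 * (1 + B) * ρ * ‖ζ‖ / |X| := by
    have hX0 : 0 < |X| := abs_pos.2 hX
    rw [hlam, abs_div, abs_neg, hda, abs_mul, abs_mul, abs_norm, abs_of_nonneg (sq_nonneg r),
      div_le_div_iff₀ (by positivity) hX0]
    have e1 : |⟪d, ξ'⟫| * |X| ≤ (1 + B) * |κ| * |X| := mul_le_mul_of_nonneg_right hκ' hX0.le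
    have e2 : (1 : ℝ) ≤ 4 * r ^ 2 := by nlinarith
    have e3 : 0 ≤ (1 + B) * |κ| * |X| := by positivity
    calc |⟪d, ξ'⟫| * |X| ≤ (1 + B) * |κ| * |X| * 1 := by linarith
      _ ≤ (1 + B) * |κ| * |X| * (4 * r ^ 2) := mul_le_mul_of_nonneg_left e2 e3
      _ = 4 * (1 + B) * ρ * ‖ζ‖ * (r ^ 2 * (|X| * ‖D‖)) := by rw [← hρκ]; ring
  -- the bound of `z`
  have hw : ⟪d, z⟫ - ‖d‖ ^ 2 ≤ ‖D‖ ^ 2 / (c * ρ) := by
    have e1 : ⟪d, z⟫ = H1' z z := (hz z).symm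
    have e2 : ⟪d, z⟫ ≤ ‖D‖ * ‖z‖ :=
      (real_inner_le_norm d z).trans (mul_le_mul_of_nonneg_right nD (norm_nonneg _))
    have hcρ : 0 < c * ρ := by positivity
    have e3 : ⟪d, z⟫ ≤ ‖D‖ ^ 2 / (c * ρ) := by
      have f1 := amgm (p := c * ρ) (x := ‖z‖) (y := ‖D‖) hcρ
      rw [e1] at e2 ⊢
      have f2 : c * ρ * ‖z‖ ^ 2 ≤ H1' z z := hcoer
      linarith
    have e4 : 0 ≤ ‖d‖ ^ 2 := by positivity
    linarith
  -- collect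
  have o1 := alg_o1 (H0 := H0) (G0 := G0) (G0' := G0') (P := P) (P' := P') (ξ := ξ) (ξ' := ξ') hs1' hs1 hm
  rw [← hT'] at o1
  have o2 := alg_o2 (G0' := G0') (P' := P') (ξ' := ξ') hs1' hm
  rw [← hT'] at o2
  have hvξ : ⟪v, ξ⟫ = H0 ζ (ζ + m) := by rw [hξ, real_inner_comm, hv]
  rw [hvξ, hv, ← o1] at hT
  have hfin := real_final (B := B) (c := c) (K := 4 * (1 + B)) (C4 := 3 * B ^ 3) (C5 := B + B ^ 3)
    (T := T) (T' := T') (h := H1' m m) (a := ‖m‖) (L := ‖D‖) (Λ := ‖ζ‖) (ρ := ρ) (lam := lam)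
    (x1 := (H1 ζ ζ - H0 ζ ζ - G0 ζ ζ) - (H1' ζ ζ - H0' ζ ζ - G0' ζ ζ))
    (x2 := (H1 ζ m - H0 ζ m) - (H1' ζ m - H0' ζ m)) (x3 := H1' m m - H1 m m)
    (x4 := P ξ ξ - P' ξ' ξ') (μ := ⟪m, d⟫) (w := ⟪d, z⟫ - ‖d‖ ^ 2) (p1 := P' ξ' a0)
    (p2 := P' a0 a0) (X := |X|) hB hc (by positivity) (by positivity) (by positivity)
    (norm_nonneg _) (norm_nonneg _) hρ hρB (abs_pos.2 hX) hT ?_ ?_ hpos ?_ ?_ ?_ ?_ hw ?_ ?_ hlamb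
  · rw [sq_abs] at hfin
    have e : (1 + 1 / X ^ 2) * (ρ * ‖D‖ ^ 2 * ‖ζ‖ ^ 2) = (1 + 1 / X ^ 2) * (|κ| * ‖D‖ * ‖ζ‖) := by
      rw [← hρκ]; ring
    rw [e] at hfin
    exact hfin
  · have e1 := form_le bee ζ ζ
    simp only [sub_apply] at e1
    refine e1.trans (le_of_eq ?_)
    ring
  · have e1 := form_le bjj ζ m
    simp only [sub_apply] at e1
    refine e1.trans (le_of_eq ?_)
    ring
  · have e1 : P ξ ξ - P' ξ' ξ' = (P - P') ξ ξ + P' (ξ - ξ') (ξ + ξ') := by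
      have s := hsP ξ' ξ
      simp only [sub_apply, map_sub, map_add]
      rw [s]; ring
    have e2 := form_le bPP ξ ξ
    have e3 := form_le bP' (ξ - ξ') (ξ + ξ')
    have e4 : ‖ξ + ξ'‖ ≤ 2 * (B * ‖ζ‖) := (norm_add_le _ _).trans (by linarith)
    have e5 : B * ρ * ‖D‖ ^ 2 * ‖ξ‖ * ‖ξ‖ ≤ B * ρ * ‖D‖ ^ 2 * (B * ‖ζ‖) * (B * ‖ζ‖) := by gcongr
    have e6 : B * ‖D‖ ^ 2 * ‖ξ - ξ'‖ * ‖ξ + ξ'‖ ≤
        B * ‖D‖ ^ 2 * (B * ρ * ‖ζ‖) * (2 * (B * ‖ζ‖)) := by gcongr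
    rw [e1]
    refine (abs_add_le _ _).trans ?_
    calc |(P - P') ξ ξ| + |P' (ξ - ξ') (ξ + ξ')| ≤
        B * ρ * ‖D‖ ^ 2 * (B * ‖ζ‖) * (B * ‖ζ‖) + B * ‖D‖ ^ 2 * (B * ρ * ‖ζ‖) * (2 * (B * ‖ζ‖)) :=
          add_le_add (e2.trans e5) (e3.trans e6)
      _ = 3 * B ^ 3 * ρ * ‖D‖ ^ 2 * ‖ζ‖ ^ 2 := by ring
  · have e1 := form_le be' ζ ζ
    simp only [sub_apply] at e1
    have e2 := form_le bP' ξ' ξ'
    have e3 : B * ‖D‖ ^ 2 * ‖ξ'‖ * ‖ξ'‖ ≤ B * ‖D‖ ^ 2 * (B * ‖ζ‖) * (B * ‖ζ‖) := by gcongr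
    have e4 := (abs_le.1 e1).2
    have e5 := (abs_le.1 (e2.trans e3)).2
    rw [o2]
    have e6 : B * ‖D‖ ^ 2 * ‖ζ‖ * ‖ζ‖ + B * ‖D‖ ^ 2 * (B * ‖ζ‖) * (B * ‖ζ‖) =
      (B + B ^ 3) * ‖D‖ ^ 2 * ‖ζ‖ ^ 2 := by ring
    linarith
  · linarith
  · rw [mul_comm]
    exact (abs_real_inner_le_norm m d).trans (mul_le_mul_of_nonneg_left nD (norm_nonneg _))
  · have e1 := form_le bP' ξ' a0
    have e3 : B * ‖D‖ ^ 2 * ‖ξ'‖ * ‖a0‖ ≤ B * ‖D‖ ^ 2 * (B * ‖ζ‖) * B := by gcongr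
    refine (e1.trans e3).trans (le_of_eq ?_)
    ring
  · have e1 := form_le bP' a0 a0
    have e3 : B * ‖D‖ ^ 2 * ‖a0‖ * ‖a0‖ ≤ B * ‖D‖ ^ 2 * B * B := by gcongr
    refine (e1.trans e3).trans (le_of_eq ?_)
    ring

end alg

end Crest.Agent.R226.T1i115
end

-- ▼ part R226/T1iStat_115
section

set_option autoImplicit false
set_option maxSynthPendingDepth 3

open MeasureTheory Bundle Set Filter
open scoped Manifold ContDiff Bundle ENNReal Topology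
open Crest.GeometryTopology.MTW
open Crest.Agent.R226.Calc347 Crest.Agent.R226.MTWConc117 Crest.Agent.R226.Base347
open Crest.Agent.R226.Crit347 Crest.Agent.R226.Focal347 Crest.Agent.R226.NF946

namespace Crest.Agent.R226.T1i115

variable {n : ℕ} {M : Type*} [MetricSpace M] [ChartedSpace (EuclideanSpace ℝ (Fin n)) M]
  [IsManifold (𝓡 n) ∞ M]
  [RiemannianBundle (fun p : M => TangentSpace (𝓡 n) p)]
  [IsContMDiffRiemannianBundle (𝓡 n) ∞ (EuclideanSpace ℝ (Fin n))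
    (fun p : M => TangentSpace (𝓡 n) p)] [CompactSpace M]
  {G : GeoData n M}

local notation "⟪" x ", " y "⟫" => inner ℝ x y

/-- the first normal form (regular part): `Pf q (ξ, ξ) = φ_ξ(q)` near `K/2` -/
noncomputable def Pf (G : GeoData n M) (y : M) (q : TangentSpace (𝓡 n) y) :
    TangentSpace (𝓡 n) y →L[ℝ] TangentSpace (𝓡 n) y →L[ℝ] ℝ := PfA (F G y) q

theorem exists_C3B_Hf (hB : Base G) : ∃ B : ℝ, 0 ≤ B ∧ ∀ y : M, ∀ q ∈ G.K y, C3B (Hf G y) B q := by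
  obtain ⟨δ, B, hδ, hB0, h⟩ := unif_Hf hB 3
  refine ⟨B, hB0, fun y q hq => ?_⟩
  have h1 := h y q q hq (by simpa using hδ)
  exact ⟨by exact_mod_cast h1.1, h1.2⟩

theorem exists_C3B_Pf (hB : Base G) : ∃ B : ℝ, 0 ≤ B ∧ ∀ y : M, ∀ q ∈ G.K y,
    C3B (Pf G y) B ((1 / 2 : ℝ) • q) := by
  obtain ⟨δ, B, hδ, hB0, h⟩ := unif_F0 hB (θ := 1 / 2) (by norm_num) (by norm_num) (3 + 2)
  refine ⟨B, hB0, fun y q hq => ?_⟩
  obtain ⟨h1, h2⟩ := h y q 0 ((1 / 2 : ℝ) • q) hq (by simpa using hδ) (by simpa using hδ)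
  have h3 := PfA_bound (F := F G y) (q := (1 / 2 : ℝ) • q) (k := 3) h1 h2
  exact ⟨by exact_mod_cast h3.1, h3.2⟩

theorem phi_half (hB : Base G) {y : M} {q : TangentSpace (𝓡 n) y} (hq : q ∈ G.K y)
    (ξ : TangentSpace (𝓡 n) y) : G.phi y ξ ((1 / 2 : ℝ) • q) = Pf G y ((1 / 2 : ℝ) • q) ξ ξ :=
  phi_eq_PfA ((hB.contDiffAt_F_zero (hB.smul_mem_I hq (by norm_num) (by norm_num))).of_le
    two_le_infty) ξ

theorem Pf_symm (hB : Base G) {y : M} {q : TangentSpace (𝓡 n) y} (hq : q ∈ G.I y)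
    (u v : TangentSpace (𝓡 n) y) : Pf G y q u v = Pf G y q v u := by
  have h := (hB.contDiffAt_F_zero hq).of_le two_le_infty
  unfold Pf
  rw [PfA_apply h, PfA_apply h, hess_symm h]

theorem fderiv_form {V : Type*} [NormedAddCommGroup V] [NormedSpace ℝ V]
    {Φ : V → V →L[ℝ] V →L[ℝ] ℝ} {p : V} (h : DifferentiableAt ℝ Φ p) (θ u v : V) :
    fderiv ℝ (fun q => Φ q u v) p θ = fderiv ℝ Φ p θ u v := by
  have h1 : DifferentiableAt ℝ (fun q => Φ q u) p := h.clm_apply (differentiableAt_const u)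
  rw [fderiv_apply_gen h1, fderiv_apply_gen h]

theorem DHf_eq_form (hB : Base G) {y : M} {q : TangentSpace (𝓡 n) y} (hq : q ∈ G.K y)
    (θ u v : TangentSpace (𝓡 n) y) : DHf G y q θ u v = fderiv ℝ (Hf G y) q θ u v := by
  have h : ContDiffAt ℝ ∞ (Hf G y) q := contDiffAt_Hf hB hq
  exact fderiv_form (h.differentiableAt (by simp)) θ u v

theorem dPf_symm (hB : Base G) {y : M} {q : TangentSpace (𝓡 n) y} (hq : q ∈ G.I y)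
    (hd : DifferentiableAt ℝ (Pf G y) q) (θ u v : TangentSpace (𝓡 n) y) :
    fderiv ℝ (Pf G y) q θ u v = fderiv ℝ (Pf G y) q θ v u := by
  rw [← fderiv_form hd, ← fderiv_form hd]
  have h : (fun q => Pf G y q u v) =ᶠ[𝓝 q] fun q => Pf G y q v u := by
    filter_upwards [(hB.isOpen_I y).mem_nhds hq] with q' hq'
    exact Pf_symm hB hq' u v
  rw [h.fderiv_eq]

theorem line_mem (hB : Base G) {y : M} {q : TangentSpace (𝓡 n) y} (hq : q ∈ G.I y)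
    (D : TangentSpace (𝓡 n) y) : ∀ᶠ s : ℝ in 𝓝 0, q + s • D ∈ G.I y := by
  have hc : ContinuousAt (fun s : ℝ => q + s • D) 0 := by fun_prop
  have : G.I y ∈ 𝓝 (q + (0 : ℝ) • D) := by
    rw [zero_smul, add_zero]; exact (hB.isOpen_I y).mem_nhds hq
  exact hc this

/-- the derivative of `φ_ξ` in the direction `D`, in normal form -/
theorem deriv_phi (hB : Base G) {y : M} {q₀ : TangentSpace (𝓡 n) y} (hq₀ : q₀ ∈ G.I y)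
    {ξ ζ : TangentSpace (𝓡 n) y} (hζ : ∀ θ, Hf G y q₀ ζ θ = ⟪ξ, θ⟫) (D : TangentSpace (𝓡 n) y)
    (hP : DifferentiableAt ℝ (Pf G y) ((1 / 2 : ℝ) • q₀)) {a : ℝ}
    (ha : HasDerivAt (fun s : ℝ => G.phi y ξ (q₀ + s • D)) a 0) :
    a = 2 * fderiv ℝ (Pf G y) ((1 / 2 : ℝ) • q₀) ((1 / 2 : ℝ) • D) ξ ξ +
      fderiv ℝ (Hf G y) q₀ D ζ ζ := by
  have hK := hB.I_subset y hq₀
  have hHd : DifferentiableAt ℝ (Hf G y) q₀ :=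
    ContDiffAt.differentiableAt (n := ∞) (contDiffAt_Hf hB hK) (by simp)
  have hmem := line_mem hB hq₀ D
  -- regular part
  have h1 : HasDerivAt (fun s : ℝ => Pf G y ((1 / 2 : ℝ) • q₀ + s • ((1 / 2 : ℝ) • D)) ξ ξ)
      (fderiv ℝ (Pf G y) ((1 / 2 : ℝ) • q₀) ((1 / 2 : ℝ) • D) ξ ξ) 0 :=
    hasDerivAt_apply_gen (hasDerivAt_apply_gen (hasDerivAt_line_gen hP ((1 / 2 : ℝ) • D)) ξ) ξ
  have h2 : HasDerivAt (fun s : ℝ => G.phi y ξ ((1 / 2 : ℝ) • (q₀ + s • D)))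
      (fderiv ℝ (Pf G y) ((1 / 2 : ℝ) • q₀) ((1 / 2 : ℝ) • D) ξ ξ) 0 := by
    refine h1.congr_of_eventuallyEq ?_
    filter_upwards [hmem] with s hs
    rw [phi_half hB (hB.I_subset y hs), smul_add, smul_comm]
  have h3 : HasDerivAt (fun s : ℝ => Hf G y (q₀ + s • D) ζ ζ) (fderiv ℝ (Hf G y) q₀ D ζ ζ) 0 :=
    hasDerivAt_apply_gen (hasDerivAt_apply_gen (hasDerivAt_line_gen hHd D) ζ) ζ
  have h4 : HasDerivAt (fun s : ℝ => Rf G y ξ (q₀ + s • D) -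
      (2 * ⟪ζ, ξ⟫ - Hf G y (q₀ + s • D) ζ ζ))
      ((2 * fderiv ℝ (Pf G y) ((1 / 2 : ℝ) • q₀) ((1 / 2 : ℝ) • D) ξ ξ - a) -
        (0 - fderiv ℝ (Hf G y) q₀ D ζ ζ)) 0 :=
    ((h2.const_mul 2).sub ha).sub ((hasDerivAt_const (0 : ℝ) (2 * ⟪ζ, ξ⟫)).sub h3)
  have hmin : IsLocalMin (fun s : ℝ => Rf G y ξ (q₀ + s • D) -
      (2 * ⟪ζ, ξ⟫ - Hf G y (q₀ + s • D) ζ ζ)) 0 := by
    have h0 : Rf G y ξ (q₀ + (0 : ℝ) • D) - (2 * ⟪ζ, ξ⟫ - Hf G y (q₀ + (0 : ℝ) • D) ζ ζ) = 0 := by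
      rw [zero_smul, add_zero, Rf_eq hB hq₀ hζ, hζ, real_inner_comm]; ring
    filter_upwards [hmem] with s hs
    rw [h0]
    have := le_Rf hB hs ξ ζ
    linarith
  have h5 := hmin.hasDerivAt_eq_zero h4
  linarith

/-- **normal form of `T`** -/
theorem T_formula (hB : Base G) {y : M} {q₀ q₁ : TangentSpace (𝓡 n) y} (hq₀ : q₀ ∈ G.I y)
    (hq₁ : q₁ ∈ G.I y)
    {ξ ζ : TangentSpace (𝓡 n) y} (hζ : ∀ θ, Hf G y q₀ ζ θ = ⟪ξ, θ⟫)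
    (hP : DifferentiableAt ℝ (Pf G y) ((1 / 2 : ℝ) • q₀)) {a : ℝ}
    (ha : HasDerivAt (fun s : ℝ => G.phi y ξ (q₀ + s • (q₁ - q₀))) a 0) :
    G.phi y ξ q₀ - G.phi y ξ q₁ + a =
      -(((2 : ℝ) • rem (Pf G y) ((1 / 2 : ℝ) • q₀) ((1 / 2 : ℝ) • q₁)) ξ ξ) + Rf G y ξ q₁ -
        Hf G y q₀ ζ ζ + fderiv ℝ (Hf G y) q₀ (q₁ - q₀) ζ ζ := by
  have h1 := deriv_phi hB hq₀ hζ (q₁ - q₀) hP ha
  have h2 := phi_eq hB hq₀ hζ
  have h3 : G.phi y ξ q₁ = 2 * G.phi y ξ ((1 / 2 : ℝ) • q₁) - Rf G y ξ q₁ := by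
    unfold Rf; ring
  rw [phi_half hB (hB.I_subset y hq₀)] at h2
  rw [phi_half hB (hB.I_subset y hq₁)] at h3
  rw [h1, h2, h3]
  unfold rem
  simp only [smul_apply, sub_apply, smul_eq_mul]
  rw [smul_sub]
  ring

/-- MTW: `T ≥ 0` if `⟪D, ξ⟫ = 0` -/
theorem T_nonneg (hM : MTWFacts G) {y : M} {q₀ q₁ : TangentSpace (𝓡 n) y}
    (hseg : segment ℝ q₀ q₁ ⊆ G.I y) {ξ : TangentSpace (𝓡 n) y} (h0 : ⟪q₁ - q₀, ξ⟫ = 0) {a : ℝ}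
    (ha : HasDerivAt (fun s : ℝ => G.phi y ξ (q₀ + s • (q₁ - q₀))) a 0) :
    0 ≤ G.phi y ξ q₀ - G.phi y ξ q₁ + a := by
  have h1 := ha.tendsto_slope_zero_right
  simp only [zero_add, zero_smul, add_zero, smul_eq_mul] at h1
  have h2 : G.phi y ξ q₁ - G.phi y ξ q₀ ≤ a := by
    apply ge_of_tendsto h1
    have : ∀ᶠ t : ℝ in 𝓝[>] 0, t < 1 := by
      apply mem_nhdsWithin_of_mem_nhds
      exact Iio_mem_nhds zero_lt_one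
    filter_upwards [this, self_mem_nhdsWithin] with t ht ht0
    have ht0' : 0 < t := ht0
    have h3 := hM.concave y q₀ q₁ ξ hseg h0 t ht0'.le ht.le
    have e : (1 - t) • q₀ + t • q₁ = q₀ + t • (q₁ - q₀) := by module
    rw [e] at h3
    rw [le_inv_mul_iff₀ ht0']
    linarith
  linarith

/-- existence of the derivative of `φ_ξ` on lines of `I` -/
theorem exists_deriv_phi (hB : Base G) {y : M} {q₀ : TangentSpace (𝓡 n) y} (hq₀ : q₀ ∈ G.I y)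
    (ξ D : TangentSpace (𝓡 n) y) :
    ∃ a : ℝ, HasDerivAt (fun s : ℝ => G.phi y ξ (q₀ + s • D)) a 0 := by
  have h1 := contDiffAt_phi_slice (G := G) y q₀ ξ D 0 (by
    rw [zero_smul, add_zero]; exact hB.smooth_cost y q₀ hq₀)
  exact ⟨_, (h1.differentiableAt (by norm_num)).hasDerivAt⟩

/-- the trivial lower bound `T ≥ -C L² Λ²` -/
theorem T_ge_trivial (hB : Base G) {y : M} {q₀ q₁ : TangentSpace (𝓡 n) y} (hq₀ : q₀ ∈ G.I y)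
    (hq₁ : q₁ ∈ G.I y)
    {ξ ζ : TangentSpace (𝓡 n) y} (hζ : ∀ θ, Hf G y q₀ ζ θ = ⟪ξ, θ⟫)
    (hP : DifferentiableAt ℝ (Pf G y) ((1 / 2 : ℝ) • q₀)) {a : ℝ}
    (ha : HasDerivAt (fun s : ℝ => G.phi y ξ (q₀ + s • (q₁ - q₀))) a 0) :
    -(((2 : ℝ) • rem (Pf G y) ((1 / 2 : ℝ) • q₀) ((1 / 2 : ℝ) • q₁)) ξ ξ) -
      rem (Hf G y) q₀ q₁ ζ ζ ≤ G.phi y ξ q₀ - G.phi y ξ q₁ + a := by
  rw [T_formula hB hq₀ hq₁ hζ hP ha]
  have h1 := le_Rf hB hq₁ ξ ζ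
  have h2 : ⟪ζ, ξ⟫ = Hf G y q₀ ζ ζ := by rw [hζ, real_inner_comm]
  have h3 : rem (Hf G y) q₀ q₁ ζ ζ =
      Hf G y q₁ ζ ζ - Hf G y q₀ ζ ζ - fderiv ℝ (Hf G y) q₀ (q₁ - q₀) ζ ζ := rfl
  rw [h3]
  linarith

end Crest.Agent.R226.T1i115
end

-- ▼ part R226/T1iMain_115
section

set_option autoImplicit false
set_option maxSynthPendingDepth 3

open MeasureTheory Bundle Set Filter
open scoped Manifold ContDiff Bundle ENNReal Topology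
open Crest.GeometryTopology.MTW
open Crest.Agent.R226.Calc347 Crest.Agent.R226.MTWConc117 Crest.Agent.R226.Base347
open Crest.Agent.R226.Crit347 Crest.Agent.R226.Focal347 Crest.Agent.R226.NF946

namespace Crest.Agent.R226.T1i115

variable {n : ℕ} {M : Type*} [MetricSpace M] [ChartedSpace (EuclideanSpace ℝ (Fin n)) M]
  [IsManifold (𝓡 n) ∞ M]
  [RiemannianBundle (fun p : M => TangentSpace (𝓡 n) p)]
  [IsContMDiffRiemannianBundle (𝓡 n) ∞ (EuclideanSpace ℝ (Fin n))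
    (fun p : M => TangentSpace (𝓡 n) p)] [CompactSpace M]
  {G : GeoData n M}

local notation "⟪" x ", " y "⟫" => inner ℝ x y

omit [IsContMDiffRiemannianBundle (𝓡 n) ∞ (EuclideanSpace ℝ (Fin n))
    (fun p : M => TangentSpace (𝓡 n) p)] in
theorem exists_norm_bound (G : GeoData n M) : ∃ Dm : ℝ, 0 ≤ Dm ∧ ∀ y : M, ∀ q ∈ G.K y, ‖q‖ ≤ Dm := by
  refine ⟨Metric.diam (univ : Set M), Metric.diam_nonneg, fun y q hq => ?_⟩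
  rw [← show dist y (G.ex y q) = ‖q‖ from hq]
  exact Metric.dist_le_diam_of_mem isCompact_univ.isBounded (mem_univ _) (mem_univ _)

/-- the radial increment of `Hf` from `RadP` -/
theorem radial (hB : Base G) {c0 C0 : ℝ} (hc0 : 0 < c0) (hC0 : 0 ≤ C0)
    (hR : RadP G c0 C0) {B1 Dm : ℝ} (hB1 : 0 ≤ B1) (hDm : 0 ≤ Dm)
    (h1 : ∀ y : M, ∀ q ∈ G.K y, C3B (Hf G y) B1 q)
    (h2 : ∀ y : M, ∀ q ∈ G.K y, ‖q‖ ≤ Dm) {y : M} {q : TangentSpace (𝓡 n) y} (hq : q ∈ G.K y)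
    (v : TangentSpace (𝓡 n) y) {ρ r : ℝ} (hρ : 0 < ρ) (hρ2 : ρ ≤ 1 / 2) (hr : r = 1 - ρ)
    (hρ3 : C0 * B1 * Dm * ρ ≤ c0 / 2) (hρ4 : 2 * C0 * ρ ≤ 1) :
    ρ * (c0 / 4 * ‖v‖ ^ 2 - 2 * C0 * Hf G y (r • q) v v) ≤
        Hf G y (r • q) v v - Hf G y q v v ∧
      c0 / 4 * ρ * ‖v‖ ^ 2 ≤ Hf G y (r • q) v v := by
  have hr1 : r < 1 := by linarith
  have hr0 : 1 / 2 ≤ r := by linarith
  have hmem : ∀ s ∈ Icc r 1, s • q ∈ G.K y := fun s hs =>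
    hB.star y q hq s (by linarith [hs.1]) hs.2
  have hd : ∀ s ∈ Icc r 1, HasDerivAt (fun s : ℝ => Hf G y (s • q) v v)
      (fderiv ℝ (Hf G y) (s • q) q v v) s := by
    intro s hs
    have e0 : HasFDerivAt (Hf G y) (fderiv ℝ (Hf G y) (s • q)) (s • q) := (h1 y _ (hmem s hs)).d0
    have e1 : HasDerivAt (fun s : ℝ => Hf G y (s • q)) (fderiv ℝ (Hf G y) (s • q) q) s :=
      HasFDerivAt.comp_hasDerivAt (f := fun s : ℝ => s • q) s e0 (hasDerivAt_ray q s)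
    exact hasDerivAt_apply_gen (hasDerivAt_apply_gen e1 v) v
  have hbd : ∀ s ∈ Icc r 1, ‖fderiv ℝ (Hf G y) (s • q) q v v‖ ≤ B1 * Dm * ‖v‖ ^ 2 := by
    intro s hs
    have e1 : ‖fderiv ℝ (Hf G y) (s • q) q‖ ≤ B1 * Dm := by
      refine (ContinuousLinearMap.le_opNorm _ _).trans ?_
      exact mul_le_mul (h1 y _ (hmem s hs)).n1 (h2 y q hq) (norm_nonneg _) hB1
    have e2 := form_le e1 v v
    rw [Real.norm_eq_abs]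
    refine e2.trans (le_of_eq ?_)
    ring
  have hg0 : 0 ≤ Hf G y (r • q) v v := Hf_nonneg hB (hmem r ⟨le_rfl, hr1.le⟩) v
  have hg1 : 0 ≤ Hf G y q v v := Hf_nonneg hB hq v
  have hlip : ∀ s ∈ Icc r 1, Hf G y (s • q) v v ≤ Hf G y (r • q) v v + B1 * Dm * ρ * ‖v‖ ^ 2 := by
    intro s hs
    have e1 := norm_image_sub_le_of_norm_deriv_le_segment' (f := fun s : ℝ => Hf G y (s • q) v v)
      (f' := fun s : ℝ => fderiv ℝ (Hf G y) (s • q) q v v) (C := B1 * Dm * ‖v‖ ^ 2)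
      (fun s hs => (hd s hs).hasDerivWithinAt) (fun s hs => hbd s (Ico_subset_Icc_self hs)) s hs
    rw [Real.norm_eq_abs] at e1
    have e2 := (abs_le.1 e1).2
    have e3 : B1 * Dm * ‖v‖ ^ 2 * (s - r) ≤ B1 * Dm * ‖v‖ ^ 2 * ρ :=
      mul_le_mul_of_nonneg_left (by linarith [hs.2]) (by positivity)
    have e4 : Hf G y (s • q) v v - Hf G y (r • q) v v ≤ B1 * Dm * ‖v‖ ^ 2 * (s - r) := e2
    linarith
  obtain ⟨s, hs, hslope⟩ := exists_hasDerivAt_eq_slope (fun s : ℝ => Hf G y (s • q) v v)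
    (fun s : ℝ => fderiv ℝ (Hf G y) (s • q) q v v) hr1
    (fun s hs => (hd s hs).continuousAt.continuousWithinAt)
    (fun s hs => hd s (Ioo_subset_Icc_self hs))
  have hs' : s ∈ Icc r 1 := Ioo_subset_Icc_self hs
  have hs0 : 0 < s := by linarith [hs.1]
  -- `g'(s) ≤ -(c0/2)‖v‖² + 2 C0 g(r)`
  have hder : fderiv ℝ (Hf G y) (s • q) q v v ≤
      -(c0 / 2 * ‖v‖ ^ 2) + 2 * C0 * Hf G y (r • q) v v := by
    have e1 := hR y (s • q) (hmem s hs') v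
    rw [DHf_eq_form hB (hmem s hs'), map_smul, smul_apply, smul_apply, smul_eq_mul] at e1
    have e2 := mul_le_mul_of_nonneg_left (hlip s hs') hC0
    have e3 : C0 * B1 * Dm * ρ * ‖v‖ ^ 2 ≤ c0 / 2 * ‖v‖ ^ 2 :=
      mul_le_mul_of_nonneg_right hρ3 (by positivity)
    have e4 : s * fderiv ℝ (Hf G y) (s • q) q v v ≤
        -(c0 / 2 * ‖v‖ ^ 2) + C0 * Hf G y (r • q) v v := by
      have e5 : C0 * (Hf G y (r • q) v v + B1 * Dm * ρ * ‖v‖ ^ 2) =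
        C0 * Hf G y (r • q) v v + C0 * B1 * Dm * ρ * ‖v‖ ^ 2 := by ring
      linarith
    by_contra hcon
    push Not at hcon
    have e6 := mul_lt_mul_of_pos_left hcon hs0
    have e7 : s * (c0 / 2 * ‖v‖ ^ 2) ≤ 1 * (c0 / 2 * ‖v‖ ^ 2) :=
      mul_le_mul_of_nonneg_right hs'.2 (by positivity)
    have e8 : 1 * (C0 * Hf G y (r • q) v v) ≤ (2 * s) * (C0 * Hf G y (r • q) v v) :=
      mul_le_mul_of_nonneg_right (by linarith [hs'.1]) (by positivity)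
    nlinarith
  rw [hslope] at hder
  have hρr : 1 - r = ρ := by linarith
  rw [hρr, div_le_iff₀ hρ, one_smul] at hder
  have hfirst : ρ * (c0 / 2 * ‖v‖ ^ 2 - 2 * C0 * Hf G y (r • q) v v) ≤
        Hf G y (r • q) v v - Hf G y q v v := by linarith
  constructor
  · have e1 : ρ * (c0 / 4 * ‖v‖ ^ 2) ≤ ρ * (c0 / 2 * ‖v‖ ^ 2) := by
      apply mul_le_mul_of_nonneg_left _ hρ.le
      have : 0 ≤ c0 * ‖v‖ ^ 2 := by positivity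
      linarith
    linarith
  · have e1 : 2 * C0 * ρ * Hf G y (r • q) v v ≤ 1 * Hf G y (r • q) v v :=
      mul_le_mul_of_nonneg_right hρ4 hg0
    linarith


/-- the trivial case `|κ| ≥ ρ₀ L Λ` -/
theorem stat_triv (hB : Base G) {B : ℝ} (hB1 : 1 ≤ B) {y : M} {q₀ q₁ : TangentSpace (𝓡 n) y}
    (hq₀ : q₀ ∈ G.I y) (hq₁ : q₁ ∈ G.I y)
    {ξ ζ : TangentSpace (𝓡 n) y} (hζ : ∀ θ, Hf G y q₀ ζ θ = ⟪ξ, θ⟫)
    (hP : DifferentiableAt ℝ (Pf G y) ((1 / 2 : ℝ) • q₀)) {a : ℝ}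
    (ha : HasDerivAt (fun s : ℝ => G.phi y ξ (q₀ + s • (q₁ - q₀))) a 0)
    (bH0 : ‖Hf G y q₀‖ ≤ B)
    (bP : ‖(2 : ℝ) • rem (Pf G y) ((1 / 2 : ℝ) • q₀) ((1 / 2 : ℝ) • q₁)‖ ≤ B * ‖q₁ - q₀‖ ^ 2)
    (be : ‖rem (Hf G y) q₀ q₁‖ ≤ B * ‖q₁ - q₀‖ ^ 2) :
    -((B ^ 3 + B) * ‖q₁ - q₀‖ ^ 2 * ‖ζ‖ ^ 2) ≤ G.phi y ξ q₀ - G.phi y ξ q₁ + a := by
  have h1 := T_ge_trivial hB hq₀ hq₁ hζ hP ha
  have nξ : ‖ξ‖ ≤ B * ‖ζ‖ := by
    have e1 : ‖ξ‖ ^ 2 ≤ B * ‖ζ‖ * ‖ξ‖ := by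
      rw [← real_inner_self_eq_norm_sq, ← hζ]
      exact (le_abs_self _).trans (form_le bH0 ζ ξ)
    by_contra h
    push Not at h
    have h0 : 0 < ‖ξ‖ := lt_of_le_of_lt (by positivity) h
    nlinarith
  have e2 := (abs_le.1 (form_le bP ξ ξ)).2
  have e3 := (abs_le.1 (form_le be ζ ζ)).2
  have e5 : B * ‖q₁ - q₀‖ ^ 2 * ‖ξ‖ * ‖ξ‖ ≤ B * ‖q₁ - q₀‖ ^ 2 * (B * ‖ζ‖) * (B * ‖ζ‖) := by gcongr
  have e6 : B * ‖q₁ - q₀‖ ^ 2 * (B * ‖ζ‖) * (B * ‖ζ‖) + B * ‖q₁ - q₀‖ ^ 2 * ‖ζ‖ * ‖ζ‖ =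
    (B ^ 3 + B) * ‖q₁ - q₀‖ ^ 2 * ‖ζ‖ ^ 2 := by ring
  linarith

/-- the constants -/
structure Consts (G : GeoData n M) (B c ρ₀ : ℝ) : Prop where
  hB1 : 1 ≤ B
  hc : 0 < c
  hρ₀ : 0 < ρ₀
  hρB : ρ₀ * B ≤ 1
  hρ2 : ρ₀ ≤ 1 / 2
  norm : ∀ y : M, ∀ q ∈ G.K y, ‖q‖ ≤ B
  nH : ∀ y : M, ∀ q ∈ G.K y, ‖Hf G y q‖ ≤ B
  dP : ∀ y : M, ∀ q ∈ G.K y, DifferentiableAt ℝ (Pf G y) ((1 / 2 : ℝ) • q)
  rP : ∀ y : M, ∀ q₀ q₁ : TangentSpace (𝓡 n) y, segment ℝ q₀ q₁ ⊆ G.K y →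
    ‖(2 : ℝ) • rem (Pf G y) ((1 / 2 : ℝ) • q₀) ((1 / 2 : ℝ) • q₁)‖ ≤ B * ‖q₁ - q₀‖ ^ 2
  rH : ∀ y : M, ∀ q₀ q₁ : TangentSpace (𝓡 n) y, segment ℝ q₀ q₁ ⊆ G.K y →
    ‖rem (Hf G y) q₀ q₁‖ ≤ B * ‖q₁ - q₀‖ ^ 2
  sP : ∀ y : M, ∀ q₀ q₁ : TangentSpace (𝓡 n) y, segment ℝ q₀ q₁ ⊆ G.K y →
    ∀ r : ℝ, 0 ≤ r → r ≤ 1 →
    ‖(2 : ℝ) • rem (Pf G y) ((1 / 2 : ℝ) • q₀) ((1 / 2 : ℝ) • q₁) -
      (2 : ℝ) • rem (Pf G y) ((1 / 2 : ℝ) • (r • q₀)) ((1 / 2 : ℝ) • (r • q₁))‖ ≤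
      B * (1 - r) * ‖q₁ - q₀‖ ^ 2
  sH : ∀ y : M, ∀ q₀ q₁ : TangentSpace (𝓡 n) y, segment ℝ q₀ q₁ ⊆ G.K y →
    ∀ r : ℝ, 0 ≤ r → r ≤ 1 →
    ‖rem (Hf G y) q₀ q₁ - rem (Hf G y) (r • q₀) (r • q₁)‖ ≤ B * (1 - r) * ‖q₁ - q₀‖ ^ 2
  sD : ∀ y : M, ∀ q₀ q₁ : TangentSpace (𝓡 n) y, segment ℝ q₀ q₁ ⊆ G.K y →
    ∀ r : ℝ, 0 ≤ r → r ≤ 1 →
    ‖(Hf G y q₁ - Hf G y q₀) - (Hf G y (r • q₁) - Hf G y (r • q₀))‖ ≤
      B * (1 - r) * ‖q₁ - q₀‖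
  s0 : ∀ y : M, ∀ q ∈ G.K y, ∀ r : ℝ, 0 ≤ r → r ≤ 1 →
    ‖Hf G y q - Hf G y (r • q)‖ ≤ B * (1 - r)
  rad : ∀ y : M, ∀ q ∈ G.K y, ∀ v : TangentSpace (𝓡 n) y, ∀ ρ r : ℝ, 0 < ρ → ρ ≤ ρ₀ → r = 1 - ρ →
    ρ * (c * ‖v‖ ^ 2 - B * Hf G y (r • q) v v) ≤ Hf G y (r • q) v v - Hf G y q v v ∧
      c * ρ * ‖v‖ ^ 2 ≤ Hf G y (r • q) v v

theorem exists_consts (hB : Base G) {c0 C0 : ℝ} (hc0 : 0 < c0) (hC0 : 0 ≤ C0)
    (hR : RadP G c0 C0) : ∃ B c ρ₀ : ℝ, Consts G B c ρ₀ := by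
  obtain ⟨B1, hB1, h1⟩ := exists_C3B_Hf hB
  obtain ⟨B2, hB2, h2⟩ := exists_C3B_Pf hB
  obtain ⟨Dm, hDm, h3⟩ := exists_norm_bound G
  set B : ℝ := 1 + B1 * (Dm + 1) + B2 * (Dm + 1) + 2 * C0 + Dm with hBdef
  have q1 : 0 ≤ B1 * Dm := by positivity
  have q2 : 0 ≤ B2 * Dm := by positivity
  have hBge : 1 ≤ B := by rw [hBdef]; nlinarith
  have hb1 : B1 * (Dm + 1) ≤ B := by rw [hBdef]; nlinarith
  have hb2 : B2 * (Dm + 1) ≤ B := by rw [hBdef]; nlinarith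
  have hb1' : B1 ≤ B := by nlinarith
  have hb2' : B2 ≤ B := by nlinarith
  have hb3 : 2 * C0 ≤ B := by rw [hBdef]; nlinarith
  have hb4 : Dm ≤ B := by rw [hBdef]; nlinarith
  have hb0 : 0 < B := by linarith
  -- the threshold
  set A : ℝ := C0 * B1 * Dm with hA
  have hA0 : 0 ≤ A := by rw [hA]; positivity
  set ρ₀ : ℝ := min (1 / (2 * B)) (c0 / (2 * (A + 1))) with hρdef
  have hρ0 : 0 < ρ₀ := lt_min (by positivity) (by positivity)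
  have hρ1 : ρ₀ ≤ 1 / (2 * B) := min_le_left _ _
  have hρ1' : ρ₀ * (2 * B) ≤ 1 := by rwa [le_div_iff₀ (by positivity)] at hρ1
  have hρA : ρ₀ ≤ c0 / (2 * (A + 1)) := min_le_right _ _
  have hρA' : ρ₀ * (2 * (A + 1)) ≤ c0 := by rwa [le_div_iff₀ (by positivity)] at hρA
  have hρB : ρ₀ * B ≤ 1 := by nlinarith
  have hρ2 : ρ₀ ≤ 1 / 2 := by nlinarith
  -- auxiliary: half segments
  have hhalf : ∀ y : M, ∀ q₀ q₁ : TangentSpace (𝓡 n) y, segment ℝ q₀ q₁ ⊆ G.K y →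
      ∀ r : ℝ, 0 ≤ r → r ≤ 1 → ∀ q ∈ segment ℝ ((1 / 2 : ℝ) • q₀) ((1 / 2 : ℝ) • q₁),
      C3B (Pf G y) B2 (r • q) := by
    rintro y q₀ q₁ hseg r hr0 hr1 q ⟨s, t, hs, ht, hst, rfl⟩
    have e : r • (s • (1 / 2 : ℝ) • q₀ + t • (1 / 2 : ℝ) • q₁) =
        (1 / 2 : ℝ) • (r • (s • q₀ + t • q₁)) := by module
    rw [e]
    exact h2 y _ (hB.star y _ (hseg ⟨s, t, hs, ht, hst, rfl⟩) r hr0 hr1)
  have hhalf1 : ∀ y : M, ∀ q₀ q₁ : TangentSpace (𝓡 n) y, segment ℝ q₀ q₁ ⊆ G.K y →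
      ∀ q ∈ segment ℝ ((1 / 2 : ℝ) • q₀) ((1 / 2 : ℝ) • q₁), C3B (Pf G y) B2 q := by
    intro y q₀ q₁ hseg q hq
    have := hhalf y q₀ q₁ hseg 1 zero_le_one le_rfl q hq
    rwa [one_smul] at this
  have hfull : ∀ y : M, ∀ q₀ q₁ : TangentSpace (𝓡 n) y, segment ℝ q₀ q₁ ⊆ G.K y →
      ∀ r : ℝ, 0 ≤ r → r ≤ 1 → ∀ q ∈ segment ℝ q₀ q₁, C3B (Hf G y) B1 (r • q) :=
    fun y q₀ q₁ hseg r hr0 hr1 q hq => h1 y _ (hB.star y _ (hseg hq) r hr0 hr1)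
  have hnhalf : ∀ y : M, ∀ q : TangentSpace (𝓡 n) y, ‖(1 / 2 : ℝ) • q‖ = 1 / 2 * ‖q‖ := by
    intro y q
    rw [norm_smul]; norm_num
  refine ⟨B, c0 / 4, ρ₀, hBge, by positivity, hρ0, hρB, hρ2, fun y q hq => (h3 y q hq).trans hb4,
    fun y q hq => (h1 y q hq).n0.trans hb1', fun y q hq => (h2 y q hq).d0.differentiableAt,
    ?_, ?_, ?_, ?_, ?_, ?_, ?_⟩
  · intro y q₀ q₁ hseg
    have e1 := rem_le hB2 (hhalf1 y q₀ q₁ hseg)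
    rw [← smul_sub, hnhalf] at e1
    rw [norm_smul, Real.norm_eq_abs, abs_two]
    have e2 : B2 * ‖q₁ - q₀‖ ^ 2 ≤ B * ‖q₁ - q₀‖ ^ 2 :=
      mul_le_mul_of_nonneg_right hb2' (by positivity)
    have e3 : 0 ≤ B2 * ‖q₁ - q₀‖ ^ 2 := by positivity
    nlinarith
  · intro y q₀ q₁ hseg
    have e1 := rem_le (a := q₀) (b := q₁) hB1 (fun q hq => h1 y q (hseg hq))
    exact e1.trans (mul_le_mul_of_nonneg_right hb1' (by positivity))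
  · intro y q₀ q₁ hseg r hr0 hr1
    have e1 := rem_scale_le hB2 hr0 hr1 (fun r' hr' => hhalf y q₀ q₁ hseg r' (hr0.trans hr'.1) hr'.2)
    rw [← smul_sub, hnhalf, hnhalf] at e1
    rw [smul_comm (1 / 2 : ℝ) r q₀, smul_comm (1 / 2 : ℝ) r q₁, ← smul_sub, norm_smul,
      Real.norm_eq_abs, abs_two]
    have e2 := h3 y q₁ (hseg (right_mem_segment ℝ q₀ q₁))
    have e3 : B2 * (1 / 2 * ‖q₁‖ + 1) ≤ B := by
      have : B2 * (1 / 2 * ‖q₁‖ + 1) ≤ B2 * (Dm + 1) :=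
        mul_le_mul_of_nonneg_left (by nlinarith [norm_nonneg q₁]) hB2
      linarith
    have e4 : 0 ≤ (1 / 2 * ‖q₁ - q₀‖) ^ 2 * (1 - r) := by
      have : 0 ≤ 1 - r := by linarith
      positivity
    have e5 := mul_le_mul_of_nonneg_right e3 e4
    have e6 : 0 ≤ B * (1 - r) * ‖q₁ - q₀‖ ^ 2 := by
      have : 0 ≤ 1 - r := by linarith
      positivity
    nlinarith
  · intro y q₀ q₁ hseg r hr0 hr1
    have e1 := rem_scale_le hB1 hr0 hr1 (fun r' hr' => hfull y q₀ q₁ hseg r' (hr0.trans hr'.1) hr'.2)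
    have e2 := h3 y q₁ (hseg (right_mem_segment ℝ q₀ q₁))
    have e3 : B1 * (‖q₁‖ + 1) ≤ B := by
      have : B1 * (‖q₁‖ + 1) ≤ B1 * (Dm + 1) :=
        mul_le_mul_of_nonneg_left (by linarith) hB1
      linarith
    have e4 : 0 ≤ ‖q₁ - q₀‖ ^ 2 * (1 - r) := by
      have : 0 ≤ 1 - r := by linarith
      positivity
    have e5 := mul_le_mul_of_nonneg_right e3 e4
    linarith
  · intro y q₀ q₁ hseg r hr0 hr1
    have e1 := diff_scale_le hB1 hr0 hr1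
      (fun r' hr' => hfull y q₀ q₁ hseg r' (hr0.trans hr'.1) hr'.2)
    have e2 := h3 y q₁ (hseg (right_mem_segment ℝ q₀ q₁))
    have e3 : B1 * (‖q₁‖ + 1) ≤ B := by
      have : B1 * (‖q₁‖ + 1) ≤ B1 * (Dm + 1) :=
        mul_le_mul_of_nonneg_left (by linarith) hB1
      linarith
    have e4 : 0 ≤ ‖q₁ - q₀‖ * (1 - r) := by
      have : 0 ≤ 1 - r := by linarith
      positivity
    have e5 := mul_le_mul_of_nonneg_right e3 e4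
    linarith
  · intro y q hq r hr0 hr1
    have e1 := scale_le hB1 hr0 hr1
      (fun r' hr' => h1 y _ (hB.star y q hq r' (hr0.trans hr'.1) hr'.2))
    have e2 := h3 y q hq
    have e3 : B1 * ‖q‖ ≤ B := by
      have : B1 * ‖q‖ ≤ B1 * (Dm + 1) :=
        mul_le_mul_of_nonneg_left (by linarith) hB1
      linarith
    have e5 := mul_le_mul_of_nonneg_right e3 (by linarith : 0 ≤ 1 - r)
    linarith
  · intro y q hq v ρ r hρ hρρ hr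
    have f1 : C0 * B1 * Dm * ρ ≤ c0 / 2 := by
      have : A * ρ ≤ A * ρ₀ := mul_le_mul_of_nonneg_left hρρ hA0
      have g1 : C0 * B1 * Dm * ρ = A * ρ := by rw [hA]
      nlinarith
    have f2 : 2 * C0 * ρ ≤ 1 := by
      have g1 : 2 * C0 * ρ ≤ B * ρ₀ := mul_le_mul hb3 hρρ hρ.le hb0.le
      linarith
    obtain ⟨r1, r2⟩ := radial hB hc0 hC0 hR hB1 hDm h1 h3 hq v hρ (hρρ.trans hρ2) hr f1 f2
    refine ⟨?_, r2⟩
    refine le_trans ?_ r1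
    apply mul_le_mul_of_nonneg_left _ hρ.le
    have hrr : r • q ∈ G.K y := hB.star y q hq r (by linarith) (by linarith)
    have := mul_le_mul_of_nonneg_right hb3 (Hf_nonneg hB hrr v)
    linarith

end Crest.Agent.R226.T1i115
end

-- ▼ part R226/T1iTop_115
section

set_option autoImplicit false
set_option maxSynthPendingDepth 3

open MeasureTheory Bundle Set Filter
open scoped Manifold ContDiff Bundle ENNReal Topology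
open Crest.GeometryTopology.MTW
open Crest.Agent.R226.Calc347 Crest.Agent.R226.MTWConc117 Crest.Agent.R226.Base347
open Crest.Agent.R226.Crit347 Crest.Agent.R226.Focal347 Crest.Agent.R226.NF946

namespace Crest.Agent.R226.T1i115

variable {n : ℕ} {M : Type*} [MetricSpace M] [ChartedSpace (EuclideanSpace ℝ (Fin n)) M]
  [IsManifold (𝓡 n) ∞ M]
  [RiemannianBundle (fun p : M => TangentSpace (𝓡 n) p)]
  [IsContMDiffRiemannianBundle (𝓡 n) ∞ (EuclideanSpace ℝ (Fin n))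
    (fun p : M => TangentSpace (𝓡 n) p)] [CompactSpace M]
  {G : GeoData n M}

local notation "⟪" x ", " y "⟫" => inner ℝ x y

/-- symmetry of the remainder of `Pf` -/
theorem rem_Pf_symm (hB : Base G) {y : M} {a b : TangentSpace (𝓡 n) y} (ha : a ∈ G.I y)
    (hb : b ∈ G.I y) (hd : DifferentiableAt ℝ (Pf G y) a) (u v : TangentSpace (𝓡 n) y) :
    ((2 : ℝ) • rem (Pf G y) a b) u v = ((2 : ℝ) • rem (Pf G y) a b) v u := by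
  unfold rem
  simp only [smul_apply, sub_apply]
  rw [Pf_symm hB ha u v, Pf_symm hB hb u v, dPf_symm hB ha hd _ u v]

theorem exists_riesz {y : M} (L : TangentSpace (𝓡 n) y →L[ℝ] ℝ) :
    ∃ ξ : TangentSpace (𝓡 n) y, ∀ u, L u = ⟪ξ, u⟫ := by
  have : CompleteSpace (TangentSpace (𝓡 n) y) := FiniteDimensional.complete ℝ _
  refine ⟨(InnerProductSpace.toDual ℝ (TangentSpace (𝓡 n) y)).symm L, fun u => ?_⟩
  rw [InnerProductSpace.toDual_symm_apply]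

/-- the main case -/
theorem stat_main (hB : Base G) (hM : MTWFacts G) {B c ρ₀ : ℝ} (hC : Consts G B c ρ₀)
    {y : M} {q₀ q₁ : TangentSpace (𝓡 n) y}
    (hseg : segment ℝ q₀ q₁ ⊆ G.I y)
    {ξ ζ : TangentSpace (𝓡 n) y} (hζ : ∀ θ, Hf G y q₀ ζ θ = ⟪ξ, θ⟫) {a : ℝ}
    (ha : HasDerivAt (fun s : ℝ => G.phi y ξ (q₀ + s • (q₁ - q₀))) a 0)
    {ρ : ℝ} (hρ : 0 < ρ) (hρρ : ρ ≤ ρ₀) (hX0 : ⟪q₀, q₁ - q₀⟫ ≠ 0)
    (hρκ : ρ * (‖q₁ - q₀‖ * ‖ζ‖) = |⟪q₁ - q₀, ξ⟫|) (hD0 : 0 < ‖q₁ - q₀‖) :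
    -((3 / c * (4 * (1 + B)) ^ 2 + 2 * B ^ 3 * (4 * (1 + B)) + B ^ 3 * (4 * (1 + B)) ^ 2 +
        (B + 3 * B ^ 3 + B * (B + B ^ 3) + 2 * B ^ 2 / c)) *
      ((1 + 1 / (⟪q₀, q₁ - q₀⟫ / ‖q₁ - q₀‖) ^ 2) *
        (|⟪q₁ - q₀, ξ⟫| * ‖q₁ - q₀‖ * ‖ζ‖))) ≤ G.phi y ξ q₀ - G.phi y ξ q₁ + a := by
  have hsegK : segment ℝ q₀ q₁ ⊆ G.K y := hseg.trans (hB.I_subset y)
  have hq₀ : q₀ ∈ G.I y := hseg (left_mem_segment ℝ q₀ q₁)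
  have hq₁ : q₁ ∈ G.I y := hseg (right_mem_segment ℝ q₀ q₁)
  have hq₀K := hB.I_subset y hq₀
  have hq₁K := hB.I_subset y hq₁
  have hρ1 : ρ ≤ 1 / 2 := hρρ.trans hC.hρ2
  obtain ⟨r, hr⟩ : ∃ r : ℝ, r = 1 - ρ := ⟨_, rfl⟩
  have hr0 : 0 ≤ r := by linarith
  have hr1 : r < 1 := by linarith
  have hsmulI : ∀ q ∈ G.K y, r • q ∈ G.I y := fun q hq => hB.smul_mem_I hq hr0 hr1
  have ha0 : r • q₀ ∈ G.I y := hsmulI _ hq₀K
  have ha1 : r • q₁ ∈ G.I y := hsmulI _ hq₁K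
  have ha0K := hB.I_subset y ha0
  have ha1K := hB.I_subset y ha1
  have hsum : r • q₀ + r • (q₁ - q₀) = r • q₁ := by rw [← smul_add, add_sub_cancel]
  have hsum' : r • q₁ - r • q₀ = r • (q₁ - q₀) := by rw [← smul_sub]
  have hseg' : segment ℝ (r • q₀) (r • q₁) ⊆ G.I y := by
    rintro q ⟨s, t, hs, ht, hst, rfl⟩
    have e : s • r • q₀ + t • r • q₁ = r • (s • q₀ + t • q₁) := by module
    rw [e]
    exact hsmulI _ (hsegK ⟨s, t, hs, ht, hst, rfl⟩)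
  have hseg'K : segment ℝ (r • q₀) (r • q₁) ⊆ G.K y := hseg'.trans (hB.I_subset y)
  obtain ⟨ξ', hξ'⟩ := exists_riesz (Hf G y (r • q₀) ζ)
  obtain ⟨v', hv'⟩ := exists_Hf_eq hB ha1 ξ'
  obtain ⟨z, hz⟩ := exists_Hf_eq hB ha1 (r • (q₁ - q₀))
  obtain ⟨m, hm⟩ : ∃ m, m = v' - ζ := ⟨_, rfl⟩
  have hmH : ∀ u, Hf G y (r • q₁) m u = Hf G y (r • q₀) ζ u - Hf G y (r • q₁) ζ u := by
    intro u
    rw [hm, map_sub, sub_apply, hv', hξ']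
  have hg0 : ∀ u, Hf G y (r • q₀) (r • q₀) u = ⟪r • q₀, u⟫ := fun u => Hf_gauss hB ha0K u
  have hg1 : ∀ u, Hf G y (r • q₁) (r • q₀ + r • (q₁ - q₀)) u = ⟪r • q₀ + r • (q₁ - q₀), u⟫ := by
    intro u
    rw [hsum]
    exact Hf_gauss hB ha1K u
  have hdP' : DifferentiableAt ℝ (Pf G y) ((1 / 2 : ℝ) • (r • q₀)) := hC.dP y _ ha0K
  have hhalf : ∀ q ∈ G.K y, (1 / 2 : ℝ) • q ∈ G.I y := fun q hq =>
    hB.smul_mem_I hq (by norm_num) (by norm_num)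
  have hnD : ‖r • (q₁ - q₀)‖ ≤ ‖q₁ - q₀‖ := norm_smul_le_of hr0 hr1.le _
  have hnD2 : ‖r • (q₁ - q₀)‖ ^ 2 ≤ ‖q₁ - q₀‖ ^ 2 := pow_le_pow_left₀ (norm_nonneg _) hnD 2
  have hB0 : 0 < B := by have := hC.hB1; linarith
  have h1r : 1 - r = ρ := by linarith
  refine alg_final (H0 := Hf G y q₀) (H1 := Hf G y q₁) (G0 := fderiv ℝ (Hf G y) q₀ (q₁ - q₀))
    (P := (2 : ℝ) • rem (Pf G y) ((1 / 2 : ℝ) • q₀) ((1 / 2 : ℝ) • q₁))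
    (H0' := Hf G y (r • q₀)) (H1' := Hf G y (r • q₁))
    (G0' := fderiv ℝ (Hf G y) (r • q₀) (r • (q₁ - q₀)))
    (P' := (2 : ℝ) • rem (Pf G y) ((1 / 2 : ℝ) • (r • q₀)) ((1 / 2 : ℝ) • (r • q₁)))
    (a0 := r • q₀) (d := r • (q₁ - q₀)) (ζ := ζ) (ξ := ξ) (ξ' := ξ') (m := m) (z := z)
    (B := B) (c := c) (r := r) (ρ := ρ) (X := ⟪q₀, q₁ - q₀⟫ / ‖q₁ - q₀‖) (q0 := q₀)
    (D := q₁ - q₀) (v := ζ + m) (κ := ⟪q₁ - q₀, ξ⟫)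
    hC.hB1 hC.hc hρ ?_ hρ1 hr rfl rfl rfl ?_ ?_ ?_ ?_ ?_ hmH hζ hξ' hz hg0 hg1 ?_ ?_ ?_
    ?_ ?_ rfl hρκ hD0 ?_ ?_ ?_ ?_ ?_ ?_ ?_ ?_ ?_ ?_ ?_
  · exact (mul_le_mul_of_nonneg_right hρρ hB0.le).trans hC.hρB
  · exact fun u v => Hf_symm hB ha0K u v
  · exact fun u v => Hf_symm hB ha1K u v
  · exact fun u v => Hf_symm hB hq₁K u v
  · intro u v
    rw [← DHf_eq_form hB ha0K, ← DHf_eq_form hB ha0K, DHf_symm hB ha0K]
  · exact fun u v => rem_Pf_symm hB (hhalf _ ha0K) (hhalf _ ha1K) hdP' u v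
  · intro u
    rw [← DHf_eq_form hB ha0K]
    exact DHf_gauss hB ha0K _ _
  · -- hT
    rw [T_formula hB hq₀ hq₁ hζ (hC.dP y _ hq₀K) ha]
    have := le_Rf hB hq₁ ξ (ζ + m)
    linarith
  · -- hM
    intro lam hlam
    have hζl : ∀ θ, Hf G y (r • q₀) (ζ + lam • (r • q₀)) θ = ⟪ξ' + lam • (r • q₀), θ⟫ := by
      intro θ
      have e2 : ⟪lam • (r • q₀), θ⟫ = lam * ⟪r • q₀, θ⟫ := real_inner_smul_left _ _ _
      rw [map_add, map_smul, add_apply, smul_apply, smul_eq_mul, hξ', hg0, inner_add_left, e2]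
    have hvl : ∀ θ, Hf G y (r • q₁) ((ζ + m) + lam • ((r • q₀ + r • (q₁ - q₀)) - z)) θ =
        ⟪ξ' + lam • (r • q₀), θ⟫ := by
      intro θ
      have e1 : ζ + m = v' := by rw [hm]; abel
      have e2 : ⟪lam • (r • q₀), θ⟫ = lam * ⟪r • q₀, θ⟫ := real_inner_smul_left _ _ _
      rw [e1, map_add, map_smul, map_sub, add_apply, smul_apply, sub_apply, smul_eq_mul, hv', hg1,
        hz, inner_add_left, inner_add_left, e2]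
      ring
    obtain ⟨a', ha'⟩ := exists_deriv_phi hB ha0 (ξ' + lam • (r • q₀)) (r • q₁ - r • q₀)
    have e1 := T_nonneg hM hseg' (ξ := ξ' + lam • (r • q₀)) (by rw [hsum']; exact hlam) ha'
    rw [T_formula hB ha0 ha1 hζl hdP' ha', Rf_eq hB ha1 hvl, hsum'] at e1
    exact e1
  · exact div_ne_zero hX0 hD0.ne'
  · exact (div_mul_cancel₀ _ hD0.ne').symm
  · exact hC.norm y _ hq₀K
  · exact hC.nH y _ ha0K
  · exact hC.nH y _ hq₀K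
  · have e1 := hC.rP y _ _ hseg'K
    rw [hsum'] at e1
    exact e1.trans (mul_le_mul_of_nonneg_left hnD2 hB0.le)
  · have e1 := hC.sP y _ _ hsegK r hr0 hr1.le
    rw [h1r] at e1
    exact e1
  · have e1 := hC.rH y _ _ hseg'K
    have e2 : rem (Hf G y) (r • q₀) (r • q₁) = Hf G y (r • q₁) - Hf G y (r • q₀) -
      fderiv ℝ (Hf G y) (r • q₀) (r • (q₁ - q₀)) := by unfold rem; rw [hsum']
    rw [e2, hsum'] at e1
    exact e1.trans (mul_le_mul_of_nonneg_left hnD2 hB0.le)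
  · have e1 := hC.sH y _ _ hsegK r hr0 hr1.le
    have e2 : rem (Hf G y) (r • q₀) (r • q₁) = Hf G y (r • q₁) - Hf G y (r • q₀) -
      fderiv ℝ (Hf G y) (r • q₀) (r • (q₁ - q₀)) := by unfold rem; rw [hsum']
    have e3 : rem (Hf G y) q₀ q₁ = Hf G y q₁ - Hf G y q₀ -
      fderiv ℝ (Hf G y) q₀ (q₁ - q₀) := rfl
    rw [e2, e3, h1r] at e1
    exact e1
  · have e1 := hC.sD y _ _ hsegK r hr0 hr1.le
    rw [h1r] at e1
    exact e1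
  · have e1 := hC.s0 y _ hq₀K r hr0 hr1.le
    rw [h1r] at e1
    exact e1
  · exact (hC.rad y _ hq₁K m ρ r hρ hρρ hr).1
  · exact (hC.rad y _ hq₁K z ρ r hρ hρρ hr).2

/-- **(T1)(i), static form**, from the radial monotonicity `RadP` and MTW -/
theorem t1iStat (hB : Base G) (hM : MTWFacts G) (hconv : ∀ y, Convex ℝ (G.I y)) {c0 C0 : ℝ}
    (hc0 : 0 < c0) (hR : RadP G c0 C0) : ∃ C : ℝ, 0 ≤ C ∧ T1iStat G C := by
  have hR' : RadP G c0 (max C0 0) := by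
    intro x p hp v
    refine (hR x p hp v).trans ?_
    have := mul_le_mul_of_nonneg_right (le_max_left C0 0) (Hf_nonneg hB hp v)
    linarith
  obtain ⟨B, c, ρ₀, hC⟩ := exists_consts hB hc0 (le_max_right C0 0) hR'
  have hB1 := hC.hB1
  have hB0 : 0 < B := by linarith
  have hc := hC.hc
  have hρ₀ := hC.hρ₀
  set A : ℝ := 3 / c * (4 * (1 + B)) ^ 2 + 2 * B ^ 3 * (4 * (1 + B)) + B ^ 3 * (4 * (1 + B)) ^ 2 +
        (B + 3 * B ^ 3 + B * (B + B ^ 3) + 2 * B ^ 2 / c) with hA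
  have hA0 : 0 ≤ A := by positivity
  refine ⟨A + (B ^ 3 + B) / ρ₀, by positivity, ?_⟩
  intro y q₀ q₁ hq₀ hq₁ ξ ζ hζ a ha hX0
  have hseg : segment ℝ q₀ q₁ ⊆ G.I y := (hconv y).segment_subset hq₀ hq₁
  have hD0 : 0 < ‖q₁ - q₀‖ := by
    rw [norm_pos_iff]
    intro h
    rw [h, inner_zero_right] at hX0
    exact hX0 rfl
  obtain ⟨κ, hκ⟩ : ∃ κ : ℝ, κ = ⟪q₁ - q₀, ξ⟫ := ⟨_, rfl⟩
  obtain ⟨W, hW⟩ : ∃ W : ℝ, W = 1 + ‖q₁ - q₀‖ ^ 2 / ⟪q₀, q₁ - q₀⟫ ^ 2 := ⟨_, rfl⟩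
  have hW1 : 1 ≤ W := by
    rw [hW]
    have : 0 ≤ ‖q₁ - q₀‖ ^ 2 / ⟪q₀, q₁ - q₀⟫ ^ 2 := by positivity
    linarith
  rw [← hκ, ← hW]
  rcases eq_or_ne κ 0 with h0 | h0
  · rw [h0, abs_zero]
    have := T_nonneg hM hseg (by rw [← hκ, h0]) ha
    simpa using this
  have hζ0 : 0 < ‖ζ‖ := by
    rw [norm_pos_iff]
    intro h
    apply h0
    rw [hκ, real_inner_comm, ← hζ, h, map_zero, zero_apply]
  have hLΛ : 0 < ‖q₁ - q₀‖ * ‖ζ‖ := by positivity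
  have hκ0 : 0 < |κ| := abs_pos.2 h0
  have hq₀K := hB.I_subset y hq₀
  have hsegK : segment ℝ q₀ q₁ ⊆ G.K y := hseg.trans (hB.I_subset y)
  rcases le_or_gt (ρ₀ * (‖q₁ - q₀‖ * ‖ζ‖)) |κ| with h1 | h1
  · have e1 := stat_triv hB hB1 hq₀ hq₁ hζ (hC.dP y _ hq₀K) ha (hC.nH y _ hq₀K)
      (hC.rP y _ _ hsegK) (hC.rH y _ _ hsegK)
    refine le_trans ?_ e1
    rw [neg_le_neg_iff]
    have e2 : (B ^ 3 + B) * ‖q₁ - q₀‖ ^ 2 * ‖ζ‖ ^ 2 =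
        (B ^ 3 + B) / ρ₀ * (ρ₀ * (‖q₁ - q₀‖ * ‖ζ‖)) * (‖q₁ - q₀‖ * ‖ζ‖) := by
      field_simp
    have e3 : (B ^ 3 + B) / ρ₀ * (ρ₀ * (‖q₁ - q₀‖ * ‖ζ‖)) * (‖q₁ - q₀‖ * ‖ζ‖) ≤
        (B ^ 3 + B) / ρ₀ * |κ| * (‖q₁ - q₀‖ * ‖ζ‖) := by gcongr
    have e4 : (B ^ 3 + B) / ρ₀ * |κ| * (‖q₁ - q₀‖ * ‖ζ‖) ≤
        (A + (B ^ 3 + B) / ρ₀) * |κ| * (‖q₁ - q₀‖ * ‖ζ‖) := by
      gcongr
      linarith
    have e5 : (A + (B ^ 3 + B) / ρ₀) * |κ| * (‖q₁ - q₀‖ * ‖ζ‖) * 1 ≤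
        (A + (B ^ 3 + B) / ρ₀) * |κ| * (‖q₁ - q₀‖ * ‖ζ‖) * W := by gcongr
    rw [e2]
    calc _ ≤ _ := e3
      _ ≤ _ := e4
      _ = (A + (B ^ 3 + B) / ρ₀) * |κ| * (‖q₁ - q₀‖ * ‖ζ‖) * 1 := by ring
      _ ≤ _ := e5
      _ = _ := by ring
  · have hρ : 0 < |κ| / (‖q₁ - q₀‖ * ‖ζ‖) := by positivity
    have hρρ : |κ| / (‖q₁ - q₀‖ * ‖ζ‖) ≤ ρ₀ := by
      rw [div_le_iff₀ hLΛ]; exact h1.le
    have e1 := stat_main hB hM hC hseg hζ ha hρ hρρ hX0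
      (by rw [div_mul_cancel₀ _ hLΛ.ne', hκ]) hD0
    refine le_trans ?_ e1
    rw [neg_le_neg_iff, ← hκ, ← hA]
    have e2 : 1 + 1 / (⟪q₀, q₁ - q₀⟫ / ‖q₁ - q₀‖) ^ 2 = W := by
      rw [hW, div_pow, one_div_div]
    rw [e2]
    have e3 : A * (W * (|κ| * ‖q₁ - q₀‖ * ‖ζ‖)) ≤
        (A + (B ^ 3 + B) / ρ₀) * (W * (|κ| * ‖q₁ - q₀‖ * ‖ζ‖)) := by
      apply mul_le_mul_of_nonneg_right
      · have : 0 ≤ (B ^ 3 + B) / ρ₀ := by positivity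
        linarith
      · positivity
    refine e3.trans (le_of_eq ?_)
    ring

end Crest.Agent.R226.T1i115
end

-- ▼ part R226/T1iFin_683

set_option autoImplicit false

open MeasureTheory Bundle Set Filter
open scoped Manifold ContDiff Bundle ENNReal Topology
open Crest.GeometryTopology.MTW

namespace Crest.Agent.R226.T1iFin683

open Crest.Agent.R226.LoeperCalc128 Crest.Agent.R226.LoeperMfd128 Crest.Agent.R226.LoeperPt128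
open Crest.Agent.R226.Base347 Crest.Agent.R226.NS683 Crest.Agent.R226.T1i115
open Crest.Agent.R226.Semiconcave345 (exists_diam)
open Crest.Agent.R226.Dasm290 (GoodAll)

variable {n : ℕ} {M : Type*} [MetricSpace M] [ChartedSpace (EuclideanSpace ℝ (Fin n)) M]
  [IsManifold (𝓡 n) ∞ M]
  [RiemannianBundle (fun p : M => TangentSpace (𝓡 n) p)]

/-- second derivative of `gg` in static form -/
theorem iteratedDeriv_gg_eq {G : GeoData n M} (hC : CutFacts G)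
    {x y : M}
    {w η : TangentSpace (𝓡 n) x} {q₀ q₁ : TangentSpace (𝓡 n) y} (hy : G.ex x w = y)
    (hx : G.ex y q₀ = x) (hw : w ∈ G.I x) (hq : q₀ ∈ G.I y) (hq1 : q₁ ∈ G.I y)
    {ζ : TangentSpace (𝓡 n) y} (hζ : ζ = cv (n := n) (fun τ : ℝ => G.ex x (w + τ • η)) 0) :
    ∃ a : ℝ, HasDerivAt (fun s : ℝ => G.phi y ζ (q₀ + s • (q₁ - q₀))) a 0 ∧
      iteratedDeriv 2 (LoeperPt128.gg G x (G.ex y q₁) w η) 0 =
        G.phi y ζ q₀ - G.phi y ζ q₁ + a := by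
  obtain ⟨dq, hdq⟩ : ∃ dq, dq = q₁ - q₀ := ⟨_, rfl⟩
  have hq1' : q₁ = q₀ + dq := by rw [hdq]; abel
  have hs0 : q₀ + (0 : ℝ) • dq ∈ G.I y := by rw [zero_smul, add_zero]; exact hq
  have hs1 : q₀ + (1 : ℝ) • dq ∈ G.I y := by rw [one_smul, ← hq1']; exact hq1
  obtain ⟨A, hA⟩ := iteratedDeriv_ff hC q₀ dq hy hζ
  -- second derivative of `gg`
  have hg2 : iteratedDeriv 2 (LoeperPt128.gg G x (G.ex y q₁) w η) 0 =
      G.phi y ζ q₀ - G.phi y ζ q₁ + inner ℝ dq A := by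
    have e0 : iteratedDeriv 2 (LoeperPt128.gg G x (G.ex y q₁) w η) 0 =
        iteratedDeriv 2 (fun τ => ff G x y w η q₀ dq (0, τ) - ff G x y w η q₀ dq (1, τ)) 0 := by
      rw [hdq]
      exact (gg_eventuallyEq hC hx hw).iteratedDeriv_eq 2
    have c0 := contDiffAt_ff (η := η) (s := 0) (q₀ := q₀) (dq := dq) hC hy hs0
    have c1 := contDiffAt_ff (η := η) (s := 1) (q₀ := q₀) (dq := dq) hC hy hs1
    have k0 : ContDiffAt ℝ ∞ (fun τ : ℝ => ((0 : ℝ), τ)) 0 := by fun_prop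
    have k1 : ContDiffAt ℝ ∞ (fun τ : ℝ => ((1 : ℝ), τ)) 0 := by fun_prop
    have d0 : ContDiffAt ℝ 2 (fun τ => ff G x y w η q₀ dq (0, τ)) 0 :=
      (c0.comp (0 : ℝ) k0).of_le two_le_infty
    have d1 : ContDiffAt ℝ 2 (fun τ => ff G x y w η q₀ dq (1, τ)) 0 :=
      (c1.comp (0 : ℝ) k1).of_le two_le_infty
    rw [e0]
    have e1 : iteratedDeriv 2 (fun τ => ff G x y w η q₀ dq (0, τ) - ff G x y w η q₀ dq (1, τ)) 0 =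
        iteratedDeriv 2 (fun τ => ff G x y w η q₀ dq (0, τ)) 0 -
        iteratedDeriv 2 (fun τ => ff G x y w η q₀ dq (1, τ)) 0 :=
      iteratedDeriv_fun_sub d0 d1
    rw [e1, hA 0 hs0, hA 1 hs1, hq1']
    simp only [zero_smul, add_zero, one_smul]
    rw [inner_add_left]
    ring
  refine ⟨inner ℝ dq A, ?_, hg2⟩
  rw [← hdq]
  have e1 := hasDerivAt_F (η := η) (q₀ := q₀) (dq := dq) hC hy hx hw hq
  have e2 : (fun s : ℝ => G.phi y ζ (q₀ + s • dq)) =ᶠ[𝓝 0]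
      fun s : ℝ => iteratedDeriv 2 (fun τ => ff G x y w η q₀ dq (s, τ)) 0 +
        inner ℝ (q₀ + s • dq) A := by
    filter_upwards [eventually_mem_I hC dq hq] with s hs
    rw [hA s hs]
    ring
  have e3 : HasDerivAt (fun s : ℝ => inner ℝ (q₀ + s • dq) A) (inner ℝ dq A) 0 := by
    have : (fun s : ℝ => inner ℝ (q₀ + s • dq) A) =
        fun s : ℝ => inner ℝ q₀ A + s * inner ℝ dq A := by
      funext s
      rw [inner_add_left, inner_smul_left]; simp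
    rw [this]
    have h5 := ((hasDerivAt_id (0 : ℝ)).mul_const (inner ℝ dq A)).const_add (inner ℝ q₀ A)
    simpa using h5
  have e4 := (e1.add e3).congr_of_eventuallyEq e2
  simpa using e4

/-- the real-number estimate -/
theorem real_est {g L D : ℝ} (hg : 0 < g) (hL : 0 ≤ L) (hLD : L ≤ D) :
    L * (1 + L ^ 2 / (g + L ^ 2 / 2) ^ 2) ≤ (D + 2) * (1 + 1 / √g) := by
  have hs : 0 < √g := Real.sqrt_pos.2 hg
  have hgs : √g ^ 2 = g := Real.sq_sqrt hg.le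
  obtain ⟨r, hr⟩ : ∃ r, r = √g := ⟨_, rfl⟩
  rw [← hr] at hs hgs ⊢
  have hD : 0 ≤ D := hL.trans hLD
  have hX : 0 < g + L ^ 2 / 2 := by positivity
  have h1 : L ^ 3 / (g + L ^ 2 / 2) ^ 2 ≤ 2 / r := by
    rw [div_le_div_iff₀ (pow_pos hX 2) hs]
    have h2 : r * L ≤ g + L ^ 2 / 2 := by nlinarith [sq_nonneg (r - L), sq_nonneg r]
    have h3 : L ^ 2 / 2 ≤ g + L ^ 2 / 2 := by linarith
    have h4 : r * L * (L ^ 2 / 2) ≤ (g + L ^ 2 / 2) * (g + L ^ 2 / 2) :=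
      mul_le_mul h2 h3 (by positivity) hX.le
    nlinarith
  have h5 : L * (1 + L ^ 2 / (g + L ^ 2 / 2) ^ 2) = L + L ^ 3 / (g + L ^ 2 / 2) ^ 2 := by
    ring
  rw [h5]
  have h6 : (D + 2) * (1 + 1 / r) = D + 2 + D / r + 2 / r := by ring
  rw [h6]
  have h7 : 0 ≤ D / r := by positivity
  linarith

/-- the reversed velocity as an element of `I(y)` -/
theorem exists_rev {G : GeoData n M} (hC : CutFacts G) {x y : M} {w : TangentSpace (𝓡 n) x}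
    (hw : w ∈ G.I x) (hy : G.ex x w = y) :
    ∃ q₀ : TangentSpace (𝓡 n) y, q₀ ∈ G.I y ∧ G.ex y q₀ = x := by
  have h1 := hC.rev_I x w hw
  have h2 := hC.rev_ex x w 1
  have e : (1 : ℝ) • (-(G.vel x w 1)) = -(G.vel x w 1) := one_smul _ _
  rw [e, sub_self, zero_smul, G.ex_zero] at h2
  have hy' : G.ex x ((1 : ℝ) • w) = y := by rw [one_smul]; exact hy
  revert h1 h2
  generalize -(G.vel x w 1) = q
  revert q
  rw [hy']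
  intro q h1 h2
  exact ⟨q, h1, h2⟩

theorem t1iP_of_stat [CompactSpace M] {G : GeoData n M} (hB : Base G) (hC : CutFacts G)
    (hconv : ∀ x, Convex ℝ (G.I x)) {C₁ C₂ : ℝ} (hC1 : 0 ≤ C₁) (hC2 : 0 ≤ C₂)
    (hS : T1iStat G C₁) (hZ : ZetaP G C₂) :
    ∃ C : ℝ, 0 ≤ C ∧ T1iP G C := by
  obtain ⟨D, hD0, hD⟩ := exists_diam (M := M)
  refine ⟨C₁ * C₂ * (2 * D + 2), by positivity, ?_⟩
  intro x p₀ p₁ hp₀ hp₁ s hs0 hs1
  obtain ⟨w, hw⟩ : ∃ w : TangentSpace (𝓡 n) x, w = p₀ + s • (p₁ - p₀) := ⟨_, rfl⟩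
  obtain ⟨η, hη⟩ : ∃ η : TangentSpace (𝓡 n) x, η = p₁ - p₀ := ⟨_, rfl⟩
  have hwI : w ∈ G.I x := by
    have h1 := hconv x hp₀ hp₁ (a := 1 - s) (b := s) (by linarith) hs0.le (by ring)
    have h2 : w = (1 - s) • p₀ + s • p₁ := by rw [hw]; module
    rw [h2]; exact h1
  obtain ⟨y, hy⟩ : ∃ y, y = G.ex x w := ⟨_, rfl⟩
  rw [← hw, ← hy]
  intro q₁ hq₁ x₁ hx₁ hpos
  obtain ⟨q₀, hq₀, hx⟩ := exists_rev hC hwI hy.symm
  obtain ⟨ξ, hξ⟩ : ∃ ξ : TangentSpace (𝓡 n) y, ξ = cv (n := n) (fun τ : ℝ => G.ex x (w + τ • η)) 0 :=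
    ⟨_, rfl⟩
  obtain ⟨ζ, hζ⟩ := NF946.exists_Hf_eq hB hq₀ ξ
  obtain ⟨a, ha, hg2⟩ := iteratedDeriv_gg_eq (η := η) hC hy.symm hx hwI hq₀ hq₁ hξ
  have hd := (hasDerivAt_gg (η := η) hC hy.symm hx hwI hq₀ hq₁ hξ).deriv
  rw [hx₁] at hg2 hd
  -- shift of the parameter
  have hsh : NS683.gg G x p₀ p₁ x₁ = fun s' : ℝ => LoeperPt128.gg G x x₁ w η (s' - s) := by
    funext s'
    unfold NS683.gg LoeperPt128.gg
    have e : w + (s' - s) • η = p₀ + s' • (p₁ - p₀) := by rw [hw, hη]; module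
    rw [e]
  have hd1 : deriv (NS683.gg G x p₀ p₁ x₁) s = inner ℝ (q₁ - q₀) ξ := by
    rw [hsh, deriv_comp_sub_const, sub_self, hd]
  have hd2 : deriv (deriv (NS683.gg G x p₀ p₁ x₁)) s = G.phi y ξ q₀ - G.phi y ξ q₁ + a := by
    have e1 : deriv (NS683.gg G x p₀ p₁ x₁) =
        fun s' : ℝ => deriv (LoeperPt128.gg G x x₁ w η) (s' - s) := by
      funext s'
      rw [hsh, deriv_comp_sub_const]
    rw [e1, deriv_comp_sub_const, sub_self, ← hg2, iteratedDeriv_succ, iteratedDeriv_one]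
  -- the value of `g`
  have hnw : dist x y = ‖w‖ := by rw [hy]; exact hC.I_subset x hwI
  have hnq0 : dist x y = ‖q₀‖ := by
    have h1 : dist y (G.ex y q₀) = ‖q₀‖ := hC.I_subset y hq₀
    rw [hx, dist_comm] at h1
    exact h1
  have hnq1 : dist x₁ y = ‖q₁‖ := by
    have h1 : dist y (G.ex y q₁) = ‖q₁‖ := hC.I_subset y hq₁
    rw [hx₁, dist_comm] at h1
    exact h1
  have hg : NS683.gg G x p₀ p₁ x₁ s = ‖q₀‖ ^ 2 / 2 - ‖q₁‖ ^ 2 / 2 := by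
    unfold NS683.gg
    rw [← hw, ← hy, ← hnw, hnq0]
    unfold halfDistSq
    rw [hnq1]
  obtain ⟨g, hgg⟩ : ∃ g, g = NS683.gg G x p₀ p₁ x₁ s := ⟨_, rfl⟩
  obtain ⟨L, hL⟩ : ∃ L, L = ‖q₁ - q₀‖ := ⟨_, rfl⟩
  have hL0 : 0 ≤ L := by rw [hL]; exact norm_nonneg _
  have hin : inner ℝ q₀ (q₁ - q₀) = -(g + L ^ 2 / 2) := by
    have e1 : ‖q₁‖ ^ 2 = ‖q₀‖ ^ 2 + 2 * inner ℝ q₀ (q₁ - q₀) + ‖q₁ - q₀‖ ^ 2 := by
      have e2 : q₁ = q₀ + (q₁ - q₀) := by abel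
      conv_lhs => rw [e2]
      exact norm_add_sq_real _ _
    rw [hgg, hg, hL]
    linarith
  rw [← hgg] at hpos ⊢
  have hLD : L ≤ 2 * D := by
    rw [hL]
    have e1 : ‖q₁ - q₀‖ ≤ ‖q₁‖ + ‖q₀‖ := norm_sub_le _ _
    have e2 := hD x y
    have e3 := hD x₁ y
    rw [hnq0] at e2
    rw [hnq1] at e3
    linarith
  have hne : inner ℝ q₀ (q₁ - q₀) ≠ 0 := by
    rw [hin]
    have : 0 < g + L ^ 2 / 2 := by positivity
    linarith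
  have h1 := hS y q₀ q₁ hq₀ hq₁ ξ ζ hζ a ha hne
  have h2 := hZ x y w η hwI hy.symm q₀ hq₀ hx ξ hξ ζ hζ
  rw [hin, neg_sq, ← hL] at h1
  rw [hd1, hd2, ← hη]
  refine le_trans (neg_le_neg ?_) h1
  have h3 := real_est (g := g) (L := L) (D := 2 * D) hpos hL0 hLD
  have hI0 : 0 ≤ |inner ℝ (q₁ - q₀) ξ| := abs_nonneg _
  have hη0 : 0 ≤ ‖η‖ := norm_nonneg _
  have hfac : 0 ≤ L * (1 + L ^ 2 / (g + L ^ 2 / 2) ^ 2) := by positivity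
  calc C₁ * |inner ℝ (q₁ - q₀) ξ| * L * ‖ζ‖ * (1 + L ^ 2 / (g + L ^ 2 / 2) ^ 2)
      = C₁ * |inner ℝ (q₁ - q₀) ξ| * ‖ζ‖ * (L * (1 + L ^ 2 / (g + L ^ 2 / 2) ^ 2)) := by ring
    _ ≤ C₁ * |inner ℝ (q₁ - q₀) ξ| * (C₂ * ‖η‖) * (L * (1 + L ^ 2 / (g + L ^ 2 / 2) ^ 2)) := by
        gcongr
    _ ≤ C₁ * |inner ℝ (q₁ - q₀) ξ| * (C₂ * ‖η‖) * ((2 * D + 2) * (1 + 1 / √g)) := by
        gcongr
    _ = C₁ * C₂ * (2 * D + 2) * |inner ℝ (q₁ - q₀) ξ| * ‖η‖ * (1 + 1 / √g) := by ring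

/-- the same under `GoodAll` -/
theorem t1iP_of_stat' [CompactSpace M] {G : GeoData n M} (hB : Base G) (hC : CutFacts G)
    (hg : GoodAll G) {C₁ C₂ : ℝ} (hC1 : 0 ≤ C₁) (hC2 : 0 ≤ C₂)
    (hS : T1iStat G C₁) (hZ : ZetaP G C₂) :
    ∃ C : ℝ, 0 ≤ C ∧ T1iP G C :=
  t1iP_of_stat hB hC (fun x => Final267.convex_I hC hg x) hC1 hC2 hS hZ

end Crest.Agent.R226.T1iFin683
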